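import Mathlib

/-!
# R244 package B3 : lengths on groups satisfying the quadrilateral inequality
-/

set_option autoImplicit false

open Filter Topology

namespace Crest.Agent.R244

/-- A length function on a group satisfying the weak quadrilateral (CAT(0)) inequality. -/
structure QuadLength {G : Type*} [Group G] (ℓ : G → ℝ) : Prop where
  nonneg : ∀ g, 0 ≤ ℓ g
  one : ℓ 1 = 0
  inv : ∀ g, ℓ g⁻¹ = ℓ g
  mul_le : ∀ g h, ℓ (g * h) ≤ ℓ g + ℓ h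
  quad : ∀ a b c, ℓ (a * b) ^ 2 + ℓ (b * c) ^ 2 ≤ ℓ a ^ 2 + ℓ b ^ 2 + ℓ c ^ 2 + ℓ (a * b * c) ^ 2

/-- The square of the stable length, as a limit along powers of two. -/
noncomputable def stabSq {G : Type*} [Group G] (ℓ : G → ℝ) (g : G) : ℝ :=
  ⨅ k : ℕ, ℓ (g ^ 2 ^ k) ^ 2 / 4 ^ k

/-- The (pre-)inner product of two commuting elements. -/
noncomputable def stabIp {G : Type*} [Group G] (ℓ : G → ℝ) (f z : G) : ℝ :=
  (stabSq ℓ (f * z) - stabSq ℓ f - stabSq ℓ z) / 2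

namespace QuadLength

variable {G : Type*} [Group G] {ℓ : G → ℝ}

theorem diff_le (h : QuadLength ℓ) {g u : G} (hu : Commute g u) (w : G) :
    ℓ (g * u) ^ 2 + ℓ (g * w) ^ 2 ≤ ℓ g ^ 2 + ℓ (g * u * w) ^ 2 + ℓ u ^ 2 + ℓ w ^ 2 := by
  have := h.quad u g w
  rw [← hu.eq] at this
  linarith

theorem le_diff (h : QuadLength ℓ) {g u : G} (hu : Commute g u) (w : G) :
    ℓ g ^ 2 + ℓ (g * u * w) ^ 2 ≤ ℓ (g * u) ^ 2 + ℓ (g * w) ^ 2 + ℓ u ^ 2 + ℓ w ^ 2 := by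
  have := h.quad u (g * w) w⁻¹
  have e1 : u * (g * w) = g * u * w := by rw [← mul_assoc, ← hu.eq]
  have e2 : g * w * w⁻¹ = g := by group
  have e3 : g * u * w * w⁻¹ = g * u := by group
  rw [e1, e2, e3, h.inv] at this
  linarith

theorem pow_le (h : QuadLength ℓ) (g : G) (n : ℕ) : ℓ (g ^ n) ≤ n * ℓ g := by
  induction n with
  | zero => simp [h.one]
  | succ n ih =>
    rw [pow_succ]
    have := h.mul_le (g ^ n) g
    push_cast
    linarith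

theorem pow_two_pow_sq_le (h : QuadLength ℓ) (g : G) (t : ℕ) :
    ℓ (g ^ 2 ^ t) ^ 2 ≤ 4 ^ t * ℓ g ^ 2 := by
  have h1 := h.pow_le g (2 ^ t)
  have h2 := h.nonneg (g ^ 2 ^ t)
  have h3 := h.nonneg g
  calc ℓ (g ^ 2 ^ t) ^ 2 ≤ (((2 ^ t : ℕ) : ℝ) * ℓ g) ^ 2 := by gcongr
    _ = 4 ^ t * ℓ g ^ 2 := by
        push_cast
        rw [mul_pow, ← pow_mul, mul_comm t 2, pow_mul]
        norm_num

theorem antitone_seq (h : QuadLength ℓ) (g : G) :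
    Antitone (fun k : ℕ => ℓ (g ^ 2 ^ k) ^ 2 / 4 ^ k) := by
  refine antitone_nat_of_succ_le fun k => ?_
  have e : g ^ 2 ^ (k + 1) = (g ^ 2 ^ k) ^ 2 := by rw [← pow_mul, pow_succ]
  have h1 := h.pow_two_pow_sq_le (g ^ 2 ^ k) 1
  rw [pow_one, pow_one] at h1
  have h4 : (0:ℝ) < 4 ^ k := by positivity
  rw [e, div_le_div_iff₀ (by positivity) (by positivity), pow_succ (4:ℝ) k]
  nlinarith

theorem tendsto_stabSq (h : QuadLength ℓ) (g : G) :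
    Tendsto (fun k : ℕ => ℓ (g ^ 2 ^ k) ^ 2 / 4 ^ k) atTop (𝓝 (stabSq ℓ g)) := by
  refine tendsto_atTop_ciInf (h.antitone_seq g) ⟨0, ?_⟩
  rintro _ ⟨k, rfl⟩
  positivity

theorem stabSq_nonneg (g : G) : 0 ≤ stabSq ℓ g := by
  refine Real.iInf_nonneg fun k => ?_
  positivity

theorem stabSq_one (h : QuadLength ℓ) : stabSq ℓ (1 : G) = 0 := by
  have := h.tendsto_stabSq 1
  simp only [one_pow, h.one] at this
  simp only [ne_eq, OfNat.ofNat_ne_zero, not_false_eq_true, zero_pow, zero_div] at this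
  exact (tendsto_nhds_unique this tendsto_const_nhds)

theorem stabSq_inv (h : QuadLength ℓ) (g : G) : stabSq ℓ g⁻¹ = stabSq ℓ g := by
  unfold stabSq
  congr 1
  ext k
  rw [inv_pow, h.inv]

theorem stabSq_sq (h : QuadLength ℓ) (g : G) : stabSq ℓ (g ^ 2) = 4 * stabSq ℓ g := by
  have h1 := h.tendsto_stabSq (g ^ 2)
  have h2 := ((tendsto_add_atTop_iff_nat 1).2 (h.tendsto_stabSq g)).const_mul 4
  refine tendsto_nhds_unique (h1.congr fun k => ?_) h2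
  rw [← pow_mul, ← pow_succ', pow_succ (4:ℝ)]
  field_simp

theorem stabSq_parallelogram_le (h : QuadLength ℓ) {g u : G} (hu : Commute g u) :
    stabSq ℓ (g * u) + stabSq ℓ (g * u⁻¹) ≤ 2 * stabSq ℓ g + 2 * stabSq ℓ u := by
  have h1 := h.tendsto_stabSq (g * u)
  have h2 := h.tendsto_stabSq (g * u⁻¹)
  have h3 := h.tendsto_stabSq g
  have h4 := h.tendsto_stabSq u
  refine le_of_tendsto_of_tendsto' (h1.add h2) ((h3.const_mul 2).add (h4.const_mul 2)) fun k => ?_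
  have h5 := h.diff_le (g := g ^ 2 ^ k) (u := u ^ 2 ^ k) (hu.pow_pow _ _) ((u ^ 2 ^ k)⁻¹)
  have e1 : g ^ 2 ^ k * u ^ 2 ^ k * (u ^ 2 ^ k)⁻¹ = g ^ 2 ^ k := by group
  rw [e1, h.inv, ← hu.mul_pow, ← inv_pow, ← (hu.inv_right).mul_pow] at h5
  have : (0:ℝ) < 4 ^ k := by positivity
  have e2 : ℓ ((g * u) ^ 2 ^ k) ^ 2 / 4 ^ k + ℓ ((g * u⁻¹) ^ 2 ^ k) ^ 2 / 4 ^ k
      = (ℓ ((g * u) ^ 2 ^ k) ^ 2 + ℓ ((g * u⁻¹) ^ 2 ^ k) ^ 2) / 4 ^ k := by ring
  have e3 : 2 * (ℓ (g ^ 2 ^ k) ^ 2 / 4 ^ k) + 2 * (ℓ (u ^ 2 ^ k) ^ 2 / 4 ^ k)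
      = (2 * ℓ (g ^ 2 ^ k) ^ 2 + 2 * ℓ (u ^ 2 ^ k) ^ 2) / 4 ^ k := by ring
  rw [e2, e3]
  apply div_le_div_of_nonneg_right _ this.le
  linarith

theorem stabSq_parallelogram (h : QuadLength ℓ) {g u : G} (hu : Commute g u) :
    stabSq ℓ (g * u) + stabSq ℓ (g * u⁻¹) = 2 * stabSq ℓ g + 2 * stabSq ℓ u := by
  apply le_antisymm (h.stabSq_parallelogram_le hu)
  have hc : Commute (g * u) (g * u⁻¹) := by
    have h1 : Commute g (g * u⁻¹) := (Commute.refl g).mul_right hu.inv_right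
    have h2 : Commute u (g * u⁻¹) := hu.symm.mul_right (Commute.refl u).inv_right
    exact h1.mul_left h2
  have h1 := h.stabSq_parallelogram_le hc
  have e1 : g * u * (g * u⁻¹) = g ^ 2 := by
    rw [mul_assoc, ← mul_assoc u g, ← hu.eq, mul_assoc g u, mul_inv_cancel, mul_one, sq]
  have e2 : g * u * (g * u⁻¹)⁻¹ = u ^ 2 := by
    rw [mul_inv_rev, inv_inv, ← mul_assoc, mul_assoc g u u, ← sq, (hu.pow_right 2).eq,
      mul_assoc, mul_inv_cancel, mul_one]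
  rw [e1, e2, h.stabSq_sq, h.stabSq_sq] at h1
  linarith

theorem stabIp_one (h : QuadLength ℓ) (f : G) : stabIp ℓ f 1 = 0 := by
  simp [stabIp, h.stabSq_one]

theorem stabIp_comm {f z : G} (hz : Commute f z) : stabIp ℓ f z = stabIp ℓ z f := by
  unfold stabIp
  rw [hz.eq]
  ring

theorem stabIp_self (h : QuadLength ℓ) (f : G) : stabIp ℓ f f = stabSq ℓ f := by
  unfold stabIp
  rw [← sq, h.stabSq_sq]
  ring

theorem stabSq_pow_mul (h : QuadLength ℓ) {f z : G} (hz : Commute f z) (k : ℕ) :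
    stabSq ℓ (f ^ k * z) = k ^ 2 * stabSq ℓ f + 2 * k * stabIp ℓ f z + stabSq ℓ z := by
  induction k using Nat.strong_induction_on with
  | _ k ih =>
    match k with
    | 0 => simp
    | 1 => simp [stabIp]; ring
    | (k + 2) =>
      have h1 := ih (k + 1) (by omega)
      have h0 := ih k (by omega)
      have hc : Commute (f ^ (k + 1) * z) f :=
        ((Commute.refl f).pow_left (k + 1)).mul_left hz.symm
      have h2 := h.stabSq_parallelogram hc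
      have e1 : f ^ (k + 1) * z * f = f ^ (k + 2) * z := by
        rw [hc.eq, ← mul_assoc, ← pow_succ']
      have e2 : f ^ (k + 1) * z * f⁻¹ = f ^ k * z := by
        rw [(hc.inv_right).eq, ← mul_assoc, pow_succ', ← mul_assoc, inv_mul_cancel, one_mul]
      rw [e1, e2, h1, h0] at h2
      push_cast at h2 ⊢
      linarith

theorem stabSq_pow (h : QuadLength ℓ) (f : G) (k : ℕ) :
    stabSq ℓ (f ^ k) = k ^ 2 * stabSq ℓ f := by
  have := h.stabSq_pow_mul (Commute.one_right f) k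
  rw [mul_one, h.stabIp_one, h.stabSq_one] at this
  linarith

/-- The difference `ℓ (F z)² - ℓ (F)²` as an approximate homomorphism in `z`. -/
theorem phi_add (h : QuadLength ℓ) {g z : G} (hz : Commute g z) (w : G) :
    |(ℓ (g * (z * w)) ^ 2 - ℓ g ^ 2) - (ℓ (g * z) ^ 2 - ℓ g ^ 2) - (ℓ (g * w) ^ 2 - ℓ g ^ 2)|
      ≤ ℓ z ^ 2 + ℓ w ^ 2 := by
  have h1 := h.diff_le hz w
  have h2 := h.le_diff hz w
  rw [abs_le, ← mul_assoc]
  constructor <;> linarith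

theorem phi_pow (h : QuadLength ℓ) {g z : G} (hz : Commute g z) (t : ℕ) :
    |(ℓ (g * z ^ 2 ^ t) ^ 2 - ℓ g ^ 2) - 2 ^ t * (ℓ (g * z) ^ 2 - ℓ g ^ 2)|
      ≤ 4 ^ t * ℓ z ^ 2 := by
  induction t with
  | zero => simp; positivity
  | succ t ih =>
    have h1 := h.phi_add (hz.pow_right (2 ^ t)) (z ^ 2 ^ t)
    have h2 := h.pow_two_pow_sq_le z t
    have e : z ^ 2 ^ t * z ^ 2 ^ t = z ^ 2 ^ (t + 1) := by
      rw [← pow_add]; congr 1; ring
    rw [e] at h1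
    rw [abs_le] at *
    rw [pow_succ (2:ℝ) t, pow_succ (4:ℝ) t]
    constructor <;> linarith [h1.1, h1.2, ih.1, ih.2]

theorem key_bound (h : QuadLength ℓ) {f z : G} (hz : Commute f z) (k t : ℕ) :
    |(ℓ ((f ^ k * z) ^ 2 ^ t) ^ 2 - ℓ ((f ^ k) ^ 2 ^ t) ^ 2)
      - 2 ^ t * (ℓ ((f ^ k) ^ 2 ^ t * z) ^ 2 - ℓ ((f ^ k) ^ 2 ^ t) ^ 2)| ≤ 4 ^ t * ℓ z ^ 2 := by
  have hc : Commute (f ^ k) z := hz.pow_left k
  have h1 := h.phi_pow (hc.pow_left (2 ^ t)) t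
  rwa [← hc.mul_pow] at h1

theorem stabIp_mul (h : QuadLength ℓ) {f z w : G} (hz : Commute f z) (hw : Commute f w) :
    stabIp ℓ f (z * w) = stabIp ℓ f z + stabIp ℓ f w := by
  set K := ℓ (z * w) ^ 2 + 2 * ℓ z ^ 2 + 2 * ℓ w ^ 2 with hK
  set x := stabIp ℓ f (z * w) - stabIp ℓ f z - stabIp ℓ f w with hx
  set y := stabSq ℓ (z * w) - stabSq ℓ z - stabSq ℓ w with hy
  have hzw : Commute f (z * w) := hz.mul_right hw
  have key : ∀ k : ℕ, |2 * k * x + y| ≤ K := by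
    intro k
    -- limits
    have lim : ∀ v : G, Commute f v → Tendsto (fun t : ℕ =>
        (ℓ ((f ^ k * v) ^ 2 ^ t) ^ 2 - ℓ ((f ^ k) ^ 2 ^ t) ^ 2) / 4 ^ t) atTop
        (𝓝 (2 * k * stabIp ℓ f v + stabSq ℓ v)) := by
      intro v hv
      have h1 := h.tendsto_stabSq (f ^ k * v)
      have h2 := h.tendsto_stabSq (f ^ k)
      have h3 := h1.sub h2
      rw [h.stabSq_pow_mul hv, h.stabSq_pow] at h3
      have e : (k:ℝ) ^ 2 * stabSq ℓ f + 2 * k * stabIp ℓ f v + stabSq ℓ v - k ^ 2 * stabSq ℓ f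
        = 2 * k * stabIp ℓ f v + stabSq ℓ v := by ring
      rw [e] at h3
      refine h3.congr fun t => ?_
      ring
    have l := (((lim _ hzw).sub (lim _ hz)).sub (lim _ hw)).abs
    have e : 2 * (k:ℝ) * stabIp ℓ f (z * w) + stabSq ℓ (z * w)
        - (2 * k * stabIp ℓ f z + stabSq ℓ z) - (2 * k * stabIp ℓ f w + stabSq ℓ w)
        = 2 * k * x + y := by rw [hx, hy]; ring
    rw [e] at l
    refine le_of_tendsto' l fun t => ?_
    have b1 := h.key_bound hzw k t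
    have b2 := h.key_bound hz k t
    have b3 := h.key_bound hw k t
    have b4 := h.phi_add ((hz.pow_left k).pow_left (2 ^ t)) w
    have p4 : (0:ℝ) < 4 ^ t := by positivity
    have p2 : (0:ℝ) < 2 ^ t := by positivity
    have p24 : (2:ℝ) ^ t ≤ 4 ^ t := by
      gcongr
      norm_num
    have e2 : (ℓ ((f ^ k * (z * w)) ^ 2 ^ t) ^ 2 - ℓ ((f ^ k) ^ 2 ^ t) ^ 2) / 4 ^ t
        - (ℓ ((f ^ k * z) ^ 2 ^ t) ^ 2 - ℓ ((f ^ k) ^ 2 ^ t) ^ 2) / 4 ^ t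
        - (ℓ ((f ^ k * w) ^ 2 ^ t) ^ 2 - ℓ ((f ^ k) ^ 2 ^ t) ^ 2) / 4 ^ t
        = ((ℓ ((f ^ k * (z * w)) ^ 2 ^ t) ^ 2 - ℓ ((f ^ k) ^ 2 ^ t) ^ 2)
          - (ℓ ((f ^ k * z) ^ 2 ^ t) ^ 2 - ℓ ((f ^ k) ^ 2 ^ t) ^ 2)
          - (ℓ ((f ^ k * w) ^ 2 ^ t) ^ 2 - ℓ ((f ^ k) ^ 2 ^ t) ^ 2)) / 4 ^ t := by ring
    rw [e2, abs_div, abs_of_pos p4, div_le_iff₀ p4]
    set φ1 := ℓ ((f ^ k) ^ 2 ^ t * (z * w)) ^ 2 - ℓ ((f ^ k) ^ 2 ^ t) ^ 2
    set φ2 := ℓ ((f ^ k) ^ 2 ^ t * z) ^ 2 - ℓ ((f ^ k) ^ 2 ^ t) ^ 2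
    set φ3 := ℓ ((f ^ k) ^ 2 ^ t * w) ^ 2 - ℓ ((f ^ k) ^ 2 ^ t) ^ 2
    set A1 := ℓ ((f ^ k * (z * w)) ^ 2 ^ t) ^ 2 - ℓ ((f ^ k) ^ 2 ^ t) ^ 2
    set A2 := ℓ ((f ^ k * z) ^ 2 ^ t) ^ 2 - ℓ ((f ^ k) ^ 2 ^ t) ^ 2
    set A3 := ℓ ((f ^ k * w) ^ 2 ^ t) ^ 2 - ℓ ((f ^ k) ^ 2 ^ t) ^ 2
    have b5 : |2 ^ t * (φ1 - φ2 - φ3)| ≤ 4 ^ t * (ℓ z ^ 2 + ℓ w ^ 2) := by
      rw [abs_mul, abs_of_pos p2]
      exact mul_le_mul p24 b4 (abs_nonneg _) p4.le
    rw [abs_le] at *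
    constructor <;> nlinarith [b1.1, b1.2, b2.1, b2.2, b3.1, b3.2, b5.1, b5.2]
  -- conclude x = 0
  have hx0 : x = 0 := by
    by_contra hne
    obtain ⟨k, hk⟩ := exists_nat_gt ((K + |y|) / (2 * |x|))
    have hxpos : 0 < |x| := abs_pos.2 hne
    rw [div_lt_iff₀ (by positivity)] at hk
    have h1 := key k
    have h2 : |2 * (k:ℝ) * x| ≤ |2 * k * x + y| + |y| := by
      have := abs_sub_abs_le_abs_sub (2 * (k:ℝ) * x) (-y)
      rw [abs_neg, sub_neg_eq_add] at this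
      linarith
    rw [abs_mul, abs_of_nonneg (by positivity : (0:ℝ) ≤ 2 * k)] at h2
    linarith
  linarith

theorem stabIp_inv (h : QuadLength ℓ) {f z : G} (hz : Commute f z) :
    stabIp ℓ f z⁻¹ = - stabIp ℓ f z := by
  have h1 := h.stabIp_mul hz hz.inv_right
  rw [mul_inv_cancel, h.stabIp_one] at h1
  linarith

theorem stabIp_commutator (h : QuadLength ℓ) {f z w : G} (hz : Commute f z) (hw : Commute f w) :
    stabIp ℓ f (z * w * z⁻¹ * w⁻¹) = 0 := by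
  rw [h.stabIp_mul ((hz.mul_right hw).mul_right hz.inv_right) hw.inv_right,
    h.stabIp_mul (hz.mul_right hw) hz.inv_right, h.stabIp_mul hz hw, h.stabIp_inv hz,
    h.stabIp_inv hw]
  ring

theorem tendsto_zero_of_stabSq (h : QuadLength ℓ) {f : G} (hf : stabSq ℓ f = 0) :
    Tendsto (fun n : ℕ => ℓ (f ^ n) / n) atTop (𝓝 0) := by
  have hsub : Subadditive (fun n : ℕ => ℓ (f ^ n)) := by
    intro m n
    show ℓ (f ^ (m + n)) ≤ ℓ (f ^ m) + ℓ (f ^ n)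
    rw [pow_add]
    exact h.mul_le _ _
  have hbdd : BddBelow (Set.range fun n : ℕ => ℓ (f ^ n) / n) := by
    refine ⟨0, ?_⟩
    rintro _ ⟨n, rfl⟩
    have := h.nonneg (f ^ n)
    positivity
  have h1 := hsub.tendsto_lim hbdd
  have h2 : Tendsto (fun k : ℕ => (2:ℕ) ^ k) atTop atTop :=
    tendsto_pow_atTop_atTop_of_one_lt (by norm_num)
  have h3 := (h1.comp h2).pow 2
  have h4 := h.tendsto_stabSq f
  rw [hf] at h4
  have h5 : Subadditive.lim hsub ^ 2 = 0 := by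
    refine tendsto_nhds_unique h3 (h4.congr fun k => ?_)
    simp only [Function.comp]
    push_cast
    rw [div_pow, ← pow_mul, mul_comm k 2, pow_mul]
    norm_num
  have h6 : Subadditive.lim hsub = 0 := by
    simpa using h5
  rw [h6] at h1
  exact h1

end QuadLength

/-- The graph-manifold relations force the stable length of `e₁` to vanish. -/
theorem stableLength_eq_zero {G : Type*} [Group G] {ℓ : G → ℝ} (h : QuadLength ℓ)
    (c e₁ e₃ α β α₁ β₁ α₃ β₃ : G)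
    (hcα : Commute c α) (hcβ : Commute c β) (hc1 : Commute c e₁) (hc3 : Commute c e₃)
    (hrel : e₃ * e₁ = α * β * α⁻¹ * β⁻¹)
    (h1α : Commute e₁ α₁) (h1β : Commute e₁ β₁) (hrel1 : c * e₁ = α₁ * β₁ * α₁⁻¹ * β₁⁻¹)
    (h3α : Commute e₃ α₃) (h3β : Commute e₃ β₃) (hrel3 : c * e₃ = α₃ * β₃ * α₃⁻¹ * β₃⁻¹) :
    Tendsto (fun n : ℕ => ℓ (e₁ ^ n) / n) atTop (𝓝 0) := by
  apply h.tendsto_zero_of_stabSq
  have h1 := h.stabIp_commutator hcα hcβ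
  rw [← hrel, h.stabIp_mul hc3 hc1] at h1
  have h2 := h.stabIp_commutator h1α h1β
  rw [← hrel1, h.stabIp_mul hc1.symm (Commute.refl _), h.stabIp_self,
    QuadLength.stabIp_comm hc1.symm] at h2
  have h3 := h.stabIp_commutator h3α h3β
  rw [← hrel3, h.stabIp_mul hc3.symm (Commute.refl _), h.stabIp_self,
    QuadLength.stabIp_comm hc3.symm] at h3
  have n1 := QuadLength.stabSq_nonneg (ℓ := ℓ) e₁
  have n3 := QuadLength.stabSq_nonneg (ℓ := ℓ) e₃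
  linarith

/-- **Package B3, FINAL statement v2** (2-block version): the graph-manifold relations force the
stable length of `f₂` to vanish. -/
theorem stableLength_eq_zero₂ {G : Type*} [Group G] {ℓ : G → ℝ} (h : QuadLength ℓ)
    (f₁ f₂ a₁ c₁ a₂ c₂ : G)
    (h1a : Commute f₁ a₁) (h1c : Commute f₁ c₁) (hrel1 : f₂ = a₁ * c₁ * a₁⁻¹ * c₁⁻¹)
    (h2a : Commute f₂ a₂) (h2c : Commute f₂ c₂) (hrel2 : f₁ * f₂⁻¹ = a₂ * c₂ * a₂⁻¹ * c₂⁻¹) :
    Tendsto (fun n : ℕ => ℓ (f₂ ^ n) / n) atTop (𝓝 0) := by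
  apply h.tendsto_zero_of_stabSq
  have h12 : Commute f₁ f₂ := by
    rw [hrel1]
    exact ((h1a.mul_right h1c).mul_right h1a.inv_right).mul_right h1c.inv_right
  have h1 := h.stabIp_commutator h1a h1c
  rw [← hrel1] at h1
  have h2 := h.stabIp_commutator h2a h2c
  rw [← hrel2, h.stabIp_mul h12.symm (Commute.refl _).inv_right, h.stabIp_inv (Commute.refl _),
    h.stabIp_self, QuadLength.stabIp_comm h12.symm] at h2
  linarith

end Crest.Agent.R244
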