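import Mathlib

/-!
# R244, package CF (abstract part): metrics and connections on open sets of a normed space

`IsLC U g Γ` : `g` is a smooth (`C^∞`) Riemannian metric on the open set `U` and `Γ` is its
Levi-Civita connection (Christoffel form), everything coordinate-free:
`g : E → E →L[ℝ] E →L[ℝ] ℝ`, `Γ : E → E →L[ℝ] E →L[ℝ] E`.

`curv Γ x u v w = R(u,v)w = (D_u Γ)(v,w) - (D_v Γ)(u,w) + Γ(u,Γ(v,w)) - Γ(v,Γ(u,w))`.
-/

set_option autoImplicit false
set_option maxSynthPendingDepth 3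

open scoped ContDiff Topology

namespace Crest.Agent.R244.CF

variable {E F : Type*} [NormedAddCommGroup E] [NormedSpace ℝ E]
  [NormedAddCommGroup F] [NormedSpace ℝ F]

/-- `g` is a smooth Riemannian metric on the open set `U` with Levi-Civita connection `Γ`. -/
structure IsLC (U : Set E) (g : E → E →L[ℝ] E →L[ℝ] ℝ) (Γ : E → E →L[ℝ] E →L[ℝ] E) : Prop where
  isOpen : IsOpen U
  g_smooth : ContDiffOn ℝ ∞ g U
  Γ_smooth : ContDiffOn ℝ ∞ Γ U
  g_symm : ∀ x ∈ U, ∀ u v, g x u v = g x v u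
  g_pos : ∀ x ∈ U, ∀ v, v ≠ 0 → 0 < g x v v
  Γ_symm : ∀ x ∈ U, ∀ u v, Γ x u v = Γ x v u
  compat : ∀ x ∈ U, ∀ u v w, fderiv ℝ g x u v w = g x (Γ x u v) w + g x v (Γ x u w)

/-- The curvature `R(u,v)w` of the connection form `Γ` at `x`. -/
noncomputable def curv (Γ : E → E →L[ℝ] E →L[ℝ] E) (x u v w : E) : E :=
  fderiv ℝ Γ x u v w - fderiv ℝ Γ x v u w + Γ x u (Γ x v w) - Γ x v (Γ x u w)

/-- covariant derivative along the curve `c` of the field `V`. -/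
noncomputable def cov (Γ : E → E →L[ℝ] E →L[ℝ] E) (c V : ℝ → E) (t : ℝ) : E :=
  deriv V t + Γ (c t) (deriv c t) (V t)

theorem cov_congr {Γ : E → E →L[ℝ] E →L[ℝ] E} {c c' V V' : ℝ → E} {t : ℝ}
    (hc : c =ᶠ[𝓝 t] c') (hV : V =ᶠ[𝓝 t] V') : cov Γ c V t = cov Γ c' V' t := by
  unfold cov
  rw [hV.deriv_eq, hV.self_of_nhds, hc.deriv_eq, hc.self_of_nhds]

section Calculus

theorem two_le_infty : (2 : WithTop ℕ∞) ≤ ∞ := by
  exact ENat.LEInfty.out

variable {H K L : Type*} [NormedAddCommGroup H] [NormedSpace ℝ H]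
  [NormedAddCommGroup K] [NormedSpace ℝ K] [NormedAddCommGroup L] [NormedSpace ℝ L]

theorem hasFDerivAt_apply2 {A : E → F →L[ℝ] H →L[ℝ] K} {B : E → F} {C : E → H} {x : E}
    {A' : E →L[ℝ] F →L[ℝ] H →L[ℝ] K} {B' : E →L[ℝ] F} {C' : E →L[ℝ] H}
    (hA : HasFDerivAt A A' x) (hB : HasFDerivAt B B' x) (hC : HasFDerivAt C C' x) (u : E) :
    fderiv ℝ (fun y => A y (B y) (C y)) x u
      = A' u (B x) (C x) + A x (B' u) (C x) + A x (B x) (C' u) := by
  rw [((hA.clm_apply hB).clm_apply hC).fderiv]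
  simp only [add_apply, ContinuousLinearMap.coe_comp,
    Function.comp_apply, ContinuousLinearMap.flip_apply]
  abel

theorem hasDerivAt_apply2 {A : ℝ → F →L[ℝ] H →L[ℝ] K} {B : ℝ → F} {C : ℝ → H} {x : ℝ}
    {A' : F →L[ℝ] H →L[ℝ] K} {B' : F} {C' : H}
    (hA : HasDerivAt A A' x) (hB : HasDerivAt B B' x) (hC : HasDerivAt C C' x) :
    HasDerivAt (fun y => A y (B y) (C y))
      (A' (B x) (C x) + A x B' (C x) + A x (B x) C') x := by
  have := (hA.clm_apply hB).clm_apply hC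
  simp only [add_apply] at this
  convert this using 1

end Calculus

section Basic

variable {U : Set E} {g : E → E →L[ℝ] E →L[ℝ] ℝ} {Γ : E → E →L[ℝ] E →L[ℝ] E}

theorem IsLC.g_contDiffAt (h : IsLC U g Γ) {x : E} (hx : x ∈ U) : ContDiffAt ℝ ∞ g x :=
  h.g_smooth.contDiffAt (h.isOpen.mem_nhds hx)

theorem IsLC.Γ_contDiffAt (h : IsLC U g Γ) {x : E} (hx : x ∈ U) : ContDiffAt ℝ ∞ Γ x :=
  h.Γ_smooth.contDiffAt (h.isOpen.mem_nhds hx)

theorem IsLC.g_differentiableAt (h : IsLC U g Γ) {x : E} (hx : x ∈ U) :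
    DifferentiableAt ℝ g x :=
  (h.g_contDiffAt hx).differentiableAt (by simp)

theorem IsLC.Γ_differentiableAt (h : IsLC U g Γ) {x : E} (hx : x ∈ U) :
    DifferentiableAt ℝ Γ x :=
  (h.Γ_contDiffAt hx).differentiableAt (by simp)

theorem IsLC.dg_contDiffAt (h : IsLC U g Γ) {x : E} (hx : x ∈ U) :
    ContDiffAt ℝ ∞ (fderiv ℝ g) x :=
  (h.g_contDiffAt hx).fderiv_right (m := ∞) (by simp)

theorem IsLC.dg_differentiableAt (h : IsLC U g Γ) {x : E} (hx : x ∈ U) :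
    DifferentiableAt ℝ (fderiv ℝ g) x :=
  (h.dg_contDiffAt hx).differentiableAt (by simp)

theorem IsLC.nonneg (h : IsLC U g Γ) {x : E} (hx : x ∈ U) (v : E) : 0 ≤ g x v v := by
  by_cases hv : v = 0
  · simp [hv]
  · exact (h.g_pos x hx v hv).le

/-- nondegeneracy -/
theorem IsLC.eq_of_forall (h : IsLC U g Γ) {x : E} (hx : x ∈ U) {u v : E}
    (huv : ∀ w, g x u w = g x v w) : u = v := by
  by_contra hne
  have h1 := h.g_pos x hx (u - v) (sub_ne_zero.2 hne)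
  have h2 : g x (u - v) (u - v) = 0 := by
    have : g x (u - v) = g x u - g x v := map_sub _ _ _
    rw [this]
    simp only [sub_apply, huv, sub_self]
  linarith

/-- Koszul formula. -/
theorem IsLC.koszul (h : IsLC U g Γ) {x : E} (hx : x ∈ U) (u v w : E) :
    2 * g x (Γ x u v) w = fderiv ℝ g x u v w + fderiv ℝ g x v u w - fderiv ℝ g x w u v := by
  rw [h.compat x hx u v w, h.compat x hx v u w, h.compat x hx w u v,
    h.Γ_symm x hx v u, h.Γ_symm x hx w u, h.Γ_symm x hx w v,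
    h.g_symm x hx v (Γ x u w), h.g_symm x hx u (Γ x v w)]
  ring

/-- derivative of the symmetric form is symmetric -/
theorem IsLC.fderiv_g_symm (h : IsLC U g Γ) {x : E} (hx : x ∈ U) (a u v : E) :
    fderiv ℝ g x a u v = fderiv ℝ g x a v u := by
  rw [h.compat x hx, h.compat x hx, h.g_symm x hx (Γ x a u) v, h.g_symm x hx u (Γ x a v)]
  ring

theorem fderiv_apply2_const {A : E → F →L[ℝ] F →L[ℝ] E} {x : E}
    (hA : DifferentiableAt ℝ A x) (u : E) (v w : F) :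
    fderiv ℝ (fun y => A y v w) x u = fderiv ℝ A x u v w := by
  rw [hasFDerivAt_apply2 hA.hasFDerivAt (hasFDerivAt_const v x) (hasFDerivAt_const w x) u]
  simp

theorem IsLC.fderiv_Γ_symm (h : IsLC U g Γ) {x : E} (hx : x ∈ U) (a u v : E) :
    fderiv ℝ Γ x a u v = fderiv ℝ Γ x a v u := by
  rw [← fderiv_apply2_const (h.Γ_differentiableAt hx), ← fderiv_apply2_const
    (h.Γ_differentiableAt hx)]
  have : (fun y => Γ y u v) =ᶠ[𝓝 x] fun y => Γ y v u := by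
    filter_upwards [h.isOpen.mem_nhds hx] with y hy using h.Γ_symm y hy u v
  rw [this.fderiv_eq]

/-- derivative of the Koszul formula (diagonal case) -/
theorem IsLC.fderiv_koszul (h : IsLC U g Γ) {x : E} (hx : x ∈ U) (a v w : E) :
    fderiv ℝ g x a (Γ x v v) w + g x (fderiv ℝ Γ x a v v) w
      = fderiv ℝ (fderiv ℝ g) x a v v w - (1 / 2) * fderiv ℝ (fderiv ℝ g) x a w v v := by
  have e1 : (fun y => g y (Γ y v v) w) =ᶠ[𝓝 x]
      fun y => fderiv ℝ g y v v w - (1 / 2) * fderiv ℝ g y w v v := by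
    filter_upwards [h.isOpen.mem_nhds hx] with y hy
    have := h.koszul hy v v w
    linarith
  have hΓ : HasFDerivAt (fun y => Γ y v v)
      (((ContinuousLinearMap.apply ℝ E v).comp (ContinuousLinearMap.apply ℝ (E →L[ℝ] E) v)).comp
        (fderiv ℝ Γ x)) x :=
    ((ContinuousLinearMap.apply ℝ E v).comp
      (ContinuousLinearMap.apply ℝ (E →L[ℝ] E) v)).hasFDerivAt.comp x
      (h.Γ_differentiableAt hx).hasFDerivAt
  have hd : ∀ p : E, HasFDerivAt (fun y => fderiv ℝ g y p)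
      ((ContinuousLinearMap.apply ℝ (E →L[ℝ] E →L[ℝ] ℝ) p).comp (fderiv ℝ (fderiv ℝ g) x)) x :=
    fun p => (ContinuousLinearMap.apply ℝ (E →L[ℝ] E →L[ℝ] ℝ) p).hasFDerivAt.comp x
      (h.dg_differentiableAt hx).hasFDerivAt
  have hd' : ∀ p q r : E, HasFDerivAt (fun y => fderiv ℝ g y p q r)
      ((ContinuousLinearMap.apply ℝ ℝ r).comp ((ContinuousLinearMap.apply ℝ (E →L[ℝ] ℝ) q).comp
      ((ContinuousLinearMap.apply ℝ (E →L[ℝ] E →L[ℝ] ℝ) p).comp (fderiv ℝ (fderiv ℝ g) x)))) x :=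
    fun p q r => (ContinuousLinearMap.apply ℝ ℝ r).hasFDerivAt.comp x
      ((ContinuousLinearMap.apply ℝ (E →L[ℝ] ℝ) q).hasFDerivAt.comp x (hd p))
  have l := hasFDerivAt_apply2 (h.g_differentiableAt hx).hasFDerivAt hΓ (hasFDerivAt_const w x) a
  have r := ((hd' v v w).sub ((hd' w v v).const_mul (1 / 2))).fderiv
  have e2 := DFunLike.congr_fun (e1.fderiv_eq (𝕜 := ℝ)) a
  rw [l] at e2
  erw [r] at e2
  simpa using e2

theorem IsLC.mono (h : IsLC U g Γ) {V : Set E} (hV : IsOpen V) (hVU : V ⊆ U) : IsLC V g Γ where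
  isOpen := hV
  g_smooth := h.g_smooth.mono hVU
  Γ_smooth := h.Γ_smooth.mono hVU
  g_symm x hx := h.g_symm x (hVU hx)
  g_pos x hx := h.g_pos x (hVU hx)
  Γ_symm x hx := h.Γ_symm x (hVU hx)
  compat x hx := h.compat x (hVU hx)

end Basic

section Change

variable {U : Set E} {g : E → E →L[ℝ] E →L[ℝ] ℝ} {Γ : E → E →L[ℝ] E →L[ℝ] E}
  {U' : Set F} {g' : F → F →L[ℝ] F →L[ℝ] ℝ} {Γ' : F → F →L[ℝ] F →L[ℝ] F}

/-- `φ` is (germwise at `x`) a local isometry from `(U,g)` to `(U',g')`. -/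
structure LocIsoAt (U : Set E) (g : E → E →L[ℝ] E →L[ℝ] ℝ) (U' : Set F)
    (g' : F → F →L[ℝ] F →L[ℝ] ℝ) (φ : E → F) (x : E) : Prop where
  mem : x ∈ U
  mem' : φ x ∈ U'
  smooth' : ∀ᶠ y in 𝓝 x, ContDiffAt ℝ ∞ φ y
  surj : ∀ᶠ y in 𝓝 x, Function.Surjective (fderiv ℝ φ y)
  iso : ∀ᶠ y in 𝓝 x, ∀ u v, g y u v = g' (φ y) (fderiv ℝ φ y u) (fderiv ℝ φ y v)

theorem LocIsoAt.smooth {φ : E → F} {x : E} (h : LocIsoAt U g U' g' φ x) :
    ContDiffAt ℝ ∞ φ x := h.smooth'.self_of_nhds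

theorem LocIsoAt.d_smooth {φ : E → F} {x : E} (h : LocIsoAt U g U' g' φ x) :
    ContDiffAt ℝ ∞ (fderiv ℝ φ) x :=
  h.smooth.fderiv_right (m := ∞) (by simp)

theorem LocIsoAt.dd_smooth {φ : E → F} {x : E} (h : LocIsoAt U g U' g' φ x) :
    ContDiffAt ℝ ∞ (fderiv ℝ (fderiv ℝ φ)) x :=
  h.d_smooth.fderiv_right (m := ∞) (by simp)

theorem LocIsoAt.hasFDerivAt {φ : E → F} {x : E} (h : LocIsoAt U g U' g' φ x) :
    HasFDerivAt φ (fderiv ℝ φ x) x :=
  (h.smooth.differentiableAt (by simp)).hasFDerivAt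

theorem LocIsoAt.d_hasFDerivAt {φ : E → F} {x : E} (h : LocIsoAt U g U' g' φ x) :
    HasFDerivAt (fderiv ℝ φ) (fderiv ℝ (fderiv ℝ φ) x) x :=
  (h.d_smooth.differentiableAt (by simp)).hasFDerivAt

theorem LocIsoAt.dd_hasFDerivAt {φ : E → F} {x : E} (h : LocIsoAt U g U' g' φ x) :
    HasFDerivAt (fderiv ℝ (fderiv ℝ φ)) (fderiv ℝ (fderiv ℝ (fderiv ℝ φ)) x) x :=
  (h.dd_smooth.differentiableAt (by simp)).hasFDerivAt

theorem LocIsoAt.dd_symm {φ : E → F} {x : E} (h : LocIsoAt U g U' g' φ x) (u v : E) :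
    fderiv ℝ (fderiv ℝ φ) x u v = fderiv ℝ (fderiv ℝ φ) x v u :=
  (h.smooth.isSymmSndFDerivAt (by simpa using two_le_infty)) u v

theorem LocIsoAt.ddd_symm {φ : E → F} {x : E} (h : LocIsoAt U g U' g' φ x) (u v w : E) :
    fderiv ℝ (fderiv ℝ (fderiv ℝ φ)) x u v w = fderiv ℝ (fderiv ℝ (fderiv ℝ φ)) x v u w := by
  rw [(h.d_smooth.isSymmSndFDerivAt (by simpa using two_le_infty)) u v]

theorem LocIsoAt.eventually {φ : E → F} {x : E} (h : LocIsoAt U g U' g' φ x)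
    (hU : IsOpen U) (hU' : IsOpen U') :
    ∀ᶠ y in 𝓝 x, LocIsoAt U g U' g' φ y := by
  filter_upwards [hU.mem_nhds h.mem, h.smooth.continuousAt.preimage_mem_nhds
    (hU'.mem_nhds h.mem'), h.smooth'.eventually_nhds, h.surj.eventually_nhds, h.iso.eventually_nhds]
    with y h1 h2 h3 h4 h5 using ⟨h1, h2, h3, h4, h5⟩

/-- Transformation of the derivative of the metric. -/
theorem LocIsoAt.fderiv_g {φ : E → F} {x : E} (h : LocIsoAt U g U' g' φ x)
    (hLC : IsLC U g Γ) (hLC' : IsLC U' g' Γ') (u v w : E) :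
    fderiv ℝ g x u v w = fderiv ℝ g' (φ x) (fderiv ℝ φ x u) (fderiv ℝ φ x v) (fderiv ℝ φ x w)
      + g' (φ x) (fderiv ℝ (fderiv ℝ φ) x u v) (fderiv ℝ φ x w)
      + g' (φ x) (fderiv ℝ φ x v) (fderiv ℝ (fderiv ℝ φ) x u w) := by
  have e1 : (fun y => g y v w) =ᶠ[𝓝 x]
      fun y => g' (φ y) (fderiv ℝ φ y v) (fderiv ℝ φ y w) := by
    filter_upwards [h.iso] with y hy using hy v w
  have e2 : fderiv ℝ (fun y => g y v w) x u = fderiv ℝ g x u v w := by
    rw [hasFDerivAt_apply2 (hLC.g_differentiableAt h.mem).hasFDerivAt (hasFDerivAt_const v x)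
      (hasFDerivAt_const w x) u]
    simp
  rw [← e2, e1.fderiv_eq]
  have hA : HasFDerivAt (fun y => g' (φ y)) ((fderiv ℝ g' (φ x)).comp (fderiv ℝ φ x)) x :=
    (hLC'.g_differentiableAt h.mem').hasFDerivAt.comp x h.hasFDerivAt
  have hB : HasFDerivAt (fun y => fderiv ℝ φ y v)
      ((ContinuousLinearMap.apply ℝ F v).comp (fderiv ℝ (fderiv ℝ φ) x)) x :=
    (ContinuousLinearMap.apply ℝ F v).hasFDerivAt.comp x h.d_hasFDerivAt
  have hC : HasFDerivAt (fun y => fderiv ℝ φ y w)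
      ((ContinuousLinearMap.apply ℝ F w).comp (fderiv ℝ (fderiv ℝ φ) x)) x :=
    (ContinuousLinearMap.apply ℝ F w).hasFDerivAt.comp x h.d_hasFDerivAt
  rw [hasFDerivAt_apply2 hA hB hC u]
  simp

/-- Change of chart formula for the Levi-Civita connection. -/
theorem LocIsoAt.gamma {φ : E → F} {x : E} (h : LocIsoAt U g U' g' φ x)
    (hLC : IsLC U g Γ) (hLC' : IsLC U' g' Γ') (u v : E) :
    fderiv ℝ φ x (Γ x u v)
      = Γ' (φ x) (fderiv ℝ φ x u) (fderiv ℝ φ x v) + fderiv ℝ (fderiv ℝ φ) x u v := by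
  apply hLC'.eq_of_forall h.mem'
  intro w'
  obtain ⟨w, rfl⟩ := h.surj.self_of_nhds w'
  have k1 := hLC.koszul h.mem u v w
  have k2 := hLC'.koszul h.mem' (fderiv ℝ φ x u) (fderiv ℝ φ x v) (fderiv ℝ φ x w)
  have i1 := h.iso.self_of_nhds (Γ x u v) w
  have f1 := h.fderiv_g hLC hLC' u v w
  have f2 := h.fderiv_g hLC hLC' v u w
  have f3 := h.fderiv_g hLC hLC' w u v
  rw [h.dd_symm w u, h.dd_symm w v] at f3
  rw [h.dd_symm v u] at f2
  have s1 := hLC'.g_symm _ h.mem' (fderiv ℝ φ x u) (fderiv ℝ (fderiv ℝ φ) x v w)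
  have s2 := hLC'.g_symm _ h.mem' (fderiv ℝ φ x v) (fderiv ℝ (fderiv ℝ φ) x u w)
  rw [map_add, add_apply]
  linarith

/-- Tensoriality of the curvature. -/
theorem LocIsoAt.curv {φ : E → F} {x : E} (h : LocIsoAt U g U' g' φ x)
    (hLC : IsLC U g Γ) (hLC' : IsLC U' g' Γ') (u v w : E) :
    fderiv ℝ φ x (curv Γ x u v w)
      = CF.curv Γ' (φ x) (fderiv ℝ φ x u) (fderiv ℝ φ x v) (fderiv ℝ φ x w) := by
  -- derivative of the change of chart formula
  have key : ∀ a u v : E,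
      fderiv ℝ (fderiv ℝ φ) x a (Γ x u v) + fderiv ℝ φ x (fderiv ℝ Γ x a u v)
        = fderiv ℝ Γ' (φ x) (fderiv ℝ φ x a) (fderiv ℝ φ x u) (fderiv ℝ φ x v)
          + Γ' (φ x) (fderiv ℝ (fderiv ℝ φ) x a u) (fderiv ℝ φ x v)
          + Γ' (φ x) (fderiv ℝ φ x u) (fderiv ℝ (fderiv ℝ φ) x a v)
          + fderiv ℝ (fderiv ℝ (fderiv ℝ φ)) x a u v := by
    intro a u v
    have e1 : (fun y => fderiv ℝ φ y (Γ y u v)) =ᶠ[𝓝 x]
        fun y => Γ' (φ y) (fderiv ℝ φ y u) (fderiv ℝ φ y v) + fderiv ℝ (fderiv ℝ φ) y u v := by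
      filter_upwards [h.eventually hLC.isOpen hLC'.isOpen] with y hy using hy.gamma hLC hLC' u v
    have hΓ : HasFDerivAt (fun y => Γ y u v)
        (((ContinuousLinearMap.apply ℝ E v).comp (ContinuousLinearMap.apply ℝ (E →L[ℝ] E) u)).comp
          (fderiv ℝ Γ x)) x :=
      ((ContinuousLinearMap.apply ℝ E v).comp
        (ContinuousLinearMap.apply ℝ (E →L[ℝ] E) u)).hasFDerivAt.comp x
        (hLC.Γ_differentiableAt h.mem).hasFDerivAt
    have hA : HasFDerivAt (fun y => Γ' (φ y)) ((fderiv ℝ Γ' (φ x)).comp (fderiv ℝ φ x)) x :=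
      (hLC'.Γ_differentiableAt h.mem').hasFDerivAt.comp x h.hasFDerivAt
    have hB : ∀ v, HasFDerivAt (fun y => fderiv ℝ φ y v)
        ((ContinuousLinearMap.apply ℝ F v).comp (fderiv ℝ (fderiv ℝ φ) x)) x := fun v =>
      (ContinuousLinearMap.apply ℝ F v).hasFDerivAt.comp x h.d_hasFDerivAt
    have hD : HasFDerivAt (fun y => fderiv ℝ (fderiv ℝ φ) y u v)
        (((ContinuousLinearMap.apply ℝ F v).comp (ContinuousLinearMap.apply ℝ (E →L[ℝ] F) u)).comp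
          (fderiv ℝ (fderiv ℝ (fderiv ℝ φ)) x)) x :=
      ((ContinuousLinearMap.apply ℝ F v).comp
        (ContinuousLinearMap.apply ℝ (E →L[ℝ] F) u)).hasFDerivAt.comp x h.dd_hasFDerivAt
    have l := (h.d_hasFDerivAt.clm_apply hΓ).fderiv
    have hABC : DifferentiableAt ℝ (fun y => Γ' (φ y) (fderiv ℝ φ y u) (fderiv ℝ φ y v)) x :=
      ((hA.clm_apply (hB u)).clm_apply (hB v)).differentiableAt
    have r := hasFDerivAt_apply2 hA (hB u) (hB v) a
    have e2 := e1.fderiv_eq (𝕜 := ℝ)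
    rw [l] at e2
    have e3 : (fderiv ℝ (fun y => Γ' (φ y) (fderiv ℝ φ y u) (fderiv ℝ φ y v)
        + fderiv ℝ (fderiv ℝ φ) y u v) x) a = fderiv ℝ (fun y => Γ' (φ y) (fderiv ℝ φ y u)
          (fderiv ℝ φ y v)) x a + fderiv ℝ (fun y => fderiv ℝ (fderiv ℝ φ) y u v) x a := by
      rw [fderiv_fun_add hABC hD.differentiableAt]
      rfl
    have e4 := DFunLike.congr_fun e2 a
    rw [e3, r, hD.fderiv] at e4
    simpa [add_comm] using e4
  have g1 := h.gamma hLC hLC'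
  have k1 := key u v w
  have k2 := key v u w
  have k3 : fderiv ℝ φ x (fderiv ℝ Γ x u v w)
        = fderiv ℝ Γ' (φ x) (fderiv ℝ φ x u) (fderiv ℝ φ x v) (fderiv ℝ φ x w)
          + Γ' (φ x) (fderiv ℝ (fderiv ℝ φ) x u v) (fderiv ℝ φ x w)
          + Γ' (φ x) (fderiv ℝ φ x v) (fderiv ℝ (fderiv ℝ φ) x u w)
          + fderiv ℝ (fderiv ℝ (fderiv ℝ φ)) x u v w - fderiv ℝ (fderiv ℝ φ) x u (Γ x v w) := by
    rw [← k1]; abel
  have k4 : fderiv ℝ φ x (fderiv ℝ Γ x v u w)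
        = fderiv ℝ Γ' (φ x) (fderiv ℝ φ x v) (fderiv ℝ φ x u) (fderiv ℝ φ x w)
          + Γ' (φ x) (fderiv ℝ (fderiv ℝ φ) x u v) (fderiv ℝ φ x w)
          + Γ' (φ x) (fderiv ℝ φ x u) (fderiv ℝ (fderiv ℝ φ) x v w)
          + fderiv ℝ (fderiv ℝ (fderiv ℝ φ)) x u v w - fderiv ℝ (fderiv ℝ φ) x v (Γ x u w) := by
    rw [h.ddd_symm u v w, h.dd_symm u v, ← k2]; abel
  simp only [CF.curv, map_add, map_sub]
  rw [k3, k4, g1, g1, g1, g1]
  simp only [map_add]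
  abel

/-- A local isometry preserves the curvature form. -/
theorem LocIsoAt.sec {φ : E → F} {x : E} (h : LocIsoAt U g U' g' φ x)
    (hLC : IsLC U g Γ) (hLC' : IsLC U' g' Γ') (u v : E) :
    g x (CF.curv Γ x u v v) u = g' (φ x)
      (CF.curv Γ' (φ x) (fderiv ℝ φ x u) (fderiv ℝ φ x v) (fderiv ℝ φ x v)) (fderiv ℝ φ x u) := by
  rw [h.iso.self_of_nhds, h.curv hLC hLC']

/-- Change of chart for the covariant derivative along a curve. -/
theorem LocIsoAt.cov {φ : E → F} {c V : ℝ → E} {t : ℝ} (h : LocIsoAt U g U' g' φ (c t))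
    (hLC : IsLC U g Γ) (hLC' : IsLC U' g' Γ') (hc : DifferentiableAt ℝ c t)
    (hV : DifferentiableAt ℝ V t) :
    CF.cov Γ' (fun s => φ (c s)) (fun s => fderiv ℝ φ (c s) (V s)) t
      = fderiv ℝ φ (c t) (CF.cov Γ c V t) := by
  have h1 : HasDerivAt (fun s => φ (c s)) (fderiv ℝ φ (c t) (deriv c t)) t :=
    h.hasFDerivAt.comp_hasDerivAt t hc.hasDerivAt
  have h2 : HasDerivAt (fun s => fderiv ℝ φ (c s)) (fderiv ℝ (fderiv ℝ φ) (c t) (deriv c t)) t :=
    h.d_hasFDerivAt.comp_hasDerivAt t hc.hasDerivAt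
  have h3 := h2.clm_apply hV.hasDerivAt
  rw [CF.cov, CF.cov, h1.deriv, h3.deriv, map_add, h.gamma hLC hLC']
  abel

/-- Change of chart for the velocity. -/
theorem LocIsoAt.deriv_comp {φ : E → F} {c : ℝ → E} {t : ℝ} (h : LocIsoAt U g U' g' φ (c t))
    (hc : DifferentiableAt ℝ c t) :
    deriv (fun s => φ (c s)) t = fderiv ℝ φ (c t) (deriv c t) :=
  (h.hasFDerivAt.comp_hasDerivAt t hc.hasDerivAt).deriv

theorem LocIsoAt.deriv_comp_eventually {φ : E → F} {c : ℝ → E} {t : ℝ}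
    (h : LocIsoAt U g U' g' φ (c t)) (hU : IsOpen U) (hU' : IsOpen U')
    (hc : ∀ᶠ s in 𝓝 t, DifferentiableAt ℝ c s) :
    deriv (fun s => φ (c s)) =ᶠ[𝓝 t] fun s => fderiv ℝ φ (c s) (deriv c s) := by
  have := (hc.self_of_nhds.continuousAt).eventually (h.eventually hU hU')
  filter_upwards [this, hc] with s hs hs' using hs.deriv_comp hs'

/-- The geodesic expression transforms as a vector. -/
theorem LocIsoAt.geodesic {φ : E → F} {c : ℝ → E} {t : ℝ} (h : LocIsoAt U g U' g' φ (c t))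
    (hLC : IsLC U g Γ) (hLC' : IsLC U' g' Γ') (hc : ∀ᶠ s in 𝓝 t, DifferentiableAt ℝ c s)
    (hc' : DifferentiableAt ℝ (deriv c) t) :
    CF.cov Γ' (fun s => φ (c s)) (deriv (fun s => φ (c s))) t
      = fderiv ℝ φ (c t) (CF.cov Γ c (deriv c) t) := by
  have e := h.deriv_comp_eventually hLC.isOpen hLC'.isOpen hc
  rw [← h.cov hLC hLC' hc.self_of_nhds hc']
  exact cov_congr Filter.EventuallyEq.rfl e

/-- The second covariant derivative transforms as a vector. -/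
theorem LocIsoAt.cov_cov {φ : E → F} {c V : ℝ → E} {t : ℝ} (h : LocIsoAt U g U' g' φ (c t))
    (hLC : IsLC U g Γ) (hLC' : IsLC U' g' Γ') (hc : ∀ᶠ s in 𝓝 t, DifferentiableAt ℝ c s)
    (hV : ∀ᶠ s in 𝓝 t, DifferentiableAt ℝ V s) (hcV : DifferentiableAt ℝ (CF.cov Γ c V) t) :
    CF.cov Γ' (fun s => φ (c s)) (CF.cov Γ' (fun s => φ (c s)) (fun s => fderiv ℝ φ (c s) (V s))) t
      = fderiv ℝ φ (c t) (CF.cov Γ c (CF.cov Γ c V) t) := by
  have e : CF.cov Γ' (fun s => φ (c s)) (fun s => fderiv ℝ φ (c s) (V s))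
      =ᶠ[𝓝 t] fun s => fderiv ℝ φ (c s) (CF.cov Γ c V s) := by
    have := (hc.self_of_nhds.continuousAt).eventually (h.eventually hLC.isOpen hLC'.isOpen)
    filter_upwards [this, hc, hV] with s h1 h2 h3 using h1.cov hLC hLC' h2 h3
  rw [← h.cov hLC hLC' hc.self_of_nhds hcV]
  exact cov_congr Filter.EventuallyEq.rfl e

end Change

section Along

variable {U : Set E} {g : E → E →L[ℝ] E →L[ℝ] ℝ} {Γ : E → E →L[ℝ] E →L[ℝ] E}

/-- metric compatibility along curves -/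
theorem IsLC.hasDerivAt_g (h : IsLC U g Γ) {c V W : ℝ → E} {t : ℝ} (hx : c t ∈ U)
    (hc : DifferentiableAt ℝ c t) (hV : DifferentiableAt ℝ V t) (hW : DifferentiableAt ℝ W t) :
    HasDerivAt (fun s => g (c s) (V s) (W s))
      (g (c t) (cov Γ c V t) (W t) + g (c t) (V t) (cov Γ c W t)) t := by
  have h1 : HasDerivAt (fun s => g (c s)) (fderiv ℝ g (c t) (deriv c t)) t :=
    (h.g_differentiableAt hx).hasFDerivAt.comp_hasDerivAt t hc.hasDerivAt
  refine (hasDerivAt_apply2 h1 hV.hasDerivAt hW.hasDerivAt).congr_deriv ?_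
  rw [h.compat _ hx]
  simp only [CF.cov, map_add, add_apply]
  ring

/-- The Jacobi expression equals the linearization of the geodesic equation. -/
theorem IsLC.jacobi_eq (h : IsLC U g Γ) {c J : ℝ → E} {t : ℝ} (hx : c t ∈ U)
    (hc : ∀ᶠ s in 𝓝 t, DifferentiableAt ℝ c s) (hc' : DifferentiableAt ℝ (deriv c) t)
    (hgeo : cov Γ c (deriv c) t = 0)
    (hJ : ∀ᶠ s in 𝓝 t, DifferentiableAt ℝ J s) (hJ' : DifferentiableAt ℝ (deriv J) t) :
    cov Γ c (cov Γ c J) t + curv Γ (c t) (J t) (deriv c t) (deriv c t)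
      = deriv (deriv J) t + fderiv ℝ Γ (c t) (J t) (deriv c t) (deriv c t)
        + (2 : ℝ) • Γ (c t) (deriv c t) (deriv J t) := by
  have h1 : HasDerivAt (fun s => Γ (c s)) (fderiv ℝ Γ (c t) (deriv c t)) t :=
    (h.Γ_differentiableAt hx).hasFDerivAt.comp_hasDerivAt t hc.self_of_nhds.hasDerivAt
  have h2 := hJ'.hasDerivAt.add
    (hasDerivAt_apply2 h1 hc'.hasDerivAt hJ.self_of_nhds.hasDerivAt)
  have h3 : deriv (cov Γ c J) t = _ := h2.deriv
  rw [CF.cov, h3]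
  simp only [CF.cov, CF.curv] at hgeo ⊢
  have h4 : deriv (deriv c) t = - Γ (c t) (deriv c t) (deriv c t) := eq_neg_of_add_eq_zero_left hgeo
  rw [h4]
  simp only [map_add, map_neg, neg_apply]
  rw [h.Γ_symm _ hx (J t) (Γ (c t) (deriv c t) (deriv c t)),
    h.fderiv_Γ_symm hx (deriv c t) (J t) (deriv c t), h.Γ_symm _ hx (J t) (deriv c t), two_smul]
  abel

/-- Lagrangian form of the geodesic equation: for every curve `c`,
`d/dt g(c', w) - 1/2 Dg(w)(c',c') = g(D_t c', w)`. -/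
theorem IsLC.lagrange (h : IsLC U g Γ) {c : ℝ → E} {t : ℝ} (hx : c t ∈ U)
    (hc : DifferentiableAt ℝ c t) (hc' : DifferentiableAt ℝ (deriv c) t) (w : E) :
    HasDerivAt (fun s => g (c s) (deriv c s) w)
      (g (c t) (cov Γ c (deriv c) t) w + (1 / 2) * fderiv ℝ g (c t) w (deriv c t) (deriv c t)) t := by
  refine (h.hasDerivAt_g hx hc hc' (differentiableAt_const w)).congr_deriv ?_
  congr 1
  simp only [CF.cov, deriv_const, zero_add]
  have := h.compat _ hx w (deriv c t) (deriv c t)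
  rw [h.g_symm _ hx (Γ (c t) w (deriv c t)) (deriv c t), h.Γ_symm _ hx w (deriv c t)] at this
  linarith

/-- Linearized Lagrangian form of the Jacobi equation. -/
theorem IsLC.lagrange_jacobi (h : IsLC U g Γ) {c J : ℝ → E} {t : ℝ} (hx : c t ∈ U)
    (hc : ∀ᶠ s in 𝓝 t, DifferentiableAt ℝ c s) (hc' : DifferentiableAt ℝ (deriv c) t)
    (hgeo : cov Γ c (deriv c) t = 0)
    (hJ : ∀ᶠ s in 𝓝 t, DifferentiableAt ℝ J s) (hJ' : DifferentiableAt ℝ (deriv J) t) (w : E) :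
    HasDerivAt (fun s => fderiv ℝ g (c s) (J s) (deriv c s) w + g (c s) (deriv J s) w)
      (g (c t) (cov Γ c (cov Γ c J) t + curv Γ (c t) (J t) (deriv c t) (deriv c t)) w
        + (1 / 2) * fderiv ℝ (fderiv ℝ g) (c t) (J t) w (deriv c t) (deriv c t)
        + fderiv ℝ g (c t) w (deriv c t) (deriv J t)) t := by
  rw [h.jacobi_eq hx hc hc' hgeo hJ hJ']
  have hg1 : HasDerivAt (fun s => g (c s)) (fderiv ℝ g (c t) (deriv c t)) t :=
    (h.g_differentiableAt hx).hasFDerivAt.comp_hasDerivAt t hc.self_of_nhds.hasDerivAt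
  have hg2 : HasDerivAt (fun s => fderiv ℝ g (c s)) (fderiv ℝ (fderiv ℝ g) (c t) (deriv c t)) t :=
    (h.dg_differentiableAt hx).hasFDerivAt.comp_hasDerivAt t hc.self_of_nhds.hasDerivAt
  have d1 := hasDerivAt_apply2 (hg2.clm_apply hJ.self_of_nhds.hasDerivAt) hc'.hasDerivAt
    (hasDerivAt_const t w)
  have d2 := hasDerivAt_apply2 hg1 hJ'.hasDerivAt (hasDerivAt_const t w)
  refine (d1.add d2).congr_deriv ?_
  have h4 : deriv (deriv c) t = - Γ (c t) (deriv c t) (deriv c t) := eq_neg_of_add_eq_zero_left hgeo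
  have k1 := h.koszul hx (deriv c t) (deriv J t) w
  have k2 := h.fderiv_koszul hx (J t) (deriv c t) w
  have k3 : fderiv ℝ (fderiv ℝ g) (c t) (deriv c t) (J t)
      = fderiv ℝ (fderiv ℝ g) (c t) (J t) (deriv c t) :=
    ((h.g_contDiffAt hx).isSymmSndFDerivAt (by simpa using two_le_infty)) _ _
  rw [h4, k3]
  simp only [map_add, map_neg, map_zero, add_apply, neg_apply, map_smul, smul_apply,
    smul_eq_mul, add_zero]
  linarith

end Along

end Crest.Agent.R244.CF
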