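import Mathlib
import Crest.Prelude.Def_Geodesic
import Crest.Agent.R244.CF

/-!
# R244, package CF: link between the coordinate formulas of the Prelude and `CF.lean`

`gB g x`, `Gam g x` : the bilinear maps with coefficients `g x i j`, `christoffel g x k i j`.
Main results:
* `isLC_of_isRiemannianOn : IsRiemannianOn g U → IsLC U (gB g) (Gam g)`
* `curv_eq` / `secNumer_eq` / `covDeriv_eq` / `geodesicEqAt_iff` / `jacobiEqAt_iff`.
-/

set_option autoImplicit false
set_option maxSynthPendingDepth 3

open scoped ContDiff Topology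
open Crest.GeometryTopology.CoordMetric Crest.GeometryTopology.ChartCurvature
open Crest.GeometryTopology.Geodesic

namespace Crest.Agent.R244.CF

noncomputable section

variable {n : ℕ}

/-- The bilinear form `(u, v) ↦ Σ g x i j u_i v_j`. -/
def gB (g : MetricField n) (x : EuclideanSpace ℝ (Fin n)) :
    EuclideanSpace ℝ (Fin n) →L[ℝ] EuclideanSpace ℝ (Fin n) →L[ℝ] ℝ :=
  ∑ i, ∑ j, g x i j • (EuclideanSpace.proj i : EuclideanSpace ℝ (Fin n) →L[ℝ] ℝ).smulRight
    (EuclideanSpace.proj j : EuclideanSpace ℝ (Fin n) →L[ℝ] ℝ)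

/-- The Christoffel form `(u, v) ↦ Σ Γᵏᵢⱼ u_i v_j e_k`. -/
def Gam (g : MetricField n) (x : EuclideanSpace ℝ (Fin n)) :
    EuclideanSpace ℝ (Fin n) →L[ℝ] EuclideanSpace ℝ (Fin n) →L[ℝ] EuclideanSpace ℝ (Fin n) :=
  ∑ k, ∑ i, ∑ j, christoffel g x k i j •
    (EuclideanSpace.proj i : EuclideanSpace ℝ (Fin n) →L[ℝ] ℝ).smulRight
      ((EuclideanSpace.proj j : EuclideanSpace ℝ (Fin n) →L[ℝ] ℝ).smulRight
        (EuclideanSpace.single k (1 : ℝ)))

theorem gB_apply (g : MetricField n) (x u v : EuclideanSpace ℝ (Fin n)) :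
    gB g x u v = ∑ i, ∑ j, g x i j * u i * v j := by
  simp [gB, mul_assoc]

theorem gB_self (g : MetricField n) (x v : EuclideanSpace ℝ (Fin n)) :
    gB g x v v = quadForm g x v := by
  rw [gB_apply, quadForm]

theorem Gam_apply (g : MetricField n) (x u v : EuclideanSpace ℝ (Fin n)) (k : Fin n) :
    Gam g x u v k = ∑ i, ∑ j, christoffel g x k i j * u i * v j := by
  have : Gam g x u v k = ∑ l, ∑ i, ∑ j, christoffel g x l i j * (u i * (v j * if k = l then 1 else 0)) := by
    simp [Gam, Pi.single_apply]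
  rw [this, Finset.sum_eq_single k]
  · simp [mul_assoc]
  · intro l _ hl
    simp [hl.symm]
  · simp

theorem gB_single (g : MetricField n) (x : EuclideanSpace ℝ (Fin n)) (i j : Fin n) :
    gB g x (EuclideanSpace.single i 1) (EuclideanSpace.single j 1) = g x i j := by
  rw [gB_apply]
  simp

/-! ### smoothness -/

section Smooth

variable {V : Type*} [NormedAddCommGroup V] [NormedSpace ℝ V] {m : ℕ} {k : WithTop ℕ∞}
  {U : Set V}

theorem contDiffOn_det {A : V → Matrix (Fin m) (Fin m) ℝ}
    (h : ∀ i j, ContDiffOn ℝ k (fun x => A x i j) U) :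
    ContDiffOn ℝ k (fun x => (A x).det) U := by
  simp only [Matrix.det_apply']
  refine ContDiffOn.sum fun σ _ => ?_
  have : ContDiffOn ℝ k (fun x => ∏ i, A x (σ i) i) U := contDiffOn_prod fun i _ => h _ _
  exact contDiffOn_const.mul this

theorem contDiffOn_adjugate {A : V → Matrix (Fin m) (Fin m) ℝ}
    (h : ∀ i j, ContDiffOn ℝ k (fun x => A x i j) U) (i j : Fin m) :
    ContDiffOn ℝ k (fun x => (A x).adjugate i j) U := by
  simp only [Matrix.adjugate_apply]
  refine contDiffOn_det fun a b => ?_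
  by_cases ha : a = j
  · subst ha
    simp only [Matrix.updateRow_self]
    exact contDiffOn_const
  · simp only [Matrix.updateRow_ne ha]
    exact h a b

theorem contDiffOn_inv {A : V → Matrix (Fin m) (Fin m) ℝ}
    (h : ∀ i j, ContDiffOn ℝ k (fun x => A x i j) U) (hdet : ∀ x ∈ U, (A x).det ≠ 0)
    (i j : Fin m) : ContDiffOn ℝ k (fun x => (A x)⁻¹ i j) U := by
  have : ∀ x, (A x)⁻¹ i j = ((A x).det)⁻¹ * (A x).adjugate i j := by
    intro x
    rw [Matrix.inv_def, Ring.inverse_eq_inv']
    rfl
  simp only [this]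
  exact ((contDiffOn_det h).inv hdet).mul (contDiffOn_adjugate h i j)

end Smooth

variable {U : Set (EuclideanSpace ℝ (Fin n))} {g : MetricField n}

theorem contDiffOn_pderiv (hU : IsOpen U) {f : EuclideanSpace ℝ (Fin n) → ℝ}
    (hf : ContDiffOn ℝ ∞ f U) (i : Fin n) : ContDiffOn ℝ ∞ (pderiv i f) U :=
  (hf.fderiv_of_isOpen hU (m := ∞) (by simp)).clm_apply contDiffOn_const

theorem contDiffOn_christoffel (h : IsRiemannianOn g U) (k i j : Fin n) :
    ContDiffOn ℝ ∞ (fun x => christoffel g x k i j) U := by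
  unfold christoffel
  refine contDiffOn_const.mul (ContDiffOn.sum fun l _ => ?_)
  refine (contDiffOn_inv h.contDiffOn (fun x hx => ((h.posDef x hx).det_pos).ne') k l).mul ?_
  exact ((contDiffOn_pderiv h.isOpen (h.contDiffOn j l) i).add
    (contDiffOn_pderiv h.isOpen (h.contDiffOn i l) j)).sub
    (contDiffOn_pderiv h.isOpen (h.contDiffOn i j) l)

theorem contDiffOn_gB (h : IsRiemannianOn g U) : ContDiffOn ℝ ∞ (gB g) U := by
  unfold gB
  exact ContDiffOn.sum fun i _ => ContDiffOn.sum fun j _ =>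
    (h.contDiffOn i j).smul contDiffOn_const

theorem contDiffOn_Gam (h : IsRiemannianOn g U) : ContDiffOn ℝ ∞ (Gam g) U := by
  unfold Gam
  exact ContDiffOn.sum fun k _ => ContDiffOn.sum fun i _ => ContDiffOn.sum fun j _ =>
    (contDiffOn_christoffel h k i j).smul contDiffOn_const

theorem symm_of (h : IsRiemannianOn g U) {x : EuclideanSpace ℝ (Fin n)} (hx : x ∈ U)
    (i j : Fin n) : g x i j = g x j i := by
  have := (h.posDef x hx).isHermitian.apply i j
  simpa using this.symm

theorem pderiv_g_symm (h : IsRiemannianOn g U) {x : EuclideanSpace ℝ (Fin n)} (hx : x ∈ U)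
    (k i j : Fin n) : pderiv k (fun y => g y i j) x = pderiv k (fun y => g y j i) x := by
  have : (fun y => g y i j) =ᶠ[𝓝 x] fun y => g y j i := by
    filter_upwards [h.isOpen.mem_nhds hx] with y hy using symm_of h hy i j
  rw [pderiv, pderiv, this.fderiv_eq]

theorem christoffel_symm (h : IsRiemannianOn g U) {x : EuclideanSpace ℝ (Fin n)} (hx : x ∈ U)
    (k i j : Fin n) : christoffel g x k i j = christoffel g x k j i := by
  unfold christoffel
  congr 1
  refine Finset.sum_congr rfl fun l _ => ?_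
  rw [pderiv_g_symm h hx l i j]
  ring

/-- lowering the index -/
theorem lower_christoffel (h : IsRiemannianOn g U) {x : EuclideanSpace ℝ (Fin n)} (hx : x ∈ U)
    (m i j : Fin n) : ∑ k, g x m k * christoffel g x k i j
      = (1 / 2) * (pderiv i (fun y => g y j m) x + pderiv j (fun y => g y i m) x
          - pderiv m (fun y => g y i j) x) := by
  have hdet : IsUnit (g x).det := ((h.posDef x hx).det_pos).ne'.isUnit
  have h1 : ∀ l, ∑ k, g x m k * inverseField g x k l = (1 : Matrix (Fin n) (Fin n) ℝ) m l := by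
    intro l
    rw [← Matrix.mul_nonsing_inv (g x) hdet, Matrix.mul_apply]
    rfl
  unfold christoffel
  calc ∑ k, g x m k * ((1 / 2) * ∑ l, inverseField g x k l *
    (pderiv i (fun y => g y j l) x + pderiv j (fun y => g y i l) x - pderiv l (fun y => g y i j) x))
      = (1 / 2) * ∑ l, (∑ k, g x m k * inverseField g x k l) *
      (pderiv i (fun y => g y j l) x + pderiv j (fun y => g y i l) x
        - pderiv l (fun y => g y i j) x) := by
        simp only [Finset.mul_sum, Finset.sum_mul]
        rw [Finset.sum_comm]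
        refine Finset.sum_congr rfl fun l _ => Finset.sum_congr rfl fun k _ => ?_
        ring
    _ = _ := by
        simp only [h1, Matrix.one_apply, ite_mul, one_mul, zero_mul, Finset.sum_ite_eq,
          Finset.mem_univ, if_true]

/-- the partial derivative determines the full derivative -/
theorem fderiv_eq_sum_pderiv (f : EuclideanSpace ℝ (Fin n) → ℝ)
    (x u : EuclideanSpace ℝ (Fin n)) : fderiv ℝ f x u = ∑ i, pderiv i f x * u i := by
  have hu : u = ∑ i, u i • EuclideanSpace.single i (1 : ℝ) := by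
    ext k
    simp [Pi.single_apply]
  conv_lhs => rw [hu]
  simp only [map_sum, map_smul, smul_eq_mul, pderiv]
  exact Finset.sum_congr rfl fun i _ => mul_comm _ _

theorem fderiv_gB_apply (h : IsRiemannianOn g U) {x : EuclideanSpace ℝ (Fin n)} (hx : x ∈ U)
    (u v w : EuclideanSpace ℝ (Fin n)) :
    fderiv ℝ (gB g) x u v w = ∑ i, ∑ j, ∑ k, pderiv i (fun y => g y j k) x * u i * v j * w k := by
  have h1 : ∀ j k, DifferentiableAt ℝ (fun y => g y j k) x := fun j k =>
    ((h.contDiffOn j k).contDiffAt (h.isOpen.mem_nhds hx)).differentiableAt (by simp)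
  have h2 : fderiv ℝ (gB g) x u v w = fderiv ℝ (fun y => gB g y v w) x u := by
    rw [hasFDerivAt_apply2 (((contDiffOn_gB h).contDiffAt
      (h.isOpen.mem_nhds hx)).differentiableAt (by simp)).hasFDerivAt (hasFDerivAt_const v x)
      (hasFDerivAt_const w x) u]
    simp
  rw [h2]
  simp only [gB_apply]
  have h3 : HasFDerivAt (fun y => ∑ j, ∑ k, g y j k * v j * w k)
      (∑ j, ∑ k, (v j * w k) • fderiv ℝ (fun y => g y j k) x) x := by
    refine HasFDerivAt.fun_sum fun j _ => HasFDerivAt.fun_sum fun k _ => ?_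
    have := (h1 j k).hasFDerivAt.const_mul (v j * w k)
    refine this.congr_of_eventuallyEq ?_
    filter_upwards with y
    ring
  rw [h3.fderiv]
  simp only [sum_apply, smul_apply, smul_eq_mul]
  simp only [fderiv_eq_sum_pderiv, Finset.mul_sum]
  calc ∑ j, ∑ k, ∑ i, v j * w k * (pderiv i (fun y => g y j k) x * u i)
      = ∑ j, ∑ i, ∑ k, v j * w k * (pderiv i (fun y => g y j k) x * u i) :=
        Finset.sum_congr rfl fun j _ => Finset.sum_comm
    _ = ∑ i, ∑ j, ∑ k, v j * w k * (pderiv i (fun y => g y j k) x * u i) := Finset.sum_comm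
    _ = _ := Finset.sum_congr rfl fun i _ => Finset.sum_congr rfl fun j _ =>
        Finset.sum_congr rfl fun k _ => by ring

theorem gB_Gam (h : IsRiemannianOn g U) {x : EuclideanSpace ℝ (Fin n)} (hx : x ∈ U)
    (u v w : EuclideanSpace ℝ (Fin n)) :
    gB g x (Gam g x u v) w = ∑ i, ∑ j, ∑ m, (1 / 2) * (pderiv i (fun y => g y j m) x
      + pderiv j (fun y => g y i m) x - pderiv m (fun y => g y i j) x) * u i * v j * w m := by
  rw [gB_apply]
  simp only [Gam_apply]
  calc ∑ k, ∑ m, g x k m * (∑ i, ∑ j, christoffel g x k i j * u i * v j) * w m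
      = ∑ k, ∑ m, ∑ i, ∑ j, g x m k * christoffel g x k i j * u i * v j * w m := by
        refine Finset.sum_congr rfl fun k _ => Finset.sum_congr rfl fun m _ => ?_
        rw [symm_of h hx k m, Finset.mul_sum, Finset.sum_mul]
        refine Finset.sum_congr rfl fun i _ => ?_
        rw [Finset.mul_sum, Finset.sum_mul]
        refine Finset.sum_congr rfl fun j _ => ?_
        ring
    _ = ∑ m, ∑ k, ∑ i, ∑ j, g x m k * christoffel g x k i j * u i * v j * w m :=
        Finset.sum_comm
    _ = ∑ m, ∑ i, ∑ k, ∑ j, g x m k * christoffel g x k i j * u i * v j * w m :=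
        Finset.sum_congr rfl fun m _ => Finset.sum_comm
    _ = ∑ m, ∑ i, ∑ j, ∑ k, g x m k * christoffel g x k i j * u i * v j * w m :=
        Finset.sum_congr rfl fun m _ => Finset.sum_congr rfl fun i _ => Finset.sum_comm
    _ = ∑ m, ∑ i, ∑ j, (1 / 2) * (pderiv i (fun y => g y j m) x
      + pderiv j (fun y => g y i m) x - pderiv m (fun y => g y i j) x) * u i * v j * w m := by
        refine Finset.sum_congr rfl fun m _ => Finset.sum_congr rfl fun i _ =>
          Finset.sum_congr rfl fun j _ => ?_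
        rw [← lower_christoffel h hx m i j]
        simp only [Finset.sum_mul]
    _ = ∑ i, ∑ m, ∑ j, (1 / 2) * (pderiv i (fun y => g y j m) x
      + pderiv j (fun y => g y i m) x - pderiv m (fun y => g y i j) x) * u i * v j * w m :=
        Finset.sum_comm
    _ = _ := Finset.sum_congr rfl fun i _ => Finset.sum_comm

theorem koszul_gB (h : IsRiemannianOn g U) {x : EuclideanSpace ℝ (Fin n)} (hx : x ∈ U)
    (u v w : EuclideanSpace ℝ (Fin n)) :
    gB g x (Gam g x u v) w = (1 / 2) * (fderiv ℝ (gB g) x u v w + fderiv ℝ (gB g) x v u w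
      - fderiv ℝ (gB g) x w u v) := by
  rw [gB_Gam h hx, fderiv_gB_apply h hx u v w, fderiv_gB_apply h hx v u w,
    fderiv_gB_apply h hx w u v]
  have e1 : ∑ i, ∑ j, ∑ k, pderiv i (fun y => g y j k) x * v i * u j * w k
      = ∑ i, ∑ j, ∑ k, pderiv j (fun y => g y i k) x * v j * u i * w k := by
    rw [Finset.sum_comm]
  have e2 : ∑ i, ∑ j, ∑ k, pderiv i (fun y => g y j k) x * w i * u j * v k
      = ∑ i, ∑ j, ∑ k, pderiv k (fun y => g y i j) x * w k * u i * v j := by
    rw [Finset.sum_comm]
    exact Finset.sum_congr rfl fun j _ => Finset.sum_comm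
  rw [e1, e2]
  simp only [← Finset.sum_add_distrib, ← Finset.sum_sub_distrib, Finset.mul_sum]
  refine Finset.sum_congr rfl fun i _ => Finset.sum_congr rfl fun j _ =>
    Finset.sum_congr rfl fun k _ => ?_
  ring

theorem gB_symm (h : IsRiemannianOn g U) {x : EuclideanSpace ℝ (Fin n)} (hx : x ∈ U)
    (u v : EuclideanSpace ℝ (Fin n)) : gB g x u v = gB g x v u := by
  rw [gB_apply, gB_apply, Finset.sum_comm]
  refine Finset.sum_congr rfl fun i _ => Finset.sum_congr rfl fun j _ => ?_
  rw [symm_of h hx j i]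
  ring

theorem gB_pos (h : IsRiemannianOn g U) {x : EuclideanSpace ℝ (Fin n)} (hx : x ∈ U)
    (v : EuclideanSpace ℝ (Fin n)) (hv : v ≠ 0) : 0 < gB g x v v := by
  have hv' : (fun i => v i) ≠ 0 := by
    intro h0
    apply hv
    ext i
    exact congrFun h0 i
  have := (h.posDef x hx).dotProduct_mulVec_pos hv'
  rw [gB_apply]
  refine lt_of_lt_of_eq this ?_
  simp only [dotProduct, Matrix.mulVec, Pi.star_apply, star_trivial, Finset.mul_sum]
  refine Finset.sum_congr rfl fun i _ => Finset.sum_congr rfl fun j _ => ?_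
  ring

theorem Gam_symm (h : IsRiemannianOn g U) {x : EuclideanSpace ℝ (Fin n)} (hx : x ∈ U)
    (u v : EuclideanSpace ℝ (Fin n)) : Gam g x u v = Gam g x v u := by
  ext k
  rw [Gam_apply, Gam_apply, Finset.sum_comm]
  refine Finset.sum_congr rfl fun i _ => Finset.sum_congr rfl fun j _ => ?_
  rw [christoffel_symm h hx k j i]
  ring

theorem fderiv_gB_symm (h : IsRiemannianOn g U) {x : EuclideanSpace ℝ (Fin n)} (hx : x ∈ U)
    (a u v : EuclideanSpace ℝ (Fin n)) :
    fderiv ℝ (gB g) x a u v = fderiv ℝ (gB g) x a v u := by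
  rw [fderiv_gB_apply h hx, fderiv_gB_apply h hx]
  refine Finset.sum_congr rfl fun i _ => ?_
  rw [Finset.sum_comm]
  refine Finset.sum_congr rfl fun j _ => Finset.sum_congr rfl fun k _ => ?_
  rw [pderiv_g_symm h hx i k j]
  ring

/-- The Prelude's Christoffel symbols form the Levi-Civita connection. -/
theorem isLC_of_isRiemannianOn (h : IsRiemannianOn g U) : IsLC U (gB g) (Gam g) where
  isOpen := h.isOpen
  g_smooth := contDiffOn_gB h
  Γ_smooth := contDiffOn_Gam h
  g_symm _ hx := gB_symm h hx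
  g_pos _ hx := gB_pos h hx
  Γ_symm _ hx := Gam_symm h hx
  compat x hx u v w := by
    rw [gB_symm h hx v, koszul_gB h hx, koszul_gB h hx,
      fderiv_gB_symm h hx u w v, fderiv_gB_symm h hx v u w, fderiv_gB_symm h hx w u v]
    ring

theorem fderiv_Gam_apply (h : IsRiemannianOn g U) {x : EuclideanSpace ℝ (Fin n)} (hx : x ∈ U)
    (u v w : EuclideanSpace ℝ (Fin n)) (l : Fin n) :
    fderiv ℝ (Gam g) x u v w l
      = ∑ i, ∑ j, ∑ k, pderiv i (fun y => christoffel g y l j k) x * u i * v j * w k := by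
  have h1 : ∀ j k, DifferentiableAt ℝ (fun y => christoffel g y l j k) x := fun j k =>
    ((contDiffOn_christoffel h l j k).contDiffAt (h.isOpen.mem_nhds hx)).differentiableAt (by simp)
  have h2 : fderiv ℝ (Gam g) x u v w l = fderiv ℝ (fun y => Gam g y v w l) x u := by
    have h22 : HasFDerivAt (fun y => Gam g y v w)
        (((ContinuousLinearMap.apply ℝ (EuclideanSpace ℝ (Fin n)) w).comp
        (ContinuousLinearMap.apply ℝ
          (EuclideanSpace ℝ (Fin n) →L[ℝ] EuclideanSpace ℝ (Fin n)) v)).comp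
          (fderiv ℝ (Gam g) x)) x :=
      ((ContinuousLinearMap.apply ℝ (EuclideanSpace ℝ (Fin n)) w).comp
        (ContinuousLinearMap.apply ℝ
          (EuclideanSpace ℝ (Fin n) →L[ℝ] EuclideanSpace ℝ (Fin n)) v)).hasFDerivAt.comp x
        (((contDiffOn_Gam h).contDiffAt
      (h.isOpen.mem_nhds hx)).differentiableAt (by simp)).hasFDerivAt
    have h23 : HasFDerivAt (fun y => Gam g y v w l)
        ((EuclideanSpace.proj l : EuclideanSpace ℝ (Fin n) →L[ℝ] ℝ).comp
          (((ContinuousLinearMap.apply ℝ (EuclideanSpace ℝ (Fin n)) w).comp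
        (ContinuousLinearMap.apply ℝ
          (EuclideanSpace ℝ (Fin n) →L[ℝ] EuclideanSpace ℝ (Fin n)) v)).comp
            (fderiv ℝ (Gam g) x))) x :=
      (EuclideanSpace.proj l : EuclideanSpace ℝ (Fin n) →L[ℝ] ℝ).hasFDerivAt.comp x h22
    rw [h23.fderiv]
    simp
  rw [h2]
  simp only [Gam_apply]
  have h3 : HasFDerivAt (fun y => ∑ j, ∑ k, christoffel g y l j k * v j * w k)
      (∑ j, ∑ k, (v j * w k) • fderiv ℝ (fun y => christoffel g y l j k) x) x := by
    refine HasFDerivAt.fun_sum fun j _ => HasFDerivAt.fun_sum fun k _ => ?_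
    have := (h1 j k).hasFDerivAt.const_mul (v j * w k)
    refine this.congr_of_eventuallyEq ?_
    filter_upwards with y
    ring
  rw [h3.fderiv]
  simp only [sum_apply, smul_apply, smul_eq_mul]
  simp only [fderiv_eq_sum_pderiv, Finset.mul_sum]
  calc ∑ j, ∑ k, ∑ i, v j * w k * (pderiv i (fun y => christoffel g y l j k) x * u i)
      = ∑ j, ∑ i, ∑ k, v j * w k * (pderiv i (fun y => christoffel g y l j k) x * u i) :=
        Finset.sum_congr rfl fun j _ => Finset.sum_comm
    _ = ∑ i, ∑ j, ∑ k, v j * w k * (pderiv i (fun y => christoffel g y l j k) x * u i) :=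
        Finset.sum_comm
    _ = _ := Finset.sum_congr rfl fun i _ => Finset.sum_congr rfl fun j _ =>
        Finset.sum_congr rfl fun k _ => by ring

/-- The Prelude's Riemann tensor is the curvature of the connection form. -/
theorem curv_apply (h : IsRiemannianOn g U) {x : EuclideanSpace ℝ (Fin n)} (hx : x ∈ U)
    (u v w : EuclideanSpace ℝ (Fin n)) (l : Fin n) :
    curv (Gam g) x u v w l = ∑ k, ∑ i, ∑ j, riemann g x l k i j * w k * u i * v j := by
  have hq : ∀ a b c : EuclideanSpace ℝ (Fin n), Gam g x a (Gam g x b c) l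
      = ∑ i, ∑ j, ∑ k, (∑ m, christoffel g x l i m * christoffel g x m j k)
        * a i * b j * c k := by
    intro a b c
    rw [Gam_apply]
    refine Finset.sum_congr rfl fun i _ => ?_
    simp only [Gam_apply]
    calc ∑ m, christoffel g x l i m * a i * ∑ j, ∑ k, christoffel g x m j k * b j * c k
        = ∑ m, ∑ j, ∑ k, christoffel g x l i m * christoffel g x m j k * a i * b j * c k := by
          refine Finset.sum_congr rfl fun m _ => ?_
          rw [Finset.mul_sum]
          refine Finset.sum_congr rfl fun j _ => ?_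
          rw [Finset.mul_sum]
          refine Finset.sum_congr rfl fun k _ => ?_
          ring
      _ = ∑ j, ∑ m, ∑ k, christoffel g x l i m * christoffel g x m j k * a i * b j * c k :=
          Finset.sum_comm
      _ = ∑ j, ∑ k, ∑ m, christoffel g x l i m * christoffel g x m j k * a i * b j * c k :=
          Finset.sum_congr rfl fun j _ => Finset.sum_comm
      _ = _ := by
          refine Finset.sum_congr rfl fun j _ => Finset.sum_congr rfl fun k _ => ?_
          simp only [Finset.sum_mul]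
  have hr : ∑ k, ∑ i, ∑ j, riemann g x l k i j * w k * u i * v j
      = ∑ i, ∑ j, ∑ k, riemann g x l k i j * u i * v j * w k := by
    rw [Finset.sum_comm]
    refine Finset.sum_congr rfl fun i _ => ?_
    rw [Finset.sum_comm]
    refine Finset.sum_congr rfl fun j _ => Finset.sum_congr rfl fun k _ => ?_
    ring
  have s1 : ∀ T : Fin n → Fin n → Fin n → ℝ,
      ∑ i, ∑ j, ∑ k, T i j k * v i * u j * w k = ∑ i, ∑ j, ∑ k, T j i k * u i * v j * w k := by
    intro T
    rw [Finset.sum_comm]
    refine Finset.sum_congr rfl fun i _ => Finset.sum_congr rfl fun j _ =>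
      Finset.sum_congr rfl fun k _ => ?_
    ring
  have e0 : curv (Gam g) x u v w l = fderiv ℝ (Gam g) x u v w l - fderiv ℝ (Gam g) x v u w l
      + Gam g x u (Gam g x v w) l - Gam g x v (Gam g x u w) l := rfl
  rw [e0, fderiv_Gam_apply h hx, fderiv_Gam_apply h hx, hq, hq, hr, s1, s1]
  simp only [← Finset.sum_add_distrib, ← Finset.sum_sub_distrib]
  refine Finset.sum_congr rfl fun i _ => Finset.sum_congr rfl fun j _ =>
    Finset.sum_congr rfl fun k _ => ?_
  rw [riemann, Finset.sum_sub_distrib]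
  ring

theorem secNumer_eq (h : IsRiemannianOn g U) {x : EuclideanSpace ℝ (Fin n)} (hx : x ∈ U)
    (u v : EuclideanSpace ℝ (Fin n)) :
    secNumer g x u v = gB g x (curv (Gam g) x u v v) u := by
  rw [gB_apply, secNumer]
  simp only [curv_apply h hx]

theorem covDeriv_eq (g : MetricField n) (c V : ℝ → EuclideanSpace ℝ (Fin n)) (t : ℝ) :
    covDeriv g c V t = cov (Gam g) c V t := by
  ext k
  simp [covDeriv, cov, Gam_apply]

theorem covDeriv_eq' (g : MetricField n) (c V : ℝ → EuclideanSpace ℝ (Fin n)) :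
    covDeriv g c V = cov (Gam g) c V := funext fun t => covDeriv_eq g c V t

theorem geodesicEqAt_iff (g : MetricField n) (c : ℝ → EuclideanSpace ℝ (Fin n)) (t : ℝ) :
    GeodesicEqAt g c t ↔ cov (Gam g) c (deriv c) t = 0 := by
  rw [GeodesicEqAt]
  constructor
  · intro h
    ext k
    simpa [cov, Gam_apply] using h k
  · intro h k
    have := congrArg (fun v => v k) h
    simpa [cov, Gam_apply] using this

theorem jacobiEqAt_iff (h : IsRiemannianOn g U) {c J : ℝ → EuclideanSpace ℝ (Fin n)} {t : ℝ}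
    (hx : c t ∈ U) :
    JacobiEqAt g c J t ↔
      cov (Gam g) c (cov (Gam g) c J) t
        + curv (Gam g) (c t) (J t) (deriv c t) (deriv c t) = 0 := by
  rw [JacobiEqAt, covDeriv_eq', covDeriv_eq']
  constructor
  · intro h'
    ext k
    simpa [curv_apply h hx] using h' k
  · intro h' k
    have := congrArg (fun v => v k) h'
    simpa [curv_apply h hx] using this

/-- Jacobi equation = linearized geodesic equation (Prelude form). -/
theorem jacobiEqAt_iff_linearized (h : IsRiemannianOn g U)
    {c J : ℝ → EuclideanSpace ℝ (Fin n)} {t : ℝ} (hx : c t ∈ U)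
    (hc : ∀ᶠ s in 𝓝 t, DifferentiableAt ℝ c s) (hc' : DifferentiableAt ℝ (deriv c) t)
    (hgeo : GeodesicEqAt g c t)
    (hJ : ∀ᶠ s in 𝓝 t, DifferentiableAt ℝ J s) (hJ' : DifferentiableAt ℝ (deriv J) t) :
    JacobiEqAt g c J t ↔
      deriv (deriv J) t + fderiv ℝ (Gam g) (c t) (J t) (deriv c t) (deriv c t)
        + (2 : ℝ) • Gam g (c t) (deriv c t) (deriv J t) = 0 := by
  rw [jacobiEqAt_iff h hx, (isLC_of_isRiemannianOn h).jacobi_eq hx hc hc'
    ((geodesicEqAt_iff g c t).1 hgeo) hJ hJ']

/-- Lagrangian form of the geodesic equation, Prelude form. -/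
theorem geodesicEqAt_iff_lagrange (h : IsRiemannianOn g U)
    {c : ℝ → EuclideanSpace ℝ (Fin n)} {t : ℝ} (hx : c t ∈ U)
    (hc : DifferentiableAt ℝ c t) (hc' : DifferentiableAt ℝ (deriv c) t) :
    GeodesicEqAt g c t ↔ ∀ w, HasDerivAt (fun s => gB g (c s) (deriv c s) w)
      ((1 / 2) * fderiv ℝ (gB g) (c t) w (deriv c t) (deriv c t)) t := by
  rw [geodesicEqAt_iff]
  have hL := isLC_of_isRiemannianOn h
  constructor
  · intro h0 w
    have := hL.lagrange hx hc hc' w
    simpa [h0] using this
  · intro h1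
    apply hL.eq_of_forall hx
    intro w
    have e := (hL.lagrange hx hc hc' w).unique (h1 w)
    simp only [map_zero, zero_apply]
    linarith

/-- Linearized Lagrangian form of the Jacobi equation, Prelude form. -/
theorem jacobiEqAt_iff_lagrange (h : IsRiemannianOn g U)
    {c J : ℝ → EuclideanSpace ℝ (Fin n)} {t : ℝ} (hx : c t ∈ U)
    (hc : ∀ᶠ s in 𝓝 t, DifferentiableAt ℝ c s) (hc' : DifferentiableAt ℝ (deriv c) t)
    (hgeo : GeodesicEqAt g c t)
    (hJ : ∀ᶠ s in 𝓝 t, DifferentiableAt ℝ J s) (hJ' : DifferentiableAt ℝ (deriv J) t) :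
    JacobiEqAt g c J t ↔ ∀ w,
      HasDerivAt (fun s => fderiv ℝ (gB g) (c s) (J s) (deriv c s) w + gB g (c s) (deriv J s) w)
        ((1 / 2) * fderiv ℝ (fderiv ℝ (gB g)) (c t) (J t) w (deriv c t) (deriv c t)
          + fderiv ℝ (gB g) (c t) w (deriv c t) (deriv J t)) t := by
  rw [jacobiEqAt_iff h hx]
  have hL := isLC_of_isRiemannianOn h
  have hgeo' := (geodesicEqAt_iff g c t).1 hgeo
  constructor
  · intro h0 w
    have := hL.lagrange_jacobi hx hc hc' hgeo' hJ hJ' w
    simpa [h0] using this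
  · intro h1
    apply hL.eq_of_forall hx
    intro w
    have e := (hL.lagrange_jacobi hx hc hc' hgeo' hJ hJ' w).unique (h1 w)
    simp only [map_zero, zero_apply]
    linarith

end

end Crest.Agent.R244.CF
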