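import Mathlib

set_option autoImplicit false

open Set Filter Topology MeasureTheory

namespace Crest.Agent.R244.CNInt

/-- Reparametrization function making the speed `σ` nearly constant. -/
lemma exists_reparam {σ : ℝ → ℝ} (hσ : Continuous σ) (h0 : ∀ t, 0 ≤ σ t) {r : ℝ}
    (hr : ∫ t in (0:ℝ)..1, σ t < r) :
    ∃ T : ℝ → ℝ, ContDiff ℝ 1 T ∧ T 0 = 0 ∧ T 1 = 1 ∧
      ∀ t, 0 ≤ deriv T t ∧ σ (T t) * deriv T t ≤ r := by
  set ℓ : ℝ := ∫ t in (0:ℝ)..1, σ t with hℓ
  have hℓ0 : 0 ≤ ℓ := intervalIntegral.integral_nonneg zero_le_one (fun t _ => h0 t)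
  set δ : ℝ := r - ℓ with hδ
  have hδ0 : 0 < δ := sub_pos.2 hr
  have hr0 : 0 < r := lt_of_le_of_lt hℓ0 hr
  set s : ℝ → ℝ := fun t => (σ t + δ) / r with hs
  have hsc : Continuous s := (hσ.add continuous_const).div_const r
  have hspos : ∀ t, δ / r ≤ s t := fun t => by
    simp only [hs]
    gcongr
    linarith [h0 t]
  have hδr : 0 < δ / r := div_pos hδ0 hr0
  have hspos' : ∀ t, 0 < s t := fun t => lt_of_lt_of_le hδr (hspos t)
  set S : ℝ → ℝ := fun u => ∫ t in (0:ℝ)..u, s t with hS
  have hSd : ∀ u, HasDerivAt S (s u) u := fun u =>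
    intervalIntegral.integral_hasDerivAt_right (hsc.intervalIntegrable _ _)
      hsc.aestronglyMeasurable.stronglyMeasurableAtFilter hsc.continuousAt
  have hScont : Continuous S := continuous_iff_continuousAt.2 fun u => (hSd u).continuousAt
  have hSmono : StrictMono S := strictMono_of_deriv_pos fun u => by
    rw [(hSd u).deriv]; exact hspos' u
  have hS0 : S 0 = 0 := by simp [hS]
  have hS1 : S 1 = 1 := by
    simp only [hS, hs]
    rw [intervalIntegral.integral_div, intervalIntegral.integral_add (hσ.intervalIntegrable _ _)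
      (continuous_const.intervalIntegrable _ _)]
    simp only [intervalIntegral.integral_const, sub_zero, smul_eq_mul, one_mul]
    rw [← hℓ, hδ]
    field_simp
    ring
  have hSdiff : ∀ u v, u ≤ v → (δ / r) * (v - u) ≤ S v - S u := by
    intro u v huv
    have h1 : S v - S u = ∫ t in u..v, s t := by
      simp only [hS]
      rw [intervalIntegral.integral_interval_sub_left (hsc.intervalIntegrable _ _)
        (hsc.intervalIntegrable _ _)]
    rw [h1]
    have h2 : ∫ _t in u..v, (δ / r) = (δ / r) * (v - u) := by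
      rw [intervalIntegral.integral_const, smul_eq_mul, mul_comm]
    rw [← h2]
    exact intervalIntegral.integral_mono_on huv (continuous_const.intervalIntegrable _ _)
      (hsc.intervalIntegrable _ _) (fun t _ => hspos t)
  have hStop : Tendsto S atTop atTop := by
    have h1 : Tendsto (fun u : ℝ => (δ / r) * u) atTop atTop :=
      tendsto_id.const_mul_atTop hδr
    apply tendsto_atTop_mono' _ _ h1
    filter_upwards [eventually_ge_atTop (0:ℝ)] with u hu
    have := hSdiff 0 u hu
    rw [hS0] at this
    linarith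
  have hSbot : Tendsto S atBot atBot := by
    have h1 : Tendsto (fun u : ℝ => (δ / r) * u) atBot atBot :=
      tendsto_id.const_mul_atBot hδr
    apply tendsto_atBot_mono' _ _ h1
    filter_upwards [eventually_le_atBot (0:ℝ)] with u hu
    have := hSdiff u 0 hu
    rw [hS0] at this
    linarith
  have hSsurj : Function.Surjective S := hScont.surjective hStop hSbot
  set e : ℝ ≃o ℝ := StrictMono.orderIsoOfSurjective S hSmono hSsurj with he
  have heS : ∀ u, e u = S u := fun u => rfl
  set T : ℝ → ℝ := fun t => e.symm t with hT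
  have hTcont : Continuous T := e.symm.continuous
  have hST : ∀ t, S (T t) = t := fun t => by rw [← heS]; exact e.apply_symm_apply t
  have hTS : ∀ t, T (S t) = t := fun t => by rw [← heS]; exact e.symm_apply_apply t
  have hTd : ∀ t, HasDerivAt T (s (T t))⁻¹ t := fun t =>
    HasDerivAt.of_local_left_inverse hTcont.continuousAt (hSd (T t)) (hspos' _).ne'
      (Eventually.of_forall hST)
  have hderiv : deriv T = fun t => (s (T t))⁻¹ := funext fun t => (hTd t).deriv
  refine ⟨T, ?_, ?_, ?_, ?_⟩
  · rw [contDiff_one_iff_deriv]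
    refine ⟨fun t => (hTd t).differentiableAt, ?_⟩
    rw [hderiv]
    exact (hsc.comp hTcont).inv₀ fun t => (hspos' _).ne'
  · have := hTS 0; rwa [hS0] at this
  · have := hTS 1; rwa [hS1] at this
  · intro t
    rw [hderiv]
    refine ⟨(inv_pos.2 (hspos' _)).le, ?_⟩
    simp only [hs]
    have h1 : 0 < σ (T t) + δ := by linarith [h0 (T t)]
    rw [inv_div, mul_div_assoc', div_le_iff₀ h1]
    nlinarith [h0 (T t)]

/-- Optimising the constant in the arithmetic-geometric mean inequality. -/
lemma sq_le_of_forall {D K : ℝ} (hD : 0 ≤ D) (h : ∀ l : ℝ, 0 < l → D ≤ K / (2 * l) + l / 2) :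
    D ^ 2 ≤ K := by
  rcases hD.eq_or_lt with rfl | hD
  · by_contra hK
    push Not at hK
    have hK' : K < 0 := by simpa using hK
    set l : ℝ := Real.sqrt (-K) / 2 with hl
    have hsq : 0 < Real.sqrt (-K) := Real.sqrt_pos.2 (by linarith)
    have h1 := h l (by positivity)
    have h2 : Real.sqrt (-K) ^ 2 = -K := Real.sq_sqrt (by linarith)
    have h3 : K / (2 * l) + l / 2 = - (3 / 4) * Real.sqrt (-K) := by
      have : K = - Real.sqrt (-K) ^ 2 := by linarith
      rw [hl]
      field_simp
      nlinarith
    rw [h3] at h1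
    nlinarith
  · have h1 := h D hD
    have h2 : D / 2 ≤ K / (2 * D) := by linarith
    rw [div_le_div_iff₀ (by norm_num) (by positivity)] at h2
    nlinarith

end Crest.Agent.R244.CNInt
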