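import Mathlib

/-!
# R244 package B2 : definitions and main statements of the discrete Cartan-Hadamard theorem
-/

set_option autoImplicit false

open Filter Topology unitInterval

namespace Crest.Agent.R244

/-- Uniform local CAT(0) condition (CN inequality of Bruhat-Tits at scale `r`). -/
def LocalCN (M : Type*) [MetricSpace M] (r : ℝ) : Prop :=
  0 < r ∧ ∀ a b : M, dist a b < r → ∃ m : M, ∀ p : M, dist p a < r → dist p b < r →
    dist p m ^ 2 ≤ dist p a ^ 2 / 2 + dist p b ^ 2 / 2 - dist a b ^ 2 / 4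

/-- A "length of the geodesic in the homotopy class" function on paths. -/
structure PathLength (M : Type*) [TopologicalSpace M] (D : ∀ {x y : M}, Path x y → ℝ) : Prop where
  homotopic : ∀ {x y : M} (γ γ' : Path x y), γ.Homotopic γ' → D γ = D γ'
  nonneg : ∀ {x y : M} (γ : Path x y), 0 ≤ D γ
  refl : ∀ x : M, D (Path.refl x) = 0
  symm : ∀ {x y : M} (γ : Path x y), D γ.symm = D γ
  trans_le : ∀ {x y z : M} (γ : Path x y) (γ' : Path y z), D (γ.trans γ') ≤ D γ + D γ'
  midpoint : ∀ {a b : M} (e : Path a b), ∃ (m : M) (ρ : Path a m), ∀ {p : M} (c : Path p a),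
    D (c.trans ρ) ^ 2 ≤ D c ^ 2 / 2 + D (c.trans e) ^ 2 / 2 - D e ^ 2 / 4

/-- `L : M → ℝ⁴` is continuous up to sign. -/
def ContUpToSign {M : Type*} [TopologicalSpace M] (L : M → EuclideanSpace ℝ (Fin 4)) : Prop :=
  (∀ x, ‖L x‖ = 1) ∧ ∀ x : M, ∀ ε > 0, ∀ᶠ y in 𝓝 x, ‖L x - L y‖ < ε ∨ ‖L x + L y‖ < ε

/-- The loop `γ` reverses the sign of `L`. -/
def Reverses {M : Type*} [TopologicalSpace M] (L : M → EuclideanSpace ℝ (Fin 4)) {x : M}
    (γ : Path x x) : Prop :=
  ∃ v : C(I, EuclideanSpace ℝ (Fin 4)), (∀ t, v t = L (γ t) ∨ v t = - L (γ t)) ∧ v 1 = - v 0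

/-- Uniform local path connectedness and uniform local simple connectedness. -/
structure UnifLSC (M : Type*) [MetricSpace M] : Prop where
  pathConn : ∀ ε > 0, ∃ δ > 0, ∀ a b : M, dist a b < δ → ∃ γ : Path a b, ∀ t, dist (γ t) a < ε
  simplyConn : ∃ ε > 0, ∀ (x a b : M) (γ γ' : Path a b), (∀ t, dist (γ t) x < ε) →
    (∀ t, dist (γ' t) x < ε) → γ.Homotopic γ'

end Crest.Agent.R244
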