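import Mathlib
import Crest.Agent.R244.CNIntA
import Crest.Agent.R244.MetricDefs

set_option autoImplicit false

open Set Filter Topology MeasureTheory Manifold Bundle
open scoped ENNReal NNReal ContDiff Manifold

set_option linter.unusedSectionVars false
set_option linter.style.haveILetI false

noncomputable section

namespace Crest.Agent.R244.CNInt

section General

variable {E : Type*} [NormedAddCommGroup E] [NormedSpace ℝ E]
  {M : Type*} [TopologicalSpace M] [ChartedSpace E M]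
  [RiemannianBundle (fun x : M => TangentSpace 𝓘(ℝ, E) x)]

/-- (L1) a speed bound by the derivative of `F` bounds the distance by the increment of `F`. -/
lemma edist_le_of_speed_le {γ : ℝ → M} {F F' : ℝ → ℝ} {a b : ℝ} (hab : a ≤ b)
    (hγ : ContMDiffOn 𝓘(ℝ, ℝ) 𝓘(ℝ, E) 1 γ (Icc a b))
    (hFc : ContinuousOn F (Icc a b)) (hF : ∀ t ∈ Ioo a b, HasDerivAt F (F' t) t)
    (hint : IntervalIntegrable F' volume a b)
    (h : ∀ t ∈ Ioo a b, ‖mfderiv 𝓘(ℝ, ℝ) 𝓘(ℝ, E) γ t 1‖ ≤ F' t) :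
    0 ≤ F b - F a ∧ riemannianEDist 𝓘(ℝ, E) (γ a) (γ b) ≤ ENNReal.ofReal (F b - F a) := by
  refine ⟨?_, (riemannianEDist_le_pathELength hγ rfl rfl hab).trans ?_⟩
  · rw [← intervalIntegral.integral_eq_sub_of_hasDerivAt_of_le hab hFc hF hint,
      intervalIntegral.integral_of_le hab, integral_Ioc_eq_integral_Ioo]
    exact setIntegral_nonneg measurableSet_Ioo fun t ht => (norm_nonneg _).trans (h t ht)
  rw [pathELength_eq_lintegral_mfderiv_Ioo]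
  have h1 : ∫⁻ t in Ioo a b, ‖mfderiv 𝓘(ℝ, ℝ) 𝓘(ℝ, E) γ t 1‖ₑ ≤
      ∫⁻ t in Ioo a b, ENNReal.ofReal (F' t) := by
    apply setLIntegral_mono' measurableSet_Ioo
    intro t ht
    rw [← ofReal_norm]
    exact ENNReal.ofReal_le_ofReal (h t ht)
  refine h1.trans ?_
  have hi : IntegrableOn F' (Ioo a b) volume := by
    have := hint.1
    exact this.mono_set Ioo_subset_Ioc_self
  have hnn : 0 ≤ᵐ[volume.restrict (Ioo a b)] F' := by
    filter_upwards [ae_restrict_mem measurableSet_Ioo] with t ht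
    exact (norm_nonneg _).trans (h t ht)
  rw [← ofReal_integral_eq_lintegral_ofReal hi hnn]
  apply ENNReal.ofReal_le_ofReal
  rw [← intervalIntegral.integral_eq_sub_of_hasDerivAt_of_le hab hFc hF hint,
    intervalIntegral.integral_of_le hab, integral_Ioc_eq_integral_Ioo]

variable [IsManifold 𝓘(ℝ, E) 1 M] [IsContinuousRiemannianBundle E (fun x : M => TangentSpace 𝓘(ℝ, E) x)]

lemma continuous_speed {γ : ℝ → M} (hγ : ContMDiff 𝓘(ℝ, ℝ) 𝓘(ℝ, E) 1 γ) :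
    Continuous fun t : ℝ => ‖mfderiv 𝓘(ℝ, ℝ) 𝓘(ℝ, E) γ t 1‖ := by
  have h1 : Continuous (tangentMap 𝓘(ℝ, ℝ) 𝓘(ℝ, E) γ) := hγ.continuous_tangentMap le_rfl
  have h2 : Continuous (fun t : ℝ => (⟨t, (1 : ℝ)⟩ : TangentBundle 𝓘(ℝ, ℝ) ℝ)) := by
    have h3 : Continuous (fun t : ℝ => ((t, (1 : ℝ)) : ModelProd ℝ ℝ)) := by
      exact Continuous.prodMk continuous_id continuous_const
    have h4 := (tangentBundleModelSpaceHomeomorph 𝓘(ℝ, ℝ)).symm.continuous.comp h3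
    rw [tangentBundleModelSpaceHomeomorph_coe_symm] at h4
    exact h4
  have h5 := h1.comp h2
  have h6 : Continuous (fun t : ℝ => (⟨γ t, mfderiv 𝓘(ℝ, ℝ) 𝓘(ℝ, E) γ t 1⟩ :
      TotalSpace E (fun x : M => TangentSpace 𝓘(ℝ, E) x))) := h5
  have h7 := h6.inner_bundle h6
  have h8 : (fun t : ℝ => ‖mfderiv 𝓘(ℝ, ℝ) 𝓘(ℝ, E) γ t 1‖) =
      fun t => Real.sqrt (inner ℝ (mfderiv 𝓘(ℝ, ℝ) 𝓘(ℝ, E) γ t 1) (mfderiv 𝓘(ℝ, ℝ) 𝓘(ℝ, E) γ t 1)) := by
    funext t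
    rw [norm_eq_sqrt_real_inner]
  rw [h8]
  exact Real.continuous_sqrt.comp h7

/-- (L2) near-minimizing paths with speed bounded by (almost) the distance. -/
lemma exists_path_speed_le {x y : M} {r : ℝ}
    (h : riemannianEDist 𝓘(ℝ, E) x y < ENNReal.ofReal r) :
    ∃ γ : ℝ → M, γ 0 = x ∧ γ 1 = y ∧ ContMDiff 𝓘(ℝ, ℝ) 𝓘(ℝ, E) 1 γ ∧
      ∀ t : ℝ, ‖mfderiv 𝓘(ℝ, ℝ) 𝓘(ℝ, E) γ t 1‖ ≤ r := by
  obtain ⟨γ0, h0, h1, hγ0, hlen, -, -⟩ :=
    exists_lt_locally_constant_of_riemannianEDist_lt h zero_lt_one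
  set σ : ℝ → ℝ := fun t => ‖mfderiv 𝓘(ℝ, ℝ) 𝓘(ℝ, E) γ0 t 1‖ with hσ
  have hσc : Continuous σ := continuous_speed hγ0
  have hσ0 : ∀ t, 0 ≤ σ t := fun t => norm_nonneg _
  have hlen' : ENNReal.ofReal (∫ t in (0:ℝ)..1, σ t) < ENNReal.ofReal r := by
    rw [pathELength_eq_lintegral_mfderiv_Icc] at hlen
    rw [intervalIntegral.integral_of_le zero_le_one, ← integral_Icc_eq_integral_Ioc,
      ofReal_integral_eq_lintegral_ofReal (hσc.integrableOn_Icc) (Eventually.of_forall hσ0)]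
    simpa [hσ, ofReal_norm] using hlen
  have hlt : ∫ t in (0:ℝ)..1, σ t < r := by
    by_contra hcon
    push Not at hcon
    exact absurd hlen' (not_lt.2 (ENNReal.ofReal_le_ofReal hcon))
  obtain ⟨T, hT, hT0, hT1, hTr⟩ := exists_reparam hσc hσ0 hlt
  refine ⟨γ0 ∘ T, by simp [hT0, h0], by simp [hT1, h1], hγ0.comp hT.contMDiff, ?_⟩
  intro t
  have hTd : DifferentiableAt ℝ T t := (hT.differentiable one_ne_zero) t
  have h2 : mfderiv 𝓘(ℝ, ℝ) 𝓘(ℝ, E) (γ0 ∘ T) t =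
      (mfderiv 𝓘(ℝ, ℝ) 𝓘(ℝ, E) γ0 (T t)).comp (mfderiv 𝓘(ℝ, ℝ) 𝓘(ℝ, ℝ) T t) :=
    mfderiv_comp t ((hγ0.mdifferentiable one_ne_zero) (T t)) hTd.mdifferentiableAt
  have h3 : mfderiv 𝓘(ℝ, ℝ) 𝓘(ℝ, E) (γ0 ∘ T) t 1 =
      deriv T t • mfderiv 𝓘(ℝ, ℝ) 𝓘(ℝ, E) γ0 (T t) 1 := by
    rw [h2]
    have h4 : mfderiv 𝓘(ℝ, ℝ) 𝓘(ℝ, ℝ) T t 1 = deriv T t • (1 : ℝ) := by
      rw [mfderiv_eq_fderiv, smul_eq_mul, mul_one]
      rfl
    rw [ContinuousLinearMap.comp_apply, h4]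
    exact ContinuousLinearMap.map_smul _ _ _
  rw [h3, norm_smul, Real.norm_of_nonneg (hTr t).1, mul_comm]
  exact (hTr t).2

/-- (L3) a path with speed at most `r` on `[0,1]` stays within `r` of its starting point. -/
lemma edist_le_of_path {γ : ℝ → M} {r : ℝ} (hγ : ContMDiff 𝓘(ℝ, ℝ) 𝓘(ℝ, E) 1 γ) (hr : 0 ≤ r)
    (h : ∀ t : ℝ, ‖mfderiv 𝓘(ℝ, ℝ) 𝓘(ℝ, E) γ t 1‖ ≤ r) {t : ℝ} (ht : t ∈ Icc (0 : ℝ) 1) :
    riemannianEDist 𝓘(ℝ, E) (γ 0) (γ t) ≤ ENNReal.ofReal r := by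
  have h1 := (edist_le_of_speed_le (F := fun s => r * s) (F' := fun _ => r) ht.1
    hγ.contMDiffOn (by fun_prop)
    (fun s _ => by simpa using (hasDerivAt_id s).const_mul r)
    (continuous_const.intervalIntegrable _ _) (fun s _ => h s)).2
  refine h1.trans (ENNReal.ofReal_le_ofReal ?_)
  have : r * t ≤ r * 1 := mul_le_mul_of_nonneg_left ht.2 hr
  linarith

/-- (L4) velocity of a path given in a chart. -/
lemma mfderiv_symm_comp {x0 : M} {p : ℝ → E} {t : ℝ} (hp : p t ∈ (chartAt E x0).target)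
    (hd : DifferentiableAt ℝ p t) :
    mfderiv 𝓘(ℝ, ℝ) 𝓘(ℝ, E) ((chartAt E x0).symm ∘ p) t 1 =
      mfderiv 𝓘(ℝ, E) 𝓘(ℝ, E) (chartAt E x0).symm (p t) (deriv p t) := by
  rw [mfderiv_comp t (mdifferentiableAt_atlas_symm (chart_mem_atlas E x0) hp)
    hd.mdifferentiableAt, ContinuousLinearMap.comp_apply]
  congr 1
  rw [mfderiv_eq_fderiv]
  rfl

/-- The Riemannian norm of a vector of the model space at a point. -/
def nrm (x : M) (v : E) : ℝ := ‖(show TangentSpace 𝓘(ℝ, E) x from v)‖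

lemma mfderiv_eq_chart {x0 : M} {γ : ℝ → M} (hγ : ContMDiff 𝓘(ℝ, ℝ) 𝓘(ℝ, E) 1 γ) {t : ℝ}
    (ht : γ t ∈ (chartAt E x0).source) :
    DifferentiableAt ℝ (fun s => chartAt E x0 (γ s)) t ∧
    ‖mfderiv 𝓘(ℝ, ℝ) 𝓘(ℝ, E) γ t 1‖ =
      ‖mfderiv 𝓘(ℝ, E) 𝓘(ℝ, E) (chartAt E x0).symm (chartAt E x0 (γ t))
        (deriv (fun s => chartAt E x0 (γ s)) t)‖ := by
  have h1 : DifferentiableAt ℝ (fun s => chartAt E x0 (γ s)) t := by
    rw [← mdifferentiableAt_iff_differentiableAt]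
    exact (mdifferentiableAt_atlas (chart_mem_atlas E x0) ht).comp t
      ((hγ.mdifferentiable one_ne_zero) t)
  refine ⟨h1, ?_⟩
  have h2 : γ =ᶠ[𝓝 t] ((chartAt E x0).symm ∘ (fun s => chartAt E x0 (γ s))) := by
    have : γ ⁻¹' (chartAt E x0).source ∈ 𝓝 t :=
      hγ.continuous.continuousAt ((chartAt E x0).open_source.mem_nhds ht)
    filter_upwards [this] with s hs
    exact ((chartAt E x0).left_inv hs).symm
  have h3 := mfderiv_symm_comp (x0 := x0) (p := fun s => chartAt E x0 (γ s)) (t := t)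
    ((chartAt E x0).map_source ht) h1
  have h4 : mfderiv 𝓘(ℝ, ℝ) 𝓘(ℝ, E) γ t =
      mfderiv 𝓘(ℝ, ℝ) 𝓘(ℝ, E) ((chartAt E x0).symm ∘ (fun s => chartAt E x0 (γ s))) t :=
    h2.mfderiv_eq
  have h5 : (mfderiv 𝓘(ℝ, ℝ) 𝓘(ℝ, E) γ t 1 : E) =
      (mfderiv 𝓘(ℝ, E) 𝓘(ℝ, E) (chartAt E x0).symm (chartAt E x0 (γ t))
        (deriv (fun s => chartAt E x0 (γ s)) t) : E) := by
    rw [h4]
    exact h3
  have h6 : (chartAt E x0).symm (chartAt E x0 (γ t)) = γ t := (chartAt E x0).left_inv ht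
  change nrm (E := E) (γ t) (mfderiv 𝓘(ℝ, ℝ) 𝓘(ℝ, E) γ t 1 : E) =
    nrm (E := E) ((chartAt E x0).symm (chartAt E x0 (γ t))) (mfderiv 𝓘(ℝ, E) 𝓘(ℝ, E) (chartAt E x0).symm
        (chartAt E x0 (γ t)) (deriv (fun s => chartAt E x0 (γ s)) t) : E)
  rw [h6, h5]
  rfl

/-- Chart-level data produced by the geodesic boundary value problem in nonpositive curvature:
midpoint map `mid`, squared length `q`, and the infinitesimal CN inequality. -/
structure MidData (U : Set E) (G : E → E →L[ℝ] E →L[ℝ] ℝ) (W : Set E) (mid : E × E → E)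
    (q : E × E → ℝ) : Prop where
  isOpen : IsOpen W
  subset : W ⊆ U
  mid_diff : ContDiffOn ℝ 1 mid (W ×ˢ W)
  q_diff : ContDiffOn ℝ 1 q (W ×ˢ W)
  diag : ∀ p ∈ W, mid (p, p) = p ∧ q (p, p) = 0
  nonneg : ∀ a ∈ W, ∀ b ∈ W, 0 ≤ q (a, b) ∧ mid (a, b) ∈ U
  geo : ∀ a ∈ W, ∀ b ∈ W, ∃ c : ℝ → E, ContDiff ℝ 1 c ∧ c 0 = a ∧ c 1 = b ∧
    ∀ s ∈ Icc (0 : ℝ) 1, c s ∈ U ∧ G (c s) (deriv c s) (deriv c s) = q (a, b)
  cn : ∀ a ∈ W, ∀ b ∈ W, ∀ u v : E, ∀ ε > 0,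
    G (mid (a, b)) (fderiv ℝ mid (a, b) (u, v)) (fderiv ℝ mid (a, b) (u, v)) ≤
      (G a u u + G b v v) / 2 - (fderiv ℝ q (a, b) (u, v)) ^ 2 / (16 * (q (a, b) + ε ^ 2))

/-- `G` is the coordinate expression of the Riemannian metric in the chart at `x0`. -/
def IsChartMetric (x0 : M) (G : E → E →L[ℝ] E →L[ℝ] ℝ) : Prop :=
  ∀ y ∈ (chartAt E x0).target, ∀ u : E,
    G y u u = ‖mfderiv 𝓘(ℝ, E) 𝓘(ℝ, E) (chartAt E x0).symm y u‖ ^ 2

lemma contMDiffOn_symm_comp {x0 : M} {c : ℝ → E} {s : Set ℝ} (hc : ContDiffOn ℝ 1 c s)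
    (hcU : ∀ t ∈ s, c t ∈ (chartAt E x0).target) :
    ContMDiffOn 𝓘(ℝ, ℝ) 𝓘(ℝ, E) 1 ((chartAt E x0).symm ∘ c) s := by
  have h1 : ContMDiffOn 𝓘(ℝ, E) 𝓘(ℝ, E) 1 (chartAt E x0).symm (chartAt E x0).target :=
    contMDiffOn_chart_symm
  exact h1.comp hc.contMDiffOn hcU

lemma norm_sq_mfderiv_symm_comp {x0 : M} {G : E → E →L[ℝ] E →L[ℝ] ℝ} (hG : IsChartMetric x0 G)
    {p : ℝ → E} {p' : E} {t : ℝ} (hp : p t ∈ (chartAt E x0).target) (hd : HasDerivAt p p' t) :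
    ‖mfderiv 𝓘(ℝ, ℝ) 𝓘(ℝ, E) ((chartAt E x0).symm ∘ p) t 1‖ ^ 2 = G (p t) p' p' := by
  obtain rfl := hd.deriv
  rw [mfderiv_symm_comp hp hd.differentiableAt]
  exact (hG (p t) hp (deriv p t)).symm

/-- (H1) the squared distance is at most `q`. -/
lemma edist_le_sqrt_q {x0 : M} {G : E → E →L[ℝ] E →L[ℝ] ℝ} (hG : IsChartMetric x0 G)
    {W : Set E} {mid : E × E → E} {q : E × E → ℝ}
    (hD : MidData (chartAt E x0).target G W mid q) {a b : E} (ha : a ∈ W) (hb : b ∈ W) :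
    riemannianEDist 𝓘(ℝ, E) ((chartAt E x0).symm a) ((chartAt E x0).symm b) ≤
      ENNReal.ofReal (Real.sqrt (q (a, b))) := by
  obtain ⟨c, hc, hc0, hc1, hcs⟩ := hD.geo a ha b hb
  have h1 := edist_le_of_speed_le (γ := (chartAt E x0).symm ∘ c)
    (F := fun t => Real.sqrt (q (a, b)) * t) (F' := fun _ => Real.sqrt (q (a, b)))
    (zero_le_one' ℝ) (contMDiffOn_symm_comp hc.contDiffOn fun t ht => (hcs t ht).1) (by fun_prop)
    (fun s _ => by simpa using (hasDerivAt_id s).const_mul (Real.sqrt (q (a, b))))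
    (continuous_const.intervalIntegrable _ _) ?_
  · simpa [hc0, hc1] using h1.2
  · intro t ht
    have ht' := hcs t (Ioo_subset_Icc_self ht)
    rw [mfderiv_symm_comp ht'.1 ((hc.differentiable one_ne_zero) t)]
    apply Real.le_sqrt_of_sq_le
    have h2 := hG (c t) ht'.1 (deriv c t)
    exact h2.symm.le.trans ht'.2.le

/-- The key computation: the length of the curve of midpoints. -/
lemma edist_mid_le {x0 : M} {G : E → E →L[ℝ] E →L[ℝ] ℝ} (hG : IsChartMetric x0 G)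
    {W : Set E} {mid : E × E → E} {q : E × E → ℝ}
    (hD : MidData (chartAt E x0).target G W mid q) {γ0 γ1 : ℝ → M} {a b : ℝ}
    (hγ0 : ContMDiff 𝓘(ℝ, ℝ) 𝓘(ℝ, E) 1 γ0) (hγ1 : ContMDiff 𝓘(ℝ, ℝ) 𝓘(ℝ, E) 1 γ1)
    (ha : ∀ t : ℝ, ‖mfderiv 𝓘(ℝ, ℝ) 𝓘(ℝ, E) γ0 t 1‖ ≤ a)
    (hb : ∀ t : ℝ, ‖mfderiv 𝓘(ℝ, ℝ) 𝓘(ℝ, E) γ1 t 1‖ ≤ b)
    (h00 : γ1 0 = γ0 0)
    (hs0 : ∀ t ∈ Icc (0 : ℝ) 1, γ0 t ∈ (chartAt E x0).source ∧ chartAt E x0 (γ0 t) ∈ W)
    (hs1 : ∀ t ∈ Icc (0 : ℝ) 1, γ1 t ∈ (chartAt E x0).source ∧ chartAt E x0 (γ1 t) ∈ W)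
    {ε : ℝ} (hε : 0 < ε) {l : ℝ} (hl : 0 < l) :
    0 ≤ (((a ^ 2 + b ^ 2) / 2 -
        (Real.sqrt (q (chartAt E x0 (γ0 1), chartAt E x0 (γ1 1)) + ε ^ 2) - ε) ^ 2 / 4) / (2 * l)
          + l / 2) ∧
    riemannianEDist 𝓘(ℝ, E) (γ0 0)
      ((chartAt E x0).symm (mid (chartAt E x0 (γ0 1), chartAt E x0 (γ1 1)))) ≤
      ENNReal.ofReal (((a ^ 2 + b ^ 2) / 2 -
        (Real.sqrt (q (chartAt E x0 (γ0 1), chartAt E x0 (γ1 1)) + ε ^ 2) - ε) ^ 2 / 4) / (2 * l)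
          + l / 2) := by
  set φ := chartAt E x0 with hφ
  have hp : ∀ {γ : ℝ → M}, ContMDiff 𝓘(ℝ, ℝ) 𝓘(ℝ, E) 1 γ →
      (∀ t ∈ Icc (0 : ℝ) 1, γ t ∈ φ.source ∧ φ (γ t) ∈ W) →
      ContDiffOn ℝ 1 (fun t => φ (γ t)) (Icc 0 1) := by
    intro γ hγ hs
    rw [← contMDiffOn_iff_contDiffOn]
    have h1 : ContMDiffOn 𝓘(ℝ, E) 𝓘(ℝ, E) 1 φ φ.source := contMDiffOn_chart
    exact h1.comp hγ.contMDiffOn fun t ht => (hs t ht).1
  set P : ℝ → E × E := fun t => (φ (γ0 t), φ (γ1 t)) with hP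
  have hPc : ContDiffOn ℝ 1 P (Icc 0 1) := (hp hγ0 hs0).prodMk (hp hγ1 hs1)
  have hPW : ∀ t ∈ Icc (0 : ℝ) 1, P t ∈ W ×ˢ W := fun t ht => ⟨(hs0 t ht).2, (hs1 t ht).2⟩
  set c : ℝ → E := fun t => mid (P t) with hc
  have hcc : ContDiffOn ℝ 1 c (Icc 0 1) := hD.mid_diff.comp hPc hPW
  have hcU : ∀ t ∈ Icc (0 : ℝ) 1, c t ∈ φ.target := fun t ht =>
    (hD.nonneg _ (hs0 t ht).2 _ (hs1 t ht).2).2
  set w : ℝ → ℝ := fun t => Real.sqrt (q (P t) + ε ^ 2) with hw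
  have hqpos : ∀ t ∈ Icc (0 : ℝ) 1, 0 < q (P t) + ε ^ 2 := fun t ht => by
    have := (hD.nonneg _ (hs0 t ht).2 _ (hs1 t ht).2).1
    have h2 : 0 ≤ q (P t) := this
    positivity
  have hwc : ContDiffOn ℝ 1 w (Icc 0 1) :=
    ((hD.q_diff.comp hPc hPW).add contDiffOn_const).sqrt fun t ht => (hqpos t ht).ne'
  have hw'c : ContinuousOn (derivWithin w (Icc 0 1)) (Icc 0 1) :=
    hwc.continuousOn_derivWithin (uniqueDiffOn_Icc zero_lt_one) le_rfl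
  have hw0 : w 0 = ε := by
    have h1 : P 0 = (φ (γ0 0), φ (γ0 0)) := by simp [hP, h00]
    have h2 := (hD.diag _ (hs0 0 (left_mem_Icc.2 zero_le_one)).2).2
    simp only [hw, h1, h2, zero_add]
    exact Real.sqrt_sq hε.le
  set C : ℝ := (a ^ 2 + b ^ 2) / 2 with hC
  set κ : ℝ := w 1 - w 0 with hκ
  set A : ℝ := (C + κ ^ 2 / 4) / (2 * l) + l / 2 with hA
  set B : ℝ := κ / (4 * l) with hB
  have key := edist_le_of_speed_le (γ := φ.symm ∘ c)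
    (F := fun t => A * t - B * w t) (F' := fun t => A - B * derivWithin w (Icc 0 1) t)
    (zero_le_one' ℝ) (contMDiffOn_symm_comp hcc hcU)
    ((continuousOn_const.mul continuousOn_id).sub (continuousOn_const.mul hwc.continuousOn)) ?_ ?_ ?_
  · have e0 : (φ.symm ∘ c) 0 = γ0 0 := by
      have h1 : P 0 = (φ (γ0 0), φ (γ0 0)) := by simp [hP, h00]
      have h2 := (hD.diag _ (hs0 0 (left_mem_Icc.2 zero_le_one)).2).1
      simp only [Function.comp_apply, hc, h1, h2]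
      exact φ.left_inv (hs0 0 (left_mem_Icc.2 zero_le_one)).1
    have e1 : A * 1 - B * w 1 - (A * 0 - B * w 0) =
        (C - (w 1 - ε) ^ 2 / 4) / (2 * l) + l / 2 := by
      rw [← hw0]
      have : A * 1 - B * w 1 - (A * 0 - B * w 0) = A - B * κ := by rw [hκ]; ring
      rw [this, hA, hB, hκ]
      field_simp
      ring
    rw [e0, e1] at key
    exact key
  · intro t ht
    have h1 : HasDerivAt w (derivWithin w (Icc 0 1) t) t := by
      have h2 := (hwc.differentiableOn one_ne_zero t (Ioo_subset_Icc_self ht)).hasDerivWithinAt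
      exact h2.hasDerivAt (Icc_mem_nhds ht.1 ht.2)
    have h2 : HasDerivAt (fun t => A * t - B * w t) (A * 1 - B * derivWithin w (Icc 0 1) t) t :=
      ((hasDerivAt_id t).const_mul A).sub (h1.const_mul B)
    simpa using h2
  · apply ContinuousOn.intervalIntegrable
    rw [uIcc_of_le (zero_le_one' ℝ)]
    exact continuousOn_const.sub (continuousOn_const.mul hw'c)
  · intro t ht
    have ht' := Ioo_subset_Icc_self ht
    have hPt := hPW t ht'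
    have hnb : W ×ˢ W ∈ 𝓝 (P t) := (hD.isOpen.prod hD.isOpen).mem_nhds hPt
    obtain ⟨d0, e0⟩ := mfderiv_eq_chart hγ0 (hs0 t ht').1
    obtain ⟨d1, e1⟩ := mfderiv_eq_chart hγ1 (hs1 t ht').1
    set u : E := deriv (fun s => φ (γ0 s)) t with hu
    set v : E := deriv (fun s => φ (γ1 s)) t with hv
    have hPd : HasDerivAt P (u, v) t := d0.hasDerivAt.prodMk d1.hasDerivAt
    have hmd : HasFDerivAt mid (fderiv ℝ mid (P t)) (P t) :=
      ((hD.mid_diff.differentiableOn one_ne_zero (P t) hPt).differentiableAt hnb).hasFDerivAt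
    have hqd : HasFDerivAt q (fderiv ℝ q (P t)) (P t) :=
      ((hD.q_diff.differentiableOn one_ne_zero (P t) hPt).differentiableAt hnb).hasFDerivAt
    have hcd : HasDerivAt c (fderiv ℝ mid (P t) (u, v)) t := hmd.comp_hasDerivAt t hPd
    have hQd : HasDerivAt (fun s => q (P s) + ε ^ 2) (fderiv ℝ q (P t) (u, v)) t :=
      (hqd.comp_hasDerivAt t hPd).add_const _
    have hwd : HasDerivAt w (fderiv ℝ q (P t) (u, v) / (2 * w t)) t := hQd.sqrt (hqpos t ht').ne'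
    have hwW : derivWithin w (Icc 0 1) t = fderiv ℝ q (P t) (u, v) / (2 * w t) :=
      hwd.hasDerivWithinAt.derivWithin (uniqueDiffOn_Icc zero_lt_one t ht')
    have hsp : ‖mfderiv 𝓘(ℝ, ℝ) 𝓘(ℝ, E) (φ.symm ∘ c) t 1‖ ^ 2 =
        G (c t) (fderiv ℝ mid (P t) (u, v)) (fderiv ℝ mid (P t) (u, v)) :=
      norm_sq_mfderiv_symm_comp hG (hcU t ht') hcd
    have hcn := hD.cn _ (hs0 t ht').2 _ (hs1 t ht').2 u v ε hε
    have hg0 : G (φ (γ0 t)) u u ≤ a ^ 2 := by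
      rw [hG _ (φ.map_source (hs0 t ht').1) u]
      have h1 : ‖mfderiv 𝓘(ℝ, E) 𝓘(ℝ, E) φ.symm (φ (γ0 t)) u‖ ≤ a := by
        have := ha t
        rw [e0] at this
        exact this
      exact pow_le_pow_left₀ (norm_nonneg _) h1 2
    have hg1 : G (φ (γ1 t)) v v ≤ b ^ 2 := by
      rw [hG _ (φ.map_source (hs1 t ht').1) v]
      have h1 : ‖mfderiv 𝓘(ℝ, E) 𝓘(ℝ, E) φ.symm (φ (γ1 t)) v‖ ≤ b := by
        have := hb t
        rw [e1] at this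
        exact this
      exact pow_le_pow_left₀ (norm_nonneg _) h1 2
    set V : ℝ := ‖mfderiv 𝓘(ℝ, ℝ) 𝓘(ℝ, E) (φ.symm ∘ c) t 1‖ with hV
    set w' : ℝ := derivWithin w (Icc 0 1) t with hw'
    have hwt : w t ^ 2 = q (P t) + ε ^ 2 := Real.sq_sqrt (hqpos t ht').le
    have hwpos : 0 < w t := Real.sqrt_pos.2 (hqpos t ht')
    have hV2 : V ^ 2 ≤ C - w' ^ 2 / 4 := by
      have h3 : w' ^ 2 / 4 = (fderiv ℝ q (P t) (u, v)) ^ 2 / (16 * (q (P t) + ε ^ 2)) := by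
        rw [hwW, ← hwt]
        field_simp
        ring
      rw [hsp, h3]
      have h4 : (G (φ (γ0 t)) u u + G (φ (γ1 t)) v v) / 2 ≤ C := by rw [hC]; linarith
      have h5 : G (c t) (fderiv ℝ mid (P t) (u, v)) (fderiv ℝ mid (P t) (u, v)) ≤
        (G (φ (γ0 t)) u u + G (φ (γ1 t)) v v) / 2 -
          (fderiv ℝ q (P t) (u, v)) ^ 2 / (16 * (q (P t) + ε ^ 2)) := hcn
      linarith
    have h6 : V ≤ V ^ 2 / (2 * l) + l / 2 := by
      have : 0 ≤ (V - l) ^ 2 / (2 * l) := by positivity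
      have h7 : (V - l) ^ 2 / (2 * l) = V ^ 2 / (2 * l) + l / 2 - V := by
        field_simp
        ring
      linarith
    have h8 : V ^ 2 / (2 * l) ≤ (C - w' ^ 2 / 4) / (2 * l) := by gcongr
    have h9 : (C - w' ^ 2 / 4) / (2 * l) ≤ (C + κ ^ 2 / 4 - κ * w' / 2) / (2 * l) := by
      apply div_le_div_of_nonneg_right _ (by positivity)
      nlinarith [sq_nonneg (w' - κ)]
    have h10 : (C + κ ^ 2 / 4 - κ * w' / 2) / (2 * l) + l / 2 = A - B * w' := by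
      rw [hA, hB]
      field_simp
      ring
    linarith

/-- (L5) the local CN inequality. -/
theorem local_cn [RegularSpace M] {d : M → M → ℝ} (hd0 : ∀ x y, 0 ≤ d x y)
    (hd : ∀ x y : M, riemannianEDist 𝓘(ℝ, E) x y = ENNReal.ofReal (d x y))
    {x0 : M} {G : E → E →L[ℝ] E →L[ℝ] ℝ} (hG : IsChartMetric x0 G)
    {W : Set E} {mid : E × E → E} {q : E × E → ℝ}
    (hD : MidData (chartAt E x0).target G W mid q) (hx0 : chartAt E x0 x0 ∈ W) :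
    ∃ ρ > 0, ∀ x y, d x0 x < ρ → d x0 y < ρ → ∃ m, ∀ z, d x0 z < ρ →
      d z m ^ 2 ≤ d z x ^ 2 / 2 + d z y ^ 2 / 2 - d x y ^ 2 / 4 := by
  have hcomm : ∀ x y, d x y = d y x := by
    intro x y
    have h1 : ENNReal.ofReal (d x y) = ENNReal.ofReal (d y x) := by
      rw [← hd, ← hd]; exact riemannianEDist_comm
    rwa [ENNReal.ofReal_eq_ofReal_iff (hd0 _ _) (hd0 _ _)] at h1
  have htri : ∀ x y z, d x z ≤ d x y + d y z := by
    intro x y z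
    have h1 : ENNReal.ofReal (d x z) ≤ ENNReal.ofReal (d x y + d y z) := by
      rw [ENNReal.ofReal_add (hd0 _ _) (hd0 _ _), ← hd, ← hd, ← hd]
      exact riemannianEDist_triangle
    rwa [ENNReal.ofReal_le_ofReal_iff (add_nonneg (hd0 _ _) (hd0 _ _))] at h1
  set φ := chartAt E x0 with hφ
  have hs : φ.source ∩ φ ⁻¹' W ∈ 𝓝 x0 :=
    (φ.isOpen_inter_preimage hD.isOpen).mem_nhds ⟨mem_chart_source E x0, hx0⟩
  obtain ⟨c, hc, hcs⟩ := setOfPred_riemannianEDist_lt_subset_nhds 𝓘(ℝ, E) hs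
  have hcs' : ∀ y, d x0 y < c → y ∈ φ.source ∧ φ y ∈ W := by
    intro y hy
    have : y ∈ {y | riemannianEDist 𝓘(ℝ, E) x0 y < c} := by
      change riemannianEDist 𝓘(ℝ, E) x0 y < c
      rw [hd, ← ENNReal.ofReal_coe_nnreal]
      exact (ENNReal.ofReal_lt_ofReal_iff_of_nonneg (hd0 _ _)).2 hy
    exact hcs this
  refine ⟨c / 3, by positivity, ?_⟩
  intro x y hx hy
  refine ⟨φ.symm (mid (φ x, φ y)), ?_⟩
  intro z hz
  have hcpos : (0 : ℝ) < c := hc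
  have hxs := hcs' x (by linarith)
  have hys := hcs' y (by linarith)
  have hzx : d z x < 2 * (c / 3) := by
    have := htri z x0 x
    rw [hcomm z x0] at this
    linarith
  have hzy : d z y < 2 * (c / 3) := by
    have := htri z x0 y
    rw [hcomm z x0] at this
    linarith
  have hqxy : d x y ^ 2 ≤ q (φ x, φ y) := by
    have h1 := edist_le_sqrt_q hG hD hxs.2 hys.2
    rw [φ.left_inv hxs.1, φ.left_inv hys.1, hd,
      ENNReal.ofReal_le_ofReal_iff (Real.sqrt_nonneg _)] at h1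
    calc d x y ^ 2 ≤ Real.sqrt (q (φ x, φ y)) ^ 2 := pow_le_pow_left₀ (hd0 _ _) h1 2
      _ = q (φ x, φ y) := Real.sq_sqrt (hD.nonneg _ hxs.2 _ hys.2).1
  have key : ∀ a b ε : ℝ, d z x < a → a < 2 * (c / 3) → d z y < b → b < 2 * (c / 3) → 0 < ε →
      d z (φ.symm (mid (φ x, φ y))) ^ 2 ≤
        (a ^ 2 + b ^ 2) / 2 - (Real.sqrt (q (φ x, φ y) + ε ^ 2) - ε) ^ 2 / 4 := by
    intro a b ε ha ha' hb hb' hε
    have ha0 : 0 < a := lt_of_le_of_lt (hd0 _ _) ha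
    have hb0 : 0 < b := lt_of_le_of_lt (hd0 _ _) hb
    apply sq_le_of_forall (hd0 _ _)
    intro l hl
    obtain ⟨γ0, h00, h01, hγ0, hs0⟩ := exists_path_speed_le (E := E) (x := z) (y := x) (r := a)
      (by rw [hd]; exact (ENNReal.ofReal_lt_ofReal_iff ha0).2 ha)
    obtain ⟨γ1, h10, h11, hγ1, hs1⟩ := exists_path_speed_le (E := E) (x := z) (y := y) (r := b)
      (by rw [hd]; exact (ENNReal.ofReal_lt_ofReal_iff hb0).2 hb)
    have hst : ∀ {γ : ℝ → M} {r : ℝ}, γ 0 = z → ContMDiff 𝓘(ℝ, ℝ) 𝓘(ℝ, E) 1 γ →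
        (∀ t : ℝ, ‖mfderiv 𝓘(ℝ, ℝ) 𝓘(ℝ, E) γ t 1‖ ≤ r) → 0 < r → r < 2 * (c / 3) →
        ∀ t ∈ Icc (0 : ℝ) 1, γ t ∈ φ.source ∧ φ (γ t) ∈ W := by
      intro γ r h0 hγ hsp hr hr' t ht
      have h1 := edist_le_of_path hγ hr.le hsp ht
      rw [h0, hd, ENNReal.ofReal_le_ofReal_iff hr.le] at h1
      apply hcs'
      have := htri x0 z (γ t)
      linarith
    have h2 := edist_mid_le hG hD hγ0 hγ1 hs0 hs1 (by rw [h10, h00]) (hst h00 hγ0 hs0 ha0 ha')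
      (hst h10 hγ1 hs1 hb0 hb') hε hl
    rw [h00, h01, h11, hd] at h2
    exact (ENNReal.ofReal_le_ofReal_iff h2.1).1 h2.2
  have hq0 : 0 ≤ q (φ x, φ y) := (hD.nonneg _ hxs.2 _ hys.2).1
  set f : ℝ → ℝ := fun ε => ((d z x + ε) ^ 2 + (d z y + ε) ^ 2) / 2 -
    (Real.sqrt (q (φ x, φ y) + ε ^ 2) - ε) ^ 2 / 4 with hf
  have hfc : Continuous f := by
    simp only [hf]
    fun_prop
  have hf0 : f 0 = (d z x ^ 2 + d z y ^ 2) / 2 - q (φ x, φ y) / 4 := by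
    simp [hf, Real.sq_sqrt hq0]
  have hlim : Tendsto f (𝓝[>] 0) (𝓝 (f 0)) := hfc.continuousAt.tendsto.mono_left nhdsWithin_le_nhds
  have hev : ∀ᶠ ε in 𝓝[>] (0 : ℝ), d z (φ.symm (mid (φ x, φ y))) ^ 2 ≤ f ε := by
    have h1 : Ioo (0 : ℝ) (min (2 * (c / 3) - d z x) (2 * (c / 3) - d z y)) ∈ 𝓝[>] (0 : ℝ) :=
      Ioo_mem_nhdsGT (lt_min (by linarith) (by linarith))
    filter_upwards [h1] with ε hε
    have h2 := lt_min_iff.1 hε.2
    exact key _ _ ε (by linarith [hε.1]) (by linarith [h2.1]) (by linarith [hε.1])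
      (by linarith [h2.2]) hε.1
  have hfin := ge_of_tendsto hlim hev
  rw [hf0] at hfin
  linarith

end General

section Main

variable {E : Type*} [NormedAddCommGroup E] [NormedSpace ℝ E]
  {M : Type*} [TopologicalSpace M] [ChartedSpace E M] [IsManifold 𝓘(ℝ, E) ∞ M]

/-- **B1 (c)**: from the chart-level midpoint data at every point of a compact connected
Riemannian manifold to the uniform local CN condition for a metric inducing the topology. -/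
theorem exists_metric_localCN [T2Space M] [CompactSpace M] [ConnectedSpace M]
    (g : ContMDiffRiemannianMetric 𝓘(ℝ, E) ∞ E (fun x : M => TangentSpace 𝓘(ℝ, E) x))
    (h : ∀ x0 : M, ∃ G : E → E →L[ℝ] E →L[ℝ] ℝ,
      (∀ y ∈ (chartAt E x0).target, ∀ u : E, G y u u = g.inner ((chartAt E x0).symm y)
        (mfderiv 𝓘(ℝ, E) 𝓘(ℝ, E) (chartAt E x0).symm y u)
        (mfderiv 𝓘(ℝ, E) 𝓘(ℝ, E) (chartAt E x0).symm y u)) ∧
      ∃ (W : Set E) (mid : E × E → E) (q : E × E → ℝ),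
        MidData (chartAt E x0).target G W mid q ∧ chartAt E x0 x0 ∈ W) :
    ∃ ms : MetricSpace M,
      ms.toPseudoMetricSpace.toUniformSpace.toTopologicalSpace = ‹TopologicalSpace M› ∧
      ∃ r : ℝ, @LocalCN M ms r := by
  letI : RiemannianBundle (fun x : M => TangentSpace 𝓘(ℝ, E) x) := ⟨g.toRiemannianMetric⟩
  haveI : IsContinuousRiemannianBundle E (fun x : M => TangentSpace 𝓘(ℝ, E) x) :=
    ⟨g.inner, g.contMDiff.continuous, fun _ _ _ => rfl⟩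
  haveI : IsManifold 𝓘(ℝ, E) 1 M := inferInstance
  letI em : EMetricSpace M := EMetricSpace.ofRiemannianMetric 𝓘(ℝ, E) M
  have hfin : ∀ x y : M, edist x y ≠ ⊤ := by
    intro x y
    have h1 : IsClopen (Metric.eball x (⊤ : ℝ≥0∞)) := ⟨Metric.isClosed_eball_top, Metric.isOpen_eball⟩
    have h2 : Metric.eball x (⊤ : ℝ≥0∞) = univ :=
      h1.eq_univ ⟨x, Metric.mem_eball_self (by simp)⟩
    have h3 : y ∈ Metric.eball x (⊤ : ℝ≥0∞) := by rw [h2]; trivial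
    rw [Metric.mem_eball'] at h3
    exact h3.ne
  letI ms : MetricSpace M := EMetricSpace.toMetricSpace hfin
  refine ⟨ms, rfl, ?_⟩
  have hd : ∀ x y : M, riemannianEDist 𝓘(ℝ, E) x y = ENNReal.ofReal (dist x y) := by
    intro x y
    rw [← edist_dist]
    rfl
  have hloc : ∀ x0 : M, ∃ ρ > 0, ∀ x y, dist x0 x < ρ → dist x0 y < ρ → ∃ m, ∀ z,
      dist x0 z < ρ → dist z m ^ 2 ≤ dist z x ^ 2 / 2 + dist z y ^ 2 / 2 - dist x y ^ 2 / 4 := by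
    intro x0
    obtain ⟨G, hG, W, mid, q, hD, hW⟩ := h x0
    refine local_cn (fun x y => dist_nonneg) hd (G := G) ?_ hD hW
    intro y hy u
    rw [hG y hy u, ← real_inner_self_eq_norm_sq]
    rfl
  choose ρ hρ hcn using hloc
  obtain ⟨r, hr, hball⟩ := lebesgue_number_lemma_of_metric (α := M) (s := univ)
    (c := fun x0 => Metric.ball x0 (ρ x0)) isCompact_univ (fun x0 => Metric.isOpen_ball)
    (fun x _ => mem_iUnion.2 ⟨x, Metric.mem_ball_self (hρ x)⟩)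
  refine ⟨r, hr, ?_⟩
  intro a b hab
  obtain ⟨x0, hx0⟩ := hball a (mem_univ a)
  have hmem : ∀ p : M, dist p a < r → dist x0 p < ρ x0 := by
    intro p hp
    have : p ∈ Metric.ball x0 (ρ x0) := hx0 hp
    rwa [Metric.mem_ball'] at this
  obtain ⟨m, hm⟩ := hcn x0 a b (hmem a (by simpa using hr)) (hmem b (by rwa [dist_comm]))
  exact ⟨m, fun p hpa _ => hm p (hmem p hpa)⟩

end Main

end Crest.Agent.R244.CNInt
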