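import Crest.Agent.R244.BVP
import Crest.Agent.Lib.ODEFlow

/-!
Existence of the local geodesic flow (from the general ODE library) and the final chart-level
theorem: midpoint map with the infinitesimal CN inequality.
-/

open Set Filter Topology
open scoped ContDiff

namespace Crest.Agent.R244

variable {E : Type*} [NormedAddCommGroup E] [NormedSpace ℝ E] [CompleteSpace E]
variable {U : Set E} {g : E → E →L[ℝ] E →L[ℝ] ℝ} {G : E → E →L[ℝ] E →L[ℝ] E}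

open Crest.Agent.Lib in
theorem exists_localFlow (hG : ContDiffOn ℝ ∞ G U) {O : Set E} (hO : IsOpen O) (hOU : O ⊆ U)
    {p0 : E} (hp : p0 ∈ O) :
    ∃ (Φ : ℝ × (E × E) → E × E) (D : Set (ℝ × (E × E))) (N : Set (E × E)),
      IsLocalFlow O G Φ D N ∧ (p0, (0:E)) ∈ N := by
  set v := spray G with hv
  set U' : Set (E × E) := O ×ˢ univ with hU'
  have hU'o : IsOpen U' := hO.prod isOpen_univ
  have hGO : ContDiffOn ℝ ∞ G O := hG.mono hOU
  have hvC : ContDiffOn ℝ ∞ v U' := contDiffOn_spray hGO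
  have hv2 : ContDiffOn ℝ ((2 : ℕ∞) : WithTop ℕ∞) v U' := hvC.of_le (by exact_mod_cast le_top)
  have hv1 : ContDiffOn ℝ 1 v U' := hvC.of_le (by exact_mod_cast le_top)
  have hdomo : IsOpen (ODEFlow.dom v U') := ODEFlow.isOpen_dom hU'o hv1
  have hrest : ∀ p ∈ O, ∀ l : ℝ, ODEFlow.IsSol v U' (p, 0) l (ContinuousMap.const _ (p, 0)) := by
    intro p hp l
    refine ⟨fun _ => ⟨hp, trivial⟩, fun t => ?_⟩
    simp [hv, spray]
  refine ⟨fun q => ODEFlow.flow v U' (q.2, q.1), {q | (q.2, q.1) ∈ ODEFlow.dom v U'},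
    {z | (z, (1:ℝ)) ∈ ODEFlow.dom v U'}, ?_, ⟨_, hrest p0 hp 1⟩⟩
  have hmemD : ∀ z ∈ {z | (z, (1:ℝ)) ∈ ODEFlow.dom v U'}, ∀ s ∈ Icc (0:ℝ) 1,
      (z, s) ∈ ODEFlow.dom v U' := by
    intro z hz s hs
    simpa using ODEFlow.mul_mem_dom hz hs
  have hDo : IsOpen {q : ℝ × (E × E) | (q.2, q.1) ∈ ODEFlow.dom v U'} :=
    hdomo.preimage (by fun_prop : Continuous fun q : ℝ × (E × E) => (q.2, q.1))
  have hCD : ContDiffOn ℝ 2 (fun q : ℝ × (E × E) => ODEFlow.flow v U' (q.2, q.1))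
      {q | (q.2, q.1) ∈ ODEFlow.dom v U'} := by
    have h1 := ODEFlow.contDiffOn_flow (n := 2) (by norm_num) hU'o hv2
    exact h1.comp (contDiff_snd.prodMk contDiff_fst).contDiffOn (fun q hq => hq)
  have hder : ∀ t x, (t, x) ∈ {q : ℝ × (E × E) | (q.2, q.1) ∈ ODEFlow.dom v U'} →
      HasDerivAt (fun s => ODEFlow.flow v U' (x, s)) (v (ODEFlow.flow v U' (x, t))) t :=
    fun t x h => ODEFlow.hasDerivAt_flow hU'o hv1 h
  refine ⟨hDo, hCD, ?_, hmemD, ?_, ?_, ?_, ?_, ?_⟩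
  · exact hdomo.preimage (by fun_prop : Continuous fun z : E × E => (z, (1:ℝ)))
  · intro z hz
    exact ODEFlow.flow_zero hU'o hv1 (ODEFlow.mem_of_mem_dom hz)
  · intro s hs p hp
    have hpO : p ∈ O := (ODEFlow.mem_of_mem_dom hp).1
    simp only
    rw [ODEFlow.flow_eq_of_isSol hU'o hv1 (hrest p hpO s)]
    rfl
  · intro z hz s hs
    exact (ODEFlow.flow_mem hU'o hv1 (hmemD z hz s hs)).1
  · intro z hz s hs
    exact hder s z (hmemD z hz s hs)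
  · intro z hz s hs ζ
    have hG1 : DifferentiableAt ℝ G (ODEFlow.flow v U' (z, s)).1 := by
      have hm := (ODEFlow.flow_mem hU'o hv1 (hmemD z hz s hs)).1
      exact (hGO.contDiffAt (hO.mem_nhds hm)).differentiableAt (by simp)
    have := hasDerivAt_fderiv_flow (f := v) hDo hCD hder (ζ := ζ) (hmemD z hz s hs)
      (differentiableAt_spray hG1)
    rw [hv, fderiv_spray hG1] at this
    exact this

/-- **Chart-level output of package B1**: the midpoint map of a nonpositively curved chart,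
the squared length function `q` and the infinitesimal CN inequality. -/
theorem IsNPCData.exists_midpoint_map (h : IsNPCData U g G) {p0 : E} {V : Set E}
    (hV : V ∈ 𝓝 p0) (hp : p0 ∈ U) :
    ∃ (W : Set E) (mid : E × E → E) (q : E × E → ℝ), IsOpen W ∧ p0 ∈ W ∧ W ⊆ V ∧ W ⊆ U ∧
      ContDiffOn ℝ 1 mid (W ×ˢ W) ∧ ContDiffOn ℝ 1 q (W ×ˢ W) ∧
      (∀ p ∈ W, mid (p, p) = p ∧ q (p, p) = 0) ∧
      (∀ a ∈ W, ∀ b ∈ W, 0 ≤ q (a, b) ∧ mid (a, b) ∈ V ∩ U) ∧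
      (∀ a ∈ W, ∀ b ∈ W, ∃ c : ℝ → E, ContDiff ℝ 1 c ∧ c 0 = a ∧ c 1 = b ∧
        ∀ s ∈ Icc (0:ℝ) 1, c s ∈ V ∩ U ∧ g (c s) (deriv c s) (deriv c s) = q (a, b)) ∧
      (∀ a ∈ W, ∀ b ∈ W, ∀ u v : E, ∀ ε > 0,
        g (mid (a, b)) (fderiv ℝ mid (a, b) (u, v)) (fderiv ℝ mid (a, b) (u, v)) ≤
          (g a u u + g b v v) / 2 - (fderiv ℝ q (a, b) (u, v)) ^ 2 / (16 * (q (a, b) + ε ^ 2))) := by
  have hVU : V ∩ U ∈ 𝓝 p0 := Filter.inter_mem hV (h.isOpen.mem_nhds hp)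
  obtain ⟨O, hOVU, hO, hpO⟩ := mem_nhds_iff.1 hVU
  obtain ⟨Φ, D, N, hΦ, hN⟩ :=
    exists_localFlow h.contDiffOn_G hO (fun x hx => (hOVU hx).2) hpO
  obtain ⟨W, mid, q, h1, h2, h3, h4, h5, h6, h7, h8, h9, h10⟩ :=
    hΦ.exists_midpoint_map h (fun x hx => (hOVU hx).2) hN (hO.mem_nhds hpO)
  refine ⟨W, mid, q, h1, h2, fun x hx => (hOVU (h3 hx)).1, fun x hx => (hOVU (h3 hx)).2, h5, h6,
    h7, fun a ha b hb => ⟨(h8 a ha b hb).1, hOVU (h8 a ha b hb).2⟩, ?_, h10⟩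
  intro a ha b hb
  obtain ⟨c, hc, hc0, hc1, hcs⟩ := h9 a ha b hb
  exact ⟨c, hc, hc0, hc1, fun s hs => ⟨hOVU (hcs s hs).1, (hcs s hs).2⟩⟩

end Crest.Agent.R244
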