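import Mathlib
import Crest.Agent.R244.CNInt
import Crest.Agent.R244.Flow
import Crest.Agent.R244.CFCoord

/-!
# R244, package B1: connection of the parts (a), (b), (c)
-/

set_option autoImplicit false
set_option maxSynthPendingDepth 3

open Set Filter Topology Manifold Bundle
open scoped ContDiff Manifold
open Crest.GeometryTopology.Geodesic Crest.GeometryTopology.CoordMetric

noncomputable section

namespace Crest.Agent.R244

section

variable {E : Type*} [NormedAddCommGroup E] [NormedSpace ℝ E] [FiniteDimensional ℝ E]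
  {M : Type*} [TopologicalSpace M] [ChartedSpace E M] [IsManifold 𝓘(ℝ, E) ∞ M]

/-- Nonpositively curved coordinate data in the chart at every point give a metric satisfying the
uniform local CN inequality. -/
theorem exists_localCN_of_npcData [T2Space M] [CompactSpace M] [ConnectedSpace M]
    (g : ContMDiffRiemannianMetric 𝓘(ℝ, E) ∞ E (fun x : M => TangentSpace 𝓘(ℝ, E) x))
    (h : ∀ x0 : M, ∃ (G : E → E →L[ℝ] E →L[ℝ] ℝ) (Γ : E → E →L[ℝ] E →L[ℝ] E),
      IsNPCData (chartAt E x0).target G Γ ∧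
      (∀ y ∈ (chartAt E x0).target, ∀ u : E, G y u u = g.inner ((chartAt E x0).symm y)
        (mfderiv 𝓘(ℝ, E) 𝓘(ℝ, E) (chartAt E x0).symm y u)
        (mfderiv 𝓘(ℝ, E) 𝓘(ℝ, E) (chartAt E x0).symm y u))) :
    ∃ ms : MetricSpace M,
      ms.toPseudoMetricSpace.toUniformSpace.toTopologicalSpace = ‹TopologicalSpace M› ∧
      ∃ r : ℝ, @LocalCN M ms r := by
  apply CNInt.exists_metric_localCN g
  intro x0
  obtain ⟨G, Γ, hnpc, hG⟩ := h x0
  refine ⟨G, hG, ?_⟩
  have hx0 : chartAt E x0 x0 ∈ (chartAt E x0).target := mem_chart_target E x0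
  obtain ⟨W, mid, q, hW, hxW, -, hWU, hmid, hq, hdiag, hpos, hgeo, hcn⟩ :=
    hnpc.exists_midpoint_map ((chartAt E x0).open_target.mem_nhds hx0) hx0
  exact ⟨W, mid, q,
    { isOpen := hW
      subset := hWU
      mid_diff := hmid
      q_diff := hq
      diag := hdiag
      nonneg := fun a ha b hb => ⟨(hpos a ha b hb).1, (hpos a ha b hb).2.2⟩
      geo := fun a ha b hb => by
        obtain ⟨c, hc, hc0, hc1, hcs⟩ := hgeo a ha b hb
        exact ⟨c, hc, hc0, hc1, fun s hs => ⟨(hcs s hs).1.2, (hcs s hs).2⟩⟩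
      cn := hcn }, hxW⟩

end

section Coord

variable {n : ℕ} {M : Type*} [TopologicalSpace M] [ChartedSpace (EuclideanSpace ℝ (Fin n)) M]
  [IsManifold 𝓘(ℝ, EuclideanSpace ℝ (Fin n)) ∞ M]

/-- The bilinear form of `metricInChart` is the metric on the push-forwards of the vectors. -/
theorem gB_metricInChart
    (g : ContMDiffRiemannianMetric 𝓘(ℝ, EuclideanSpace ℝ (Fin n)) ∞ (EuclideanSpace ℝ (Fin n))
      (fun x : M => TangentSpace 𝓘(ℝ, EuclideanSpace ℝ (Fin n)) x)) (x0 : M)
    (y u v : EuclideanSpace ℝ (Fin n)) :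
    CF.gB (metricInChart g x0) y u v =
      g.inner ((chartAt (EuclideanSpace ℝ (Fin n)) x0).symm y)
        (mfderiv 𝓘(ℝ, EuclideanSpace ℝ (Fin n)) 𝓘(ℝ, EuclideanSpace ℝ (Fin n))
          (chartAt (EuclideanSpace ℝ (Fin n)) x0).symm y u)
        (mfderiv 𝓘(ℝ, EuclideanSpace ℝ (Fin n)) 𝓘(ℝ, EuclideanSpace ℝ (Fin n))
          (chartAt (EuclideanSpace ℝ (Fin n)) x0).symm y v) := by
  set L : EuclideanSpace ℝ (Fin n) →L[ℝ] TangentSpace 𝓘(ℝ, EuclideanSpace ℝ (Fin n))
      ((chartAt (EuclideanSpace ℝ (Fin n)) x0).symm y) :=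
    mfderiv 𝓘(ℝ, EuclideanSpace ℝ (Fin n)) 𝓘(ℝ, EuclideanSpace ℝ (Fin n))
          (chartAt (EuclideanSpace ℝ (Fin n)) x0).symm y with hL
  change CF.gB (metricInChart g x0) y u v =
    g.inner ((chartAt (EuclideanSpace ℝ (Fin n)) x0).symm y) (L u) (L v)
  have hdec : ∀ w : EuclideanSpace ℝ (Fin n), w = ∑ i, w i • EuclideanSpace.single i (1 : ℝ) := by
    intro w
    ext j
    simp [Finset.sum_apply, Pi.single_apply]
  have hu : L u = ∑ i, u i • L (EuclideanSpace.single i (1 : ℝ)) := by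
    conv_lhs => rw [hdec u]
    simp only [map_sum, map_smul]
  have hv : L v = ∑ i, v i • L (EuclideanSpace.single i (1 : ℝ)) := by
    conv_lhs => rw [hdec v]
    simp only [map_sum, map_smul]
  rw [CF.gB_apply, hu, hv]
  simp only [map_sum, map_smul, FunLike.coe_sum, Finset.sum_apply, smul_apply, smul_eq_mul]
  rw [Finset.sum_comm]
  refine Finset.sum_congr rfl fun i _ => ?_
  rw [Finset.mul_sum]
  refine Finset.sum_congr rfl fun j _ => ?_
  have h1 : metricInChart g x0 y j i =
      g.inner ((chartAt (EuclideanSpace ℝ (Fin n)) x0).symm y)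
        (L (EuclideanSpace.single j (1 : ℝ))) (L (EuclideanSpace.single i (1 : ℝ))) := rfl
  rw [h1]
  ring

/-- Everything in terms of `metricInChart`: what remains is `IsNPCData` on every chart target. -/
theorem exists_localCN_of_chartNPC [T2Space M] [CompactSpace M] [ConnectedSpace M]
    (g : ContMDiffRiemannianMetric 𝓘(ℝ, EuclideanSpace ℝ (Fin n)) ∞ (EuclideanSpace ℝ (Fin n))
      (fun x : M => TangentSpace 𝓘(ℝ, EuclideanSpace ℝ (Fin n)) x))
    (h : ∀ x0 : M, IsNPCData (chartAt (EuclideanSpace ℝ (Fin n)) x0).target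
      (CF.gB (metricInChart g x0)) (CF.Gam (metricInChart g x0))) :
    ∃ ms : MetricSpace M,
      ms.toPseudoMetricSpace.toUniformSpace.toTopologicalSpace = ‹TopologicalSpace M› ∧
      ∃ r : ℝ, @LocalCN M ms r :=
  exists_localCN_of_npcData g fun x0 =>
    ⟨_, _, h x0, fun y _ u => gB_metricInChart g x0 y u u⟩

end Coord

end Crest.Agent.R244
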