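import Crest.Agent.R244.ChartMetric
import Crest.Agent.R244.Flow

/-!
# R244: nonpositive sectional curvature in every chart
-/

set_option autoImplicit false
set_option maxSynthPendingDepth 3

open Bundle Set Filter Topology Crest.GeometryTopology.Geodesic
open Crest.GeometryTopology.CoordMetric Crest.GeometryTopology.ChartCurvature
open scoped ContDiff Manifold

noncomputable section

namespace Crest.Agent.R244

variable {n : ℕ} {M : Type*} [TopologicalSpace M] [ChartedSpace (EuclideanSpace ℝ (Fin n)) M]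
  [IsManifold 𝓘(ℝ, EuclideanSpace ℝ (Fin n)) ∞ M]

local notation "𝔼" => EuclideanSpace ℝ (Fin n)

variable (g : ContMDiffRiemannianMetric 𝓘(ℝ, EuclideanSpace ℝ (Fin n)) ∞ (EuclideanSpace ℝ (Fin n))
      (fun x : M => TangentSpace 𝓘(ℝ, EuclideanSpace ℝ (Fin n)) x))

/-- **CF/B1 interface**: in the fixed chart at `x₀` the metric is an `IsNPCData`. -/
theorem isNPCData (hg : HasNonposSectionalCurvature g) (x₀ : M) :
    IsNPCData (chartAt 𝔼 x₀).target (CF.gB (metricInChart g x₀)) (CF.Gam (metricInChart g x₀)) := by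
  have hLC := CF.isLC_of_isRiemannianOn (isRiemannianOn_metricInChart g x₀)
  refine ⟨hLC.isOpen, hLC.g_smooth, hLC.Γ_smooth, hLC.g_symm, hLC.g_pos, hLC.Γ_symm, hLC.compat, ?_⟩
  intro y hy u v
  set m := (chartAt 𝔼 x₀).symm y with hm
  have hLC' := CF.isLC_of_isRiemannianOn (isRiemannianOn_metricInChart g m)
  have hiso := locIsoAt_transition g x₀ m hy (mem_chart_source 𝔼 m)
  have h1 := hiso.sec hLC hLC' u v
  have h2 : CF.gB (metricInChart g x₀) y (curv (CF.Gam (metricInChart g x₀)) y u v v) u =
      CF.gB (metricInChart g x₀) y (CF.curv (CF.Gam (metricInChart g x₀)) y u v v) u := rfl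
  rw [h2, h1, ← CF.secNumer_eq (isRiemannianOn_metricInChart g m) hiso.mem']
  exact hg m _ _

end Crest.Agent.R244
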