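import Mathlib
import Crest.Prelude.Def_Geodesic
import Crest.Agent.R244.MetricDefs
import Crest.Agent.R244.B1Conn
import Crest.Agent.R244.ChartNPC

/-!
# R244 package B1 : FINAL statement
-/

set_option autoImplicit false

open Bundle Crest.GeometryTopology.Geodesic
open scoped ContDiff Manifold

namespace Crest.Agent.R244

/-- **Package B1, final statement**: a compact connected Riemannian manifold of nonpositive
sectional curvature carries a metric, compatible with the topology, satisfying the uniform local
CAT(0) inequality. -/
theorem exists_localCN {n : ℕ} {M : Type} [t : TopologicalSpace M]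
    [ChartedSpace (EuclideanSpace ℝ (Fin n)) M]
    [IsManifold 𝓘(ℝ, EuclideanSpace ℝ (Fin n)) ∞ M]
    [T2Space M] [SecondCountableTopology M] [CompactSpace M] [ConnectedSpace M]
    (g : ContMDiffRiemannianMetric 𝓘(ℝ, EuclideanSpace ℝ (Fin n)) ∞ (EuclideanSpace ℝ (Fin n))
          (fun x : M => TangentSpace 𝓘(ℝ, EuclideanSpace ℝ (Fin n)) x))
    (hg : HasNonposSectionalCurvature g) :
    ∃ m : MetricSpace M, m.toPseudoMetricSpace.toUniformSpace.toTopologicalSpace = t ∧
      ∃ r : ℝ, @LocalCN M m r :=
  exists_localCN_of_chartNPC g (fun x₀ => isNPCData g hg x₀)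

end Crest.Agent.R244
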