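import Mathlib
import Crest.Agent.R244.MetricDefs

/-!
# R244 package B2, definitions : chains, chain equivalence, sampling of paths
-/

set_option autoImplicit false

open Filter Topology

namespace Crest.Agent.R244

variable {M : Type*} [MetricSpace M]

/-- `p` is a chain with steps `≤ ρ` which is constant from index `N` on. -/
structure IsCh (ρ : ℝ) (N : ℕ) (p : ℕ → M) : Prop where
  step : ∀ i, dist (p i) (p (i + 1)) ≤ ρ
  const : ∀ i, N ≤ i → p i = p N

/-- Adjacent chains: pointwise `ρ`-close, same beginning, same end. -/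
structure ChAdj (ρ : ℝ) (p q : ℕ → M) : Prop where
  left : ∃ N, IsCh ρ N p
  right : ∃ N, IsCh ρ N q
  close : ∀ i, dist (p i) (q i) ≤ ρ
  start : p 0 = q 0
  stop : ∃ N, ∀ i, N ≤ i → p i = q i

/-- Equivalence of chains (discrete homotopy rel end points). -/
def ChEq (ρ : ℝ) : (ℕ → M) → (ℕ → M) → Prop := Relation.ReflTransGen (ChAdj ρ)

/-- Concatenation: follow `p` for `N` steps, then `q`. (Meaningful when `p N = q 0`.) -/
def cat (N : ℕ) (p q : ℕ → M) : ℕ → M := fun i => if i < N then p i else q (i - N)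

/-- Reversal of a chain with `N` steps. -/
def rev (N : ℕ) (p : ℕ → M) : ℕ → M := fun i => p (N - i)

/-- The chain `γ(0), γ(1/N), …, γ(1), γ(1), …`. -/
noncomputable def smp {x y : M} (γ : Path x y) (N : ℕ) : ℕ → M := fun i => γ.extend ((i : ℝ) / N)

theorem ChAdj.symm {ρ : ℝ} {p q : ℕ → M} (h : ChAdj ρ p q) : ChAdj ρ q p where
  left := h.right
  right := h.left
  close i := by rw [dist_comm]; exact h.close i
  start := h.start.symm
  stop := by obtain ⟨N, hN⟩ := h.stop; exact ⟨N, fun i hi => (hN i hi).symm⟩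

theorem ChEq.symm {ρ : ℝ} {p q : ℕ → M} (h : ChEq ρ p q) : ChEq ρ q p := by
  induction h with
  | refl => exact Relation.ReflTransGen.refl
  | tail _ h2 ih => exact Relation.ReflTransGen.head h2.symm ih

theorem ChEq.refl {ρ : ℝ} (p : ℕ → M) : ChEq ρ p p := Relation.ReflTransGen.refl

theorem ChEq.trans {ρ : ℝ} {p q s : ℕ → M} (h : ChEq ρ p q) (h' : ChEq ρ q s) : ChEq ρ p s :=
  Relation.ReflTransGen.trans h h'

theorem ChAdj.chEq {ρ : ℝ} {p q : ℕ → M} (h : ChAdj ρ p q) : ChEq ρ p q :=
  Relation.ReflTransGen.single h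

end Crest.Agent.R244
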