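import Mathlib
import Crest.Agent.R244.CHQuad
import Crest.Agent.R244.CHDefs

/-!
# R244 package B2, part 2 : geodesic chains and the ladder lemma
-/

set_option autoImplicit false
set_option linter.unusedSectionVars false

open Filter Topology Finset

namespace Crest.Agent.R244

variable {M : Type*} [MetricSpace M] {r ρ : ℝ}

/-- length of a chain -/
def len (N : ℕ) (p : ℕ → M) : ℝ := ∑ i ∈ range N, dist (p i) (p (i + 1))

/-- energy of a chain -/
def nrg (N : ℕ) (p : ℕ → M) : ℝ := ∑ i ∈ range N, dist (p i) (p (i + 1)) ^ 2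

/-- geodesic chain: every inner point is the midpoint of its neighbours -/
def IsGeo (r : ℝ) (N : ℕ) (p : ℕ → M) : Prop :=
  ∀ j, 0 < j → j < N → IsMid r (p (j - 1)) (p (j + 1)) (p j)

open Classical in
/-- chosen midpoint -/
noncomputable def md (h : LocalCN M r) (a b : M) : M :=
  if hab : dist a b < r then (h.2 a b hab).choose else a

theorem md_isMid (h : LocalCN M r) {a b : M} (hab : dist a b < r) : IsMid r a b (md h a b) := by
  unfold md
  rw [dif_pos hab]
  exact (h.2 a b hab).choose_spec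

theorem len_nonneg (N : ℕ) (p : ℕ → M) : 0 ≤ len N p :=
  Finset.sum_nonneg fun _ _ => dist_nonneg

theorem IsCh.mono {N N' : ℕ} {p : ℕ → M} (h : IsCh ρ N p) (hN : N ≤ N') : IsCh ρ N' p where
  step := h.step
  const i hi := by rw [h.const i (hN.trans hi), h.const N' hN]

theorem IsCh.len_eq {N N' : ℕ} {p : ℕ → M} (h : IsCh ρ N p) (hN : N ≤ N') :
    len N' p = len N p := by
  obtain ⟨k, rfl⟩ := Nat.exists_eq_add_of_le hN
  unfold len
  rw [Finset.sum_range_add]
  have : ∑ x ∈ range k, dist (p (N + x)) (p (N + x + 1)) = 0 := by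
    apply Finset.sum_eq_zero
    intro i _
    rw [h.const (N + i) (by omega), h.const (N + i + 1) (by omega), dist_self]
  rw [this, add_zero]

theorem IsCh.dist_start_le {N : ℕ} {p : ℕ → M} (h : IsCh ρ N p) (i : ℕ) :
    dist (p 0) (p i) ≤ len N p := by
  have h1 : dist (p 0) (p i) ≤ len i p := dist_le_range_sum_dist p i
  rcases le_total i N with hi | hi
  · refine h1.trans ?_
    unfold len
    exact Finset.sum_le_sum_of_subset_of_nonneg (Finset.range_mono hi)
      (fun _ _ _ => dist_nonneg)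
  · rw [h.len_eq hi] at h1
    exact h1

theorem sum_range_update_two {N j : ℕ} (hj0 : 0 < j) (hjN : j < N) (f g : ℕ → ℝ)
    (hfg : ∀ i, i ≠ j - 1 → i ≠ j → f i = g i) :
    (∑ i ∈ range N, f i) - (∑ i ∈ range N, g i) = (f (j-1) + f j) - (g (j-1) + g j) := by
  have h1 : j - 1 ∈ range N := by rw [Finset.mem_range]; omega
  have h2 : j ∈ (range N).erase (j - 1) := by
    rw [Finset.mem_erase, Finset.mem_range]; omega
  rw [← Finset.add_sum_erase _ f h1, ← Finset.add_sum_erase _ f h2,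
    ← Finset.add_sum_erase _ g h1, ← Finset.add_sum_erase _ g h2]
  have : ∑ x ∈ ((range N).erase (j - 1)).erase j, f x
      = ∑ x ∈ ((range N).erase (j - 1)).erase j, g x := by
    apply Finset.sum_congr rfl
    intro x hx
    rw [Finset.mem_erase, Finset.mem_erase] at hx
    exact hfg x hx.2.1 hx.1
  rw [this]; ring

/-- one-site relaxation -/
noncomputable def upd (h : LocalCN M r) (j : ℕ) (p : ℕ → M) : ℕ → M :=
  Function.update p j (md h (p (j - 1)) (p (j + 1)))

theorem upd_same (h : LocalCN M r) (j : ℕ) (p : ℕ → M) :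
    upd h j p j = md h (p (j - 1)) (p (j + 1)) := by
  unfold upd; simp

theorem upd_ne (h : LocalCN M r) {j i : ℕ} (p : ℕ → M) (hij : i ≠ j) :
    upd h j p i = p i := by
  unfold upd; simp [hij]

theorem IsCh.dist_two {N : ℕ} {p : ℕ → M} (h : IsCh ρ N p) {j : ℕ} (hj : 0 < j) :
    dist (p (j - 1)) (p (j + 1)) ≤ 2 * ρ := by
  have h1 := h.step (j - 1)
  have h2 := h.step j
  rw [show j - 1 + 1 = j by omega] at h1
  linarith [dist_triangle (p (j-1)) (p j) (p (j+1))]

section upd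

variable (h : LocalCN M r) (hρ0 : 0 ≤ ρ) (hρ : 3 * ρ < r) {N : ℕ} {p : ℕ → M}
  (hp : IsCh ρ N p) {j : ℕ} (hj0 : 0 < j) (hjN : j < N)

include hρ0 hρ hp hj0 hjN

theorem upd_isMid : IsMid r (p (j - 1)) (p (j + 1)) (upd h j p j) := by
  rw [upd_same]
  exact md_isMid h (lt_of_le_of_lt (hp.dist_two hj0) (by linarith))

theorem upd_dist_le (i : ℕ) : dist (p i) (upd h j p i) ≤ ρ := by
  by_cases hij : i = j
  · subst hij
    have h1 := upd_isMid h hρ0 hρ hp hj0 hjN
    have s1 := hp.step (i - 1)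
    rw [show i - 1 + 1 = i by omega] at s1
    have s2 := hp.step i
    have h2 := h1 (p i) (by rw [dist_comm]; linarith) (by linarith)
    have h3 : dist (p i) (upd h i p i) ^ 2 ≤ ρ ^ 2 := by
      rw [dist_comm (p i) (p (i-1))] at h2
      have a1 : dist (p (i-1)) (p i) ^ 2 ≤ ρ ^ 2 := pow_le_pow_left₀ dist_nonneg s1 2
      have a2 : dist (p i) (p (i+1)) ^ 2 ≤ ρ ^ 2 := pow_le_pow_left₀ dist_nonneg s2 2
      nlinarith [sq_nonneg (dist (p (i-1)) (p (i+1)))]
    exact le_of_sq_le_sq h3 hρ0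
  · rw [upd_ne h p hij, dist_self]; exact hρ0

theorem upd_step_left : dist (upd h j p (j-1)) (upd h j p j) = dist (p (j-1)) (p (j+1)) / 2 := by
  rw [upd_ne h p (by omega)]
  exact (upd_isMid h hρ0 hρ hp hj0 hjN).dist_left
    (lt_of_le_of_lt (hp.dist_two hj0) (by linarith))

theorem upd_step_right : dist (upd h j p j) (upd h j p (j+1)) = dist (p (j-1)) (p (j+1)) / 2 := by
  rw [upd_ne h p (show j + 1 ≠ j by omega)]
  exact (upd_isMid h hρ0 hρ hp hj0 hjN).dist_right
    (lt_of_le_of_lt (hp.dist_two hj0) (by linarith))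

theorem upd_isCh : IsCh ρ N (upd h j p) where
  step i := by
    by_cases h1 : i = j - 1
    · subst h1
      have e := upd_step_left h hρ0 hρ hp hj0 hjN
      rw [show j - 1 + 1 = j by omega, e]
      linarith [hp.dist_two hj0]
    · by_cases h2 : i = j
      · subst h2
        rw [upd_step_right h hρ0 hρ hp hj0 hjN]
        linarith [hp.dist_two hj0]
      · rw [upd_ne h p h2, upd_ne h p (by omega)]
        exact hp.step i
  const i hi := by
    rw [upd_ne h p (by omega), upd_ne h p (by omega)]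
    exact hp.const i hi

theorem upd_len : len N (upd h j p) ≤ len N p := by
  have h1 := sum_range_update_two hj0 hjN
    (fun i => dist (upd h j p i) (upd h j p (i+1))) (fun i => dist (p i) (p (i+1)))
    (fun i hi1 hi2 => by rw [upd_ne h p hi2, upd_ne h p (by omega)])
  rw [show j - 1 + 1 = j by omega, upd_step_left h hρ0 hρ hp hj0 hjN,
    upd_step_right h hρ0 hρ hp hj0 hjN] at h1
  have h2 := dist_triangle (p (j-1)) (p j) (p (j+1))
  unfold len
  linarith

theorem upd_nrg : nrg N (upd h j p) ≤ nrg N p - 2 * dist (p j) (upd h j p j) ^ 2 := by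
  have h1 := sum_range_update_two hj0 hjN
    (fun i => dist (upd h j p i) (upd h j p (i+1)) ^ 2) (fun i => dist (p i) (p (i+1)) ^ 2)
    (fun i hi1 hi2 => by rw [upd_ne h p hi2, upd_ne h p (by omega)])
  rw [show j - 1 + 1 = j by omega, upd_step_left h hρ0 hρ hp hj0 hjN,
    upd_step_right h hρ0 hρ hp hj0 hjN] at h1
  have s1 := hp.step (j - 1)
  rw [show j - 1 + 1 = j by omega] at s1
  have s2 := hp.step j
  have h2 := upd_isMid h hρ0 hρ hp hj0 hjN (p j) (by rw [dist_comm]; linarith) (by linarith)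
  rw [dist_comm (p j) (p (j-1))] at h2
  unfold nrg
  nlinarith

theorem upd_zero : upd h j p 0 = p 0 := upd_ne h p (by omega)

theorem upd_last : upd h j p N = p N := upd_ne h p (by omega)

theorem upd_chAdj : ChAdj ρ p (upd h j p) where
  left := ⟨N, hp⟩
  right := ⟨N, upd_isCh h hρ0 hρ hp hj0 hjN⟩
  close := upd_dist_le h hρ0 hρ hp hj0 hjN
  start := (upd_zero h hρ0 hρ hp hj0 hjN).symm
  stop := ⟨N, fun i hi => (upd_ne h p (by omega)).symm⟩

theorem upd_close {q : ℕ → M} (hq : IsCh ρ N q) (hc : ∀ i, dist (p i) (q i) ≤ ρ) (i : ℕ) :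
    dist (upd h j p i) (upd h j q i) ≤ ρ := by
  by_cases hij : i = j
  · subst hij
    have h1 := upd_isMid h hρ0 hρ hp hj0 hjN
    have h2 := upd_isMid h hρ0 hρ hq hj0 hjN
    have d1 := hp.dist_two hj0
    have d2 := hq.dist_two hj0
    have c1 := hc (i - 1)
    have c2 := hc (i + 1)
    have t1 : dist (p (i-1)) (q (i+1)) < r := by
      linarith [dist_triangle (p (i-1)) (p (i+1)) (q (i+1))]
    have t2 : dist (p (i+1)) (q (i-1)) < r := by
      have := dist_triangle (p (i+1)) (p (i-1)) (q (i-1))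
      rw [dist_comm (p (i+1)) (p (i-1))] at this
      linarith
    have h3 := mid_dist_sq h h1 h2 (by linarith) (by linarith) (by linarith) (by linarith) t1 t2
    have a1 : dist (p (i-1)) (q (i-1)) ^ 2 ≤ ρ ^ 2 := pow_le_pow_left₀ dist_nonneg c1 2
    have a2 : dist (p (i+1)) (q (i+1)) ^ 2 ≤ ρ ^ 2 := pow_le_pow_left₀ dist_nonneg c2 2
    have h4 : dist (upd h i p i) (upd h i q i) ^ 2 ≤ ρ ^ 2 := by
      nlinarith [sq_nonneg (dist (p (i-1)) (p (i+1)) - dist (q (i-1)) (q (i+1)))]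
    exact le_of_sq_le_sq h4 hρ0
  · rw [upd_ne h p hij, upd_ne h q hij]; exact hc i

end upd

/-! ### compactness -/

theorem isClosed_isCh (N : ℕ) : IsClosed {p : ℕ → M | IsCh ρ N p} := by
  have : {p : ℕ → M | IsCh ρ N p} = (⋂ i, {p : ℕ → M | dist (p i) (p (i+1)) ≤ ρ}) ∩
      (⋂ i, {p : ℕ → M | N ≤ i → p i = p N}) := by
    ext p
    simp only [Set.mem_ofPred_eq, Set.mem_inter_iff, Set.mem_iInter]
    exact ⟨fun h => ⟨h.step, h.const⟩, fun h => ⟨h.1, h.2⟩⟩
  rw [this]
  refine IsClosed.inter (isClosed_iInter fun i => ?_) (isClosed_iInter fun i => ?_)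
  · exact isClosed_le ((continuous_apply i).dist (continuous_apply (i+1))) continuous_const
  · by_cases hi : N ≤ i
    · have : {p : ℕ → M | N ≤ i → p i = p N} = {p : ℕ → M | p i = p N} := by
        ext p; simp [hi]
      rw [this]
      exact isClosed_eq (continuous_apply i) (continuous_apply N)
    · have : {p : ℕ → M | N ≤ i → p i = p N} = Set.univ := by
        ext p; simp [hi]
      rw [this]; exact isClosed_univ

/-- The `N`-chains with given ends in a given equivalence class form a closed set. -/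
theorem isClosed_class (hρ : 0 < ρ) (N : ℕ) (p₀ : ℕ → M) (x y : M) :
    IsClosed {p : ℕ → M | IsCh ρ N p ∧ p 0 = x ∧ p N = y ∧ ChEq ρ p₀ p} := by
  rw [← isSeqClosed_iff_isClosed]
  intro u p hu hlim
  have hcl : IsClosed {p : ℕ → M | IsCh ρ N p ∧ p 0 = x ∧ p N = y} := by
    refine IsClosed.inter (isClosed_isCh N) (IsClosed.inter ?_ ?_)
    · exact isClosed_eq (continuous_apply 0) continuous_const
    · exact isClosed_eq (continuous_apply N) continuous_const
  have hp : IsCh ρ N p ∧ p 0 = x ∧ p N = y :=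
    hcl.isSeqClosed (fun n => ⟨(hu n).1, (hu n).2.1, (hu n).2.2.1⟩) hlim
  have hev : ∀ᶠ n in atTop, ∀ i ∈ range (N + 1), dist (u n i) (p i) < ρ := by
    rw [Filter.eventually_all_finset]
    intro i _
    have := (tendsto_pi_nhds.1 hlim i)
    exact (tendsto_iff_dist_tendsto_zero.1 this).eventually (gt_mem_nhds hρ)
  obtain ⟨n, hn⟩ := hev.exists
  refine ⟨hp.1, hp.2.1, hp.2.2, (hu n).2.2.2.trans (ChAdj.chEq ?_)⟩
  refine ⟨⟨N, (hu n).1⟩, ⟨N, hp.1⟩, fun i => ?_, ?_, ⟨N, fun i hi => ?_⟩⟩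
  · rcases le_total i N with hi | hi
    · exact (hn i (by rw [Finset.mem_range]; omega)).le
    · rw [(hu n).1.const i hi, hp.1.const i hi]
      exact (hn N (by simp)).le
  · rw [(hu n).2.1, hp.2.1]
  · rw [(hu n).1.const i hi, hp.1.const i hi, (hu n).2.2.1, hp.2.2]

/-- **Ladder lemma.** -/
theorem ladder [CompactSpace M] (h : LocalCN M r) (hρ0 : 0 < ρ) (hρ : 3 * ρ < r) (N K : ℕ)
    (R : ℕ → ℕ → M) (hR : ∀ k ≤ K, IsCh ρ N (R k))
    (hA : ∀ k < K, ∀ i, dist (R k i) (R (k + 1) i) ≤ ρ) :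
    ∃ R' : ℕ → ℕ → M, (∀ k ≤ K, IsCh ρ N (R' k) ∧ R' k 0 = R k 0 ∧ R' k N = R k N ∧
      len N (R' k) ≤ len N (R k) ∧ IsGeo r N (R' k)) ∧
      (∀ k < K, ∀ i, dist (R' k i) (R' (k + 1) i) ≤ ρ) ∧ ChEq ρ (R 0) (R' 0) := by
  classical
  set L : Set (ℕ → ℕ → M) := {S | (∀ k ≤ K, IsCh ρ N (S k) ∧ S k 0 = R k 0 ∧ S k N = R k N ∧
      len N (S k) ≤ len N (R k)) ∧ (∀ k < K, ∀ i, dist (S k i) (S (k + 1) i) ≤ ρ) ∧
      (IsCh ρ N (S 0) ∧ S 0 0 = R 0 0 ∧ S 0 N = R 0 N ∧ ChEq ρ (R 0) (S 0))} with hL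
  have happ : ∀ k i, Continuous fun S : ℕ → ℕ → M => S k i := fun k i => by fun_prop
  have hlen : ∀ k, Continuous fun S : ℕ → ℕ → M => len N (S k) := fun k => by
    unfold len
    exact continuous_finsetSum _ fun i _ => (happ k i).dist (happ k (i+1))
  have hcl : IsClosed L := by
    have e : L = (⋂ k, ⋂ (_ : k ≤ K), {S : ℕ → ℕ → M | IsCh ρ N (S k) ∧ S k 0 = R k 0 ∧
        S k N = R k N ∧ len N (S k) ≤ len N (R k)}) ∩
        ((⋂ k, ⋂ (_ : k < K), ⋂ i, {S : ℕ → ℕ → M | dist (S k i) (S (k + 1) i) ≤ ρ}) ∩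
        {S : ℕ → ℕ → M | IsCh ρ N (S 0) ∧ S 0 0 = R 0 0 ∧ S 0 N = R 0 N ∧ ChEq ρ (R 0) (S 0)}) := by
      ext S
      simp [hL, Set.mem_iInter]
    rw [e]
    refine IsClosed.inter ?_ (IsClosed.inter ?_ ?_)
    · refine isClosed_iInter fun k => isClosed_iInter fun _ => ?_
      refine IsClosed.inter ((isClosed_isCh N).preimage (continuous_apply k))
        (IsClosed.inter ?_ (IsClosed.inter ?_ ?_))
      · exact isClosed_eq (happ k 0) continuous_const
      · exact isClosed_eq (happ k N) continuous_const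
      · exact isClosed_le (hlen k) continuous_const
    · refine isClosed_iInter fun k => isClosed_iInter fun _ => isClosed_iInter fun i => ?_
      exact isClosed_le ((happ k i).dist (happ (k+1) i)) continuous_const
    · exact (isClosed_class hρ0 N (R 0) (R 0 0) (R 0 N)).preimage
        (f := fun S : ℕ → ℕ → M => S 0) (continuous_apply 0)
  have hne : L.Nonempty :=
    ⟨R, fun k hk => ⟨hR k hk, rfl, rfl, le_rfl⟩, hA, hR 0 (Nat.zero_le _), rfl, rfl, ChEq.refl _⟩
  have hcont : Continuous fun S : ℕ → ℕ → M => ∑ k ∈ range (K + 1), nrg N (S k) := by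
    refine continuous_finsetSum _ fun k _ => ?_
    unfold nrg
    exact continuous_finsetSum _ fun i _ => ((happ k i).dist (happ k (i+1))).pow 2
  obtain ⟨S, hS, hmin⟩ := hcl.isCompact.exists_isMinOn hne hcont.continuousOn
  obtain ⟨h1, h2, h3⟩ := hS
  refine ⟨S, fun k hk => ?_, h2, h3.2.2.2⟩
  obtain ⟨c1, c2, c3, c4⟩ := h1 k hk
  refine ⟨c1, c2, c3, c4, fun j hj0 hjN => ?_⟩
  -- the relaxed ladder
  have hmem : (fun k => upd h j (S k)) ∈ L := by
    refine ⟨fun k hk => ?_, fun k hk i => ?_, ?_⟩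
    · obtain ⟨c1, c2, c3, c4⟩ := h1 k hk
      refine ⟨upd_isCh h hρ0.le hρ c1 hj0 hjN, ?_, ?_, ?_⟩
      · simp only; rw [upd_zero h hρ0.le hρ c1 hj0 hjN, c2]
      · simp only; rw [upd_last h hρ0.le hρ c1 hj0 hjN, c3]
      · exact (upd_len h hρ0.le hρ c1 hj0 hjN).trans c4
    · exact upd_close h hρ0.le hρ (h1 k hk.le).1 hj0 hjN (h1 (k+1) hk).1 (h2 k hk) i
    · obtain ⟨c1, c2, c3, c4⟩ := h3
      refine ⟨upd_isCh h hρ0.le hρ c1 hj0 hjN, ?_, ?_, ?_⟩
      · simp only; rw [upd_zero h hρ0.le hρ c1 hj0 hjN, c2]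
      · simp only; rw [upd_last h hρ0.le hρ c1 hj0 hjN, c3]
      · exact c4.trans (upd_chAdj h hρ0.le hρ c1 hj0 hjN).chEq
  have hle := hmin hmem
  simp only [Set.mem_ofPred_eq] at hle
  have hsum : ∑ k ∈ range (K + 1), nrg N (upd h j (S k)) ≤
      ∑ k ∈ range (K + 1), nrg N (S k) -
        ∑ k ∈ range (K + 1), 2 * dist (S k j) (upd h j (S k) j) ^ 2 := by
    rw [← Finset.sum_sub_distrib]
    refine Finset.sum_le_sum fun k hk => ?_
    exact upd_nrg h hρ0.le hρ (h1 k (by rw [Finset.mem_range] at hk; omega)).1 hj0 hjN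
  have hz : 2 * dist (S k j) (upd h j (S k) j) ^ 2 ≤
      ∑ k ∈ range (K + 1), 2 * dist (S k j) (upd h j (S k) j) ^ 2 :=
    Finset.single_le_sum (f := fun k => 2 * dist (S k j) (upd h j (S k) j) ^ 2)
      (fun k _ => by positivity) (by rw [Finset.mem_range]; omega)
  have hz0 : dist (S k j) (upd h j (S k) j) = 0 := by
    have : dist (S k j) (upd h j (S k) j) ^ 2 ≤ 0 := by linarith
    exact pow_eq_zero_iff (n := 2) (by norm_num) |>.1 (le_antisymm this (sq_nonneg _))
  have heq := dist_eq_zero.1 hz0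
  rw [heq]
  exact upd_isMid h hρ0.le hρ c1 hj0 hjN

end Crest.Agent.R244
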