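import Mathlib
import Crest.Agent.R244.CHLadder

/-!
# R244 package B2, part 3 : concatenation, reversal, ladders from equivalences, the length `DC`
-/

set_option autoImplicit false
set_option linter.unusedSectionVars false
set_option linter.unusedVariables false

open Filter Topology Finset

namespace Crest.Agent.R244

variable {M : Type*} [MetricSpace M] {r ρ : ℝ}

/-! ### discrete convexity -/

theorem discrete_convex {N : ℕ} {f : ℕ → ℝ}
    (hf : ∀ j, 0 < j → j < N → f j ≤ (f (j - 1) + f (j + 1)) / 2) {j : ℕ} (hj : j ≤ N) :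
    (N : ℝ) * f j ≤ ((N : ℝ) - j) * f 0 + j * f N := by
  -- slopes are monotone
  have hs : ∀ i j, i ≤ j → j < N → f (i + 1) - f i ≤ f (j + 1) - f j := by
    intro i j hij
    induction j, hij using Nat.le_induction with
    | base => intro _; exact le_rfl
    | succ k hk ih =>
      intro hk1
      have h1 := ih (by omega)
      have h2 := hf (k + 1) (by omega) hk1
      rw [show k + 1 - 1 = k by omega] at h2
      linarith
  rcases Nat.eq_zero_or_pos j with rfl | hj0
  · simp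
  rcases eq_or_lt_of_le hj with rfl | hjN
  · simp
  -- f j - f 0 ≤ j * slope_{j-1} ≤ j * slope_j
  have h1 : ∀ i ≤ j, f i - f 0 ≤ i * (f (j + 1) - f j) := by
    intro i hi
    induction i with
    | zero => simp
    | succ i ih =>
      have := ih (by omega)
      have h2 := hs i j (by omega) hjN
      push_cast
      linarith
  have h2 : ∀ i, j + i ≤ N → i * (f (j + 1) - f j) ≤ f (j + i) - f j := by
    intro i hi
    induction i with
    | zero => simp
    | succ i ih =>
      have := ih (by omega)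
      have h2 := hs j (j + i) (by omega) (by omega)
      push_cast
      rw [show j + (i + 1) = j + i + 1 by omega]
      linarith
  have a1 := h1 j le_rfl
  have a2 := h2 (N - j) (by omega)
  rw [show j + (N - j) = N by omega] at a2
  have e : ((N - j : ℕ) : ℝ) = (N : ℝ) - j := by
    rw [Nat.cast_sub hj]
  rw [e] at a2
  have hNj : (0 : ℝ) < (N : ℝ) - j := by
    have : (j : ℝ) < N := by exact_mod_cast hjN
    linarith
  have hjp : (0 : ℝ) < j := by exact_mod_cast hj0
  nlinarith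

/-! ### geodesic chains -/

theorem IsGeo.step_eq {N : ℕ} {p : ℕ → M} (hg : IsGeo r N p) (hp : IsCh ρ N p)
    (hρ : 3 * ρ < r) (hρ0 : 0 ≤ ρ) {i : ℕ} (hi : i < N) :
    dist (p i) (p (i + 1)) = dist (p 0) (p 1) := by
  induction i with
  | zero => rfl
  | succ i ih =>
    have h1 := hg (i + 1) (by omega) hi
    have hd := hp.dist_two (j := i + 1) (by omega)
    rw [show i + 1 - 1 = i by omega] at h1 hd
    have hlt : dist (p i) (p (i + 1 + 1)) < r := by linarith
    rw [h1.dist_right hlt, ← h1.dist_left hlt]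
    exact ih (by omega)

theorem IsGeo.len_eq {N : ℕ} {p : ℕ → M} (hg : IsGeo r N p) (hp : IsCh ρ N p)
    (hρ : 3 * ρ < r) (hρ0 : 0 ≤ ρ) : len N p = N * dist (p 0) (p 1) := by
  unfold len
  rw [Finset.sum_congr rfl (fun i hi => hg.step_eq hp hρ hρ0 (Finset.mem_range.1 hi))]
  simp

theorem IsGeo.nrg_eq {N : ℕ} {p : ℕ → M} (hg : IsGeo r N p) (hp : IsCh ρ N p)
    (hρ : 3 * ρ < r) (hρ0 : 0 ≤ ρ) : N * nrg N p = len N p ^ 2 := by
  rw [hg.len_eq hp hρ hρ0]
  unfold nrg
  rw [Finset.sum_congr rfl (fun i hi => by rw [hg.step_eq hp hρ hρ0 (Finset.mem_range.1 hi)])]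
  simp; ring

theorem IsGeo.unique (h : LocalCN M r) {N : ℕ} {p q : ℕ → M} (hg : IsGeo r N p)
    (hg' : IsGeo r N q) (hp : IsCh ρ N p) (hq : IsCh ρ N q) (hρ : 3 * ρ < r) (hρ0 : 0 ≤ ρ)
    (hc : ∀ i, dist (p i) (q i) ≤ ρ) (h0 : p 0 = q 0) (hN : p N = q N) : p = q := by
  have key : ∀ j, j ≤ N → dist (p j) (q j) = 0 := by
    intro j hj
    rcases Nat.eq_zero_or_pos N with hN0 | hNpos
    · have : j = 0 := by omega
      subst this; rw [h0, dist_self]
    have h1 := discrete_convex (N := N) (f := fun i => dist (p i) (q i) ^ 2) ?_ hj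
    · rw [h0, hN, dist_self, dist_self] at h1
      have hNp : (0 : ℝ) < N := by exact_mod_cast hNpos
      have h2 : dist (p j) (q j) ^ 2 ≤ 0 := by
        have : (N : ℝ) * dist (p j) (q j) ^ 2 ≤ 0 := by nlinarith
        by_contra hcon
        push Not at hcon
        nlinarith [mul_pos hNp hcon]
      exact pow_eq_zero_iff (n := 2) (by norm_num) |>.1 (le_antisymm h2 (sq_nonneg _))
    · intro i hi0 hiN
      have m1 := hg i hi0 hiN
      have m2 := hg' i hi0 hiN
      have d1 := hp.dist_two hi0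
      have d2 := hq.dist_two hi0
      have c1 := hc (i - 1)
      have c2 := hc (i + 1)
      have t1 : dist (p (i-1)) (q (i+1)) < r := by
        linarith [dist_triangle (p (i-1)) (p (i+1)) (q (i+1))]
      have t2 : dist (p (i+1)) (q (i-1)) < r := by
        have := dist_triangle (p (i+1)) (p (i-1)) (q (i-1))
        rw [dist_comm (p (i+1)) (p (i-1))] at this
        linarith
      have h3 := mid_dist_sq h m1 m2 (by linarith) (by linarith) (by linarith) (by linarith) t1 t2
      nlinarith [sq_nonneg (dist (p (i-1)) (p (i+1)) - dist (q (i-1)) (q (i+1)))]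
  funext i
  rcases le_total i N with hi | hi
  · exact dist_eq_zero.1 (key i hi)
  · rw [hp.const i hi, hq.const i hi, hN]

/-! ### concatenation -/

theorem cat_of_lt {N i : ℕ} (p q : ℕ → M) (hi : i < N) : cat N p q i = p i := by
  unfold cat; rw [if_pos hi]

theorem cat_of_ge {N i : ℕ} (p q : ℕ → M) (hi : N ≤ i) : cat N p q i = q (i - N) := by
  unfold cat; rw [if_neg (by omega)]

theorem cat_zero {N : ℕ} {p q : ℕ → M} (hpq : p N = q 0) : cat N p q 0 = p 0 := by
  rcases Nat.eq_zero_or_pos N with h | h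
  · subst h; rw [cat_of_ge _ _ le_rfl]; simpa using hpq.symm
  · rw [cat_of_lt _ _ h]

theorem isCh_cat {N N' : ℕ} {p q : ℕ → M} (hp : IsCh ρ N p) (hq : IsCh ρ N' q)
    (hpq : p N = q 0) : IsCh ρ (N + N') (cat N p q) where
  step i := by
    rcases lt_trichotomy (i + 1) N with h1 | h1 | h1
    · rw [cat_of_lt _ _ h1, cat_of_lt _ _ (by omega)]; exact hp.step i
    · rw [cat_of_lt _ _ (by omega), cat_of_ge _ _ (by omega), h1, Nat.sub_self, ← hpq, ← h1]
      exact hp.step i
    · rw [cat_of_ge _ _ (by omega), cat_of_ge _ _ (by omega),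
        show i + 1 - N = i - N + 1 by omega]
      exact hq.step _
  const i hi := by
    rw [cat_of_ge _ _ (by omega), cat_of_ge _ _ (by omega), show N + N' - N = N' by omega]
    exact hq.const _ (by omega)

theorem IsCh.nonneg {N : ℕ} {p : ℕ → M} (hp : IsCh ρ N p) : 0 ≤ ρ :=
  dist_nonneg.trans (hp.step 0)

theorem cat_shift {N N₂ : ℕ} {p q : ℕ → M} (hp : IsCh ρ N p) (hq : IsCh ρ N₂ q)
    (hpq : p N = q 0) : ChAdj ρ (cat N p q) (cat (N + 1) p q) where
  left := ⟨_, isCh_cat hp hq hpq⟩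
  right := ⟨_, isCh_cat (hp.mono (Nat.le_succ N)) hq (by rw [hp.const _ (Nat.le_succ N), hpq])⟩
  close i := by
    rcases lt_trichotomy i N with h1 | h1 | h1
    · rw [cat_of_lt _ _ h1, cat_of_lt _ _ (by omega), dist_self]; exact hp.nonneg
    · subst h1
      rw [cat_of_ge _ _ le_rfl, cat_of_lt _ _ (by omega), Nat.sub_self, ← hpq, dist_self]
      exact hp.nonneg
    · rw [cat_of_ge _ _ (by omega), cat_of_ge _ _ (by omega), dist_comm]
      have := hq.step (i - (N + 1))
      rwa [show i - (N + 1) + 1 = i - N by omega] at this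
  start := by
    rw [cat_zero hpq, cat_zero (by rw [hp.const _ (Nat.le_succ N), hpq])]
  stop := ⟨N + 1 + N₂, fun i hi => by
    rw [cat_of_ge _ _ (by omega), cat_of_ge _ _ (by omega), hq.const _ (by omega),
      hq.const (i - (N+1)) (by omega)]⟩

theorem cat_shift_le {N N' N₂ : ℕ} {p q : ℕ → M} (hp : IsCh ρ N p) (hq : IsCh ρ N₂ q)
    (hpq : p N = q 0) (hN : N ≤ N') : ChEq ρ (cat N p q) (cat N' p q) := by
  induction N', hN using Nat.le_induction with
  | base => exact ChEq.refl _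
  | succ k hk ih =>
    exact ih.trans (cat_shift (hp.mono hk) hq (by rw [hp.const k hk, hpq])).chEq

theorem cat_shift_any {N N' N₂ : ℕ} {p q : ℕ → M} (hp : IsCh ρ N p) (hp' : IsCh ρ N' p)
    (hq : IsCh ρ N₂ q) (hpq : p N = q 0) : ChEq ρ (cat N p q) (cat N' p q) := by
  rcases le_total N N' with h | h
  · exact cat_shift_le hp hq hpq h
  · refine (cat_shift_le hp' hq ?_ h).symm
    rw [← hpq, hp'.const N h]

theorem ChAdj.end_eq {p q : ℕ → M} (h : ChAdj ρ p q) {N N' : ℕ} (hp : IsCh ρ N p)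
    (hq : IsCh ρ N' q) : p N = q N' := by
  obtain ⟨K, hK⟩ := h.stop
  have := hK (max K (max N N')) (le_max_left _ _)
  rw [hp.const _ (by omega), hq.const _ (by omega)] at this
  exact this

theorem cat_adj_left {N N' N₂ : ℕ} {p p' q : ℕ → M} (h : ChAdj ρ p p') (hp : IsCh ρ N p)
    (hp' : IsCh ρ N' p') (hq : IsCh ρ N₂ q) (hpq : p N = q 0) :
    ChEq ρ (cat N p q) (cat N' p' q) := by
  set K := max N N' with hK
  have e1 : p K = q 0 := by rw [hp.const K (le_max_left _ _), hpq]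
  have e2 : p' K = q 0 := by
    rw [hp'.const K (le_max_right _ _), ← h.end_eq hp hp', hpq]
  refine (cat_shift_le hp hq hpq (le_max_left N N')).trans
    (ChEq.trans (ChAdj.chEq ?_) (cat_shift_any (N := K) (hp'.mono (le_max_right _ _)) hp' hq e2))
  refine ⟨⟨_, isCh_cat (hp.mono (le_max_left _ _)) hq e1⟩,
    ⟨_, isCh_cat (hp'.mono (le_max_right _ _)) hq e2⟩, fun i => ?_, ?_, ⟨K, fun i hi => ?_⟩⟩
  · rcases lt_or_ge i K with hi | hi
    · rw [cat_of_lt _ _ hi, cat_of_lt _ _ hi]; exact h.close i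
    · rw [cat_of_ge _ _ hi, cat_of_ge _ _ hi, dist_self]; exact hp.nonneg
  · rw [cat_zero e1, cat_zero e2, h.start]
  · rw [cat_of_ge _ _ hi, cat_of_ge _ _ hi]

theorem cat_adj_right {N N₂ N₂' : ℕ} {p q q' : ℕ → M} (hp : IsCh ρ N p) (h : ChAdj ρ q q')
    (hq : IsCh ρ N₂ q) (hq' : IsCh ρ N₂' q') (hpq : p N = q 0) :
    ChAdj ρ (cat N p q) (cat N p q') := by
  have e2 : p N = q' 0 := by rw [hpq, h.start]
  refine ⟨⟨_, isCh_cat hp hq hpq⟩, ⟨_, isCh_cat hp hq' e2⟩, fun i => ?_, ?_, ?_⟩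
  · rcases lt_or_ge i N with hi | hi
    · rw [cat_of_lt _ _ hi, cat_of_lt _ _ hi, dist_self]; exact hp.nonneg
    · rw [cat_of_ge _ _ hi, cat_of_ge _ _ hi]; exact h.close _
  · rw [cat_zero hpq, cat_zero e2]
  · obtain ⟨K, hK⟩ := h.stop
    exact ⟨N + K, fun i hi => by
      rw [cat_of_ge _ _ (by omega), cat_of_ge _ _ (by omega)]; exact hK _ (by omega)⟩

/-- chain-ness propagates along equivalences -/
theorem ChEq.exists_isCh {p q : ℕ → M} (h : ChEq ρ p q) (hp : ∃ N, IsCh ρ N p) :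
    ∃ N, IsCh ρ N q := by
  induction h with
  | refl => exact hp
  | tail _ h2 _ => exact h2.right

theorem ChEq.start {p q : ℕ → M} (h : ChEq ρ p q) : p 0 = q 0 := by
  induction h with
  | refl => rfl
  | tail _ h2 ih => rw [ih, h2.start]

theorem ChEq.stop {p q : ℕ → M} (h : ChEq ρ p q) : ∃ N, ∀ i, N ≤ i → p i = q i := by
  induction h with
  | refl => exact ⟨0, fun _ _ => rfl⟩
  | tail _ h2 ih =>
    obtain ⟨N, hN⟩ := ih
    obtain ⟨N', hN'⟩ := h2.stop
    exact ⟨max N N', fun i hi => by rw [hN i (by omega), hN' i (by omega)]⟩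

theorem ChEq.end_eq {p q : ℕ → M} (h : ChEq ρ p q) {N N' : ℕ} (hp : IsCh ρ N p)
    (hq : IsCh ρ N' q) : p N = q N' := by
  obtain ⟨K, hK⟩ := h.stop
  have := hK (max K (max N N')) (le_max_left _ _)
  rw [hp.const _ (by omega), hq.const _ (by omega)] at this
  exact this

theorem cat_congr_left {N N' N₂ : ℕ} {p p' q : ℕ → M} (h : ChEq ρ p p') (hp : IsCh ρ N p)
    (hp' : IsCh ρ N' p') (hq : IsCh ρ N₂ q) (hpq : p N = q 0) :
    ChEq ρ (cat N p q) (cat N' p' q) := by
  induction h generalizing N' with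
  | refl => exact cat_shift_any hp hp' hq hpq
  | @tail b c h1 h2 ih =>
    obtain ⟨K, hK⟩ := h2.left
    refine (ih hK).trans (cat_adj_left h2 hK hp' hq ?_)
    rw [← hpq]; exact (ChEq.end_eq h1 hp hK).symm

theorem cat_congr_right {N N₂ : ℕ} {p q q' : ℕ → M} (h : ChEq ρ q q') (hp : IsCh ρ N p)
    (hq : IsCh ρ N₂ q) (hpq : p N = q 0) :
    ChEq ρ (cat N p q) (cat N p q') := by
  induction h with
  | refl => exact ChEq.refl _
  | @tail b c h1 h2 ih =>
    obtain ⟨K, hK⟩ := h2.left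
    obtain ⟨K', hK'⟩ := h2.right
    refine ih.trans (cat_adj_right hp h2 hK hK' ?_).chEq
    rw [hpq]; exact ChEq.start h1

theorem cat_congr {N N' N₂ : ℕ} {p p' q q' : ℕ → M} (h : ChEq ρ p p') (h' : ChEq ρ q q')
    (hp : IsCh ρ N p) (hp' : IsCh ρ N' p') (hq : IsCh ρ N₂ q) (hpq : p N = q 0) :
    ChEq ρ (cat N p q) (cat N' p' q') :=
  (cat_congr_left h hp hp' hq hpq).trans
    (cat_congr_right h' hp' hq (by rw [← ChEq.end_eq h hp hp', hpq]))

theorem len_cat {N N' : ℕ} {p q : ℕ → M} (hpq : p N = q 0) :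
    len (N + N') (cat N p q) = len N p + len N' q := by
  unfold len
  rw [Finset.sum_range_add]
  congr 1
  · apply Finset.sum_congr rfl
    intro i hi
    rw [Finset.mem_range] at hi
    rw [cat_of_lt _ _ hi]
    rcases lt_or_ge (i + 1) N with h | h
    · rw [cat_of_lt _ _ h]
    · rw [cat_of_ge _ _ h, show i + 1 - N = 0 by omega, ← hpq, show i + 1 = N by omega]
  · apply Finset.sum_congr rfl
    intro i _
    rw [cat_of_ge _ _ (by omega), cat_of_ge _ _ (by omega), show N + i - N = i by omega,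
      show N + i + 1 - N = i + 1 by omega]

/-! ### reversal -/

theorem isCh_rev {N : ℕ} {p : ℕ → M} (hp : IsCh ρ N p) : IsCh ρ N (rev N p) where
  step i := by
    unfold rev
    rcases lt_or_ge i N with hi | hi
    · have := hp.step (N - (i + 1))
      rw [show N - (i + 1) + 1 = N - i by omega] at this
      rwa [dist_comm]
    · rw [show N - i = 0 by omega, show N - (i + 1) = 0 by omega, dist_self]
      exact hp.nonneg
  const i hi := by
    unfold rev
    rw [show N - i = 0 by omega, show N - N = 0 by omega]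

theorem rev_shift {N : ℕ} {p : ℕ → M} (hp : IsCh ρ N p) : ChAdj ρ (rev N p) (rev (N + 1) p) where
  left := ⟨_, isCh_rev hp⟩
  right := ⟨_, isCh_rev (hp.mono (Nat.le_succ N))⟩
  close i := by
    unfold rev
    rcases le_or_gt i N with hi | hi
    · rw [show N + 1 - i = N - i + 1 by omega]; exact hp.step _
    · rw [show N + 1 - i = 0 by omega, show N - i = 0 by omega, dist_self]; exact hp.nonneg
  start := by
    unfold rev
    simp only [Nat.sub_zero]
    rw [hp.const (N + 1) (Nat.le_succ N)]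
  stop := ⟨N + 1, fun i hi => by
    unfold rev; rw [show N - i = 0 by omega, show N + 1 - i = 0 by omega]⟩

theorem rev_shift_le {N N' : ℕ} {p : ℕ → M} (hp : IsCh ρ N p) (hN : N ≤ N') :
    ChEq ρ (rev N p) (rev N' p) := by
  induction N', hN using Nat.le_induction with
  | base => exact ChEq.refl _
  | succ k hk ih => exact ih.trans (rev_shift (hp.mono hk)).chEq

theorem rev_adj {N N' : ℕ} {p q : ℕ → M} (h : ChAdj ρ p q) (hp : IsCh ρ N p)
    (hq : IsCh ρ N' q) : ChEq ρ (rev N p) (rev N' q) := by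
  set K := max N N' with hK
  refine (rev_shift_le hp (le_max_left N N')).trans (ChEq.trans (ChAdj.chEq ?_)
    (rev_shift_le hq (le_max_right N N')).symm)
  refine ⟨⟨_, isCh_rev (hp.mono (le_max_left _ _))⟩, ⟨_, isCh_rev (hq.mono (le_max_right _ _))⟩,
    fun i => h.close _, ?_, ⟨K, fun i hi => ?_⟩⟩
  · unfold rev
    simp only [Nat.sub_zero]
    rw [hp.const _ (le_max_left _ _), hq.const _ (le_max_right _ _)]
    exact h.end_eq hp hq
  · unfold rev
    rw [show max N N' - i = 0 by omega]; exact h.start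

theorem rev_congr {N N' : ℕ} {p q : ℕ → M} (h : ChEq ρ p q) (hp : IsCh ρ N p)
    (hq : IsCh ρ N' q) : ChEq ρ (rev N p) (rev N' q) := by
  induction h generalizing N' with
  | refl =>
    rcases le_total N N' with h | h
    · exact rev_shift_le hp h
    · exact (rev_shift_le hq h).symm
  | @tail b c h1 h2 ih =>
    obtain ⟨K, hK⟩ := h2.left
    exact (ih hK).trans (rev_adj h2 hK hq)

theorem len_rev {N : ℕ} {p : ℕ → M} : len N (rev N p) = len N p := by
  unfold len rev
  rw [← Finset.sum_range_reflect]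
  apply Finset.sum_congr rfl
  intro i hi
  rw [Finset.mem_range] at hi
  rw [dist_comm, show N - (N - 1 - i + 1) = i by omega, show N - (N - 1 - i) = i + 1 by omega]

theorem rev_rev_eq {N : ℕ} {p : ℕ → M} (hp : IsCh ρ N p) : rev N (rev N p) = p := by
  funext i
  unfold rev
  rcases le_or_gt i N with hi | hi
  · rw [show N - (N - i) = i by omega]
  · rw [show N - (N - i) = N by omega, hp.const i hi.le]

/-! ### ladders from equivalences -/

theorem ChEq.exists_ladder {p q : ℕ → M} (h : ChEq ρ p q) (hq : ∃ N, IsCh ρ N q) :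
    ∃ N₀, ∀ N ≥ N₀, ∃ (K : ℕ) (R : ℕ → ℕ → M), R 0 = p ∧ R K = q ∧
      (∀ k ≤ K, IsCh ρ N (R k) ∧ R k 0 = q 0 ∧ R k N = q N) ∧
      (∀ k < K, ∀ i, dist (R k i) (R (k + 1) i) ≤ ρ) := by
  induction h using Relation.ReflTransGen.head_induction_on with
  | refl =>
    obtain ⟨N₀, hN₀⟩ := hq
    refine ⟨N₀, fun N hN => ⟨0, fun _ => q, rfl, rfl, fun k _ => ⟨hN₀.mono hN, rfl, rfl⟩,
      fun k hk => absurd hk (Nat.not_lt_zero k)⟩⟩
  | @head a c h1 h2 ih =>
    obtain ⟨N₁, hN₁⟩ := ih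
    obtain ⟨N₂, hN₂⟩ := h1.left
    obtain ⟨N₃, hN₃⟩ := h1.stop
    refine ⟨max N₁ (max N₂ N₃), fun N hN => ?_⟩
    obtain ⟨K, R, hR0, hRK, hR, hA⟩ := hN₁ N (by omega)
    refine ⟨K + 1, fun k => Nat.casesOn k a R, rfl, hRK, fun k hk => ?_, fun k hk i => ?_⟩
    · cases k with
      | zero =>
        have e := hR 0 (Nat.zero_le _)
        rw [hR0] at e
        exact ⟨hN₂.mono (by omega), by
          show a 0 = q 0
          rw [h1.start, e.2.1], by
          show a N = q N
          rw [hN₃ N (by omega), e.2.2]⟩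
      | succ k => exact hR k (by omega)
    · cases k with
      | zero =>
        show dist (a i) (R 0 i) ≤ ρ
        rw [hR0]; exact h1.close i
      | succ k => exact hA k (by omega) i

/-! ### the length of a class -/

/-- infimum of the lengths of the chains in the class of `p` -/
noncomputable def DC (ρ : ℝ) (p : ℕ → M) : ℝ :=
  sInf {l | ∃ N q, IsCh ρ N q ∧ ChEq ρ p q ∧ l = len N q}

theorem DC_le {p q : ℕ → M} {N : ℕ} (hq : IsCh ρ N q) (h : ChEq ρ p q) : DC ρ p ≤ len N q :=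
  csInf_le ⟨0, fun l hl => by obtain ⟨N, q, _, _, rfl⟩ := hl; exact len_nonneg N q⟩
    ⟨N, q, hq, h, rfl⟩

theorem DC_nonneg (p : ℕ → M) : 0 ≤ DC ρ p :=
  Real.sInf_nonneg fun l hl => by obtain ⟨N, q, _, _, rfl⟩ := hl; exact len_nonneg N q

theorem exists_len_lt {p : ℕ → M} (hp : ∃ N, IsCh ρ N p) {ε : ℝ} (hε : 0 < ε) :
    ∃ N q, IsCh ρ N q ∧ ChEq ρ p q ∧ len N q < DC ρ p + ε := by
  obtain ⟨N, hN⟩ := hp
  obtain ⟨l, ⟨N', q, h1, h2, rfl⟩, h4⟩ := exists_lt_of_csInf_lt
    (s := {l | ∃ N q, IsCh ρ N q ∧ ChEq ρ p q ∧ l = len N q})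
    ⟨len N p, N, p, hN, ChEq.refl _, rfl⟩ (b := DC ρ p + ε) (by unfold DC; linarith)
  exact ⟨N', q, h1, h2, h4⟩

theorem DC_congr {p q : ℕ → M} (h : ChEq ρ p q) : DC ρ p = DC ρ q := by
  unfold DC
  congr 1
  ext l
  constructor
  · rintro ⟨N, s, h1, h2, h3⟩; exact ⟨N, s, h1, h.symm.trans h2, h3⟩
  · rintro ⟨N, s, h1, h2, h3⟩; exact ⟨N, s, h1, h.trans h2, h3⟩

theorem DC_cat_le {p q : ℕ → M} {N N' : ℕ} (hp : IsCh ρ N p) (hq : IsCh ρ N' q)
    (hpq : p N = q 0) : DC ρ (cat N p q) ≤ DC ρ p + DC ρ q := by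
  refine le_of_forall_pos_le_add fun ε hε => ?_
  obtain ⟨N₁, p₁, h1, h2, h3⟩ := exists_len_lt ⟨N, hp⟩ (half_pos hε)
  obtain ⟨N₂, q₁, h4, h5, h6⟩ := exists_len_lt ⟨N', hq⟩ (half_pos hε)
  have e1 : p₁ N₁ = q₁ 0 := by
    rw [← ChEq.end_eq h2 hp h1, ← ChEq.start h5, hpq]
  have := DC_le (isCh_cat h1 h4 e1) (cat_congr h2 h5 hp h1 hq hpq)
  rw [len_cat e1] at this
  linarith

theorem DC_rev_le {p : ℕ → M} {N : ℕ} (hp : IsCh ρ N p) : DC ρ (rev N p) ≤ DC ρ p := by
  refine le_of_forall_pos_le_add fun ε hε => ?_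
  obtain ⟨N₁, p₁, h1, h2, h3⟩ := exists_len_lt ⟨N, hp⟩ hε
  have := DC_le (isCh_rev h1) (rev_congr h2 hp h1)
  rw [len_rev] at this
  linarith

theorem DC_rev {p : ℕ → M} {N : ℕ} (hp : IsCh ρ N p) : DC ρ (rev N p) = DC ρ p := by
  refine le_antisymm (DC_rev_le hp) ?_
  have := DC_rev_le (isCh_rev hp)
  rwa [rev_rev_eq hp] at this

theorem DC_const (hρ : 0 ≤ ρ) (x : M) : DC ρ (fun _ => x) = 0 := by
  refine le_antisymm ?_ (DC_nonneg _)
  have hc : IsCh ρ 0 (fun _ : ℕ => x) := ⟨fun i => by simpa using hρ, fun i _ => rfl⟩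
  have := DC_le hc (ChEq.refl _)
  simpa [len] using this

end Crest.Agent.R244
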