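import Mathlib
import Crest.Agent.R244.CHCat

/-!
# R244 package B2, part 4 : local and global CN inequality for the length of classes
-/

set_option autoImplicit false
set_option linter.unusedSectionVars false

open Filter Topology Finset

namespace Crest.Agent.R244

variable {M : Type*} [MetricSpace M] {r ρ : ℝ}

/-- the one-step chain `y, z, z, …` -/
def stp (y z : M) : ℕ → M := fun i => if i = 0 then y else z

theorem stp_zero (y z : M) : stp y z 0 = y := rfl

theorem stp_pos (y z : M) {i : ℕ} (hi : 0 < i) : stp y z i = z := by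
  unfold stp; rw [if_neg (by omega)]

theorem isCh_stp {y z : M} (hyz : dist y z ≤ ρ) : IsCh ρ 1 (stp y z) where
  step i := by
    rcases Nat.eq_zero_or_pos i with rfl | hi
    · rw [stp_zero, stp_pos _ _ (by omega)]; exact hyz
    · rw [stp_pos _ _ hi, stp_pos _ _ (by omega), dist_self]; exact dist_nonneg.trans hyz
  const i hi := by rw [stp_pos _ _ (by omega), stp_pos _ _ (by omega)]

theorem sq_le_of_forall_eps {A B C X : ℝ}
    (h : ∀ ε > 0, X ^ 2 ≤ (A + ε) ^ 2 / 2 + (B + ε) ^ 2 / 2 - C) :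
    X ^ 2 ≤ A ^ 2 / 2 + B ^ 2 / 2 - C := by
  have ht : Tendsto (fun ε : ℝ => (A + ε) ^ 2 / 2 + (B + ε) ^ 2 / 2 - C) (𝓝[>] 0)
      (𝓝 ((A + 0) ^ 2 / 2 + (B + 0) ^ 2 / 2 - C)) := by
    apply Tendsto.mono_left _ nhdsWithin_le_nhds
    apply Continuous.tendsto
    fun_prop
  rw [add_zero, add_zero] at ht
  exact ge_of_tendsto ht (by filter_upwards [self_mem_nhdsWithin] with ε hε using h ε hε)

/-- **Local CN inequality** for the length of classes. -/
theorem DC_local_CN [CompactSpace M] (h : LocalCN M r) (hρ0 : 0 < ρ) (hρ : 3 * ρ < r)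
    {N : ℕ} {p : ℕ → M} (hp : IsCh ρ N p) {y z m : M} (hy : p N = y) (hyz : dist y z ≤ ρ)
    (hm : IsMid r y z m) :
    DC ρ (cat N p (stp y m)) ^ 2 ≤
      DC ρ p ^ 2 / 2 + DC ρ (cat N p (stp y z)) ^ 2 / 2 - dist y z ^ 2 / 4 := by
  subst hy
  set y := p N with hy
  have hyr : dist y z < r := by linarith
  have hym : dist y m ≤ ρ := by
    rw [hm.dist_left hyr]; linarith
  have hmz : dist m z = dist y z / 2 := hm.dist_right hyr
  refine sq_le_of_forall_eps fun ε hε => ?_
  -- competitors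
  obtain ⟨N₁, P₀, hP1, hP2, hP3⟩ := exists_len_lt ⟨N, hp⟩ hε
  have hpz : IsCh ρ (N + 1) (cat N p (stp y z)) := isCh_cat hp (isCh_stp hyz) rfl
  obtain ⟨N₂, Q₀, hQ1, hQ2, hQ3⟩ := exists_len_lt ⟨_, hpz⟩ hε
  have hPy : P₀ N₁ = y := (ChEq.end_eq hP2 hp hP1).symm
  have hP0z : IsCh ρ (N₁ + 1) (cat N₁ P₀ (stp y z)) := isCh_cat hP1 (isCh_stp hyz) hPy
  have hPQ : ChEq ρ (cat N₁ P₀ (stp y z)) Q₀ :=
    (cat_congr_left hP2 hp hP1 (isCh_stp hyz) rfl).symm.trans hQ2
  obtain ⟨N₀, hN₀⟩ := hPQ.exists_ladder ⟨_, hQ1⟩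
  set n := max N₀ (max (N₁ + 1) N₂) with hn
  have hn0 : N₀ ≤ n := le_max_left _ _
  have hn1 : N₁ + 1 ≤ n := le_trans (le_max_left _ _) (le_max_right _ _)
  have hn2 : N₂ ≤ n := le_trans (le_max_right _ _) (le_max_right _ _)
  obtain ⟨K, R, hR0, hRK, hR, hA⟩ := hN₀ n hn0
  -- end points
  have hQ0 : Q₀ 0 = p 0 :=
    (ChEq.start hQ2).symm.trans (cat_zero (show p N = stp y z 0 from rfl))
  have hQn : Q₀ n = z := by
    rw [hQ1.const n hn2, ← ChEq.end_eq hQ2 hpz hQ1, cat_of_ge _ _ (by omega),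
      stp_pos _ _ (by omega)]
  have hP00 : P₀ 0 = p 0 := (ChEq.start hP2).symm
  have hP0n : P₀ n = y := by rw [hP1.const n (by omega), hPy]
  -- the full ladder
  obtain ⟨S, hS, hSA, hS0⟩ := ladder h hρ0 hρ n (K + 1) (fun k => Nat.casesOn k P₀ R)
    (fun k hk => by
      cases k with
      | zero => exact hP1.mono (by omega)
      | succ k => exact (hR k (by omega)).1)
    (fun k hk i => by
      cases k with
      | zero =>
        show dist (P₀ i) (R 0 i) ≤ ρ
        rw [hR0]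
        rcases lt_or_ge i N₁ with hi | hi
        · rw [cat_of_lt _ _ hi, dist_self]; exact hρ0.le
        · rw [cat_of_ge _ _ hi, hP1.const i hi, hPy]
          rcases Nat.eq_zero_or_pos (i - N₁) with hi' | hi'
          · rw [hi', stp_zero, dist_self]; exact hρ0.le
          · rw [stp_pos _ _ hi']; exact hyz
      | succ k => exact hA k (by omega) i)
  obtain ⟨hSc, hSs, hSe, hSl, hSg⟩ := hS 0 (by omega)
  -- all `S (k+1)` coincide
  have hSk : ∀ k ≤ K, S (k + 1) 0 = p 0 ∧ S (k + 1) n = z := by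
    intro k hk
    have h1 := (hS (k + 1) (by omega)).2.1
    have h2 := (hS (k + 1) (by omega)).2.2.1
    have h3 := hR k hk
    refine ⟨?_, ?_⟩
    · rw [h1]; show R k 0 = p 0; rw [h3.2.1, hQ0]
    · rw [h2]; show R k n = z; rw [h3.2.2, hQn]
  have hall : ∀ k ≤ K, S (k + 1) = S 1 := by
    intro k hk
    induction k with
    | zero => rfl
    | succ k ih =>
      rw [← ih (by omega)]
      have a1 := hS (k + 1 + 1) (by omega)
      have a2 := hS (k + 1) (by omega)
      have e1 := hSk (k + 1) hk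
      have e2 := hSk k (by omega)
      exact (IsGeo.unique h a2.2.2.2.2 a1.2.2.2.2 a2.1 a1.1 hρ hρ0.le (hSA (k + 1) (by omega))
        (by rw [e1.1, e2.1]) (by rw [e1.2, e2.2])).symm
  -- names
  set P := S 0 with hPdef
  set Q := S 1 with hQdef
  have hQc : IsCh ρ n Q := (hS 1 (by omega)).1
  have hQg : IsGeo r n Q := (hS 1 (by omega)).2.2.2.2
  have hQl : len n Q ≤ len N₂ Q₀ := by
    rw [← hall K le_rfl]
    have h1 := (hS (K + 1) (by omega)).2.2.2.1
    refine h1.trans (le_of_eq ?_)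
    show len n (R K) = _
    rw [hRK, hQ1.len_eq hn2]
  have hPl : len n P ≤ len N₁ P₀ := by
    refine hSl.trans (le_of_eq ?_)
    show len n P₀ = _
    rw [hP1.len_eq (by omega)]
  have hPstart : P 0 = p 0 := by rw [hSs]; exact hP00
  have hPend : P n = y := by rw [hSe]; exact hP0n
  have hQstart : Q 0 = p 0 := (hSk 0 (by omega)).1
  have hQend : Q n = z := (hSk 0 (by omega)).2
  have hPQc : ∀ i, dist (P i) (Q i) ≤ ρ := hSA 0 (by omega)
  -- the midpoint chain
  set m' : ℕ → M := fun i => md h (P i) (Q i) with hm'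
  have hmid : ∀ i, IsMid r (P i) (Q i) (m' i) := fun i =>
    md_isMid h (by linarith [hPQc i])
  have hcross : ∀ i, dist (P i) (Q (i+1)) < r ∧ dist (P (i+1)) (Q i) < r := by
    intro i
    have a1 := hSc.step i
    have a2 := hQc.step i
    have a3 := hPQc i
    constructor
    · linarith [dist_triangle (P i) (Q i) (Q (i+1))]
    · have := dist_triangle (P (i+1)) (P i) (Q i)
      rw [dist_comm (P (i+1)) (P i)] at this
      linarith
  have hsq : ∀ i, dist (m' i) (m' (i+1)) ^ 2 ≤ dist (P i) (P (i+1)) ^ 2 / 2 +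
      dist (Q i) (Q (i+1)) ^ 2 / 2 - (dist (P (i+1)) (Q (i+1)) - dist (P i) (Q i)) ^ 2 / 4 := by
    intro i
    have a1 := hSc.step i
    have a2 := hQc.step i
    have a3 := hPQc i
    have a4 := hPQc (i+1)
    have := mid_dist_sq h (hmid i) (hmid (i+1)) (by linarith) (by linarith) (by linarith)
      (by linarith) (hcross i).1 (by rw [dist_comm]; exact (hcross i).2)
    have e : (dist (P i) (Q i) - dist (P (i+1)) (Q (i+1))) ^ 2 =
      (dist (P (i+1)) (Q (i+1)) - dist (P i) (Q i)) ^ 2 := by ring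
    rw [e] at this
    exact this
  have hm0 : m' 0 = p 0 := by
    have h1 := (hmid 0).dist_left (by linarith [hPQc 0])
    rw [hPstart, hQstart, dist_self] at h1
    have : dist (p 0) (m' 0) = 0 := by linarith
    exact (dist_eq_zero.1 this).symm
  have hmn : m' n = m := by
    have h1 := hmid n
    rw [hPend, hQend] at h1
    exact h1.unique hm hyr
  have hm'c : IsCh ρ n m' := by
    refine ⟨fun i => ?_, fun i hi => ?_⟩
    · have a1 : dist (P i) (P (i+1)) ^ 2 ≤ ρ ^ 2 := pow_le_pow_left₀ dist_nonneg (hSc.step i) 2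
      have a2 : dist (Q i) (Q (i+1)) ^ 2 ≤ ρ ^ 2 := pow_le_pow_left₀ dist_nonneg (hQc.step i) 2
      have h4 : dist (m' i) (m' (i+1)) ^ 2 ≤ ρ ^ 2 := by
        nlinarith [hsq i, sq_nonneg (dist (P (i+1)) (Q (i+1)) - dist (P i) (Q i))]
      exact le_of_sq_le_sq h4 hρ0.le
    · simp only [hm']
      rw [hSc.const i hi, hQc.const i hi]
  -- its class
  have hclass : ChEq ρ (cat N p (stp y m)) m' := by
    have e1 : ChEq ρ p P := hP2.trans hS0
    refine (cat_congr_left e1 hp hSc (isCh_stp hym) rfl).trans (ChAdj.chEq ?_)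
    refine ⟨⟨_, isCh_cat hSc (isCh_stp hym) hPend⟩, ⟨n, hm'c⟩, fun i => ?_, ?_,
      ⟨n + 1, fun i hi => ?_⟩⟩
    · rcases lt_or_ge i n with hi | hi
      · rw [cat_of_lt _ _ hi, (hmid i).dist_left (by linarith [hPQc i])]
        linarith [hPQc i]
      · rw [cat_of_ge _ _ hi, hm'c.const i hi, hmn]
        rcases Nat.eq_zero_or_pos (i - n) with hi' | hi'
        · rw [hi', stp_zero]; exact hym
        · rw [stp_pos _ _ hi', dist_self]; exact hρ0.le
    · rw [cat_zero hPend, hPstart, hm0]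
    · rw [cat_of_ge _ _ (by omega), stp_pos _ _ (by omega), hm'c.const i (by omega), hmn]
  -- energy estimate
  have hE : nrg n m' ≤ nrg n P / 2 + nrg n Q / 2 -
      (∑ i ∈ range n, (dist (P (i+1)) (Q (i+1)) - dist (P i) (Q i)) ^ 2) / 4 := by
    unfold nrg
    rw [Finset.sum_div, Finset.sum_div, Finset.sum_div, ← Finset.sum_add_distrib,
      ← Finset.sum_sub_distrib]
    exact Finset.sum_le_sum fun i _ => hsq i
  have hCS : dist y z ^ 2 ≤
      n * ∑ i ∈ range n, (dist (P (i+1)) (Q (i+1)) - dist (P i) (Q i)) ^ 2 := by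
    have h1 := sq_sum_le_card_mul_sum_sq (s := range n)
      (f := fun i => dist (P (i+1)) (Q (i+1)) - dist (P i) (Q i))
    rw [Finset.sum_range_sub (fun i => dist (P i) (Q i)), Finset.card_range, hPend, hQend,
      hPstart, hQstart, dist_self, sub_zero] at h1
    exact h1
  have hCS2 : len n m' ^ 2 ≤ n * nrg n m' := by
    have h1 := sq_sum_le_card_mul_sum_sq (s := range n)
      (f := fun i => dist (m' i) (m' (i+1)))
    rw [Finset.card_range] at h1
    exact h1
  have hPE := hSg.nrg_eq hSc hρ hρ0.le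
  have hQE := hQg.nrg_eq hQc hρ hρ0.le
  have hD1 : DC ρ (cat N p (stp y m)) ≤ len n m' := DC_le hm'c hclass
  have hD2 : DC ρ (cat N p (stp y m)) ^ 2 ≤ len n m' ^ 2 :=
    pow_le_pow_left₀ (DC_nonneg _) hD1 2
  have hP5 : len n P ^ 2 ≤ (DC ρ p + ε) ^ 2 :=
    pow_le_pow_left₀ (len_nonneg _ _) (hPl.trans hP3.le) 2
  have hQ5 : len n Q ^ 2 ≤ (DC ρ (cat N p (stp y z)) + ε) ^ 2 :=
    pow_le_pow_left₀ (len_nonneg _ _) (hQl.trans hQ3.le) 2
  have hn' : (0 : ℝ) ≤ n := Nat.cast_nonneg n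
  have hE' := mul_le_mul_of_nonneg_left hE hn'
  nlinarith

/-- truncation of a chain -/
def trunc (j : ℕ) (p : ℕ → M) : ℕ → M := fun i => p (min i j)

theorem isCh_trunc {N : ℕ} {p : ℕ → M} (hp : IsCh ρ N p) (j : ℕ) : IsCh ρ j (trunc j p) where
  step i := by
    unfold trunc
    rcases lt_or_ge i j with hi | hi
    · rw [min_eq_left hi.le, min_eq_left (by omega)]; exact hp.step i
    · rw [min_eq_right hi, min_eq_right (by omega), dist_self]; exact hp.nonneg
  const i hi := by
    unfold trunc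
    rw [min_eq_right hi, min_self]

theorem IsCh.step_le_of_geo {N : ℕ} {p : ℕ → M} (hp : IsCh ρ N p) (hg : IsGeo r N p)
    (hρ : 3 * ρ < r) (hρ0 : 0 ≤ ρ) {s : ℝ} (hs : dist (p 0) (p 1) ≤ s) (hs0 : 0 ≤ s) :
    IsCh s N p where
  step i := by
    rcases lt_or_ge i N with hi | hi
    · rw [hg.step_eq hp hρ hρ0 hi]; exact hs
    · rw [hp.const i hi, hp.const (i+1) (by omega), dist_self]; exact hs0
  const := hp.const

/-- **Global CN inequality** with an explicit midpoint chain. -/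
theorem exists_midchain [CompactSpace M] (h : LocalCN M r) (hρ0 : 0 < ρ) (hρ : 3 * ρ < r)
    {Na : ℕ} {a : ℕ → M} (ha : IsCh ρ Na a) {δ : ℝ} (hδ : 0 < δ) :
    ∃ (n : ℕ) (w : ℕ → M), IsCh δ n w ∧ IsCh ρ n w ∧ w 0 = a 0 ∧
      ∀ (Nb : ℕ) (b : ℕ → M), IsCh ρ Nb b → b Nb = a 0 →
        DC ρ (cat Nb b w) ^ 2 ≤
          DC ρ b ^ 2 / 2 + DC ρ (cat Nb b a) ^ 2 / 2 - DC ρ a ^ 2 / 4 := by
  set l := len Na a with hl
  have hl0 : 0 ≤ l := len_nonneg _ _
  set μ := min δ (ρ / 2) with hμ
  have hμ0 : 0 < μ := lt_min hδ (by linarith)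
  obtain ⟨n₀, hn₀⟩ := exists_nat_gt (l / μ)
  set n := max n₀ (max Na 1) with hn
  have hnNa : Na ≤ n := le_trans (le_max_left _ _) (le_max_right _ _)
  have hn1 : 1 ≤ n := le_trans (le_max_right _ _) (le_max_right _ _)
  have hnn : (n₀ : ℝ) ≤ n := by exact_mod_cast le_max_left _ _
  have hnl : l < n * μ := by
    rw [div_lt_iff₀ hμ0] at hn₀
    nlinarith
  obtain ⟨R, hR, -, hR0⟩ := ladder h hρ0 hρ (2 * n) 0 (fun _ => a)
    (fun k _ => ha.mono (by omega)) (fun k hk => absurd hk (Nat.not_lt_zero k))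
  obtain ⟨hP, hPs, hPe, hPl, hPg⟩ := hR 0 le_rfl
  set P := R 0 with hPdef
  set s := dist (P 0) (P 1) with hs
  have hs0 : 0 ≤ s := dist_nonneg
  have hlenP : len (2 * n) P = (2 * n : ℕ) * s := hPg.len_eq hP hρ hρ0.le
  have hlenP' : len (2 * n) P ≤ l := by
    refine hPl.trans (le_of_eq ?_)
    exact ha.len_eq (by omega)
  have hnp : (0 : ℝ) < n := by exact_mod_cast hn1
  have hsμ : s ≤ μ := by
    rw [hlenP] at hlenP'
    push_cast at hlenP'
    by_contra hcon
    push Not at hcon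
    nlinarith [mul_lt_mul_of_pos_left hcon hnp]
  have hPδ : IsCh δ (2 * n) P :=
    hP.step_le_of_geo hPg hρ hρ0.le (hsμ.trans (min_le_left _ _)) hδ.le
  refine ⟨n, trunc n P, isCh_trunc hPδ n, isCh_trunc hP n, by
    unfold trunc; rw [Nat.zero_min]; exact hPs, fun Nb b hb hba => ?_⟩
  set F : ℕ → ℝ := fun j => DC ρ (cat Nb b (trunc j P)) ^ 2 with hF
  have hP0 : P 0 = a 0 := hPs
  have hbt : ∀ j, b Nb = trunc j P 0 := fun j => by
    unfold trunc; rw [Nat.zero_min, hba, hP0]
  have hstep : ∀ j, 0 < j → j < 2 * n → F j ≤ (F (j - 1) + F (j + 1)) / 2 - s ^ 2 := by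
    intro j hj0 hjn
    have hm := hPg j hj0 hjn
    have hd2 := hP.dist_two hj0
    have hlt : dist (P (j - 1)) (P (j + 1)) < r := by linarith
    have hd : dist (P (j - 1)) (P (j + 1)) = 2 * s := by
      have h1 := hm.dist_left hlt
      have h2 := hPg.step_eq hP hρ hρ0.le (i := j - 1) (by omega)
      rw [show j - 1 + 1 = j by omega] at h2
      rw [h2] at h1
      linarith
    have hdρ : dist (P (j - 1)) (P (j + 1)) ≤ ρ := by
      rw [hd]
      have := hsμ.trans (min_le_right _ _)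
      linarith
    have hpc : IsCh ρ (Nb + (j - 1)) (cat Nb b (trunc (j - 1) P)) :=
      isCh_cat hb (isCh_trunc hP (j - 1)) (hbt _)
    have hpe : cat Nb b (trunc (j - 1) P) (Nb + (j - 1)) = P (j - 1) := by
      rw [cat_of_ge _ _ (by omega)]
      unfold trunc
      rw [show Nb + (j - 1) - Nb = j - 1 by omega, min_self]
    have key := DC_local_CN h hρ0 hρ hpc hpe hdρ hm
    have e1 : cat (Nb + (j - 1)) (cat Nb b (trunc (j - 1) P)) (stp (P (j - 1)) (P j)) =
        cat Nb b (trunc j P) := by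
      funext i
      rcases lt_or_ge i (Nb + (j - 1)) with hi | hi
      · rw [cat_of_lt _ _ hi]
        rcases lt_or_ge i Nb with hi' | hi'
        · rw [cat_of_lt _ _ hi', cat_of_lt _ _ hi']
        · rw [cat_of_ge _ _ hi', cat_of_ge _ _ hi']
          unfold trunc
          rw [min_eq_left (by omega), min_eq_left (by omega)]
      · rw [cat_of_ge _ _ hi, cat_of_ge (N := Nb) b _ (by omega)]
        unfold trunc
        rcases Nat.eq_zero_or_pos (i - (Nb + (j - 1))) with hi' | hi'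
        · rw [hi', stp_zero, show min (i - Nb) j = j - 1 by omega]
        · rw [stp_pos _ _ hi', show min (i - Nb) j = j by omega]
    have e2 : ChEq ρ (cat (Nb + (j - 1)) (cat Nb b (trunc (j - 1) P))
        (stp (P (j - 1)) (P (j + 1)))) (cat Nb b (trunc (j + 1) P)) := by
      refine ChAdj.chEq ⟨⟨_, isCh_cat hpc (isCh_stp hdρ) hpe⟩,
        ⟨_, isCh_cat hb (isCh_trunc hP _) (hbt _)⟩, fun i => ?_, ?_,
        ⟨Nb + (j + 1), fun i hi => ?_⟩⟩
      · rcases lt_or_ge i (Nb + (j - 1)) with hi | hi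
        · rw [cat_of_lt _ _ hi]
          rcases lt_or_ge i Nb with hi' | hi'
          · rw [cat_of_lt _ _ hi', cat_of_lt _ _ hi', dist_self]; exact hρ0.le
          · rw [cat_of_ge _ _ hi', cat_of_ge _ _ hi']
            unfold trunc
            rw [min_eq_left (by omega), min_eq_left (by omega), dist_self]; exact hρ0.le
        · rw [cat_of_ge _ _ hi, cat_of_ge (N := Nb) b _ (by omega)]
          unfold trunc
          rcases Nat.eq_zero_or_pos (i - (Nb + (j - 1))) with hi' | hi'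
          · rw [hi', stp_zero, show min (i - Nb) (j + 1) = j - 1 by omega, dist_self]
            exact hρ0.le
          · rw [stp_pos _ _ hi']
            rcases lt_or_ge (i - Nb) (j + 1) with hi2 | hi2
            · rw [show min (i - Nb) (j + 1) = j by omega, dist_comm]
              exact hP.step j
            · rw [min_eq_right hi2, dist_self]; exact hρ0.le
      · rw [cat_zero (by rw [hpe]; rfl), cat_zero (hbt _), cat_zero (hbt _)]
      · rw [cat_of_ge _ _ (by omega), cat_of_ge (N := Nb) b _ (by omega),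
          stp_pos _ _ (by omega)]
        unfold trunc
        rw [min_eq_right (by omega)]
    rw [e1, DC_congr e2, hd] at key
    simp only [hF]
    nlinarith
  have hconv := discrete_convex (N := 2 * n) (f := fun j => F j - s ^ 2 * (j : ℝ) ^ 2) (j := n)
    (by
      intro j hj0 hjn
      have h1 := hstep j hj0 hjn
      have h2 : ((j - 1 : ℕ) : ℝ) = (j : ℝ) - 1 := by
        rw [Nat.cast_sub (by omega)]; simp
      rw [h2]
      push_cast
      nlinarith)
    (by omega)
  push_cast at hconv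
  have hF0 : F 0 = DC ρ b ^ 2 := by
    have : cat Nb b (trunc 0 P) = b := by
      funext i
      rcases lt_or_ge i Nb with hi | hi
      · rw [cat_of_lt _ _ hi]
      · rw [cat_of_ge _ _ hi]
        unfold trunc
        rw [Nat.min_zero, hb.const i hi, hba, hP0]
    simp only [hF, this]
  have hFN : F (2 * n) = DC ρ (cat Nb b a) ^ 2 := by
    have : trunc (2 * n) P = P := by
      funext i
      unfold trunc
      rcases le_total i (2 * n) with hi | hi
      · rw [min_eq_left hi]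
      · rw [min_eq_right hi, hP.const i hi]
    simp only [hF, this]
    rw [DC_congr (cat_congr_right hR0 hb ha hba)]
  have hDa : DC ρ a ^ 2 ≤ (2 * n * s) ^ 2 := by
    have h1 : DC ρ a ≤ len (2 * n) P := DC_le hP hR0
    rw [hlenP] at h1
    push_cast at h1
    exact pow_le_pow_left₀ (DC_nonneg _) h1 2
  rw [hF0, hFN] at hconv
  have hfin : F n ≤ DC ρ b ^ 2 / 2 + DC ρ (cat Nb b a) ^ 2 / 2 - DC ρ a ^ 2 / 4 := by
    by_contra hcon
    push Not at hcon
    nlinarith [mul_lt_mul_of_pos_left hcon hnp, mul_le_mul_of_nonneg_left hDa hnp.le]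
  exact hfin

end Crest.Agent.R244
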