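import Mathlib
import Crest.Agent.R244.CHDefs

/-!
# R244 package B2, part 5 : sampling of continuous paths (C1-C5)
-/

set_option autoImplicit false

open Filter Topology unitInterval

namespace Crest.Agent.R244

variable {M : Type*} [MetricSpace M]

/-- the value of a homotopy at real parameters -/
noncomputable def hext {x y : M} {γ γ' : Path x y} (H : γ.Homotopy γ') (s t : ℝ) : M :=
  H (Set.projIcc 0 1 zero_le_one s, Set.projIcc 0 1 zero_le_one t)

theorem hext_zero {x y : M} {γ γ' : Path x y} (H : γ.Homotopy γ') (t : ℝ) :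
    hext H 0 t = γ.extend t := by
  unfold hext
  rw [Set.projIcc_left]
  exact H.apply_zero _

theorem hext_one {x y : M} {γ γ' : Path x y} (H : γ.Homotopy γ') (t : ℝ) :
    hext H 1 t = γ'.extend t := by
  unfold hext
  rw [Set.projIcc_right]
  exact H.apply_one _

theorem hext_source {x y : M} {γ γ' : Path x y} (H : γ.Homotopy γ') (s : ℝ) {t : ℝ}
    (ht : t ≤ 0) : hext H s t = x := by
  unfold hext
  rw [Set.projIcc_of_le_left _ ht]
  exact H.source _

theorem hext_target {x y : M} {γ γ' : Path x y} (H : γ.Homotopy γ') (s : ℝ) {t : ℝ}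
    (ht : 1 ≤ t) : hext H s t = y := by
  unfold hext
  rw [Set.projIcc_of_right_le _ ht]
  exact H.target _

theorem hext_modulus {x y : M} {γ γ' : Path x y} (H : γ.Homotopy γ') {ρ : ℝ} (hρ : 0 < ρ) :
    ∃ η > 0, ∀ s t s' t' : ℝ, |s - s'| ≤ η → |t - t'| ≤ η →
      dist (hext H s t) (hext H s' t') ≤ ρ := by
  have hu : UniformContinuous (fun p : I × I => H p) :=
    CompactSpace.uniformContinuous_of_continuous H.continuous
  obtain ⟨δ, hδ, h⟩ := Metric.uniformContinuous_iff.1 hu ρ hρ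
  refine ⟨δ / 2, half_pos hδ, fun s t s' t' hs ht => ?_⟩
  apply le_of_lt
  apply h
  rw [Prod.dist_eq]
  have hl := LipschitzWith.projIcc (a := (0:ℝ)) (b := 1) zero_le_one
  have h1 := hl.dist_le_mul s s'
  have h2 := hl.dist_le_mul t t'
  rw [Real.dist_eq] at h1 h2
  simp only [NNReal.coe_one, one_mul] at h1 h2
  apply max_lt
  · exact lt_of_le_of_lt (h1.trans hs) (by linarith)
  · exact lt_of_le_of_lt (h2.trans ht) (by linarith)

/-- clipped sampling times -/
noncomputable def tm (N : ℕ) (i : ℕ) : ℝ := min ((i : ℝ) / N) 1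

theorem tm_zero (N : ℕ) : tm N 0 = 0 := by unfold tm; simp

theorem tm_nonneg (N i : ℕ) : 0 ≤ tm N i := by unfold tm; positivity

theorem tm_le_one (N i : ℕ) : tm N i ≤ 1 := min_le_right _ _

theorem tm_of_ge {N i : ℕ} (hN : 0 < N) (hi : N ≤ i) : tm N i = 1 := by
  unfold tm
  apply min_eq_right
  rw [le_div_iff₀ (by exact_mod_cast hN)]
  simpa using (by exact_mod_cast hi : (N : ℝ) ≤ i)

theorem tm_step (N i : ℕ) : |tm N i - tm N (i + 1)| ≤ 1 / N := by
  unfold tm
  have h1 : |min ((i : ℝ) / N) 1 - min (((i + 1 : ℕ) : ℝ) / N) 1| ≤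
      |(i : ℝ) / N - ((i + 1 : ℕ) : ℝ) / N| := by
    have := abs_min_sub_min_le_max ((i : ℝ) / N) 1 (((i + 1 : ℕ) : ℝ) / N) 1
    rw [sub_self, abs_zero] at this
    exact this.trans (max_le le_rfl (abs_nonneg _))
  refine h1.trans (le_of_eq ?_)
  rw [← sub_div]
  push_cast
  rw [show (i : ℝ) - (i + 1) = -1 by ring, neg_div, abs_neg, abs_of_nonneg (by positivity)]

theorem smp_eq_tm {x y : M} (γ : Path x y) (N i : ℕ) : smp γ N i = γ.extend (tm N i) := by
  unfold smp tm
  rcases le_total ((i : ℝ) / N) 1 with h | h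
  · rw [min_eq_left h]
  · rw [min_eq_right h, γ.extend_of_one_le h, γ.extend_one]

/-- the sampled rows of a homotopy are chains, consecutive rows are adjacent -/
theorem hext_chEq {x y : M} {γ γ' : Path x y} (H : γ.Homotopy γ') {ρ η : ℝ}
    (hη : 0 < η)
    (hH : ∀ s t s' t' : ℝ, |s - s'| ≤ η → |t - t'| ≤ η → dist (hext H s t) (hext H s' t') ≤ ρ)
    {τ τ' : ℕ → ℝ} {N : ℕ}
    (h0 : τ 0 = 0) (h0' : τ' 0 = 0) (hb : ∀ i, 0 ≤ τ i ∧ τ i ≤ 1) (hb' : ∀ i, 0 ≤ τ' i ∧ τ' i ≤ 1)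
    (hN : ∀ i, N ≤ i → τ i = 1) (hN' : ∀ i, N ≤ i → τ' i = 1)
    (hs : ∀ i, |τ i - τ (i + 1)| ≤ η) (hs' : ∀ i, |τ' i - τ' (i + 1)| ≤ η) :
    ChEq ρ (fun i => γ.extend (τ i)) (fun i => γ'.extend (τ' i)) := by
  obtain ⟨K, hK⟩ := exists_nat_gt (1 / η)
  have hKpos : (0 : ℝ) < K := lt_trans (by positivity) hK
  have hKη : 1 / (K : ℝ) ≤ η := by
    rw [div_le_iff₀ hKpos]
    rw [div_lt_iff₀ hη] at hK
    linarith
  set row : ℕ → ℕ → M := fun k i =>
    hext H ((k : ℝ) / K) ((1 - (k : ℝ) / K) * τ i + (k : ℝ) / K * τ' i) with hrow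
  have hrowc : ∀ k ≤ K, IsCh ρ N (row k) := by
    intro k hk
    have hk0 : 0 ≤ (k : ℝ) / K := by positivity
    have hk1 : (k : ℝ) / K ≤ 1 := by
      rw [div_le_one hKpos]; exact_mod_cast hk
    refine ⟨fun i => ?_, fun i hi => ?_⟩
    · apply hH
      · simpa using hη.le
      · have e : (1 - (k : ℝ) / K) * τ i + (k : ℝ) / K * τ' i -
            ((1 - (k : ℝ) / K) * τ (i + 1) + (k : ℝ) / K * τ' (i + 1)) =
            (1 - (k : ℝ) / K) * (τ i - τ (i + 1)) + (k : ℝ) / K * (τ' i - τ' (i + 1)) := by ring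
        rw [e]
        refine (abs_add_le _ _).trans ?_
        rw [abs_mul, abs_mul, abs_of_nonneg hk0, abs_of_nonneg (by linarith : 0 ≤ 1 - (k : ℝ) / K)]
        have a1 := mul_le_mul_of_nonneg_left (hs i) (by linarith : 0 ≤ 1 - (k : ℝ) / K)
        have a2 := mul_le_mul_of_nonneg_left (hs' i) hk0
        linarith
    · simp only [hrow]
      rw [hN i hi, hN' i hi, hN N le_rfl, hN' N le_rfl]
  have hstart : ∀ k, row k 0 = x := by
    intro k
    simp only [hrow]
    rw [h0, h0']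
    exact hext_source H _ (by simp)
  have hend : ∀ k i, N ≤ i → row k i = y := by
    intro k i hi
    simp only [hrow]
    rw [hN i hi, hN' i hi]
    exact hext_target H _ (by linarith)
  have hadj : ∀ k < K, ChAdj ρ (row k) (row (k + 1)) := by
    intro k hk
    refine ⟨⟨N, hrowc k hk.le⟩, ⟨N, hrowc (k + 1) hk⟩, fun i => ?_, ?_, ⟨N, fun i hi => ?_⟩⟩
    · have hd : (k : ℝ) / K - ((k + 1 : ℕ) : ℝ) / K = - (1 / K) := by
        push_cast; ring
      apply hH
      · rw [hd, abs_neg, abs_of_nonneg (by positivity)]; exact hKη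
      · have e : (1 - (k : ℝ) / K) * τ i + (k : ℝ) / K * τ' i -
            ((1 - ((k + 1 : ℕ) : ℝ) / K) * τ i + ((k + 1 : ℕ) : ℝ) / K * τ' i) =
            (1 / K) * (τ i - τ' i) := by
          push_cast; ring
        rw [e, abs_mul, abs_of_nonneg (by positivity : (0 : ℝ) ≤ 1 / K)]
        have : |τ i - τ' i| ≤ 1 := by
          rw [abs_le]; constructor <;> linarith [(hb i).1, (hb i).2, (hb' i).1, (hb' i).2]
        calc 1 / (K : ℝ) * |τ i - τ' i| ≤ 1 / K * 1 :=
              mul_le_mul_of_nonneg_left this (by positivity)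
          _ ≤ η := by rw [mul_one]; exact hKη
    · rw [hstart, hstart]
    · rw [hend k i hi, hend (k + 1) i hi]
  have hchain : ∀ k ≤ K, ChEq ρ (row 0) (row k) := by
    intro k hk
    induction k with
    | zero => exact ChEq.refl _
    | succ k ih => exact (ih (by omega)).trans (hadj k (by omega)).chEq
  have e0 : row 0 = fun i => γ.extend (τ i) := by
    funext i
    simp only [hrow]
    simp [hext_zero]
  have eK : row K = fun i => γ'.extend (τ' i) := by
    funext i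
    simp only [hrow]
    rw [div_self hKpos.ne']
    simp [hext_one]
  rw [← e0, ← eK]
  exact hchain K le_rfl

/-- (C1) fine samples are chains -/
theorem smp_isCh {x y : M} (γ : Path x y) {ρ : ℝ} (hρ : 0 < ρ) :
    ∃ N₀ : ℕ, 0 < N₀ ∧ ∀ N ≥ N₀, IsCh ρ N (smp γ N) := by
  obtain ⟨η, hη, hH⟩ := hext_modulus (Path.Homotopy.refl γ) hρ
  obtain ⟨N₀, hN₀⟩ := exists_nat_gt (1 / η)
  have hpos : (0 : ℝ) < N₀ := lt_trans (by positivity) hN₀
  refine ⟨N₀, by exact_mod_cast hpos, fun N hN => ⟨fun i => ?_, fun i hi => ?_⟩⟩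
  · rw [smp_eq_tm, smp_eq_tm]
    have := hH 0 (tm N i) 0 (tm N (i + 1)) (by simpa using hη.le) ?_
    · rwa [hext_zero, hext_zero] at this
    · refine (tm_step N i).trans ?_
      have hNN : (N₀ : ℝ) ≤ N := by exact_mod_cast hN
      rw [div_le_iff₀ (by linarith)]
      rw [div_lt_iff₀ hη] at hN₀
      nlinarith
  · have hN0 : 0 < N := lt_of_lt_of_le (by exact_mod_cast hpos) hN
    rw [smp_eq_tm, smp_eq_tm, tm_of_ge hN0 hi, tm_of_ge hN0 le_rfl]

/-- (C3) homotopy invariance -/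
theorem smp_homotopic {x y : M} {γ γ' : Path x y} (h : γ.Homotopic γ') {ρ : ℝ} (hρ : 0 < ρ) :
    ∃ N₀ : ℕ, 0 < N₀ ∧ ∀ N ≥ N₀, ∀ N' ≥ N₀, ChEq ρ (smp γ N) (smp γ' N') := by
  obtain ⟨H⟩ := h
  obtain ⟨η, hη, hH⟩ := hext_modulus H hρ
  obtain ⟨N₀, hN₀⟩ := exists_nat_gt (1 / η)
  have hpos : (0 : ℝ) < N₀ := lt_trans (by positivity) hN₀
  have hposN : 0 < N₀ := by exact_mod_cast hpos
  refine ⟨N₀, hposN, fun N hN N' hN' => ?_⟩
  have hstep : ∀ N ≥ N₀, ∀ i, |tm N i - tm N (i + 1)| ≤ η := by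
    intro N hN i
    refine (tm_step N i).trans ?_
    have hNN : (N₀ : ℝ) ≤ N := by exact_mod_cast hN
    rw [div_le_iff₀ (by linarith)]
    rw [div_lt_iff₀ hη] at hN₀
    nlinarith
  have key := hext_chEq H hη hH (τ := tm N) (τ' := tm N') (N := max N N') (tm_zero N)
    (tm_zero N') (fun i => ⟨tm_nonneg _ _, tm_le_one _ _⟩)
    (fun i => ⟨tm_nonneg _ _, tm_le_one _ _⟩)
    (fun i hi => tm_of_ge (by omega) (le_trans (le_max_left _ _) hi))
    (fun i hi => tm_of_ge (by omega) (le_trans (le_max_right _ _) hi)) (hstep N hN)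
    (hstep N' hN')
  have e1 : smp γ N = fun i => γ.extend (tm N i) := by funext i; exact smp_eq_tm γ N i
  have e2 : smp γ' N' = fun i => γ'.extend (tm N' i) := by funext i; exact smp_eq_tm γ' N' i
  rw [e1, e2]
  exact key

/-- (C2) all fine samples are equivalent -/
theorem smp_chEq {x y : M} (γ : Path x y) {ρ : ℝ} (hρ : 0 < ρ) :
    ∃ N₀ : ℕ, 0 < N₀ ∧ ∀ N ≥ N₀, ∀ N' ≥ N₀, ChEq ρ (smp γ N) (smp γ N') :=
  smp_homotopic (Path.Homotopic.refl γ) hρ

/-- (C4) -/
theorem smp_trans {x y z : M} (γ : Path x y) (γ' : Path y z) {N : ℕ} (hN : 0 < N) :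
    smp (γ.trans γ') (2 * N) = cat N (smp γ N) (smp γ' N) := by
  have hp : (0 : ℝ) < N := by exact_mod_cast hN
  funext i
  unfold smp cat
  rcases lt_or_ge i N with hi | hi
  · rw [if_pos hi]
    have h1 : ((i : ℝ) / (2 * N : ℕ)) ≤ 1 / 2 := by
      push_cast
      have : (i : ℝ) < N := by exact_mod_cast hi
      rw [div_le_div_iff₀ (by positivity) (by norm_num)]
      linarith
    rw [Path.extend_trans_of_le_half _ _ h1]
    congr 1
    push_cast
    field_simp
  · rw [if_neg (by omega)]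
    have h1 : 1 / 2 ≤ ((i : ℝ) / (2 * N : ℕ)) := by
      push_cast
      have : (N : ℝ) ≤ i := by exact_mod_cast hi
      rw [div_le_div_iff₀ (by norm_num) (by positivity)]
      linarith
    rw [Path.extend_trans_of_half_le _ _ h1]
    congr 1
    rw [Nat.cast_sub hi]
    push_cast
    field_simp

/-- (C5) -/
theorem smp_symm {x y : M} (γ : Path x y) {N : ℕ} (hN : 0 < N) :
    smp γ.symm N = rev N (smp γ N) := by
  have hp : (0 : ℝ) < N := by exact_mod_cast hN
  funext i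
  unfold smp rev
  rw [Path.extend_symm_apply]
  rcases le_or_gt i N with hi | hi
  · congr 1
    rw [Nat.cast_sub hi]
    field_simp
  · rw [show N - i = 0 by omega]
    have : 1 - (i : ℝ) / N ≤ 0 := by
      have : (N : ℝ) < i := by exact_mod_cast hi
      rw [sub_nonpos, le_div_iff₀ hp]
      linarith
    rw [γ.extend_of_le_zero this]
    simp

end Crest.Agent.R244
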