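import Mathlib
import Crest.Agent.R244.CHDefs
import Crest.Agent.R244.CHPath

/-!
# R244 package B2, (E1) faithfulness and (E2) realization of chains by continuous paths
-/

set_option autoImplicit false

open Filter Topology unitInterval

namespace Crest.Agent.R244

variable {M : Type*} [MetricSpace M]

namespace Hol

local notation "Q" => Path.Homotopic.Quotient

/-- `c i` is the class of "the" small path following `p 0, …, p i`. -/
structure IsHol (ε : ℝ) (p : ℕ → M) (c : ∀ i, Q (p 0) (p i)) : Prop where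
  zero : c 0 = Path.Homotopic.Quotient.refl (p 0)
  succ : ∀ i, ∃ s : Path (p i) (p (i + 1)), (∀ t, dist (s t) (p i) < ε) ∧
    c (i + 1) = (c i).trans (Path.Homotopic.Quotient.mk s)

/-- uniform simple connectivity at scale `ε₀` -/
def SC (M : Type*) [MetricSpace M] (ε₀ : ℝ) : Prop :=
  ∀ (x a b : M) (γ γ' : Path a b), (∀ t, dist (γ t) x < ε₀) →
    (∀ t, dist (γ' t) x < ε₀) → γ.Homotopic γ'

/-- existence of paths of size `ε` between `δ`-close points -/
def PC (M : Type*) [MetricSpace M] (ε δ : ℝ) : Prop :=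
  ∀ a b : M, dist a b < δ → ∃ γ : Path a b, ∀ t, dist (γ t) a < ε

theorem exists_isHol {ε δ : ℝ} (hPC : PC M ε δ) (p : ℕ → M)
    (hp : ∀ i, dist (p i) (p (i + 1)) < δ) : ∃ c, IsHol ε p c := by
  choose s hs using fun i => hPC (p i) (p (i + 1)) (hp i)
  let c : ∀ i, Q (p 0) (p i) := fun i =>
    Nat.rec (motive := fun i => Q (p 0) (p i)) (Path.Homotopic.Quotient.refl (p 0))
      (fun i ci => ci.trans (Path.Homotopic.Quotient.mk (s i))) i
  exact ⟨c, rfl, fun i => ⟨s i, hs i, rfl⟩⟩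

theorem IsHol.unique {ε ε₀ : ℝ} (hSC : SC M ε₀) (hε : ε ≤ ε₀) {p : ℕ → M}
    {c d : ∀ i, Q (p 0) (p i)} (hc : IsHol ε p c) (hd : IsHol ε p d) (i : ℕ) : c i = d i := by
  induction i with
  | zero => rw [hc.zero, hd.zero]
  | succ i ih =>
    obtain ⟨s, hs, hs'⟩ := hc.succ i
    obtain ⟨s', hs1, hs1'⟩ := hd.succ i
    rw [hs', hs1', ih]
    congr 1
    exact Path.Homotopic.Quotient.eq.2 (hSC (p i) _ _ s s' (fun t => (hs t).trans_le hε)
      (fun t => (hs1 t).trans_le hε))

theorem hol_adj {ε ε₀ ρ : ℝ} (hSC : SC M ε₀) (hε : ε + ρ ≤ ε₀) (hρ : 0 ≤ ρ)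
    {p q : ℕ → M} (hp : ∀ i, dist (p i) (p (i + 1)) ≤ ρ) (hpq : ∀ i, dist (p i) (q i) ≤ ρ)
    {c : ∀ i, Q (p 0) (p i)} {d : ∀ i, Q (q 0) (q i)} (hc : IsHol ε p c) (hd : IsHol ε q d)
    (u : ∀ i, Path (p i) (q i)) (hu : ∀ i t, dist (u i t) (p i) < ε) (i : ℕ) :
    (c i).trans (Path.Homotopic.Quotient.mk (u i)) = (Path.Homotopic.Quotient.mk (u 0)).trans (d i) := by
  induction i with
  | zero => rw [hc.zero, hd.zero, Path.Homotopic.Quotient.refl_trans,
      Path.Homotopic.Quotient.trans_refl]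
  | succ i ih =>
    obtain ⟨s, hs, hs'⟩ := hc.succ i
    obtain ⟨s', hs1, hs1'⟩ := hd.succ i
    have key : (Path.Homotopic.Quotient.mk s).trans (Path.Homotopic.Quotient.mk (u (i + 1))) =
        (Path.Homotopic.Quotient.mk (u i)).trans (Path.Homotopic.Quotient.mk s') := by
      rw [← Path.Homotopic.Quotient.mk_trans, ← Path.Homotopic.Quotient.mk_trans]
      apply Path.Homotopic.Quotient.eq.2
      apply hSC (p i)
      · intro t
        rw [Path.trans_apply]
        split_ifs with ht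
        · exact (hs _).trans_le (by linarith)
        · have h1 := hu (i + 1) ⟨2 * t - 1, unitInterval.two_mul_sub_one_mem_iff.2
            ⟨(not_le.1 ht).le, t.2.2⟩⟩
          have h2 := dist_triangle (u (i + 1) ⟨2 * t - 1, unitInterval.two_mul_sub_one_mem_iff.2
            ⟨(not_le.1 ht).le, t.2.2⟩⟩) (p (i + 1)) (p i)
          have h3 := hp i
          rw [dist_comm] at h3
          linarith
      · intro t
        rw [Path.trans_apply]
        split_ifs with ht
        · exact (hu i _).trans_le (by linarith)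
        · have h1 := hs1 ⟨2 * t - 1, unitInterval.two_mul_sub_one_mem_iff.2
            ⟨(not_le.1 ht).le, t.2.2⟩⟩
          have h2 := dist_triangle (s' ⟨2 * t - 1, unitInterval.two_mul_sub_one_mem_iff.2
            ⟨(not_le.1 ht).le, t.2.2⟩⟩) (q i) (p i)
          have h3 := hpq i
          rw [dist_comm] at h3
          linarith
    rw [hs', hs1', Path.Homotopic.Quotient.trans_assoc, key,
      ← Path.Homotopic.Quotient.trans_assoc, ih, Path.Homotopic.Quotient.trans_assoc]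

theorem small_loop {ε ε₀ : ℝ} (hSC : SC M ε₀) (hε : ε ≤ ε₀) {a b : M} (h : a = b)
    (u : Path a b) (hε0 : 0 < ε₀) (hu : ∀ t, dist (u t) a < ε) :
    Path.Homotopic.Quotient.mk u = (Path.Homotopic.Quotient.refl a).cast rfl h.symm := by
  subst h
  rw [Path.Homotopic.Quotient.cast_rfl_rfl]
  apply Path.Homotopic.Quotient.eq.2
  apply hSC a
  · exact fun t => (hu t).trans_le hε
  · intro t
    simpa using hε0

theorem trans_cast_refl {x a b : M} (h : a = b) (c : Q x a) :
    c.trans ((Path.Homotopic.Quotient.refl a).cast rfl h.symm) = c.cast rfl h.symm := by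
  subst h
  simp [Path.Homotopic.Quotient.trans_refl]

theorem cast_refl_trans {x a b : M} (h : a = b) (d : Q b x) :
    ((Path.Homotopic.Quotient.refl a).cast rfl h.symm).trans d = d.cast h rfl := by
  subst h
  simp [Path.Homotopic.Quotient.refl_trans]

/-- The path `γ` realizes the chain `p`. -/
def Rlz (ε : ℝ) {x y : M} (γ : Path x y) (p : ℕ → M) : Prop :=
  ∃ (h0 : p 0 = x) (c : ∀ i, Q (p 0) (p i)), IsHol ε p c ∧
    ∃ N₀ : ℕ, ∀ N ≥ N₀, ∃ hN : p N = y, c N = (Path.Homotopic.Quotient.mk γ).cast h0 hN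

theorem Rlz.homotopic {ε ε₀ : ℝ} (hSC : SC M ε₀) (hε : ε ≤ ε₀) {x y : M} {γ γ' : Path x y}
    {p : ℕ → M} (h : Rlz ε γ p) (h' : Rlz ε γ' p) : γ.Homotopic γ' := by
  obtain ⟨h0, c, hc, N₀, hN₀⟩ := h
  obtain ⟨h0', d, hd, N₁, hN₁⟩ := h'
  obtain ⟨hN, hcN⟩ := hN₀ (max N₀ N₁) (le_max_left _ _)
  obtain ⟨hN', hdN⟩ := hN₁ (max N₀ N₁) (le_max_right _ _)
  have := hc.unique hSC hε hd (max N₀ N₁)
  rw [hcN, hdN] at this
  have h2 := congrArg (fun z => z.cast h0.symm hN.symm) this
  simp only [Path.Homotopic.Quotient.cast_cast, Path.Homotopic.Quotient.cast_rfl_rfl] at h2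
  exact Path.Homotopic.Quotient.eq.1 h2

theorem Rlz.adj {ε ε₀ ρ δ : ℝ} (hSC : SC M ε₀) (hε : ε + ρ ≤ ε₀) (hρ : 0 ≤ ρ) (hε0 : 0 < ε₀)
    (hPC : PC M ε δ) (hρδ : ρ < δ) {x y : M} {γ : Path x y} {p q : ℕ → M}
    (h : Rlz ε γ p) (hpq : ChAdj ρ p q) : Rlz ε γ q := by
  obtain ⟨h0, c, hc, N₀, hN₀⟩ := h
  obtain ⟨d, hd⟩ := exists_isHol hPC q (fun i => by
    obtain ⟨N, hN⟩ := hpq.right
    exact (hN.step i).trans_lt hρδ)
  obtain ⟨N₁, hN₁⟩ := hpq.stop
  choose u hu using fun i => hPC (p i) (q i) ((hpq.close i).trans_lt hρδ)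
  have hp : ∀ i, dist (p i) (p (i + 1)) ≤ ρ := by
    obtain ⟨N, hN⟩ := hpq.left
    exact hN.step
  refine ⟨hpq.start.symm.trans h0, d, hd, max N₀ N₁, fun N hN => ?_⟩
  obtain ⟨hNy, hcN⟩ := hN₀ N ((le_max_left _ _).trans hN)
  have hpqN := hN₁ N ((le_max_right _ _).trans hN)
  refine ⟨hpqN.symm.trans hNy, ?_⟩
  have key := hol_adj hSC hε hρ hp hpq.close hc hd u hu N
  rw [small_loop hSC (by linarith) hpqN (u N) hε0 (hu N),
    small_loop hSC (by linarith) hpq.start (u 0) hε0 (hu 0), trans_cast_refl hpqN,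
    cast_refl_trans hpq.start, hcN] at key
  have h2 := congrArg (fun z => z.cast hpq.start.symm rfl) key
  simp only [Path.Homotopic.Quotient.cast_cast, Path.Homotopic.Quotient.cast_rfl_rfl] at h2
  exact h2.symm

theorem Rlz.chEq {ε ε₀ ρ δ : ℝ} (hSC : SC M ε₀) (hε : ε + ρ ≤ ε₀) (hρ : 0 ≤ ρ) (hε0 : 0 < ε₀)
    (hPC : PC M ε δ) (hρδ : ρ < δ) {x y : M} {γ : Path x y} {p q : ℕ → M}
    (h : Rlz ε γ p) (hpq : ChEq ρ p q) : Rlz ε γ q := by
  induction hpq with
  | refl => exact h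
  | tail _ h2 ih => exact ih.adj hSC hε hρ hε0 hPC hρδ h2

theorem rlz_smp {ε : ℝ} (hε : 0 < ε) {x y : M} (γ : Path x y) :
    ∃ N₀ : ℕ, 0 < N₀ ∧ ∀ N ≥ N₀, Rlz ε γ (smp γ N) := by
  have huc : UniformContinuous γ := CompactSpace.uniformContinuous_of_continuous γ.continuous
  rw [Metric.uniformContinuous_iff] at huc
  obtain ⟨δ, hδ, hγ⟩ := huc ε hε
  obtain ⟨N₀, hN₀⟩ := exists_nat_gt (1 / δ)
  refine ⟨N₀ + 1, Nat.succ_pos _, fun N hN => ?_⟩
  have hNpos : (0 : ℝ) < N := by
    have : 0 < N := by omega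
    exact_mod_cast this
  have hNδ : 1 / (N : ℝ) < δ := by
    rw [div_lt_comm₀ hNpos hδ]
    refine hN₀.trans_le ?_
    exact_mod_cast (by omega : N₀ ≤ N)
  let τ : ℕ → I := fun i => Set.projIcc (0 : ℝ) 1 zero_le_one ((i : ℝ) / N)
  have hτ0 : τ 0 = 0 := by
    simp [τ]
  have hτ1 : ∀ i, N ≤ i → τ i = 1 := by
    intro i hi
    have : (1 : ℝ) ≤ (i : ℝ) / N := by
      rw [le_div_iff₀ hNpos, one_mul]
      exact_mod_cast hi
    exact Set.projIcc_of_right_le _ this
  have hτle : ∀ i, τ i ≤ τ (i + 1) := by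
    intro i
    apply Set.monotone_projIcc
    push_cast
    gcongr
    linarith
  have hτstep : ∀ i, (τ (i + 1) : ℝ) - τ i ≤ 1 / N := by
    intro i
    have h1 : (((i + 1 : ℕ) : ℝ)) / N = (i : ℝ) / N + 1 / N := by
      push_cast; ring
    simp only [τ, Set.coe_projIcc, h1]
    have : (0 : ℝ) < 1 / N := by positivity
    rcases le_total ((i : ℝ) / N) 1 with h2 | h2
    · rw [min_eq_right h2]
      have h3 : (0 : ℝ) ≤ (i : ℝ) / N := by positivity
      rw [max_eq_right h3]
      have : max (0 : ℝ) (min 1 ((i : ℝ) / N + 1 / N)) ≤ (i : ℝ) / N + 1 / N := by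
        apply max_le (by positivity) (min_le_right _ _)
      linarith
    · rw [min_eq_left h2, min_eq_left (by linarith)]
      simp
  have hsmp : ∀ i, smp γ N i = γ (τ i) := fun i => rfl
  refine ⟨?_, fun i => Path.Homotopic.Quotient.mk (γ.subpath (τ 0) (τ i)), ⟨?_, ?_⟩, N, ?_⟩
  · rw [hsmp, hτ0]; simp
  · show Path.Homotopic.Quotient.mk (γ.subpath (τ 0) (τ 0)) = Path.Homotopic.Quotient.refl (γ (τ 0))
    rw [Path.subpath_self]
    rfl
  · intro i
    refine ⟨γ.subpath (τ i) (τ (i + 1)), ?_, ?_⟩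
    · intro t
      show dist (γ.subpath (τ i) (τ (i + 1)) t) (γ (τ i)) < ε
      have h1 : γ.subpath (τ i) (τ (i + 1)) t ∈ Set.range (γ.subpath (τ i) (τ (i + 1))) := ⟨t, rfl⟩
      rw [Path.range_subpath_of_le _ _ _ (hτle i)] at h1
      obtain ⟨s, hs, hs'⟩ := h1
      rw [← hs']
      apply hγ
      have h5 : (τ i : ℝ) ≤ s := hs.1
      rw [Subtype.dist_eq, Real.dist_eq, abs_of_nonneg (sub_nonneg.2 h5)]
      have := hτstep i
      have h4 : (s : ℝ) ≤ τ (i + 1) := hs.2
      linarith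
    · symm
      apply Path.Homotopic.Quotient.eq.2
      exact ⟨Path.Homotopy.subpathTransSubpath γ (τ 0) (τ i) (τ (i + 1))⟩
  · intro N' hN'
    have e1 : smp γ N N' = y := by
      rw [hsmp, hτ1 N' hN']; simp
    refine ⟨e1, ?_⟩
    have key : ∀ (a b : I) (ha : a = 0) (hb : b = 1) (h1 : γ a = x) (h2 : γ b = y),
        Path.Homotopic.Quotient.mk (γ.subpath a b) = (Path.Homotopic.Quotient.mk γ).cast h1 h2 := by
      rintro a b rfl rfl h1 h2
      rw [Path.subpath_zero_one]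
      rfl
    exact key (τ 0) (τ N') hτ0 (hτ1 N' hN') _ _

end Hol

open Hol

/-- (E1) **faithfulness**: under `UnifLSC`, chain-equivalent samples come from homotopic paths. -/
theorem homotopic_of_chEq (hU : UnifLSC M) :
    ∃ ρ₀ > 0, ∀ ρ : ℝ, 0 < ρ → ρ ≤ ρ₀ → ∀ (x y : M) (γ γ' : Path x y),
      (∃ N₀, ∀ N ≥ N₀, ∀ N' ≥ N₀, ChEq ρ (smp γ N) (smp γ' N')) → γ.Homotopic γ' := by
  obtain ⟨ε₀, hε₀, hSC⟩ := hU.simplyConn
  obtain ⟨δ, hδ, hPC⟩ := hU.pathConn (ε₀ / 2) (by positivity)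
  refine ⟨min (ε₀ / 2) (δ / 2), by positivity, ?_⟩
  rintro ρ hρ hρ₀ x y γ γ' ⟨N₀, hN₀⟩
  have h1 : ρ ≤ ε₀ / 2 := hρ₀.trans (min_le_left _ _)
  have h2 : ρ < δ := (hρ₀.trans (min_le_right _ _)).trans_lt (by linarith)
  obtain ⟨N₁, -, hN₁⟩ := rlz_smp (ε := ε₀ / 2) (by positivity) γ
  obtain ⟨N₂, -, hN₂⟩ := rlz_smp (ε := ε₀ / 2) (by positivity) γ'
  set N := max N₀ (max N₁ N₂)
  have e1 := hN₁ N (by simp [N])
  have e2 := hN₂ N (by simp [N])
  have e3 := e1.chEq hSC (by linarith) hρ.le hε₀ hPC h2 (hN₀ N (by simp [N]) N (by simp [N]))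
  exact e3.homotopic hSC (by linarith) e2

/-! ### (E2) realization -/

namespace Real2

/-- a chain composed with a slow reparametrization of the indices is a chain -/
theorem isCh_comp {ρ δ : ℝ} {N : ℕ} {p : ℕ → M} (hp : IsCh δ N p) (hδ : δ ≤ ρ) (hρ : 0 ≤ ρ)
    {g : ℕ → ℕ} {K : ℕ} (hg : ∀ j, g (j + 1) = g j ∨ g (j + 1) = g j + 1)
    (hK : ∀ j, K ≤ j → N ≤ g j) : IsCh ρ K (fun j => p (g j)) where
  step j := by
    rcases hg j with h | h
    · simp [h, hρ]
    · simp only [h]; exact (hp.step _).trans hδ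
  const j hj := by
    show p (g j) = p (g K)
    rw [hp.const _ (hK j hj), hp.const _ (hK K le_rfl)]

/-- pointwise `1`-close slow reparametrizations give adjacent chains -/
theorem chAdj_comp {ρ δ : ℝ} {N : ℕ} {p : ℕ → M} (hp : IsCh δ N p) (hδ : δ ≤ ρ) (hρ : 0 ≤ ρ)
    {g g' : ℕ → ℕ} {K : ℕ} (hg : ∀ j, g (j + 1) = g j ∨ g (j + 1) = g j + 1)
    (hg' : ∀ j, g' (j + 1) = g' j ∨ g' (j + 1) = g' j + 1)
    (hK : ∀ j, K ≤ j → N ≤ g j) (hK' : ∀ j, K ≤ j → N ≤ g' j)
    (h0 : g 0 = g' 0) (hc : ∀ j, g' j = g j ∨ g' j = g j + 1) :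
    ChAdj ρ (fun j => p (g j)) (fun j => p (g' j)) where
  left := ⟨K, isCh_comp hp hδ hρ hg hK⟩
  right := ⟨K, isCh_comp hp hδ hρ hg' hK'⟩
  close j := by
    rcases hc j with h | h
    · simp [h, hρ]
    · simp only [h]; exact (hp.step _).trans hδ
  start := by simp [h0]
  stop := ⟨K, fun j hj => by
    show p (g j) = p (g' j)
    rw [hp.const _ (hK j hj), hp.const _ (hK' j hj)]⟩

theorem div_step {k : ℕ} (hk : 0 < k) (j : ℕ) :
    (j + 1) / k = j / k ∨ (j + 1) / k = j / k + 1 := by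
  have h1 : j / k ≤ (j + 1) / k := Nat.div_le_div_right (Nat.le_succ j)
  have h2 : (j + 1) / k ≤ (j + k) / k := Nat.div_le_div_right (by omega)
  rw [Nat.add_div_right _ hk] at h2
  omega

/-- the stuttered chain is equivalent to the chain -/
theorem stutter_chEq {ρ δ : ℝ} {N : ℕ} {p : ℕ → M} (hp : IsCh δ N p) (hδ : δ ≤ ρ) (hρ : 0 ≤ ρ)
    {k : ℕ} (hk : 0 < k) : ChEq ρ (fun j => p (j / k)) p := by
  let g : ℕ → ℕ → ℕ := fun l j => min j (j / k + l)
  have hstep : ∀ l j, g l (j + 1) = g l j ∨ g l (j + 1) = g l j + 1 := by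
    intro l j
    simp only [g]
    rcases div_step hk j with h | h <;> rw [h] <;> omega
  have hK : ∀ l j, k * N ≤ j → N ≤ g l j := by
    intro l j hj
    have h1 : N ≤ j / k := (Nat.le_div_iff_mul_le hk).2 (by rwa [mul_comm])
    have h2 : j / k ≤ j := Nat.div_le_self _ _
    simp only [g]
    omega
  have hall : ∀ l, ChEq ρ (fun j => p (g 0 j)) (fun j => p (g l j)) := by
    intro l
    induction l with
    | zero => exact ChEq.refl _
    | succ l ih =>
      refine ih.trans (ChAdj.chEq ?_)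
      refine chAdj_comp hp hδ hρ (hstep l) (hstep (l + 1)) (hK l) (hK (l + 1)) ?_ ?_
      · simp [g]
      · intro j
        simp only [g]
        omega
  have h0 : (fun j => p (g 0 j)) = fun j => p (j / k) := by
    funext j
    have h2 : j / k ≤ j := Nat.div_le_self _ _
    simp [g, h2]
  have h1 : (fun j => p (g N j)) = p := by
    funext j
    simp only [g]
    generalize j / k = c
    rcases le_total j (c + N) with h | h
    · rw [min_eq_left h]
    · rw [min_eq_right h, hp.const (c + N) (by omega), hp.const j (by omega)]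
  have := hall N
  rwa [h0, h1] at this

/-- the piecewise path through `p 0, p 1, …` -/
noncomputable def pw {p : ℕ → M} (s : ∀ i, Path (p i) (p (i + 1))) : ℕ → ℝ → M
  | 0, _ => p 0
  | n + 1, t => if t ≤ n then pw s n t else (s n).extend (t - n)

theorem pw_self {p : ℕ → M} (s : ∀ i, Path (p i) (p (i + 1))) (n : ℕ) : pw s n n = p n := by
  cases n with
  | zero => rfl
  | succ n =>
    simp only [pw]
    rw [if_neg (by push_cast; linarith)]
    push_cast
    simp

theorem pw_continuous {p : ℕ → M} (s : ∀ i, Path (p i) (p (i + 1))) (n : ℕ) :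
    Continuous (pw s n) := by
  induction n with
  | zero => exact continuous_const
  | succ n ih =>
    show Continuous fun t => if t ≤ (n : ℝ) then pw s n t else (s n).extend (t - n)
    apply Continuous.if_le ih _ continuous_id continuous_const
    · rintro t rfl
      simp [pw_self]
    · exact (s n).extend.continuous.comp (continuous_id.sub continuous_const)

theorem pw_zero {p : ℕ → M} (s : ∀ i, Path (p i) (p (i + 1))) (n : ℕ) : pw s n 0 = p 0 := by
  induction n with
  | zero => rfl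
  | succ n ih =>
    simp only [pw]
    rw [if_pos (by positivity), ih]

theorem pw_close {p : ℕ → M} (s : ∀ i, Path (p i) (p (i + 1))) {ρ : ℝ}
    (hs : ∀ i t, dist (s i t) (p i) < ρ) (n : ℕ) (i : ℕ) (hi : i < n) (t : ℝ) (h1 : (i : ℝ) ≤ t)
    (h2 : t ≤ i + 1) : dist (pw s n t) (p i) < ρ := by
  induction n with
  | zero => omega
  | succ n ih =>
    simp only [pw]
    rcases Nat.lt_succ_iff_lt_or_eq.1 hi with h | h
    · have : (i : ℝ) + 1 ≤ n := by exact_mod_cast h
      rw [if_pos (by linarith)]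
      exact ih h
    · subst h
      split_ifs with h3
      · have : t = i := le_antisymm h3 h1
        rw [this, pw_self, ← (s i).source]
        exact hs i 0 |>.trans_eq' (by simp)
      · have : (s i).extend (t - i) ∈ Set.range (s i).extend := ⟨_, rfl⟩
        rw [Path.extend_range] at this
        obtain ⟨u, hu⟩ := this
        rw [← hu]
        exact hs i u

end Real2

open Real2

/-- (E2) **realization**: for every scale `ρ` there is `δ > 0` such that every chain with steps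
`≤ δ` is `ρ`-equivalent to the fine samples of a continuous path. -/
theorem exists_path_of_isCh (hU : UnifLSC M) {ρ : ℝ} (hρ : 0 < ρ) :
    ∃ δ > 0, ∀ (N : ℕ) (p : ℕ → M), IsCh δ N p → ∃ γ : Path (p 0) (p N),
      ∃ N₀, ∀ N' ≥ N₀, ChEq ρ (smp γ N') p := by
  obtain ⟨δ₁, hδ₁, hPC⟩ := hU.pathConn ρ hρ
  refine ⟨min (δ₁ / 2) ρ, by positivity, ?_⟩
  intro N p hp
  have hstep : ∀ i, dist (p i) (p (i + 1)) < δ₁ := fun i =>
    ((hp.step i).trans (min_le_left _ _)).trans_lt (by linarith)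
  have hδρ : min (δ₁ / 2) ρ ≤ ρ := min_le_right _ _
  choose s hs using fun i => hPC (p i) (p (i + 1)) (hstep i)
  rcases Nat.eq_zero_or_pos N with h0 | hNpos
  · subst h0
    refine ⟨Path.refl _, 0, fun N' _ => ?_⟩
    have : smp (Path.refl (p 0)) N' = p := by
      funext i
      simp [smp, hp.const i (Nat.zero_le _)]
    rw [this]
    exact ChEq.refl _
  have hNR : (0 : ℝ) < N := by exact_mod_cast hNpos
  let γ : Path (p 0) (p N) :=
    { toFun := fun t => pw s N (N * (t : ℝ))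
      continuous_toFun := (pw_continuous s N).comp (by fun_prop)
      source' := by simp [pw_zero]
      target' := by simp [pw_self] }
  obtain ⟨N₁, hN₁pos, hN₁⟩ := smp_isCh γ hρ
  obtain ⟨N₂, hN₂pos, hN₂⟩ := smp_chEq γ hρ
  refine ⟨γ, N₂, fun N' hN' => ?_⟩
  set k := N₁ + N₂ with hk
  have hkpos : 0 < k := by omega
  have hkR : (0 : ℝ) < k := by exact_mod_cast hkpos
  have hkN : k ≤ k * N := Nat.le_mul_of_pos_right _ hNpos
  refine (hN₂ N' hN' (k * N) (by omega)).trans ?_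
  refine ChEq.trans (ChAdj.chEq ?_) (stutter_chEq hp hδρ hρ.le hkpos)
  have hlate : ∀ j, k * N ≤ j → smp γ (k * N) j = p N := by
    intro j hj
    unfold smp
    apply Path.extend_of_one_le
    rw [le_div_iff₀ (by push_cast; positivity), one_mul]
    exact_mod_cast hj
  have hlate' : ∀ j, k * N ≤ j → p (j / k) = p N := by
    intro j hj
    exact hp.const _ ((Nat.le_div_iff_mul_le hkpos).2 (by rwa [mul_comm]))
  refine ⟨⟨k * N, hN₁ _ (by omega)⟩, ⟨k * N, ?_⟩, ?_, ?_, ?_⟩
  · refine isCh_comp hp hδρ hρ.le (div_step hkpos) ?_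
    intro j hj
    exact (Nat.le_div_iff_mul_le hkpos).2 (by rwa [mul_comm])
  · intro j
    rcases le_or_gt (k * N) j with hj | hj
    · rw [hlate j hj, hlate' j hj]; simpa using hρ.le
    · have e1 : smp γ (k * N) j = pw s N ((j : ℝ) / k) := by
        unfold smp
        have hmem : (j : ℝ) / ((k * N : ℕ) : ℝ) ∈ (Set.Icc 0 1 : Set ℝ) := by
          constructor
          · positivity
          · rw [div_le_one (by push_cast; positivity)]
            exact_mod_cast hj.le
        rw [Path.extend_apply _ hmem]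
        show pw s N (N * ((j : ℝ) / ((k * N : ℕ) : ℝ))) = _
        congr 1
        push_cast
        field_simp
      rw [e1]
      have hi : j / k < N := Nat.div_lt_of_lt_mul hj
      refine (pw_close s hs N (j / k) hi _ ?_ ?_).le
      · rw [le_div_iff₀ hkR]
        exact_mod_cast Nat.div_mul_le_self j k
      · rw [div_le_iff₀ hkR]
        have : j < k * (j / k + 1) := Nat.lt_mul_div_succ j hkpos
        rw [mul_comm] at this
        exact_mod_cast this.le
  · simp [smp]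
  · exact ⟨k * N, fun j hj => by rw [hlate j hj, hlate' j hj]⟩

end Crest.Agent.R244
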