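import Mathlib
import Crest.Agent.R244.MetricDefs
import Crest.Agent.R244.CHGlobal
import Crest.Agent.R244.CHPath
import Crest.Agent.R244.CHReal

/-!
# R244 package B2 : FINAL statement (owner helper264)
-/

set_option autoImplicit false

open Filter Topology unitInterval

namespace Crest.Agent.R244

/-- the length of the homotopy class of a path (at scale `ρ`) -/
noncomputable def DP {M : Type*} [MetricSpace M] {ρ : ℝ} (hρ : 0 < ρ) {x y : M}
    (γ : Path x y) : ℝ :=
  DC ρ (smp γ (max (smp_chEq γ hρ).choose (smp_isCh γ hρ).choose))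

theorem DP_eq {M : Type*} [MetricSpace M] {ρ : ℝ} (hρ : 0 < ρ) {x y : M} (γ : Path x y) :
    ∃ N₀ : ℕ, 0 < N₀ ∧ ∀ N ≥ N₀, IsCh ρ N (smp γ N) ∧ DP hρ γ = DC ρ (smp γ N) := by
  have h1 := (smp_chEq γ hρ).choose_spec
  have h2 := (smp_isCh γ hρ).choose_spec
  set A := (smp_chEq γ hρ).choose
  set B := (smp_isCh γ hρ).choose
  refine ⟨max A B, lt_of_lt_of_le h1.1 (le_max_left _ _), fun N hN => ⟨h2.2 N (by omega), ?_⟩⟩
  exact DC_congr (h1.2 (max A B) (le_max_left _ _) N (by omega))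

/-- **Discrete Cartan-Hadamard theorem** (package B2, FINAL statement v2). -/
theorem exists_pathLength₂ {M : Type*} [MetricSpace M] [CompactSpace M]
    {r : ℝ} (h : LocalCN M r) (hU : UnifLSC M) :
    ∃ D : ∀ {x y : M}, Path x y → ℝ, PathLength M (fun {_ _} γ => D γ) ∧
      ∃ r₀ > 0, ∀ (x : M) (γ : Path x x), D γ < r₀ → γ.Homotopic (Path.refl x) := by
  obtain ⟨ρ₀, hρ₀, hE1⟩ := homotopic_of_chEq hU
  have hr : 0 < r := h.1
  set ρ := min (r / 4) ρ₀ with hρdef
  have hρ : 0 < ρ := lt_min (by linarith) hρ₀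
  have hρr : 3 * ρ < r := by
    have : ρ ≤ r / 4 := min_le_left _ _
    linarith
  have hρρ₀ : ρ ≤ ρ₀ := min_le_right _ _
  obtain ⟨δ, hδ, hE2⟩ := exists_path_of_isCh hU hρ
  refine ⟨fun {x y} γ => DP hρ γ, ?_, ρ, hρ, ?_⟩
  · constructor
    · -- homotopic
      intro x y γ γ' hγ
      obtain ⟨N₁, -, h1⟩ := DP_eq hρ γ
      obtain ⟨N₂, -, h2⟩ := DP_eq hρ γ'
      obtain ⟨N₃, -, h3⟩ := smp_homotopic hγ hρ
      set N := max N₁ (max N₂ N₃)
      show DP hρ γ = DP hρ γ'
      rw [(h1 N (by omega)).2, (h2 N (by omega)).2]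
      exact DC_congr (h3 N (by omega) N (by omega))
    · intro x y γ
      exact DC_nonneg _
    · -- refl
      intro x
      obtain ⟨N₁, -, h1⟩ := DP_eq hρ (Path.refl x)
      show DP hρ (Path.refl x) = 0
      rw [(h1 N₁ le_rfl).2]
      have : smp (Path.refl x) N₁ = fun _ => x := by
        funext i
        unfold smp
        simp
      rw [this]
      exact DC_const hρ.le x
    · -- symm
      intro x y γ
      obtain ⟨N₁, h10, h1⟩ := DP_eq hρ γ
      obtain ⟨N₂, -, h2⟩ := DP_eq hρ γ.symm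
      set N := max N₁ N₂
      show DP hρ γ.symm = DP hρ γ
      rw [(h2 N (by omega)).2, smp_symm γ (by omega), DC_rev (h1 N (by omega)).1,
        (h1 N (by omega)).2]
    · -- trans
      intro x y z γ γ'
      obtain ⟨N₁, h10, h1⟩ := DP_eq hρ γ
      obtain ⟨N₂, -, h2⟩ := DP_eq hρ γ'
      obtain ⟨N₃, -, h3⟩ := DP_eq hρ (γ.trans γ')
      set N := max N₁ (max N₂ N₃)
      show DP hρ (γ.trans γ') ≤ DP hρ γ + DP hρ γ'
      rw [(h3 (2 * N) (by omega)).2, smp_trans γ γ' (by omega), (h1 N (by omega)).2,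
        (h2 N (by omega)).2]
      refine DC_cat_le (h1 N (by omega)).1 (h2 N (by omega)).1 ?_
      unfold smp
      have hN : (N : ℝ) ≠ 0 := by
        have : 0 < N := by omega
        positivity
      rw [div_self hN]
      simp
    · -- midpoint
      intro a b e
      obtain ⟨N₁', h10', h1'⟩ := DP_eq hρ e
      obtain ⟨N₇, h70, h7⟩ := smp_chEq e hρ
      set N₁ := max N₁' N₇ with hN₁
      have h1 : ∀ N ≥ N₁, IsCh ρ N (smp e N) ∧ DP hρ e = DC ρ (smp e N) :=
        fun N hN => h1' N (by omega)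
      obtain ⟨n, w, hw1, hw2, hw0, hw⟩ := exists_midchain h hρ hρr (h1 N₁ le_rfl).1 hδ
      have hw0' : w 0 = a := by
        rw [hw0]; unfold smp; simp
      obtain ⟨κ, N₂, hκ⟩ := hE2 n w hw1
      refine ⟨w n, κ.cast hw0'.symm rfl, fun {p} c => ?_⟩
      set κ' : Path a (w n) := κ.cast hw0'.symm rfl with hκ'
      have hsm : ∀ N, smp κ' N = smp κ N := by
        intro N
        funext i
        unfold smp
        rw [hκ', Path.extend_cast]
      obtain ⟨N₃, h30, h3⟩ := DP_eq hρ c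
      obtain ⟨N₄, h40, h4⟩ := DP_eq hρ (c.trans κ')
      obtain ⟨N₅, h50, h5⟩ := DP_eq hρ (c.trans e)
      obtain ⟨N₆, h60, h6⟩ := smp_isCh κ' hρ
      set N := max N₁ (max N₂ (max N₃ (max N₄ (max N₅ N₆)))) with hN
      have hNpos : 0 < N := by omega
      have hNne : (N : ℝ) ≠ 0 := by positivity
      have hc := (h3 N (by omega)).1
      have hcN : smp c N N = a := by
        unfold smp; rw [div_self hNne]; simp
      have he0 : ∀ K, smp e K 0 = a := fun K => by unfold smp; simp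
      have hs0 : ∀ K, smp κ' K 0 = a := fun K => by unfold smp; simp
      have key := hw N (smp c N) hc (by rw [hcN, he0])
      -- rewrite the three terms
      have e1 : DP hρ (c.trans κ') = DC ρ (cat N (smp c N) w) := by
        rw [(h4 (2 * N) (by omega)).2, smp_trans c κ' hNpos]
        apply DC_congr
        refine cat_congr_right ?_ hc (h6 N (by omega)) (by rw [hcN, hs0])
        rw [hsm]
        exact hκ N (by omega)
      have e2 : DP hρ (c.trans e) = DC ρ (cat N (smp c N) (smp e N₁)) := by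
        rw [(h5 (2 * N) (by omega)).2, smp_trans c e hNpos]
        apply DC_congr
        refine cat_congr_right ?_ hc (h1 N (by omega)).1 (by rw [hcN, he0])
        exact h7 N (by omega) N₁ (by omega)
      have e3 : DP hρ c = DC ρ (smp c N) := (h3 N (by omega)).2
      have e4 : DP hρ e = DC ρ (smp e N₁) := (h1 N₁ le_rfl).2
      show DP hρ (c.trans κ') ^ 2 ≤ DP hρ c ^ 2 / 2 + DP hρ (c.trans e) ^ 2 / 2 - DP hρ e ^ 2 / 4
      rw [e1, e2, e3, e4]
      exact key
  · -- systole
    intro x γ hγ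
    obtain ⟨N₁, h10, h1⟩ := DP_eq hρ γ
    obtain ⟨N₂, h20, h2⟩ := smp_chEq γ hρ
    set N₀ := max N₁ N₂ with hN₀
    have hγ' : DC ρ (smp γ N₀) < ρ := by rw [← (h1 N₀ (by omega)).2]; exact hγ
    obtain ⟨K, q, hq1, hq2, hq3⟩ := exists_len_lt ⟨N₀, (h1 N₀ (by omega)).1⟩
      (sub_pos.2 hγ')
    rw [add_sub_cancel] at hq3
    have hq0 : q 0 = x := by
      rw [← ChEq.start hq2]; unfold smp; simp
    have hN₀ne : (N₀ : ℝ) ≠ 0 := by
      have : 0 < N₀ := by omega
      positivity
    have hqK : q K = x := by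
      rw [← ChEq.end_eq hq2 (h1 N₀ (by omega)).1 hq1]
      unfold smp; rw [div_self hN₀ne]; simp
    refine hE1 ρ hρ hρρ₀ x x γ (Path.refl x) ⟨N₀, fun N hN N' hN' => ?_⟩
    have hr : smp (Path.refl x) N' = fun _ => x := by
      funext i; unfold smp; simp
    rw [hr]
    refine (h2 N (by omega) N₀ (by omega)).trans (hq2.trans (ChAdj.chEq ?_))
    refine ⟨⟨K, hq1⟩, ⟨0, fun i => by simpa using hρ.le, fun i _ => rfl⟩, fun i => ?_, hq0,
      ⟨K, fun i hi => by rw [hq1.const i hi, hqK]⟩⟩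
    rw [dist_comm, ← hq0]
    exact (hq1.dist_start_le i).trans hq3.le

end Crest.Agent.R244
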