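import Mathlib

/-!
# Loop calculus for explicit relations in a fundamental group (row 244, package B4)

For a path connected space `M` with base point `x0`, a continuous map `Γ : E → M` from a simply
connected space and two points `p q : E` we get an element `th x0 Γ p q` of the fundamental group
`FundamentalGroup M x0` such that
* `th x0 Γ p q * th x0 Γ q r = th x0 Γ p r`
* `th x0 (Γ.comp j) p q = th x0 Γ (j p) (j q)`.
All relations between explicit loops are derived from these two rules.
-/

set_option autoImplicit false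

namespace Crest.Agent.R244.B4


noncomputable section

variable {M : Type*} [TopologicalSpace M] [PathConnectedSpace M]

/-- A chosen path class from the base point. -/
def eta (x0 z : M) : Path.Homotopic.Quotient x0 z :=
  Path.Homotopic.Quotient.mk (PathConnectedSpace.somePath x0 z)

/-- Turn a path class into an element of the fundamental group. -/
def Th (x0 : M) {x y : M} (q : Path.Homotopic.Quotient x y) : FundamentalGroup M x0 :=
  FundamentalGroup.fromPath (((eta x0 x).trans q).trans (eta x0 y).symm)

theorem Th_trans (x0 : M) {x y z : M} (q : Path.Homotopic.Quotient x y)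
    (q' : Path.Homotopic.Quotient y z) : Th x0 (q.trans q') = Th x0 q' * Th x0 q := by
  rw [FundamentalGroup.mul_def]
  unfold Th FundamentalGroup.fromPath FundamentalGroup.fromArrow
  simp only [Path.Homotopic.Quotient.trans_assoc]
  congr 2
  rw [← Path.Homotopic.Quotient.trans_assoc (eta x0 y).symm, Path.Homotopic.Quotient.symm_trans, Path.Homotopic.Quotient.refl_trans]

theorem Th_cast (x0 : M) {x y x' y' : M} (q : Path.Homotopic.Quotient x y) (hx : x' = x)
    (hy : y' = y) : Th x0 (q.cast hx hy) = Th x0 q := by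
  subst hx hy; simp

theorem eq_of_Th_eq_one (x0 : M) {x : M} (q : Path.Homotopic.Quotient x x)
    (h : Th x0 q = 1) : q = Path.Homotopic.Quotient.refl x := by
  rw [FundamentalGroup.one_def] at h
  unfold Th FundamentalGroup.fromPath FundamentalGroup.fromArrow at h
  have h2 : ((eta x0 x).trans q) = (eta x0 x) := by
    have := congrArg (fun z => Path.Homotopic.Quotient.trans z (eta x0 x)) h
    simpa [Path.Homotopic.Quotient.trans_assoc] using this
  have := congrArg (fun z => Path.Homotopic.Quotient.trans (eta x0 x).symm z) h2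
  simpa [← Path.Homotopic.Quotient.trans_assoc] using this

variable {E : Type*} [TopologicalSpace E] [SimplyConnectedSpace E]
variable {E' : Type*} [TopologicalSpace E'] [SimplyConnectedSpace E']

/-- the class of paths from `p` to `q` in a simply connected space -/
def cl (p q : E) : Path.Homotopic.Quotient p q :=
  Path.Homotopic.Quotient.mk (PathConnectedSpace.somePath p q)

/-- the basic symbol of the loop calculus -/
def th (x0 : M) (Γ : C(E, M)) (p q : E) : FundamentalGroup M x0 :=
  Th x0 ((cl q p).map Γ)

theorem map_trans {X Y : Type*} [TopologicalSpace X] [TopologicalSpace Y] (f : C(X, Y)) {x y z : X}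
    (q : Path.Homotopic.Quotient x y) (q' : Path.Homotopic.Quotient y z) :
    (q.trans q').map f = (q.map f).trans (q'.map f) := by
  obtain ⟨a, rfl⟩ := Path.Homotopic.Quotient.mk_surjective q
  obtain ⟨b, rfl⟩ := Path.Homotopic.Quotient.mk_surjective q'
  rw [← Path.Homotopic.Quotient.mk_trans, ← Path.Homotopic.Quotient.mk_map,
    ← Path.Homotopic.Quotient.mk_map, ← Path.Homotopic.Quotient.mk_map,
    ← Path.Homotopic.Quotient.mk_trans, Path.map_trans]

theorem th_mul (x0 : M) (Γ : C(E, M)) (p q r : E) :
    th x0 Γ p q * th x0 Γ q r = th x0 Γ p r := by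
  unfold th
  rw [← Th_trans, ← map_trans]
  congr 2
  exact Subsingleton.elim _ _

theorem th_comp (x0 : M) (Γ : C(E, M)) (j : C(E', E)) (p q : E') :
    th x0 (Γ.comp j) p q = th x0 Γ (j p) (j q) := by
  unfold th
  rw [Path.Homotopic.Quotient.map_comp]
  have : (cl q p).map j = cl (j q) (j p) := Subsingleton.elim _ _
  rw [this]

theorem th_self (x0 : M) (Γ : C(E, M)) (p : E) : th x0 Γ p p = 1 := by
  have := th_mul x0 Γ p p p
  exact mul_eq_left.mp this

theorem th_inv (x0 : M) (Γ : C(E, M)) (p q : E) : (th x0 Γ p q)⁻¹ = th x0 Γ q p := by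
  rw [inv_eq_iff_mul_eq_one, th_mul, th_self]

/-- The loop `Γ` restricted to a path from `p` to `q` is closed and null-homotopic. -/
def Null {X : Type*} [TopologicalSpace X] (Γ : C(E, X)) (p q : E) : Prop :=
  ∃ h : Γ p = Γ q, ((cl p q).map Γ).cast rfl h = Path.Homotopic.Quotient.refl (Γ p)

theorem null_of_th_eq_one (x0 : M) (Γ : C(E, M)) (p q : E) (h : Γ q = Γ p)
    (h1 : th x0 Γ p q = 1) : Null Γ q p := by
  refine ⟨h, ?_⟩
  unfold th at h1
  rw [← Th_cast x0 ((cl q p).map Γ) rfl h] at h1
  exact eq_of_Th_eq_one x0 _ h1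

theorem Null.map {X Y : Type*} [TopologicalSpace X] [TopologicalSpace Y] {Γ : C(E, X)} {p q : E}
    (h : Null Γ p q) (F : C(X, Y)) : Null (F.comp Γ) p q := by
  obtain ⟨h, h1⟩ := h
  refine ⟨congrArg F h, ?_⟩
  have := congrArg (fun z => Path.Homotopic.Quotient.map z F) h1
  simp only [Path.Homotopic.Quotient.map_cast] at this
  rw [Path.Homotopic.Quotient.map_comp]
  refine Eq.trans this ?_
  rw [← Path.Homotopic.Quotient.mk_refl, ← Path.Homotopic.Quotient.mk_map, ← Path.Homotopic.Quotient.mk_refl]
  rfl

theorem eq_cast_of_cast_eq {X : Type*} [TopologicalSpace X] {x y x' y' : X}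
    {γ : Path.Homotopic.Quotient x y} {δ : Path.Homotopic.Quotient x' y'} (hx : x' = x)
    (hy : y' = y) (h : γ.cast hx hy = δ) : γ = δ.cast hx.symm hy.symm := by
  subst hx hy h; simp

theorem cov_lift {N N' : Type*} [TopologicalSpace N] [TopologicalSpace N'] {π : N' → N}
    (cov : IsCoveringMap π) {e0 e1 : N'} (γ : Path.Homotopic.Quotient e0 e1) (h : π e0 = π e1)
    (hγ : (γ.map ⟨π, cov.continuous⟩).cast rfl h = Path.Homotopic.Quotient.refl (π e0)) :
    ∃ h' : e0 = e1, γ.cast rfl h' = Path.Homotopic.Quotient.refl e0 := by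
  have h1 := cov.monodromy_eq_of_map_eq (x := π e0) (y := π e0) (γ := Path.Homotopic.Quotient.refl (π e0))
    (ex := ⟨e0, rfl⟩) (ey := ⟨e1, h.symm⟩) γ (eq_cast_of_cast_eq rfl h hγ)
  rw [cov.monodromy_refl] at h1
  have h2 : e0 = e1 := congrArg Subtype.val h1
  subst h2
  refine ⟨rfl, ?_⟩
  rw [Path.Homotopic.Quotient.cast_rfl_rfl] at hγ ⊢
  apply cov.injective_path_homotopic_map
  simp only
  rw [hγ, ← Path.Homotopic.Quotient.mk_refl, ← Path.Homotopic.Quotient.mk_refl, ← Path.Homotopic.Quotient.mk_map]
  rfl

theorem Null.lift {N N' : Type*} [TopologicalSpace N] [TopologicalSpace N'] {π : N' → N}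
    (cov : IsCoveringMap π) {L : C(E, N')} {p q : E}
    (h : Null ((⟨π, cov.continuous⟩ : C(N', N)).comp L) p q) : Null L p q := by
  obtain ⟨h, h1⟩ := h
  rw [Path.Homotopic.Quotient.map_comp] at h1
  exact cov_lift cov _ h h1

theorem Null.eq {X : Type*} [TopologicalSpace X] {Γ : C(E, X)} {p q : E}
    (h : Null Γ p q) : Γ p = Γ q := h.1

end

end Crest.Agent.R244.B4
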