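import Mathlib
import Crest.Agent.R244.B4Theta

/-!
# Relations in the fundamental group coming from a (torus minus disc) × circle block

Row 244, package B4.  `Out S ρ` is the plane minus the closed discs of radius `ρ` around the points
`S ((m+1/2) + (n+1/2) i)`.  A block in `M` is a continuous map `Out S ρ × ℝ → M`, periodic under
`S`, `S i` and `2π`.
-/

set_option autoImplicit false

namespace Crest.Agent.R244.B4

open Complex

noncomputable section

/-- centre of the reference hole -/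
def ctr (S : ℝ) : ℂ := (S / 2 : ℝ) + (S / 2 : ℝ) * I

/-- the periodic plane region outside the discs of radius `ρ` -/
def Out (S ρ : ℝ) : Set ℂ := {w | ∀ m n : ℤ, ρ < ‖w - (ctr S + (S * m : ℝ) + (S * n : ℝ) * I)‖}

/-- a (torus minus disc) × circle block in a space -/
structure Block (M : Type*) [TopologicalSpace M] (S ρ : ℝ) where
  φ : C(Out S ρ × ℝ, M)
  per1 : ∀ (w w' : Out S ρ) (x : ℝ), (w' : ℂ) = w + (S : ℂ) → φ (w', x) = φ (w, x)
  per2 : ∀ (w w' : Out S ρ) (x : ℝ), (w' : ℂ) = w + (S : ℂ) * I → φ (w', x) = φ (w, x)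
  per3 : ∀ (w : Out S ρ) (x : ℝ), φ (w, x + 2 * Real.pi) = φ (w, x)

theorem mem_Out_of_square {S ρ : ℝ} (hρ : ρ < S / 2) {w : ℂ} (h0 : ρ < ‖w - ctr S‖)
    (h1 : |(w - ctr S).re| ≤ S / 2) (h2 : |(w - ctr S).im| ≤ S / 2) : w ∈ Out S ρ := by
  intro m n
  have hS : 0 ≤ S / 2 := (abs_nonneg _).trans h1
  have key : ∀ (a : ℝ) (k : ℤ), |a| ≤ S / 2 → k ≠ 0 → S / 2 ≤ |a - S * k| := by
    intro a k ha hk
    have h3 : (1 : ℝ) ≤ |(k : ℝ)| := by
      rw [← Int.cast_abs]; exact_mod_cast Int.one_le_abs hk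
    have h4 : S ≤ |S * k| := by
      rw [abs_mul, abs_of_nonneg (by linarith : 0 ≤ S)]; nlinarith
    have h5 := abs_sub_abs_le_abs_sub (S * k) a
    rw [abs_sub_comm] at h5
    linarith
  have hre : (w - (ctr S + (S * m : ℝ) + (S * n : ℝ) * I)).re = (w - ctr S).re - S * m := by
    simp; ring
  have him : (w - (ctr S + (S * m : ℝ) + (S * n : ℝ) * I)).im = (w - ctr S).im - S * n := by
    simp; ring
  by_cases hm : m = 0
  · by_cases hn : n = 0
    · subst hm hn; simpa using h0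
    · calc ρ < S / 2 := hρ
        _ ≤ |(w - ctr S).im - S * n| := key _ _ h2 hn
        _ = |(w - (ctr S + (S * m : ℝ) + (S * n : ℝ) * I)).im| := by rw [him]
        _ ≤ _ := abs_im_le_norm _
  · calc ρ < S / 2 := hρ
      _ ≤ |(w - ctr S).re - S * m| := key _ _ h1 hm
      _ = |(w - (ctr S + (S * m : ℝ) + (S * n : ℝ) * I)).re| := by rw [hre]
      _ ≤ _ := abs_re_le_norm _

variable {M : Type*} [TopologicalSpace M] [PathConnectedSpace M] {S ρ : ℝ}

/-- the x-loop at `w` -/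
def Block.F (B : Block M S ρ) (x0 : M) (x1 : ℝ) (w : Out S ρ) : FundamentalGroup M x0 :=
  th x0 (B.φ.comp ⟨fun x : ℝ => (w, x), by fun_prop⟩) x1 (x1 + 2 * Real.pi)

/-- the transport along a path in the region at height `x1` -/
def Block.H (B : Block M S ρ) (x0 : M) (x1 : ℝ) {E : Type*} [TopologicalSpace E]
    [SimplyConnectedSpace E] (c : C(E, Out S ρ)) (p q : E) : FundamentalGroup M x0 :=
  th x0 (B.φ.comp ⟨fun e : E => (c e, x1), by fun_prop⟩) p q

theorem Block.F_mul_H (B : Block M S ρ) (x0 : M) (x1 : ℝ) {E : Type*} [TopologicalSpace E]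
    [ContractibleSpace E] (c : C(E, Out S ρ)) (p q : E) :
    B.F x0 x1 (c p) * B.H x0 x1 c p q = B.H x0 x1 c p q * B.F x0 x1 (c q) := by
  set K : C(E × ℝ, M) := B.φ.comp ⟨fun e : E × ℝ => (c e.1, e.2), by fun_prop⟩ with hK
  have e1 : B.F x0 x1 (c p) = th x0 K (p, x1) (p, x1 + 2 * Real.pi) := by
    unfold Block.F
    rw [show (B.φ.comp ⟨fun x : ℝ => (c p, x), by fun_prop⟩ : C(ℝ, M)) =
      K.comp ⟨fun x : ℝ => (p, x), by fun_prop⟩ from rfl, th_comp]
    rfl
  have e2 : B.F x0 x1 (c q) = th x0 K (q, x1) (q, x1 + 2 * Real.pi) := by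
    unfold Block.F
    rw [show (B.φ.comp ⟨fun x : ℝ => (c q, x), by fun_prop⟩ : C(ℝ, M)) =
      K.comp ⟨fun x : ℝ => (q, x), by fun_prop⟩ from rfl, th_comp]
    rfl
  have e3 : B.H x0 x1 c p q = th x0 K (p, x1) (q, x1) := by
    unfold Block.H
    rw [show (B.φ.comp ⟨fun e : E => (c e, x1), by fun_prop⟩ : C(E, M)) =
      K.comp ⟨fun e : E => (e, x1), by fun_prop⟩ from rfl, th_comp]
    rfl
  have e4 : B.H x0 x1 c p q = th x0 K (p, x1 + 2 * Real.pi) (q, x1 + 2 * Real.pi) := by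
    unfold Block.H
    rw [show (B.φ.comp ⟨fun e : E => (c e, x1), by fun_prop⟩ : C(E, M)) =
      K.comp ⟨fun e : E => (e, x1 + 2 * Real.pi), by fun_prop⟩ from ?_, th_comp]
    · rfl
    · ext e
      exact (B.per3 (c e) x1).symm
  calc B.F x0 x1 (c p) * B.H x0 x1 c p q
      = th x0 K (p, x1) (p, x1 + 2 * Real.pi) * th x0 K (p, x1 + 2 * Real.pi) (q, x1 + 2 * Real.pi) := by
        rw [← e1, ← e4]
    _ = th x0 K (p, x1) (q, x1) * th x0 K (q, x1) (q, x1 + 2 * Real.pi) := by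
        rw [th_mul, th_mul]
    _ = _ := by rw [← e3, ← e2]

end

end Crest.Agent.R244.B4
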