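import Mathlib
import Crest.Agent.R244.B4Theta

/-!
# The Nil quotient and its covering, used to detect `f₂ ≠ 1` (row 244, package B4b)

`NT = ℂ × ℂ*` with the action `(k,l)·(w,ζ) = (w + k + l i, exp (2 π i k Im w) ζ)` of `ℤ × ℤ`;
`Nil` is the quotient.
-/

set_option autoImplicit false

namespace Crest.Agent.R244.B4

open Complex Topology

noncomputable section

/-- the plane times the punctured plane -/
def NT : Type := ℂ × {z : ℂ // z ≠ 0}

instance : TopologicalSpace NT := inferInstanceAs (TopologicalSpace (ℂ × {z : ℂ // z ≠ 0}))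

/-- the lattice group -/
def Lat : Type := ℤ × ℤ

instance : AddCommGroup Lat := inferInstanceAs (AddCommGroup (ℤ × ℤ))

def NT.act (g : Lat) (p : NT) : NT :=
  (p.1 + (g.1 : ℂ) + (g.2 : ℂ) * I,
    ⟨cexp (2 * Real.pi * I * (g.1 : ℂ) * (p.1.im : ℂ)) * p.2.1,
      mul_ne_zero (Complex.exp_ne_zero _) p.2.2⟩)

theorem NT.ext' {p q : NT} (h1 : p.1 = q.1) (h2 : p.2.1 = q.2.1) : p = q :=
  Prod.ext h1 (Subtype.ext h2)

theorem exp_int_mul_int (m n : ℤ) : cexp (2 * Real.pi * I * (m : ℂ) * (n : ℂ)) = 1 := by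
  rw [show (2 * Real.pi * I * (m : ℂ) * (n : ℂ)) = ((m * n : ℤ) : ℂ) * (2 * Real.pi * I) by
    push_cast; ring]
  exact Complex.exp_int_mul_two_pi_mul_I _

instance : AddAction Lat NT where
  vadd := NT.act
  zero_vadd p := by
    refine NT.ext' ?_ ?_
    · change p.1 + ((0 : ℤ) : ℂ) + ((0 : ℤ) : ℂ) * I = p.1
      simp
    · change cexp (2 * Real.pi * I * ((0 : ℤ) : ℂ) * (p.1.im : ℂ)) * p.2.1 = p.2.1
      simp
  add_vadd g h p := by
    refine NT.ext' ?_ ?_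
    · change p.1 + ((g.1 + h.1 : ℤ) : ℂ) + ((g.2 + h.2 : ℤ) : ℂ) * I =
        (p.1 + (h.1 : ℂ) + (h.2 : ℂ) * I) + (g.1 : ℂ) + (g.2 : ℂ) * I
      push_cast; ring
    · change cexp (2 * Real.pi * I * ((g.1 + h.1 : ℤ) : ℂ) * (p.1.im : ℂ)) * p.2.1 =
        cexp (2 * Real.pi * I * (g.1 : ℂ) * ((p.1 + (h.1 : ℂ) + (h.2 : ℂ) * I).im : ℂ)) *
          (cexp (2 * Real.pi * I * (h.1 : ℂ) * (p.1.im : ℂ)) * p.2.1)
      rw [← mul_assoc, ← Complex.exp_add]
      congr 1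
      have him : ((p.1 + (h.1 : ℂ) + (h.2 : ℂ) * I).im : ℂ) = (p.1.im : ℂ) + (h.2 : ℂ) := by
        simp
      rw [him, show (2 * Real.pi * I * (g.1 : ℂ) * ((p.1.im : ℂ) + (h.2 : ℂ)) +
        2 * Real.pi * I * (h.1 : ℂ) * (p.1.im : ℂ)) =
        2 * Real.pi * I * ((g.1 + h.1 : ℤ) : ℂ) * (p.1.im : ℂ) +
        2 * Real.pi * I * (g.1 : ℂ) * (h.2 : ℂ) by push_cast; ring, Complex.exp_add,
        exp_int_mul_int, mul_one]

theorem vadd_fst (g : Lat) (p : NT) : (g +ᵥ p).1 = p.1 + (g.1 : ℂ) + (g.2 : ℂ) * I := rfl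

theorem vadd_snd (g : Lat) (p : NT) :
    (g +ᵥ p).2.1 = cexp (2 * Real.pi * I * (g.1 : ℂ) * (p.1.im : ℂ)) * p.2.1 := rfl

/-- The quotient. -/
def Nil : Type := Quotient (AddAction.orbitRel Lat NT)

instance : TopologicalSpace Nil :=
  inferInstanceAs (TopologicalSpace (Quotient (AddAction.orbitRel Lat NT)))

/-- The projection. -/
def nilMk : NT → Nil := Quotient.mk _

theorem nilMk_eq_of {p q : NT} (k l : ℤ) (h1 : q.1 = p.1 + (k : ℂ) + (l : ℂ) * I)
    (h2 : q.2.1 = cexp (2 * Real.pi * I * (k : ℂ) * (p.1.im : ℂ)) * p.2.1) :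
    nilMk q = nilMk p := by
  refine Quotient.sound ?_
  refine (AddAction.orbitRel_apply).2 ⟨((k, l) : ℤ × ℤ), ?_⟩
  exact (NT.ext' h1 h2).symm

theorem isAddQuotientCoveringMap_nilMk : IsAddQuotientCoveringMap nilMk Lat where
  toIsQuotientMap := isQuotientMap_quotient_mk'
  continuous_const_vadd g := by
    change Continuous (fun p : ℂ × {z : ℂ // z ≠ 0} =>
      ((p.1 + (g.1 : ℂ) + (g.2 : ℂ) * I,
        ⟨cexp (2 * Real.pi * I * (g.1 : ℂ) * (p.1.im : ℂ)) * p.2.1,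
        mul_ne_zero (Complex.exp_ne_zero _) p.2.2⟩) : ℂ × {z : ℂ // z ≠ 0}))
    fun_prop
  apply_eq_iff_mem_orbit {e₁ e₂} := Quotient.eq''
  disjoint e := by
    refine ⟨(fun p : NT => p.1) ⁻¹' Metric.ball e.1 (1 / 2), ?_, ?_⟩
    · have : Continuous (fun p : NT => p.1) := continuous_fst
      exact this.continuousAt.preimage_mem_nhds (Metric.ball_mem_nhds _ (by norm_num))
    · rintro g ⟨_, ⟨q, hq, rfl⟩, hq2⟩
      simp only [Set.mem_preimage, Metric.mem_ball] at hq hq2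
      rw [vadd_fst] at hq2
      have h1 : ‖(g.1 : ℂ) + (g.2 : ℂ) * I‖ < 1 := by
        have : (g.1 : ℂ) + (g.2 : ℂ) * I = (q.1 + (g.1 : ℂ) + (g.2 : ℂ) * I - e.1) - (q.1 - e.1) := by
          ring
        rw [this]
        calc _ ≤ ‖q.1 + (g.1 : ℂ) + (g.2 : ℂ) * I - e.1‖ + ‖q.1 - e.1‖ := norm_sub_le _ _
          _ < 1 / 2 + 1 / 2 := by
            rw [dist_eq_norm] at hq hq2
            linarith
          _ = 1 := by norm_num
      have h2 : |(g.1 : ℝ)| < 1 := by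
        have := (Complex.abs_re_le_norm ((g.1 : ℂ) + (g.2 : ℂ) * I)).trans_lt h1
        simpa using this
      have h3 : |(g.2 : ℝ)| < 1 := by
        have := (Complex.abs_im_le_norm ((g.1 : ℂ) + (g.2 : ℂ) * I)).trans_lt h1
        simpa using this
      have h2' : g.1 = 0 := by
        rw [← Int.cast_abs] at h2
        exact Int.abs_lt_one_iff.mp (by exact_mod_cast h2)
      have h3' : g.2 = 0 := by
        rw [← Int.cast_abs] at h3
        exact Int.abs_lt_one_iff.mp (by exact_mod_cast h3)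
      exact Prod.ext h2' h3'

theorem isCoveringMap_nilMk : IsCoveringMap nilMk := isAddQuotientCoveringMap_nilMk.isCoveringMap

theorem continuous_nilMk : Continuous nilMk := isCoveringMap_nilMk.continuous

variable {M : Type*} [TopologicalSpace M] [PathConnectedSpace M]

/-- **Detection.** If a continuous map to `Nil` sends the loop `y ↦ Γ y`, `a ≤ y ≤ a + 2π`, to the
central fibre, this loop is nontrivial. -/
theorem th_ne_one_of_nil (x0 : M) (Γ : C(ℝ, M)) (a : ℝ) (F : C(M, Nil)) (w : ℂ) (c : ℝ)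
    (hF : ∀ y : ℝ, F (Γ y) = nilMk (w, ⟨cexp ((c + y : ℝ) * I), Complex.exp_ne_zero _⟩))
    (hΓ : Γ (a + 2 * Real.pi) = Γ a) :
    th x0 Γ a (a + 2 * Real.pi) ≠ 1 := by
  intro h
  have h1 := null_of_th_eq_one x0 Γ a (a + 2 * Real.pi) hΓ h
  have h2 := h1.map F
  set L : C(ℝ, NT) := ⟨fun y => (w, ⟨cexp ((c + y : ℝ) * I), Complex.exp_ne_zero _⟩), by
    change Continuous (fun y : ℝ => ((w, ⟨cexp ((c + y : ℝ) * I), Complex.exp_ne_zero _⟩) :
      ℂ × {z : ℂ // z ≠ 0}))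
    fun_prop⟩ with hL
  have h3 : F.comp Γ = (⟨nilMk, continuous_nilMk⟩ : C(NT, Nil)).comp L := by
    ext y; exact hF y
  rw [h3] at h2
  have h4 := Null.lift isCoveringMap_nilMk h2
  have hsnd : Continuous (fun p : NT => p.2) := continuous_snd
  have h5 := h4.map (⟨fun p : NT => p.2, hsnd⟩ : C(NT, {z : ℂ // z ≠ 0}))
  set ℓ : C(ℝ, ℂ) := ⟨fun y => ((c + y : ℝ) : ℂ) * I, by fun_prop⟩ with hℓ
  have h6 : (⟨fun p : NT => p.2, hsnd⟩ : C(NT, {z : ℂ // z ≠ 0})).comp L =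
    (⟨_, Complex.isCoveringMap_exp.continuous⟩ : C(ℂ, {z : ℂ // z ≠ 0})).comp ℓ := by
    ext y; rfl
  rw [h6] at h5
  have h7 := (Null.lift Complex.isCoveringMap_exp h5).eq
  have h8 : ((c + (a + 2 * Real.pi) : ℝ) : ℂ) * I = ((c + a : ℝ) : ℂ) * I := h7
  have h9 := mul_right_cancel₀ Complex.I_ne_zero h8
  have h10 : c + (a + 2 * Real.pi) = c + a := by exact_mod_cast h9
  have := Real.pi_pos
  linarith

end

end Crest.Agent.R244.B4
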