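import Mathlib

/-!
# The quasi-periodic section used to detect `f₂ ≠ 1` (row 244, package B4b)
-/

set_option autoImplicit false

namespace Crest.Agent.R244.B4

open Complex Topology

noncomputable section

/-- `sec u v = (1-u) + u e^{2πiv}` for `0 ≤ u ≤ 1`, continued by `sec (u+1) v = e^{2πiv} sec u v`. -/
def sec (u v : ℝ) : ℂ :=
  cexp (2 * Real.pi * I * (⌊u⌋ : ℂ) * (v : ℂ)) *
    ((1 - Int.fract u : ℝ) + (Int.fract u : ℝ) * cexp (2 * Real.pi * I * (v : ℂ)))

theorem sec_add_int (u v : ℝ) (k : ℤ) :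
    sec (u + k) v = cexp (2 * Real.pi * I * (k : ℂ) * (v : ℂ)) * sec u v := by
  unfold sec
  rw [Int.floor_add_intCast, Int.fract_add_intCast, ← mul_assoc, ← Complex.exp_add]
  congr 2
  push_cast; ring

theorem sec_add_int_right (u v : ℝ) (l : ℤ) : sec u (v + l) = sec u v := by
  unfold sec
  have h1 : cexp (2 * Real.pi * I * (⌊u⌋ : ℂ) * ((v + l : ℝ) : ℂ)) =
      cexp (2 * Real.pi * I * (⌊u⌋ : ℂ) * (v : ℂ)) := by
    rw [show (2 * Real.pi * I * (⌊u⌋ : ℂ) * ((v + l : ℝ) : ℂ)) =
      2 * Real.pi * I * (⌊u⌋ : ℂ) * (v : ℂ) + ((⌊u⌋ * l : ℤ) : ℂ) * (2 * Real.pi * I) by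
      push_cast; ring, Complex.exp_add, Complex.exp_int_mul_two_pi_mul_I, mul_one]
  have h2 : cexp (2 * Real.pi * I * ((v + l : ℝ) : ℂ)) = cexp (2 * Real.pi * I * (v : ℂ)) := by
    rw [show (2 * Real.pi * I * ((v + l : ℝ) : ℂ)) =
      2 * Real.pi * I * (v : ℂ) + (l : ℂ) * (2 * Real.pi * I) by
      push_cast; ring, Complex.exp_add, Complex.exp_int_mul_two_pi_mul_I, mul_one]
  rw [h1, h2]

theorem sec_on_strip (k : ℤ) {u v : ℝ} (h1 : (k : ℝ) ≤ u) (h2 : u ≤ k + 1) :
    sec u v = cexp (2 * Real.pi * I * (k : ℂ) * (v : ℂ)) *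
      ((1 - (u - k) : ℝ) + (u - k : ℝ) * cexp (2 * Real.pi * I * (v : ℂ))) := by
  rcases lt_or_eq_of_le h2 with h2 | h2
  · have h3 : ⌊u⌋ = k := Int.floor_eq_iff.2 ⟨h1, h2⟩
    have h4 : Int.fract u = u - k := by rw [Int.fract, h3]
    unfold sec
    rw [h3, h4]
  · have h3 : ⌊u⌋ = k + 1 := by
      rw [h2]
      have := Int.floor_intCast (R := ℝ) (k + 1)
      push_cast at this
      exact this
    have h4 : Int.fract u = 0 := by rw [Int.fract, h3, h2]; push_cast; ring
    unfold sec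
    rw [h3, h4, h2]
    push_cast
    rw [show (2 * Real.pi * I * ((k : ℂ) + 1) * (v : ℂ)) =
      2 * Real.pi * I * (k : ℂ) * (v : ℂ) + 2 * Real.pi * I * (v : ℂ) by ring, Complex.exp_add]
    ring

theorem continuous_sec : Continuous (fun p : ℝ × ℝ => sec p.1 p.2) := by
  have hlf : LocallyFinite (fun k : ℤ => {p : ℝ × ℝ | (k : ℝ) ≤ p.1 ∧ p.1 ≤ k + 1}) := by
    intro p
    refine ⟨{q | |q.1 - p.1| < 1}, ?_, ?_⟩
    · have : IsOpen {q : ℝ × ℝ | |q.1 - p.1| < 1} :=
        isOpen_lt (by fun_prop) continuous_const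
      exact this.mem_nhds (by simp)
    · refine (Set.finite_Icc (⌊p.1⌋ - 2) (⌊p.1⌋ + 2)).subset ?_
      rintro k ⟨q, ⟨hq1, hq2⟩, hq3⟩
      simp only [Set.mem_ofPred_eq] at hq1 hq2 hq3
      rw [abs_lt] at hq3
      have h1 := Int.floor_le p.1
      have h2 := Int.lt_floor_add_one p.1
      rw [Set.mem_Icc]
      constructor
      · have : ((⌊p.1⌋ - 2 : ℤ) : ℝ) ≤ (k : ℝ) := by push_cast; linarith
        exact_mod_cast this
      · have : (k : ℝ) < ((⌊p.1⌋ + 2 + 1: ℤ) : ℝ) := by push_cast; linarith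
        have : k < ⌊p.1⌋ + 2 + 1 := by exact_mod_cast this
        omega
  refine hlf.continuous ?_ ?_ ?_
  · refine Set.eq_univ_of_forall fun p => Set.mem_iUnion.2 ⟨⌊p.1⌋, Int.floor_le _, ?_⟩
    exact (Int.lt_floor_add_one _).le
  · intro k
    exact (isClosed_le continuous_const continuous_fst).inter
      (isClosed_le continuous_fst continuous_const)
  · intro k
    have : Continuous (fun p : ℝ × ℝ => cexp (2 * Real.pi * I * (k : ℂ) * (p.2 : ℂ)) *
      ((1 - (p.1 - k) : ℝ) + (p.1 - k : ℝ) * cexp (2 * Real.pi * I * (p.2 : ℂ)))) := by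
      fun_prop
    refine this.continuousOn.congr ?_
    rintro p ⟨hp1, hp2⟩
    exact sec_on_strip k hp1 hp2

theorem sec_eq_zero {u v : ℝ} (h : sec u v = 0) : ∃ m n : ℤ, u = m + 1 / 2 ∧ v = n + 1 / 2 := by
  unfold sec at h
  have h1 := (mul_eq_zero.1 h).resolve_left (Complex.exp_ne_zero _)
  set f := Int.fract u with hf
  have hf0 : 0 ≤ f := Int.fract_nonneg u
  have hf1 : f < 1 := Int.fract_lt_one u
  have h2 : (f : ℂ) * cexp (2 * Real.pi * I * (v : ℂ)) = -((1 - f : ℝ) : ℂ) := by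
    rw [eq_neg_iff_add_eq_zero, add_comm]; exact h1
  have h3 : ‖cexp (2 * Real.pi * I * (v : ℂ))‖ = 1 := by
    rw [show (2 * Real.pi * I * (v : ℂ)) = ((2 * Real.pi * v : ℝ) : ℂ) * I by push_cast; ring]
    exact Complex.norm_exp_ofReal_mul_I _
  have h4 : f = 1 / 2 := by
    have := congrArg norm h2
    rw [norm_mul, h3, mul_one, norm_neg, Complex.norm_real, Complex.norm_real, Real.norm_eq_abs,
      Real.norm_eq_abs, abs_of_nonneg hf0, abs_of_nonneg (by linarith)] at this
    linarith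
  have h5 : cexp (2 * Real.pi * I * (v : ℂ)) = -1 := by
    rw [h4] at h2
    push_cast at h2
    linear_combination 2 * h2
  have h6 : cexp (2 * Real.pi * I * (v : ℂ)) = cexp (Real.pi * I) := by
    rw [h5, Complex.exp_pi_mul_I]
  obtain ⟨n, hn⟩ := Complex.exp_eq_exp_iff_exists_int.1 h6
  refine ⟨⌊u⌋, n, ?_, ?_⟩
  · have := Int.floor_add_fract u
    rw [← hf, h4] at this
    linarith
  · have h7 : (2 * Real.pi * I) * (v : ℂ) = (2 * Real.pi * I) * ((n : ℂ) + 1 / 2) := by
      rw [hn]; ring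
    have h8 := mul_left_cancel₀ Complex.two_pi_I_ne_zero h7
    have h9 : ((v : ℝ) : ℂ) = (((n : ℝ) + 1 / 2 : ℝ) : ℂ) := by rw [h8]; push_cast; ring
    exact_mod_cast h9

theorem sec_near {a b : ℝ} (ha : |a| < 1 / 2) :
    sec (1 / 2 + a) (1 / 2 + b) =
      ((1 / 2 - a) - (1 / 2 + a) * Real.cos (2 * Real.pi * b) : ℝ) +
        (-(1 / 2 + a) * Real.sin (2 * Real.pi * b) : ℝ) * I := by
  rw [abs_lt] at ha
  rw [sec_on_strip 0 (by push_cast; linarith) (by push_cast; linarith)]
  have h1 : cexp (2 * Real.pi * I * ((1 / 2 + b : ℝ) : ℂ)) =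
      -(Real.cos (2 * Real.pi * b) + Real.sin (2 * Real.pi * b) * I) := by
    rw [show (2 * Real.pi * I * ((1 / 2 + b : ℝ) : ℂ)) =
      Real.pi * I + ((2 * Real.pi * b : ℝ) : ℂ) * I by push_cast; ring, Complex.exp_add,
      Complex.exp_pi_mul_I, Complex.exp_mul_I]
    push_cast; ring
  rw [h1]
  push_cast
  simp
  ring

theorem re_im_zero {A B : ℝ} (h : (A : ℂ) + (B : ℂ) * I = 0) : A = 0 ∧ B = 0 := by
  have h1 := congrArg Complex.re h
  have h2 := congrArg Complex.im h
  simp at h1 h2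
  exact ⟨h1, h2⟩

/-- the homotopy on small circles around the hole centre does not vanish -/
theorem sec_homotopy_ne_zero {r τ y : ℝ} (hr : 0 ≤ r) (hr2 : r < 1 / 2) (h0 : 0 ≤ τ) (h1 : τ ≤ 1)
    (hrt : τ < 1 → 0 < r) :
    (1 - τ : ℝ) * sec (1 / 2 + r * Real.cos y) (1 / 2 + r * Real.sin y) +
      (-τ : ℝ) * (Real.cos y + Real.sin y * I) ≠ 0 := by
  have ha : |r * Real.cos y| < 1 / 2 := by
    rw [abs_mul, abs_of_nonneg hr]
    calc r * |Real.cos y| ≤ r * 1 := by
          exact mul_le_mul_of_nonneg_left (Real.abs_cos_le_one y) hr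
      _ < 1 / 2 := by linarith
  have hb : |r * Real.sin y| < 1 / 2 := by
    rw [abs_mul, abs_of_nonneg hr]
    calc r * |Real.sin y| ≤ r * 1 := by
          exact mul_le_mul_of_nonneg_left (Real.abs_sin_le_one y) hr
      _ < 1 / 2 := by linarith
  rw [sec_near ha]
  intro h
  obtain ⟨hre, him⟩ := @re_im_zero
    ((1 - τ) * ((1 / 2 - r * Real.cos y) -
      (1 / 2 + r * Real.cos y) * Real.cos (2 * Real.pi * (r * Real.sin y))) - τ * Real.cos y)
    ((1 - τ) * (-(1 / 2 + r * Real.cos y) * Real.sin (2 * Real.pi * (r * Real.sin y)))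
      - τ * Real.sin y) (by rw [← h]; push_cast; ring)
  rw [abs_lt] at ha hb
  have hpos : 0 < 1 / 2 + r * Real.cos y := by linarith
  have hpi := Real.pi_pos
  rcases lt_trichotomy (Real.sin y) 0 with hs | hs | hs
  · rcases eq_or_lt_of_le h1 with h1 | h1
    · rw [h1] at him; norm_num at him; linarith
    · have hr0 := hrt h1
      have h2 : Real.sin (2 * Real.pi * (r * Real.sin y)) < 0 := by
        apply Real.sin_neg_of_neg_of_neg_pi_lt
        · have : r * Real.sin y < 0 := mul_neg_of_pos_of_neg hr0 hs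
          nlinarith
        · nlinarith
      have h3 : 0 < (1 - τ) * ((1 / 2 + r * Real.cos y) * -Real.sin (2 * Real.pi * (r * Real.sin y))) :=
        mul_pos (by linarith) (mul_pos hpos (by linarith))
      nlinarith
  · rw [hs] at hre
    have hc : Real.cos y = 1 ∨ Real.cos y = -1 := by
      have := Real.sin_sq_add_cos_sq y
      rw [hs] at this
      have h2 : (Real.cos y - 1) * (Real.cos y + 1) = 0 := by nlinarith
      rcases mul_eq_zero.1 h2 with h | h
      · left; linarith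
      · right; linarith
    rw [mul_zero, mul_zero, Real.cos_zero] at hre
    rcases hc with hc | hc
    · rw [hc] at hre
      have : (1 - τ) * (2 * r) + τ = 0 := by linarith
      rcases eq_or_lt_of_le h1 with h1 | h1
      · rw [h1] at this; norm_num at this
      · have hr0 := hrt h1
        have : 0 < (1 - τ) * (2 * r) := mul_pos (by linarith) (by linarith)
        linarith
    · rw [hc] at hre
      have : (1 - τ) * (2 * r) + τ = 0 := by linarith
      rcases eq_or_lt_of_le h1 with h1 | h1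
      · rw [h1] at this; norm_num at this
      · have hr0 := hrt h1
        have : 0 < (1 - τ) * (2 * r) := mul_pos (by linarith) (by linarith)
        linarith
  · rcases eq_or_lt_of_le h1 with h1 | h1
    · rw [h1] at him; norm_num at him; linarith
    · have hr0 := hrt h1
      have h2 : 0 < Real.sin (2 * Real.pi * (r * Real.sin y)) := by
        apply Real.sin_pos_of_pos_of_lt_pi
        · have : 0 < r * Real.sin y := mul_pos hr0 hs
          nlinarith
        · nlinarith
      have h3 : 0 < (1 - τ) * ((1 / 2 + r * Real.cos y) * Real.sin (2 * Real.pi * (r * Real.sin y))) :=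
        mul_pos (by linarith) (mul_pos hpos h2)
      nlinarith

end

end Crest.Agent.R244.B4
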