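import Mathlib
import Crest.Agent.R244.B4Nil
import Crest.Agent.R244.B4Sec

/-!
# Detection of `f₂ ≠ 1` for the 2-block manifold: the map to `Nil` on the three patches

Row 244, package B4b.  Conventions (DECISIONS v2): block 1 patch `(u,v,x)`, collar patch `(t,x,y)`,
block 2 patch `(u,v,z)`.  For `t ≤ tL` the collar point `(t,x,y)` is glued to
`(S/2 + (c1-t) cos y, S/2 + (c1-t) sin y, x)`, for `tR ≤ t` to
`(S/2 + (t+c2) cos x, S/2 + (t+c2) sin x, x+y)`.
-/

set_option autoImplicit false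

namespace Crest.Agent.R244.B4

open Complex Topology

noncomputable section

/-- total constructor for points of `NT` -/
def mkNT (w z : ℂ) : NT := (w, if h : z ≠ 0 then ⟨z, h⟩ else ⟨1, one_ne_zero⟩)

theorem mkNT_fst (w z : ℂ) : (mkNT w z).1 = w := rfl

theorem mkNT_snd (w : ℂ) {z : ℂ} (h : z ≠ 0) : (mkNT w z).2.1 = z := by
  unfold mkNT
  simp [h]

theorem continuousOn_mkNT {X : Type*} [TopologicalSpace X] {f g : X → ℂ} {s : Set X}
    (hf : ContinuousOn f s) (hg : ContinuousOn g s) (h0 : ∀ x ∈ s, g x ≠ 0) :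
    ContinuousOn (fun x => mkNT (f x) (g x)) s := by
  rw [continuousOn_iff_continuous_domRestrict] at hf hg ⊢
  have h1 : Continuous (fun x : s => (⟨g x, h0 x x.2⟩ : {z : ℂ // z ≠ 0})) :=
    Continuous.subtype_mk hg _
  have h2 : Continuous (fun x : s => (((f x : ℂ), (⟨g x, h0 x x.2⟩ : {z : ℂ // z ≠ 0})) :
      ℂ × {z : ℂ // z ≠ 0})) := Continuous.prodMk hf h1
  have h3 : (s.domRestrict fun x => mkNT (f x) (g x)) =
      (fun x : s => (((f x : ℂ), (⟨g x, h0 x x.2⟩ : {z : ℂ // z ≠ 0})) : ℂ × {z : ℂ // z ≠ 0})) := by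
    funext x
    refine NT.ext' rfl ?_
    exact mkNT_snd _ (h0 x x.2)
  rw [h3]
  exact h2

theorem continuousOn_sec {X : Type*} [TopologicalSpace X] {f g : X → ℝ} {s : Set X}
    (hf : ContinuousOn f s) (hg : ContinuousOn g s) :
    ContinuousOn (fun x => sec (f x) (g x)) s := by
  have h : ContinuousOn (fun x => (f x, g x)) s := hf.prodMk hg
  have h2 := Continuous.comp_continuousOn continuous_sec h
  have h3 : ((fun p : ℝ × ℝ => sec p.1 p.2) ∘ fun x => (f x, g x)) = fun x => sec (f x) (g x) := by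
    funext x
    rw [Function.comp_apply]
  rw [← h3]
  exact h2

/-- the map on block 1 -/
def nil1 (S u v x : ℝ) : Nil :=
  nilMk (mkNT ((u / S : ℝ) + (v / S : ℝ) * I) (cexp (x * I) * sec (u / S) (v / S)))

/-- the interpolation parameter -/
def ctau (tL tR t : ℝ) : ℝ := max 0 (min 1 ((t - tL) / (tR - tL)))

/-- the radius -/
def crad (c1 tL tR t : ℝ) : ℝ := (c1 - min t tL) * (1 - ctau tL tR t)

/-- the fibre coordinate on the collar -/
def cz (S c1 tL tR t y : ℝ) : ℂ :=
  (1 - ctau tL tR t : ℝ) * sec (1 / 2 + crad c1 tL tR t / S * Real.cos y)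
    (1 / 2 + crad c1 tL tR t / S * Real.sin y) +
    (-ctau tL tR t : ℝ) * (Real.cos y + Real.sin y * I)

/-- the map on the collar -/
def nilC (S c1 tL tR t x y : ℝ) : Nil :=
  nilMk (mkNT ((1 / 2 + crad c1 tL tR t / S * Real.cos y : ℝ) +
    (1 / 2 + crad c1 tL tR t / S * Real.sin y : ℝ) * I) (cexp (x * I) * cz S c1 tL tR t y))

/-- the map on block 2 -/
def nil2 (z : ℝ) : Nil :=
  nilMk ((1 / 2 + 1 / 2 * I : ℂ), ⟨cexp ((Real.pi + z : ℝ) * I), Complex.exp_ne_zero _⟩)

theorem sec_ne_zero_of {S u v : ℝ} (hS : 0 < S)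
    (h : ∀ m n : ℤ, ¬ (u = S / 2 + S * m ∧ v = S / 2 + S * n)) : sec (u / S) (v / S) ≠ 0 := by
  intro h0
  obtain ⟨m, n, h1, h2⟩ := sec_eq_zero h0
  refine h m n ⟨?_, ?_⟩
  · rw [div_eq_iff hS.ne'] at h1; rw [h1]; ring
  · rw [div_eq_iff hS.ne'] at h2; rw [h2]; ring

theorem nil1_period {S u v : ℝ} (hS : 0 < S)
    (h : ∀ m n : ℤ, ¬ (u = S / 2 + S * m ∧ v = S / 2 + S * n)) (x : ℝ) (k l n : ℤ) :
    nil1 S (u + S * k) (v + S * l) (x + 2 * Real.pi * n) = nil1 S u v x := by
  have hs := sec_ne_zero_of hS h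
  have h1 : (u + S * k) / S = u / S + k := by field_simp
  have h2 : (v + S * l) / S = v / S + l := by field_simp
  have h3 : cexp (((x + 2 * Real.pi * n : ℝ) : ℂ) * I) = cexp (x * I) := by
    rw [show (((x + 2 * Real.pi * n : ℝ) : ℂ) * I) = x * I + (n : ℂ) * (2 * Real.pi * I) by
      push_cast; ring, Complex.exp_add, Complex.exp_int_mul_two_pi_mul_I, mul_one]
  unfold nil1
  rw [h1, h2, h3, sec_add_int_right, sec_add_int]
  refine nilMk_eq_of k l ?_ ?_
  · rw [mkNT_fst, mkNT_fst]; push_cast; ring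
  · rw [mkNT_snd, mkNT_snd, mkNT_fst]
    · have : ((((u / S : ℝ) : ℂ) + ((v / S : ℝ) : ℂ) * I).im) = v / S := by simp
      rw [this]; ring
    · exact mul_ne_zero (Complex.exp_ne_zero _) hs
    · exact mul_ne_zero (Complex.exp_ne_zero _) (mul_ne_zero (Complex.exp_ne_zero _) hs)

theorem continuousOn_nil1 {S : ℝ} (hS : 0 < S) {X : Type*} [TopologicalSpace X] {u v x : X → ℝ}
    {s : Set X} (hu : ContinuousOn u s) (hv : ContinuousOn v s) (hx : ContinuousOn x s)
    (h : ∀ p ∈ s, ∀ m n : ℤ, ¬ (u p = S / 2 + S * m ∧ v p = S / 2 + S * n)) :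
    ContinuousOn (fun p => nil1 S (u p) (v p) (x p)) s := by
  unfold nil1
  refine continuous_nilMk.comp_continuousOn (continuousOn_mkNT ?_ ?_ ?_)
  · fun_prop
  · refine ContinuousOn.mul (by fun_prop) ?_
    exact continuousOn_sec (by fun_prop) (by fun_prop)
  · intro p hp
    exact mul_ne_zero (Complex.exp_ne_zero _) (sec_ne_zero_of hS (h p hp))

theorem ctau_nonneg (tL tR t : ℝ) : 0 ≤ ctau tL tR t := le_max_left _ _

theorem ctau_le_one (tL tR t : ℝ) : ctau tL tR t ≤ 1 :=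
  max_le zero_le_one (min_le_left _ _)

theorem ctau_left {tL tR t : ℝ} (h : tL < tR) (ht : t ≤ tL) : ctau tL tR t = 0 := by
  unfold ctau
  apply max_eq_left
  refine (min_le_right _ _).trans ?_
  exact div_nonpos_of_nonpos_of_nonneg (by linarith) (by linarith)

theorem ctau_right {tL tR t : ℝ} (h : tL < tR) (ht : tR ≤ t) : ctau tL tR t = 1 := by
  unfold ctau
  have : 1 ≤ (t - tL) / (tR - tL) := by
    rw [le_div_iff₀ (by linarith)]; linarith
  rw [min_eq_left this]
  norm_num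

theorem crad_nonneg {c1 tL tR t : ℝ} (hc : tL ≤ c1) : 0 ≤ crad c1 tL tR t := by
  unfold crad
  refine mul_nonneg ?_ (by linarith [ctau_le_one tL tR t])
  linarith [min_le_right t tL]

theorem crad_lt {S c1 tL tR t : ℝ} (hc : tL ≤ c1) (h1 : c1 - tL < S / 2) (h2 : c1 - t < S / 2) :
    crad c1 tL tR t < S / 2 := by
  unfold crad
  have h3 : 0 ≤ c1 - min t tL := by linarith [min_le_right t tL]
  have h4 : c1 - min t tL < S / 2 := by
    rcases min_choice t tL with h | h <;> rw [h] <;> assumption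
  have h5 := ctau_le_one tL tR t
  have h6 := ctau_nonneg tL tR t
  nlinarith

theorem crad_pos {c1 tL tR t : ℝ} (hc : tL < c1) (h : ctau tL tR t < 1) :
    0 < crad c1 tL tR t := by
  unfold crad
  exact mul_pos (by linarith [min_le_right t tL]) (by linarith)

theorem cz_ne_zero {S c1 tL tR t : ℝ} (hS : 0 < S) (hc : tL < c1) (h1 : c1 - tL < S / 2)
    (h2 : c1 - t < S / 2) (y : ℝ) : cz S c1 tL tR t y ≠ 0 := by
  unfold cz
  refine sec_homotopy_ne_zero (div_nonneg (crad_nonneg hc.le) hS.le) ?_ (ctau_nonneg _ _ _)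
    (ctau_le_one _ _ _) ?_
  · rw [div_lt_iff₀ hS]; linarith [crad_lt (tR := tR) hc.le h1 h2]
  · intro h; exact div_pos (crad_pos hc h) hS

theorem continuous_ctau (tL tR : ℝ) : Continuous (ctau tL tR) := by
  unfold ctau; fun_prop

theorem continuous_crad (c1 tL tR : ℝ) : Continuous (crad c1 tL tR) := by
  unfold crad
  have := continuous_ctau tL tR
  fun_prop

theorem continuousOn_nilC {S c1 tL tR : ℝ} (hS : 0 < S) (hc : tL < c1) (h1 : c1 - tL < S / 2)
    {X : Type*} [TopologicalSpace X] {t x y : X → ℝ} {s : Set X} (ht : ContinuousOn t s)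
    (hx : ContinuousOn x s) (hy : ContinuousOn y s) (h2 : ∀ p ∈ s, c1 - t p < S / 2) :
    ContinuousOn (fun p => nilC S c1 tL tR (t p) (x p) (y p)) s := by
  unfold nilC
  have hr : ContinuousOn (fun p => crad c1 tL tR (t p)) s :=
    (continuous_crad c1 tL tR).comp_continuousOn ht
  have hτ : ContinuousOn (fun p => ctau tL tR (t p)) s :=
    (continuous_ctau tL tR).comp_continuousOn ht
  have hcos : ContinuousOn (fun p => Real.cos (y p)) s := Real.continuous_cos.comp_continuousOn hy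
  have hsin : ContinuousOn (fun p => Real.sin (y p)) s := Real.continuous_sin.comp_continuousOn hy
  refine continuous_nilMk.comp_continuousOn (continuousOn_mkNT ?_ ?_ ?_)
  · fun_prop
  · refine ContinuousOn.mul (by fun_prop) ?_
    unfold cz
    have h3 : ContinuousOn (fun p => sec (1 / 2 + crad c1 tL tR (t p) / S * Real.cos (y p))
        (1 / 2 + crad c1 tL tR (t p) / S * Real.sin (y p))) s :=
      continuousOn_sec (by fun_prop) (by fun_prop)
    fun_prop
  · intro p hp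
    exact mul_ne_zero (Complex.exp_ne_zero _) (cz_ne_zero hS hc h1 (h2 p hp) _)

theorem exp_period (x : ℝ) (n : ℤ) :
    cexp (((x + 2 * Real.pi * n : ℝ) : ℂ) * I) = cexp (x * I) := by
  rw [show (((x + 2 * Real.pi * n : ℝ) : ℂ) * I) = x * I + (n : ℂ) * (2 * Real.pi * I) by
    push_cast; ring, Complex.exp_add, Complex.exp_int_mul_two_pi_mul_I, mul_one]

theorem nilC_period (S c1 tL tR t x y : ℝ) (m n : ℤ) :
    nilC S c1 tL tR t (x + 2 * Real.pi * m) (y + 2 * Real.pi * n) = nilC S c1 tL tR t x y := by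
  have h1 : Real.cos (y + 2 * Real.pi * n) = Real.cos y := by
    rw [show y + 2 * Real.pi * n = y + n * (2 * Real.pi) by ring, Real.cos_add_int_mul_two_pi]
  have h2 : Real.sin (y + 2 * Real.pi * n) = Real.sin y := by
    rw [show y + 2 * Real.pi * n = y + n * (2 * Real.pi) by ring, Real.sin_add_int_mul_two_pi]
  unfold nilC cz
  rw [exp_period, h1, h2]

theorem nil2_period (z : ℝ) (n : ℤ) : nil2 (z + 2 * Real.pi * n) = nil2 z := by
  unfold nil2
  congr 1
  refine NT.ext' rfl ?_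
  change cexp (((Real.pi + (z + 2 * Real.pi * n) : ℝ) : ℂ) * I) = cexp (((Real.pi + z : ℝ) : ℂ) * I)
  rw [← add_assoc, exp_period]

theorem continuous_nil2 : Continuous nil2 := by
  unfold nil2
  refine continuous_nilMk.comp ?_
  change Continuous (fun z : ℝ => (((1 / 2 + 1 / 2 * I : ℂ),
    ⟨cexp ((Real.pi + z : ℝ) * I), Complex.exp_ne_zero _⟩) : ℂ × {z : ℂ // z ≠ 0}))
  fun_prop

/-- gluing on the left end -/
theorem nilC_left {S c1 tL tR t : ℝ} (hS : 0 < S) (h : tL < tR) (ht : t ≤ tL) (x y : ℝ) :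
    nilC S c1 tL tR t x y =
      nil1 S (S / 2 + (c1 - t) * Real.cos y) (S / 2 + (c1 - t) * Real.sin y) x := by
  unfold nilC nil1 cz
  have h1 : crad c1 tL tR t = c1 - t := by
    unfold crad; rw [ctau_left h ht, min_eq_left ht]; ring
  rw [h1, ctau_left h ht]
  have h2 : 1 / 2 + (c1 - t) / S * Real.cos y = (S / 2 + (c1 - t) * Real.cos y) / S := by
    field_simp
  have h3 : 1 / 2 + (c1 - t) / S * Real.sin y = (S / 2 + (c1 - t) * Real.sin y) / S := by
    field_simp
  rw [h2, h3]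
  norm_num

/-- gluing on the right end -/
theorem nilC_right {S c1 tL tR t : ℝ} (h : tL < tR) (ht : tR ≤ t) (x y : ℝ) :
    nilC S c1 tL tR t x y = nil2 (x + y) := by
  unfold nilC nil2 cz
  have h1 : crad c1 tL tR t = 0 := by
    unfold crad; rw [ctau_right h ht]; ring
  rw [h1, ctau_right h ht]
  have h2 : cexp (x * I) * (((1 - 1 : ℝ) : ℂ) * sec (1 / 2 + 0 / S * Real.cos y)
      (1 / 2 + 0 / S * Real.sin y) + ((-1 : ℝ) : ℂ) * (Real.cos y + Real.sin y * I)) =
      cexp (((Real.pi + (x + y) : ℝ) : ℂ) * I) := by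
    rw [show (((Real.pi + (x + y) : ℝ) : ℂ) * I) = Real.pi * I + (x * I + y * I) by
      push_cast; ring, Complex.exp_add, Complex.exp_add, Complex.exp_pi_mul_I,
      Complex.exp_mul_I (y : ℂ)]
    push_cast; ring
  congr 1
  refine NT.ext' ?_ ?_
  · rw [mkNT_fst]; push_cast; ring
  · rw [mkNT_snd]
    · exact h2
    · rw [h2]; exact Complex.exp_ne_zero _

variable {M : Type*} [TopologicalSpace M] [PathConnectedSpace M]

/-- **Detection**, final form: if `F : M → Nil` is `nil2 (x + y)` on the loop `y ↦ Γ y`, then the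
loop is nontrivial. -/
theorem th_ne_one_of_nil2 (x0 : M) (Γ : C(ℝ, M)) (a x : ℝ) (F : C(M, Nil))
    (hF : ∀ y : ℝ, F (Γ y) = nil2 (x + y)) (hΓ : Γ (a + 2 * Real.pi) = Γ a) :
    th x0 Γ a (a + 2 * Real.pi) ≠ 1 := by
  refine th_ne_one_of_nil x0 Γ a F (1 / 2 + 1 / 2 * I) (Real.pi + x) (fun y => ?_) hΓ
  rw [hF]
  unfold nil2
  congr 1
  refine NT.ext' rfl ?_
  change cexp (((Real.pi + (x + y) : ℝ) : ℂ) * I) = cexp (((Real.pi + x + y : ℝ) : ℂ) * I)
  rw [add_assoc]

end

end Crest.Agent.R244.B4
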