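import Mathlib
import Crest.Agent.R244.B4Det

/-!
# The `y`-loop of the collar is not null-homotopic (row 244, package B4b)
-/

set_option autoImplicit false

namespace Crest.Agent.R244.B4

open Complex Topology unitInterval

noncomputable section

variable {M : Type*} [TopologicalSpace M] [PathConnectedSpace M]

theorem th_eq_one_of_null {E : Type*} [TopologicalSpace E] [SimplyConnectedSpace E] (x0 : M)
    (Γ : C(E, M)) (p q : E) (h : Null Γ q p) : th x0 Γ p q = 1 := by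
  obtain ⟨h1, h2⟩ := h
  unfold th
  rw [← Th_cast x0 ((cl q p).map Γ) rfl h1, h2]
  rw [FundamentalGroup.one_def]
  unfold Th FundamentalGroup.fromPath FundamentalGroup.fromArrow
  simp

omit [PathConnectedSpace M] in
theorem null_of_path (Γ : C(ℝ, M)) (p q : ℝ) (h : Γ p = Γ q) (γ : Path (Γ p) (Γ p))
    (hγ : ∀ s : I, γ s = Γ (p + (q - p) * s)) (hn : γ.Homotopic (Path.refl _)) :
    Null Γ p q := by
  refine ⟨h, ?_⟩
  let δ : Path p q :=
    ⟨⟨fun s : I => p + (q - p) * s, by fun_prop⟩, by simp, by simp⟩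
  have h1 : cl p q = Path.Homotopic.Quotient.mk δ := Subsingleton.elim _ _
  rw [h1, ← Path.Homotopic.Quotient.mk_map, ← Path.Homotopic.Quotient.mk_cast]
  have h2 : (δ.map Γ.continuous).cast rfl h = γ := by
    ext s
    exact (hγ s).symm
  rw [h2]
  exact Path.Homotopic.Quotient.eq.2 hn

/-- **Output of B4b.** -/
theorem not_homotopic_refl_of_nil (K : ℝ × ℝ × ℝ → M) (t0 t1 : ℝ) (hT : t0 ≤ t1)
    (hK : ContinuousOn K {p | t0 ≤ p.1 ∧ p.1 ≤ t1})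
    (hper : ∀ t y : ℝ, t0 ≤ t → t ≤ t1 → K (t, 0, y + 2 * Real.pi) = K (t, 0, y))
    (F : C(M, Nil)) (hF : ∀ y : ℝ, F (K (t1, 0, y)) = nil2 y)
    (γ : Path (K (t0, 0, 0)) (K (t0, 0, 0))) (hγ : ∀ s : I, γ s = K (t0, 0, 2 * Real.pi * s)) :
    ¬ γ.Homotopic (Path.refl _) := by
  intro hn
  let x0 : M := K (t0, 0, 0)
  have : ContractibleSpace (Set.Icc t0 t1) :=
    (convex_Icc t0 t1).contractibleSpace ⟨t0, le_rfl, hT⟩
  let Kc : C(Set.Icc t0 t1 × ℝ, M) := ⟨fun p => K (p.1, 0, p.2), by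
    rw [← continuousOn_univ]
    refine hK.comp (f := fun p : Set.Icc t0 t1 × ℝ => (((p.1 : ℝ), (0 : ℝ), p.2) : ℝ × ℝ × ℝ))
      (by fun_prop) ?_
    intro p _
    exact p.1.2⟩
  let i0 : Set.Icc t0 t1 := ⟨t0, le_rfl, hT⟩
  let i1 : Set.Icc t0 t1 := ⟨t1, hT, le_rfl⟩
  let G0 : C(ℝ, M) := Kc.comp ⟨fun y => (i0, y), by fun_prop⟩
  let G1 : C(ℝ, M) := Kc.comp ⟨fun y => (i1, y), by fun_prop⟩
  have e0 : th x0 G0 0 (0 + 2 * Real.pi) = th x0 Kc (i0, 0) (i0, 0 + 2 * Real.pi) := th_comp _ _ _ _ _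
  have e1 : th x0 G1 0 (0 + 2 * Real.pi) = th x0 Kc (i1, 0) (i1, 0 + 2 * Real.pi) := th_comp _ _ _ _ _
  have e2 : th x0 Kc (i0, 0) (i1, 0) =
      th x0 Kc (i0, 0 + 2 * Real.pi) (i1, 0 + 2 * Real.pi) := by
    have h1 : th x0 (Kc.comp (⟨fun t => (t, 0), by fun_prop⟩ : C(Set.Icc t0 t1, _))) i0 i1 =
        th x0 Kc (i0, 0) (i1, 0) := th_comp _ _ _ _ _
    have h2 : th x0 (Kc.comp (⟨fun t => (t, 0 + 2 * Real.pi), by fun_prop⟩ :
        C(Set.Icc t0 t1, _))) i0 i1 =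
        th x0 Kc (i0, 0 + 2 * Real.pi) (i1, 0 + 2 * Real.pi) := th_comp _ _ _ _ _
    rw [← h1, ← h2]
    congr 1
    ext t
    exact (hper t 0 t.2.1 t.2.2).symm
  have e3 : th x0 G0 0 (0 + 2 * Real.pi) * th x0 Kc (i0, 0) (i1, 0) =
      th x0 Kc (i0, 0) (i1, 0) * th x0 G1 0 (0 + 2 * Real.pi) := by
    rw [e0, e1, th_mul]
    nth_rw 1 [e2]
    rw [th_mul]
  have hG0 : G0 0 = G0 (0 + 2 * Real.pi) := (hper t0 0 le_rfl hT).symm
  have hnull : Null G0 0 (0 + 2 * Real.pi) := by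
    refine null_of_path G0 0 (0 + 2 * Real.pi) hG0 γ ?_ hn
    intro s
    rw [hγ]
    change K (t0, 0, 2 * Real.pi * (s : ℝ)) = K (t0, 0, 0 + (0 + 2 * Real.pi - 0) * (s : ℝ))
    congr 3
    ring
  have h1 : th x0 G0 (0 + 2 * Real.pi) 0 = 1 := th_eq_one_of_null _ _ _ _ hnull
  have h2 : th x0 G0 0 (0 + 2 * Real.pi) = 1 := by
    rw [← th_inv, h1, inv_one]
  rw [h2, one_mul] at e3
  have h3 : th x0 G1 0 (0 + 2 * Real.pi) = 1 := (mul_eq_left.mp e3.symm)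
  refine th_ne_one_of_nil2 x0 G1 0 0 F (fun y => ?_) (hper t1 0 hT le_rfl) h3
  rw [zero_add]
  exact hF y

end

end Crest.Agent.R244.B4
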