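import Mathlib
import Crest.Agent.R244.MetricDefs
import Crest.Agent.R244.Alg

/-!
# R244 : bridge between the path length `D` (package B2) and the group algebra (package B3)

* `PathLength.quadLength` : the length induced on the fundamental group is a `QuadLength`.
* `PathLength.halving` : displacement of the midpoint loop.
* `ContUpToSign.exists_lift`, `Reverses.conj` : lifting of paths through the two-valued map.
* `contradiction_of_tendsto` : a reversing loop cannot have zero stable length.
-/

set_option autoImplicit false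

open Filter Topology unitInterval

namespace Crest.Agent.R244


section

variable {M : Type*} [TopologicalSpace M] {D : ∀ {x y : M}, Path x y → ℝ}

/-- The length on homotopy classes. -/
noncomputable def PathLength.DQ (hD : PathLength M (fun {_ _} γ => D γ)) {x y : M}
    (q : Path.Homotopic.Quotient x y) : ℝ :=
  _root_.Quotient.lift (s := Path.Homotopic.setoid x y) (fun γ : Path x y => D γ)
    (fun a b h => hD.homotopic a b h) q

variable (hD : PathLength M (fun {_ _} γ => D γ))

@[simp] theorem PathLength.DQ_mk {x y : M} (γ : Path x y) : hD.DQ (Path.Homotopic.Quotient.mk γ) = D γ := rfl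

theorem PathLength.DQ_nonneg {x y : M} (q : Path.Homotopic.Quotient x y) : 0 ≤ hD.DQ q := by
  induction q using Path.Homotopic.Quotient.ind with | mk γ => exact hD.nonneg γ

theorem PathLength.DQ_refl (x : M) : hD.DQ (Path.Homotopic.Quotient.refl x) = 0 := hD.refl x

@[simp] theorem PathLength.DQ_symm {x y : M} (q : Path.Homotopic.Quotient x y) :
    hD.DQ q.symm = hD.DQ q := by
  induction q using Path.Homotopic.Quotient.ind with | mk γ => exact hD.symm γ

theorem PathLength.DQ_trans_le {x y z : M} (q : Path.Homotopic.Quotient x y)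
    (q' : Path.Homotopic.Quotient y z) : hD.DQ (q.trans q') ≤ hD.DQ q + hD.DQ q' := by
  induction q using Path.Homotopic.Quotient.ind with | mk γ =>
  induction q' using Path.Homotopic.Quotient.ind with | mk γ' =>
  exact hD.trans_le γ γ'

theorem PathLength.DQ_midpoint {a b : M} (e : Path.Homotopic.Quotient a b) :
    ∃ (m : M) (ρ : Path.Homotopic.Quotient a m), ∀ {p : M} (c : Path.Homotopic.Quotient p a),
      hD.DQ (c.trans ρ) ^ 2 ≤
        hD.DQ c ^ 2 / 2 + hD.DQ (c.trans e) ^ 2 / 2 - hD.DQ e ^ 2 / 4 := by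
  induction e using Path.Homotopic.Quotient.ind with | mk e =>
  obtain ⟨m, ρ, h⟩ := hD.midpoint e
  refine ⟨m, Path.Homotopic.Quotient.mk ρ, ?_⟩
  intro p c
  induction c using Path.Homotopic.Quotient.ind with | mk c =>
  exact h c

/-- symmetric quotients: inverse of a composition -/
theorem symm_trans_eq {x y z : M} (q : Path.Homotopic.Quotient x y)
    (q' : Path.Homotopic.Quotient y z) : (q.trans q').symm = q'.symm.trans q.symm := by
  have h1 : ((q.trans q').symm.trans (q.trans q')).trans (q'.symm.trans q.symm)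
      = q'.symm.trans q.symm := by simp
  have h2 : ((q.trans q').symm.trans (q.trans q')).trans (q'.symm.trans q.symm)
      = (q.trans q').symm := by
    rw [Path.Homotopic.Quotient.trans_assoc]
    have : (q.trans q').trans (q'.symm.trans q.symm) = Path.Homotopic.Quotient.refl x := by
      rw [Path.Homotopic.Quotient.trans_assoc, ← Path.Homotopic.Quotient.trans_assoc q' q'.symm q.symm]
      simp
    rw [this]; simp
  exact h2.symm.trans h1

@[simp] theorem symm_symm_eq {x y : M} (q : Path.Homotopic.Quotient x y) : q.symm.symm = q := by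
  induction q using Path.Homotopic.Quotient.ind with | mk γ =>
  rw [← Path.Homotopic.Quotient.mk_symm, ← Path.Homotopic.Quotient.mk_symm, Path.symm_symm]

theorem symm_trans_cancel {x y z : M} (q : Path.Homotopic.Quotient x y)
    (q' : Path.Homotopic.Quotient y z) : q.symm.trans (q.trans q') = q' := by
  rw [← Path.Homotopic.Quotient.trans_assoc]; simp

theorem trans_symm_cancel {x y z : M} (q : Path.Homotopic.Quotient x y)
    (q' : Path.Homotopic.Quotient x z) : q.trans (q.symm.trans q') = q' := by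
  rw [← Path.Homotopic.Quotient.trans_assoc]; simp

/-- The length on the fundamental group. -/
noncomputable def PathLength.len (x : M) (g : FundamentalGroup M x) : ℝ :=
  hD.DQ (FundamentalGroup.toPath g)

theorem PathLength.quadLength (x : M) : QuadLength (hD.len x) where
  nonneg g := hD.DQ_nonneg _
  one := hD.DQ_refl x
  inv g := hD.DQ_symm _
  mul_le g h := by
    have := hD.DQ_trans_le (FundamentalGroup.toPath h) (FundamentalGroup.toPath g)
    unfold PathLength.len
    change hD.DQ ((FundamentalGroup.toPath h).trans (FundamentalGroup.toPath g)) ≤ _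
    linarith
  quad a b c := by
    unfold PathLength.len
    set α : Path.Homotopic.Quotient x x := FundamentalGroup.toPath a with hα
    set β : Path.Homotopic.Quotient x x := FundamentalGroup.toPath b with hβ
    set γ : Path.Homotopic.Quotient x x := FundamentalGroup.toPath c with hγ
    change hD.DQ (β.trans α) ^ 2 + hD.DQ (γ.trans β) ^ 2 ≤
      hD.DQ α ^ 2 + hD.DQ β ^ 2 + hD.DQ γ ^ 2 + hD.DQ (γ.trans (β.trans α)) ^ 2
    obtain ⟨m, ρ, h⟩ := hD.DQ_midpoint (β.trans α)
    have h1 := h γ
    have h2 := h β.symm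
    rw [symm_trans_cancel, hD.DQ_symm] at h2
    have h3 := hD.DQ_trans_le (γ.trans ρ) ((β.symm.trans ρ).symm)
    rw [hD.DQ_symm] at h3
    have h4 : (γ.trans ρ).trans ((β.symm.trans ρ).symm) = γ.trans β := by
      rw [symm_trans_eq, symm_symm_eq, Path.Homotopic.Quotient.trans_assoc, trans_symm_cancel]
    rw [h4] at h3
    have h5 := hD.DQ_nonneg (γ.trans β)
    have h6 := hD.DQ_nonneg (γ.trans ρ)
    have h7 := hD.DQ_nonneg (β.symm.trans ρ)
    nlinarith [sq_nonneg (hD.DQ (γ.trans ρ) - hD.DQ (β.symm.trans ρ)),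
      mul_le_mul h3 h3 h5 (add_nonneg h6 h7)]

/-- Moving a loop to its midpoint at least halves the displacement of its square. -/
theorem PathLength.halving {x : M} (γ : Path.Homotopic.Quotient x x) :
    ∃ (m : M) (ρ : Path.Homotopic.Quotient x m),
      hD.DQ (ρ.symm.trans (γ.trans ρ)) ≤ hD.DQ (γ.trans γ) / 2 := by
  obtain ⟨m, ρ, h⟩ := hD.DQ_midpoint γ
  refine ⟨m, ρ, ?_⟩
  have h1 := h (ρ.symm.trans γ)
  have h2 := h γ.symm
  have h3 := h (γ.trans γ).symm
  have e1 : (ρ.symm.trans γ).trans ρ = ρ.symm.trans (γ.trans ρ) := Path.Homotopic.Quotient.trans_assoc _ _ _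
  have e2 : hD.DQ (ρ.symm.trans γ) = hD.DQ (γ.symm.trans ρ) := by
    rw [← hD.DQ_symm, symm_trans_eq, symm_symm_eq]
  have e3 : hD.DQ ((ρ.symm.trans γ).trans γ) = hD.DQ ((γ.trans γ).symm.trans ρ) := by
    rw [← hD.DQ_symm, Path.Homotopic.Quotient.trans_assoc, symm_trans_eq, symm_symm_eq]
  have e4 : (γ.trans γ).symm.trans γ = γ.symm := by
    rw [symm_trans_eq, Path.Homotopic.Quotient.trans_assoc]; simp
  have e5 : hD.DQ (γ.symm.trans γ) = 0 := by
    rw [Path.Homotopic.Quotient.symm_trans]; exact hD.DQ_refl x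
  rw [e1, e2, e3] at h1
  rw [hD.DQ_symm, e5] at h2
  rw [hD.DQ_symm, e4, hD.DQ_symm] at h3
  have h5 := hD.DQ_nonneg (ρ.symm.trans (γ.trans ρ))
  have h6 := hD.DQ_nonneg (γ.trans γ)
  apply le_of_sq_le_sq _ (by positivity)
  nlinarith

/-- Powers of a loop class. -/
theorem PathLength.exists_conj_le {x : M} (γ : FundamentalGroup M x) (k : ℕ) :
    ∃ (m : M) (τ : Path.Homotopic.Quotient x m),
      hD.DQ (τ.symm.trans ((FundamentalGroup.toPath γ).trans τ)) ≤
        hD.len x (γ ^ (2 ^ k)) / 2 ^ k := by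
  induction k generalizing γ with
  | zero =>
    refine ⟨x, Path.Homotopic.Quotient.refl x, ?_⟩
    have e : (Path.Homotopic.Quotient.refl x).symm = Path.Homotopic.Quotient.refl x := by
      change (Path.Homotopic.Quotient.mk (Path.refl x)).symm = _
      rw [← Path.Homotopic.Quotient.mk_symm, Path.refl_symm]; rfl
    rw [e, Path.Homotopic.Quotient.trans_refl, Path.Homotopic.Quotient.refl_trans]
    simp [PathLength.len]
  | succ k ih =>
    obtain ⟨m, τ, h⟩ := ih (γ * γ)
    set g := FundamentalGroup.toPath γ with hg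
    have e0 : FundamentalGroup.toPath (γ * γ) = g.trans g := rfl
    obtain ⟨m', ρ, h'⟩ := hD.halving (τ.symm.trans (g.trans τ))
    refine ⟨m', τ.trans ρ, ?_⟩
    have e1 : (τ.trans ρ).symm.trans (g.trans (τ.trans ρ))
        = ρ.symm.trans ((τ.symm.trans (g.trans τ)).trans ρ) := by
      rw [symm_trans_eq]; simp only [Path.Homotopic.Quotient.trans_assoc]
    have e2 : (τ.symm.trans (g.trans τ)).trans (τ.symm.trans (g.trans τ))
        = τ.symm.trans ((g.trans g).trans τ) := by
      simp only [Path.Homotopic.Quotient.trans_assoc, trans_symm_cancel]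
    rw [e1]
    rw [e2] at h'
    rw [e0] at h
    have e3 : (γ * γ) ^ (2 ^ k) = γ ^ (2 ^ (k + 1)) := by
      rw [← pow_two, ← pow_mul, pow_succ, mul_comm]
    rw [e3] at h
    calc _ ≤ hD.DQ (τ.symm.trans ((g.trans g).trans τ)) / 2 := h'
      _ ≤ (hD.len x (γ ^ 2 ^ (k + 1)) / 2 ^ k) / 2 := by linarith
      _ = hD.len x (γ ^ 2 ^ (k + 1)) / 2 ^ (k + 1) := by
        rw [div_div, ← pow_succ]

end

section Lift

variable {M : Type*} [TopologicalSpace M] {L : M → EuclideanSpace ℝ (Fin 4)}

/-- The determination of `L` which is positive against `p`. -/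
noncomputable def posDet (L : M → EuclideanSpace ℝ (Fin 4)) (p : EuclideanSpace ℝ (Fin 4)) (y : M) :
    EuclideanSpace ℝ (Fin 4) :=
  if 0 < inner ℝ (L y) p then L y else - L y

omit [TopologicalSpace M] in
theorem posDet_eq_or (L : M → EuclideanSpace ℝ (Fin 4)) (p : EuclideanSpace ℝ (Fin 4)) (y : M) :
    posDet L p y = L y ∨ posDet L p y = - L y := by
  unfold posDet; split_ifs <;> simp

omit [TopologicalSpace M] in
theorem posDet_inner (L : M → EuclideanSpace ℝ (Fin 4)) (p : EuclideanSpace ℝ (Fin 4)) (y : M)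
    (h : inner ℝ (L y) p ≠ 0) : 0 < inner ℝ (posDet L p y) p := by
  unfold posDet
  split_ifs with h1
  · exact h1
  · rw [inner_neg_left]
    have := lt_of_le_of_ne (not_lt.1 h1) h
    linarith

theorem isOpen_inner_ne (hL : ContUpToSign L) (p : EuclideanSpace ℝ (Fin 4)) :
    IsOpen {y : M | inner ℝ (L y) p ≠ 0} := by
  rw [isOpen_iff_mem_nhds]
  intro y hy
  replace hy : inner ℝ (L y) p ≠ 0 := hy
  have hp : 0 < ‖p‖ + 1 := by positivity
  have hy' : 0 < |inner ℝ (L y) p| := abs_pos.2 hy
  filter_upwards [hL.2 y (|inner ℝ (L y) p| / (‖p‖ + 1)) (by positivity)] with z hz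
  intro h0
  have key : ∀ w : EuclideanSpace ℝ (Fin 4), inner ℝ w p = (0:ℝ) →
      ‖L y - w‖ < |inner ℝ (L y) p| / (‖p‖ + 1) → False := by
    intro w hw hlt
    have h1 : inner ℝ (L y) p = inner ℝ (L y - w) p := by rw [inner_sub_left, hw, sub_zero]
    have h2 : |inner ℝ (L y - w) p| ≤ ‖L y - w‖ * ‖p‖ := abs_real_inner_le_norm _ _
    rw [← h1] at h2
    have h3 : ‖L y - w‖ * (‖p‖ + 1) < |inner ℝ (L y) p| := by
      rwa [lt_div_iff₀ hp] at hlt
    nlinarith [norm_nonneg (L y - w), norm_nonneg p]
  rcases hz with hz | hz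
  · exact key (L z) h0 hz
  · refine key (- L z) (by rw [inner_neg_left, h0, neg_zero]) ?_
    rwa [sub_neg_eq_add]

theorem continuousAt_posDet (hL : ContUpToSign L) (p : EuclideanSpace ℝ (Fin 4)) {y : M}
    (hy : inner ℝ (L y) p ≠ 0) : ContinuousAt (posDet L p) y := by
  rw [Metric.continuousAt_iff']
  intro ε hε
  have hp : 0 < ‖p‖ + 1 := by positivity
  have hpos := posDet_inner L p y hy
  set a := inner ℝ (posDet L p y) p with ha
  have hmin : 0 < min ε (a / (‖p‖ + 1)) := lt_min hε (by positivity)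
  filter_upwards [hL.2 y _ hmin, (isOpen_inner_ne hL p).mem_nhds hy] with z hz hz'
  have hpz := posDet_inner L p z hz'
  -- either `posDet z` is close to `posDet y` or to `-posDet y`
  have h1 : ‖posDet L p y - posDet L p z‖ < min ε (a / (‖p‖ + 1)) ∨
      ‖posDet L p y + posDet L p z‖ < min ε (a / (‖p‖ + 1)) := by
    rcases posDet_eq_or L p y with h | h <;> rcases posDet_eq_or L p z with h' | h' <;>
      rw [h, h']
    · exact hz
    · rw [sub_neg_eq_add, ← sub_eq_add_neg]; exact hz.symm
    · have e1 : - L y - L z = -(L y + L z) := by abel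
      have e2 : - L y + L z = -(L y - L z) := by abel
      rw [e1, e2, norm_neg, norm_neg]; exact hz.symm
    · have e1 : - L y - - L z = -(L y - L z) := by abel
      have e2 : - L y + - L z = -(L y + L z) := by abel
      rw [e1, e2, norm_neg, norm_neg]; exact hz
  rcases h1 with h1 | h1
  · rw [dist_comm, dist_eq_norm]; exact lt_of_lt_of_le h1 (min_le_left _ _)
  · exfalso
    have h2 := lt_of_lt_of_le h1 (min_le_right _ _)
    have h3 : |inner ℝ (posDet L p y + posDet L p z) p| ≤ ‖posDet L p y + posDet L p z‖ * ‖p‖ :=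
      abs_real_inner_le_norm _ _
    rw [inner_add_left, ← ha] at h3
    have h4 : ‖posDet L p y + posDet L p z‖ * (‖p‖ + 1) < a := by rwa [lt_div_iff₀ hp] at h2
    have h5 := le_abs_self (a + inner ℝ (posDet L p z) p)
    nlinarith [norm_nonneg (posDet L p y + posDet L p z), norm_nonneg p]

theorem exists_lift_aux (hL : ContUpToSign L) (f : ℝ → M) (hf : Continuous f)
    {u : EuclideanSpace ℝ (Fin 4)} (hu : u = L (f 0) ∨ u = - L (f 0)) :
    ∃ v : ℝ → EuclideanSpace ℝ (Fin 4), ContinuousOn v (Set.Icc 0 1) ∧ v 0 = u ∧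
      ∀ t ∈ Set.Icc (0:ℝ) 1, v t = L (f t) ∨ v t = - L (f t) := by
  have hLne : ∀ y, inner ℝ (L y) (L y) ≠ (0:ℝ) := by
    intro y; rw [real_inner_self_eq_norm_sq, hL.1 y]; norm_num
  obtain ⟨δ, hδ, hcov⟩ := lebesgue_number_lemma_of_metric (isCompact_Icc (a := (0:ℝ)) (b := 1))
    (c := fun s : ℝ => {t : ℝ | inner ℝ (L (f t)) (L (f s)) ≠ 0})
    (fun s => (isOpen_inner_ne hL (L (f s))).preimage hf)
    (fun t _ => Set.mem_iUnion.2 ⟨t, hLne (f t)⟩)
  obtain ⟨N, hN⟩ := exists_nat_gt (1 / δ)
  have hNpos : 0 < (N:ℝ) := lt_trans (by positivity) hN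
  have hNδ : 1 / (N:ℝ) < δ := by
    rw [div_lt_iff₀ hNpos]; rw [div_lt_iff₀ hδ] at hN; linarith
  have main : ∀ n : ℕ, n ≤ N → ∃ v : ℝ → EuclideanSpace ℝ (Fin 4),
      ContinuousOn v (Set.Icc 0 ((n:ℝ) / N)) ∧ v 0 = u ∧
      ∀ t ∈ Set.Icc (0:ℝ) ((n:ℝ) / N), v t = L (f t) ∨ v t = - L (f t) := by
    intro n
    induction n with
    | zero =>
      intro _
      refine ⟨fun _ => u, continuousOn_const, rfl, ?_⟩
      intro t ht
      have : t = 0 := by
        simp only [Nat.cast_zero, zero_div, Set.Icc_self, Set.mem_singleton_iff] at ht; exact ht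
      rw [this]; exact hu
    | succ n ih =>
      intro hn
      obtain ⟨v, hvc, hv0, hv⟩ := ih (by omega)
      set s : ℝ := (n:ℝ) / N with hs
      set s' : ℝ := ((n + 1 : ℕ):ℝ) / N with hs'
      have hss' : s' = s + 1 / N := by rw [hs, hs']; push_cast; ring
      have hs0 : 0 ≤ s := by positivity
      have hs1 : s ≤ 1 := by
        rw [hs, div_le_one hNpos]; exact_mod_cast (by omega : n ≤ N)
      obtain ⟨c, hc⟩ := hcov s ⟨hs0, hs1⟩
      set p := L (f c) with hp
      have hsub : ∀ t ∈ Set.Icc s s', inner ℝ (L (f t)) p ≠ 0 := by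
        intro t ht
        apply hc
        rw [Metric.mem_ball, Real.dist_eq, abs_of_nonneg (by linarith [ht.1])]
        linarith [ht.2]
      have hw : ContinuousOn (fun t => posDet L p (f t)) (Set.Icc s s') := by
        intro t ht
        apply ContinuousAt.continuousWithinAt
        exact ContinuousAt.comp (f := f) (g := posDet L p)
          (continuousAt_posDet hL p (hsub t ht)) hf.continuousAt
      obtain ⟨ε, hε, hεs⟩ : ∃ ε : ℝ, (ε = 1 ∨ ε = -1) ∧ v s = ε • posDet L p (f s) := by
        rcases hv s ⟨hs0, le_refl _⟩ with h | h <;> rcases posDet_eq_or L p (f s) with h' | h' <;>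
          rw [h, h']
        · exact ⟨1, Or.inl rfl, by simp⟩
        · exact ⟨-1, Or.inr rfl, by simp⟩
        · exact ⟨-1, Or.inr rfl, by simp⟩
        · exact ⟨1, Or.inl rfl, by simp⟩
      refine ⟨fun t => if t ≤ s then v t else ε • posDet L p (f t), ?_, ?_, ?_⟩
      · have hunion : Set.Icc 0 s' = Set.Icc 0 s ∪ Set.Icc s s' := by
          rw [Set.Icc_union_Icc_eq_Icc hs0]; rw [hss']; linarith [show 0 < 1 / (N:ℝ) by positivity]
        rw [hunion]
        apply ContinuousOn.union_of_isClosed
        · apply hvc.congr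
          intro t ht
          simp [ht.2]
        · apply (hw.const_smul ε).congr
          intro t ht
          by_cases h : t ≤ s
          · have : t = s := le_antisymm h ht.1
            subst this
            simp [hεs]
          · simp [h]
        · exact isClosed_Icc
        · exact isClosed_Icc
      · simp [hs0, hv0]
      · intro t ht
        by_cases h : t ≤ s
        · simp only [h, if_true]; exact hv t ⟨ht.1, h⟩
        · simp only [h, if_false]
          rcases hε with rfl | rfl <;> rcases posDet_eq_or L p (f t) with h' | h' <;> rw [h'] <;> simp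
  obtain ⟨v, hvc, hv0, hv⟩ := main N le_rfl
  rw [div_self hNpos.ne'] at hvc hv
  exact ⟨v, hvc, hv0, hv⟩

/-- Lifting of a path through the two-valued map `L`. -/
theorem ContUpToSign.exists_lift (hL : ContUpToSign L) {x y : M} (τ : Path x y)
    {u : EuclideanSpace ℝ (Fin 4)} (hu : u = L x ∨ u = - L x) :
    ∃ (u' : EuclideanSpace ℝ (Fin 4)) (v : Path u u'), ∀ t, v t = L (τ t) ∨ v t = - L (τ t) := by
  obtain ⟨v, hvc, hv0, hv⟩ := exists_lift_aux hL τ.extend τ.continuous_extend (u := u)
    (by simpa using hu)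
  refine ⟨v 1, ⟨⟨fun t => v t, ?_⟩, ?_, ?_⟩, ?_⟩
  · exact continuousOn_iff_continuous_domRestrict.1 hvc
  · simpa using hv0
  · simp
  · intro t
    have := hv t t.2
    rw [Path.extend_apply] at this
    exact this

theorem Reverses.conj (hL : ContUpToSign L) {x y : M} {γ : Path x x} (h : Reverses L γ)
    (τ : Path x y) : Reverses L (τ.symm.trans (γ.trans τ)) := by
  obtain ⟨v, hv, hv1⟩ := h
  have hv0 : v 0 = L x ∨ v 0 = - L x := by simpa using hv 0
  obtain ⟨u', w, hw⟩ := hL.exists_lift τ hv0
  -- `v` as a path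
  let V : Path (v 0) (- v 0) := ⟨v, rfl, hv1⟩
  let W' : Path (- v 0) (- u') := w.map continuous_neg
  let P := w.symm.trans (V.trans W')
  refine ⟨P.toContinuousMap, ?_, ?_⟩
  · intro t
    change P t = L ((τ.symm.trans (γ.trans τ)) t) ∨ P t = - L ((τ.symm.trans (γ.trans τ)) t)
    simp only [P, Path.trans_apply, Path.symm_apply]
    split_ifs with h1 h2
    · exact hw _
    · exact hv _
    · rcases hw ⟨2 * (2 * (t:ℝ) - 1) - 1, by
        constructor
        · linarith
        · linarith [t.2.2]⟩ with h | h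
      · right
        change - w _ = _
        rw [h]
      · left
        change - w _ = _
        rw [h, neg_neg]
  · change P 1 = - P 0
    rw [P.target, P.source]

end Lift

section Main

variable {M : Type*} [TopologicalSpace M] {L : M → EuclideanSpace ℝ (Fin 4)}
  {D : ∀ {x y : M}, Path x y → ℝ}

/-- A loop reversing `L` cannot have stable length zero. -/
theorem contradiction_of_tendsto (hD : PathLength M (fun {_ _} γ => D γ)) (hL : ContUpToSign L)
    {r₀ : ℝ} (hr₀ : 0 < r₀) (hsys : ∀ (x : M) (γ : Path x x), Reverses L γ → r₀ ≤ D γ)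
    {x : M} (γ : Path x x) (hrev : Reverses L γ)
    (hlim : Tendsto (fun n : ℕ => hD.len x (FundamentalGroup.fromPath
      (Path.Homotopic.Quotient.mk γ) ^ n) / n) atTop (𝓝 0)) : False := by
  have h1 : Tendsto (fun k : ℕ => hD.len x (FundamentalGroup.fromPath
      (Path.Homotopic.Quotient.mk γ) ^ (2 ^ k)) / ((2 ^ k : ℕ) : ℝ)) atTop (𝓝 0) :=
    hlim.comp (tendsto_pow_atTop_atTop_of_one_lt (by norm_num : 1 < 2))
  obtain ⟨k, hk⟩ := (h1.eventually (gt_mem_nhds hr₀)).exists
  obtain ⟨m, τ, hτ⟩ := hD.exists_conj_le (FundamentalGroup.fromPath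
      (Path.Homotopic.Quotient.mk γ)) k
  induction τ using Path.Homotopic.Quotient.ind with | mk τ =>
  have h2 := hsys m _ (hrev.conj hL τ)
  have h3 : D (τ.symm.trans (γ.trans τ)) ≤ hD.len x (FundamentalGroup.fromPath
      (Path.Homotopic.Quotient.mk γ) ^ 2 ^ k) / 2 ^ k := hτ
  push_cast at hk
  linarith

end Main

end Crest.Agent.R244
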