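import Mathlib
import Crest.Prelude.Def_Geodesic
import Crest.Agent.R244.CFCoord

/-!
# R244: the metric of a manifold in a fixed chart, coordinate-free

`gC g x₀ y u v = g (φ⁻¹ y) (dφ⁻¹ u) (dφ⁻¹ v)` for `φ = chartAt x₀`.
-/

set_option autoImplicit false
set_option maxSynthPendingDepth 3

open Bundle Set Filter Topology Crest.GeometryTopology.Geodesic
open Crest.GeometryTopology.CoordMetric Crest.GeometryTopology.ChartCurvature
open scoped ContDiff Manifold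

noncomputable section

namespace Crest.Agent.R244

variable {n : ℕ} {M : Type*} [TopologicalSpace M] [ChartedSpace (EuclideanSpace ℝ (Fin n)) M]
  [IsManifold 𝓘(ℝ, EuclideanSpace ℝ (Fin n)) ∞ M]

local notation "𝔼" => EuclideanSpace ℝ (Fin n)
local notation "𝓘E" => 𝓘(ℝ, EuclideanSpace ℝ (Fin n))

variable (g : ContMDiffRiemannianMetric 𝓘(ℝ, EuclideanSpace ℝ (Fin n)) ∞ (EuclideanSpace ℝ (Fin n))
      (fun x : M => TangentSpace 𝓘(ℝ, EuclideanSpace ℝ (Fin n)) x))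

/-- derivative of the chart inverse -/
def dsymm (x₀ : M) (y : 𝔼) : 𝔼 →L[ℝ] 𝔼 :=
  mfderiv 𝓘E 𝓘E (chartAt 𝔼 x₀).symm y

/-- metric in the chart `x₀`, as a bilinear form. -/
def gC (x₀ : M) (y : 𝔼) : 𝔼 →L[ℝ] 𝔼 →L[ℝ] ℝ :=
  let B : 𝔼 →L[ℝ] 𝔼 →L[ℝ] ℝ := g.inner ((chartAt 𝔼 x₀).symm y)
  (ContinuousLinearMap.compL ℝ 𝔼 𝔼 ℝ).flip (dsymm x₀ y) ∘L (B ∘L (dsymm x₀ y))

theorem gC_apply (x₀ : M) (y u v : 𝔼) :
    gC g x₀ y u v = g.inner ((chartAt 𝔼 x₀).symm y)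
      (mfderiv 𝓘E 𝓘E (chartAt 𝔼 x₀).symm y u) (mfderiv 𝓘E 𝓘E (chartAt 𝔼 x₀).symm y v) := rfl

theorem metricInChart_eq (x₀ : M) (y : 𝔼) (i j : Fin n) :
    metricInChart g x₀ y i j =
      gC g x₀ y (EuclideanSpace.single i 1) (EuclideanSpace.single j 1) := rfl

theorem contMDiffOn_dsymm_section (x₀ : M) (u : 𝔼) :
    ContMDiffOn 𝓘E (𝓘E).tangent ∞
      (fun y : 𝔼 => (TotalSpace.mk' 𝔼 ((chartAt 𝔼 x₀).symm y)
        (mfderiv 𝓘E 𝓘E (chartAt 𝔼 x₀).symm y u) : TangentBundle 𝓘E M))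
      (chartAt 𝔼 x₀).target := by
  have h1 : ContMDiffOn 𝓘E 𝓘E ∞ (chartAt 𝔼 x₀).symm (chartAt 𝔼 x₀).target :=
    contMDiffOn_chart_symm
  have h2 := h1.contMDiffOn_tangentMapWithin (m := ∞) (by simp)
    (chartAt 𝔼 x₀).open_target.uniqueMDiffOn
  have h3 : ContMDiffOn 𝓘E (𝓘E).tangent ∞
      (fun y : 𝔼 => (TotalSpace.mk' 𝔼 y u : TangentBundle 𝓘E 𝔼)) (chartAt 𝔼 x₀).target := by
    apply ContMDiff.contMDiffOn
    exact contMDiff_vectorSpace_iff_contDiff (V := fun _ => u).2 contDiff_const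
  have h4 := h2.comp h3 (fun y hy => hy)
  apply h4.congr
  intro y hy
  simp only [Function.comp, tangentMapWithin]
  rw [mfderivWithin_eq_mfderiv ((chartAt 𝔼 x₀).open_target.uniqueMDiffWithinAt hy)
    ((h1.contMDiffAt ((chartAt 𝔼 x₀).open_target.mem_nhds hy)).mdifferentiableAt (by simp))]

theorem contDiffOn_gC_apply (x₀ : M) (u v : 𝔼) :
    ContDiffOn ℝ ∞ (fun y => gC g x₀ y u v) (chartAt 𝔼 x₀).target := by
  rw [← contMDiffOn_iff_contDiffOn]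
  intro y hy
  have hb : ContMDiffWithinAt 𝓘E 𝓘E ∞ (chartAt 𝔼 x₀).symm (chartAt 𝔼 x₀).target y :=
    contMDiffOn_chart_symm y hy
  have : ContMDiffWithinAt 𝓘E ((𝓘E).prod 𝓘(ℝ, ℝ)) ∞
      (fun y => TotalSpace.mk' ℝ (E := Bundle.Trivial M ℝ) ((chartAt 𝔼 x₀).symm y)
        (g.inner ((chartAt 𝔼 x₀).symm y) (mfderiv 𝓘E 𝓘E (chartAt 𝔼 x₀).symm y u)
          (mfderiv 𝓘E 𝓘E (chartAt 𝔼 x₀).symm y v))) (chartAt 𝔼 x₀).target y := by
    apply ContMDiffWithinAt.clm_bundle_apply₂ (F₁ := 𝔼) (F₂ := 𝔼)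
      (E₁ := fun x : M => TangentSpace 𝓘E x) (E₂ := fun x : M => TangentSpace 𝓘E x)
      (E₃ := Bundle.Trivial M ℝ)
      (ψ := fun y => g.inner ((chartAt 𝔼 x₀).symm y))
      (v := fun y => mfderiv 𝓘E 𝓘E (chartAt 𝔼 x₀).symm y u)
      (w := fun y => mfderiv 𝓘E 𝓘E (chartAt 𝔼 x₀).symm y v)
    · exact ContMDiffAt.comp_contMDiffWithinAt y g.contMDiff.contMDiffAt hb
    · exact contMDiffOn_dsymm_section x₀ u y hy
    · exact contMDiffOn_dsymm_section x₀ v y hy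
  simp only [contMDiffWithinAt_totalSpace] at this
  exact this.2

/-- the metric at a point as a bilinear form on the model space. -/
def gI (p : M) : 𝔼 →L[ℝ] 𝔼 →L[ℝ] ℝ := g.inner p

theorem gC_eq_gI (x₀ : M) (y u v : 𝔼) :
    gC g x₀ y u v = gI g ((chartAt 𝔼 x₀).symm y) (dsymm x₀ y u) (dsymm x₀ y v) := rfl

theorem gI_symm (p : M) (u v : 𝔼) : gI g p u v = gI g p v u := g.symm p u v

theorem gI_pos (p : M) (u : 𝔼) (hu : u ≠ 0) : 0 < gI g p u u := g.pos p u hu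

theorem dsymm_injective {x₀ : M} {y : 𝔼} (hy : y ∈ (chartAt 𝔼 x₀).target) {u : 𝔼}
    (hu : dsymm x₀ y u = 0) : u = 0 := by
  have hmd : (chartAt 𝔼 x₀).MDifferentiable 𝓘E 𝓘E := mdifferentiable_chart x₀
  have h1 := hmd.comp_symm_deriv hy
  have h2 := congrArg (fun L : 𝔼 →L[ℝ] 𝔼 => L u) h1
  have h3 : (mfderiv 𝓘E 𝓘E (chartAt 𝔼 x₀) ((chartAt 𝔼 x₀).symm y)) (dsymm x₀ y u) = u := h2
  rw [← h3, hu]
  exact map_zero _

theorem gC_symm (x₀ : M) (y u v : 𝔼) : gC g x₀ y u v = gC g x₀ y v u := by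
  rw [gC_eq_gI, gC_eq_gI, gI_symm]

theorem gC_pos {x₀ : M} {y : 𝔼} (hy : y ∈ (chartAt 𝔼 x₀).target) (u : 𝔼) (hu : u ≠ 0) :
    0 < gC g x₀ y u u := by
  rw [gC_eq_gI]
  exact gI_pos g _ _ fun h => hu (dsymm_injective hy h)

/-- `gB` of the metric matrix in the chart is the coordinate-free metric. -/
theorem gB_eq_gC (x₀ : M) (y : 𝔼) : CF.gB (metricInChart g x₀) y = gC g x₀ y := by
  have hsum : ∀ u : 𝔼, u = ∑ i, u i • EuclideanSpace.single i (1 : ℝ) := by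
    intro u
    ext k
    simp [Finset.sum_apply, Pi.single_apply]
  ext u v
  rw [CF.gB_apply]
  conv_rhs => rw [hsum u, hsum v]
  simp only [map_sum, map_smul, sum_apply, smul_apply, smul_eq_mul, metricInChart_eq,
    Finset.mul_sum]
  rw [Finset.sum_comm]
  refine Finset.sum_congr rfl fun i _ => Finset.sum_congr rfl fun j _ => ?_
  ring

theorem isRiemannianOn_metricInChart (x₀ : M) :
    IsRiemannianOn (metricInChart g x₀) (chartAt 𝔼 x₀).target where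
  isOpen := (chartAt 𝔼 x₀).open_target
  contDiffOn i j := by
    simp only [metricInChart_eq]
    exact contDiffOn_gC_apply g x₀ _ _
  posDef y hy := by
    refine Matrix.PosDef.of_dotProduct_mulVec_pos ?_ ?_
    · ext i j
      simp only [Matrix.conjTranspose_apply, star_trivial, metricInChart_eq]
      exact gC_symm g x₀ y _ _
    · intro x hx
      have h1 : 0 < gC g x₀ y (WithLp.toLp 2 x) (WithLp.toLp 2 x) :=
        gC_pos g hy _ (by simpa using hx)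
      rw [← gB_eq_gC, CF.gB_apply] at h1
      refine h1.trans_eq ?_
      simp only [dotProduct, Matrix.mulVec, star_trivial, Finset.mul_sum]
      refine Finset.sum_congr rfl fun i _ => Finset.sum_congr rfl fun j _ => ?_
      ring

/-- Transition between charts is a local isometry of the coordinate metrics. -/
theorem locIsoAt_transition (x₀ x₁ : M) {y : 𝔼} (hy : y ∈ (chartAt 𝔼 x₀).target)
    (hy1 : (chartAt 𝔼 x₀).symm y ∈ (chartAt 𝔼 x₁).source) :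
    CF.LocIsoAt (chartAt 𝔼 x₀).target (CF.gB (metricInChart g x₀)) (chartAt 𝔼 x₁).target
      (CF.gB (metricInChart g x₁)) ((chartAt 𝔼 x₁) ∘ (chartAt 𝔼 x₀).symm) y := by
  set τ := (chartAt 𝔼 x₁) ∘ (chartAt 𝔼 x₀).symm with hτ
  -- good set
  have hopen : IsOpen ((chartAt 𝔼 x₀).target ∩ (chartAt 𝔼 x₀).symm ⁻¹' (chartAt 𝔼 x₁).source) :=
    (chartAt 𝔼 x₀).symm.isOpen_inter_preimage (chartAt 𝔼 x₁).open_source
  have hnear : ∀ᶠ z in 𝓝 y, z ∈ (chartAt 𝔼 x₀).target ∩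
      (chartAt 𝔼 x₀).symm ⁻¹' (chartAt 𝔼 x₁).source := hopen.mem_nhds ⟨hy, hy1⟩
  have hsm : ∀ (x₀ x₁ : M) (z : 𝔼), z ∈ (chartAt 𝔼 x₀).target →
      (chartAt 𝔼 x₀).symm z ∈ (chartAt 𝔼 x₁).source →
      ContMDiffAt 𝓘E 𝓘E ∞ ((chartAt 𝔼 x₁) ∘ (chartAt 𝔼 x₀).symm) z := by
    intro x₀ x₁ z hz hz1
    have h1 : ContMDiffAt 𝓘E 𝓘E ∞ (chartAt 𝔼 x₀).symm z :=
      contMDiffOn_chart_symm.contMDiffAt ((chartAt 𝔼 x₀).open_target.mem_nhds hz)
    have h2 : ContMDiffAt 𝓘E 𝓘E ∞ (chartAt 𝔼 x₁) ((chartAt 𝔼 x₀).symm z) :=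
      contMDiffOn_chart.contMDiffAt ((chartAt 𝔼 x₁).open_source.mem_nhds hz1)
    exact h2.comp z h1
  refine ⟨hy, (chartAt 𝔼 x₁).map_source hy1, ?_, ?_, ?_⟩
  · filter_upwards [hnear] with z hz
    exact (hsm x₀ x₁ z hz.1 hz.2).contDiffAt
  · filter_upwards [hnear] with z hz
    intro w
    -- the inverse transition
    have hz1' : τ z ∈ (chartAt 𝔼 x₁).target := (chartAt 𝔼 x₁).map_source hz.2
    have hback : (chartAt 𝔼 x₁).symm (τ z) = (chartAt 𝔼 x₀).symm z :=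
      (chartAt 𝔼 x₁).left_inv hz.2
    have hσ : ContMDiffAt 𝓘E 𝓘E ∞ ((chartAt 𝔼 x₀) ∘ (chartAt 𝔼 x₁).symm) (τ z) := by
      apply hsm x₁ x₀ _ hz1'
      rw [hback]
      exact (chartAt 𝔼 x₀).map_target hz.1
    have hσd : DifferentiableAt ℝ ((chartAt 𝔼 x₀) ∘ (chartAt 𝔼 x₁).symm) (τ z) :=
      hσ.contDiffAt.differentiableAt (by simp)
    have hσz : ((chartAt 𝔼 x₀) ∘ (chartAt 𝔼 x₁).symm) (τ z) = z := by
      simp only [Function.comp] at hback ⊢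
      rw [hback, (chartAt 𝔼 x₀).right_inv hz.1]
    have hτd : DifferentiableAt ℝ τ z := (hsm x₀ x₁ z hz.1 hz.2).contDiffAt.differentiableAt (by simp)
    have hid : (τ ∘ ((chartAt 𝔼 x₀) ∘ (chartAt 𝔼 x₁).symm)) =ᶠ[𝓝 (τ z)] id := by
      have hopen' : IsOpen ((chartAt 𝔼 x₁).target ∩
          (chartAt 𝔼 x₁).symm ⁻¹' (chartAt 𝔼 x₀).source) :=
        (chartAt 𝔼 x₁).symm.isOpen_inter_preimage (chartAt 𝔼 x₀).open_source
      filter_upwards [hopen'.mem_nhds ⟨hz1', by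
        change (chartAt 𝔼 x₁).symm (τ z) ∈ (chartAt 𝔼 x₀).source
        rw [hback]; exact (chartAt 𝔼 x₀).map_target hz.1⟩] with q hq
      simp only [hτ, Function.comp, id]
      rw [(chartAt 𝔼 x₀).left_inv hq.2, (chartAt 𝔼 x₁).right_inv hq.1]
    have hcomp := (hσz.symm ▸ hτd : DifferentiableAt ℝ τ
      (((chartAt 𝔼 x₀) ∘ (chartAt 𝔼 x₁).symm) (τ z))).hasFDerivAt.comp (τ z) hσd.hasFDerivAt
    have h1 := hcomp.fderiv
    rw [hid.fderiv_eq, fderiv_id, hσz] at h1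
    refine ⟨fderiv ℝ ((chartAt 𝔼 x₀) ∘ (chartAt 𝔼 x₁).symm) (τ z) w, ?_⟩
    have := congrArg (fun L : 𝔼 →L[ℝ] 𝔼 => L w) h1
    simpa using this.symm
  · filter_upwards [hnear] with z hz
    intro u v
    have hz1' : τ z ∈ (chartAt 𝔼 x₁).target := (chartAt 𝔼 x₁).map_source hz.2
    have hback : (chartAt 𝔼 x₁).symm (τ z) = (chartAt 𝔼 x₀).symm z :=
      (chartAt 𝔼 x₁).left_inv hz.2
    have hd : ∀ w : 𝔼, dsymm x₀ z w = dsymm x₁ (τ z) (fderiv ℝ τ z w) := by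
      intro w
      have hEq : (chartAt 𝔼 x₀).symm =ᶠ[𝓝 z] (chartAt 𝔼 x₁).symm ∘ τ := by
        filter_upwards [hopen.mem_nhds hz] with q hq
        exact ((chartAt 𝔼 x₁).left_inv hq.2).symm
      have h1 : MDifferentiableAt 𝓘E 𝓘E (chartAt 𝔼 x₁).symm (τ z) :=
        (contMDiffOn_chart_symm.contMDiffAt
          ((chartAt 𝔼 x₁).open_target.mem_nhds hz1') : ContMDiffAt 𝓘E 𝓘E ∞ _ _).mdifferentiableAt
            (by simp)
      have h2 : MDifferentiableAt 𝓘E 𝓘E τ z := (hsm x₀ x₁ z hz.1 hz.2).mdifferentiableAt (by simp)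
      have h3 := mfderiv_comp z h1 h2
      have h4 : mfderiv 𝓘E 𝓘E (chartAt 𝔼 x₀).symm z = mfderiv 𝓘E 𝓘E ((chartAt 𝔼 x₁).symm ∘ τ) z :=
        hEq.mfderiv_eq
      unfold dsymm
      rw [h4, h3, mfderiv_eq_fderiv]
      rfl
    rw [gB_eq_gC, gB_eq_gC, gC_eq_gI, gC_eq_gI, hback, hd u, hd v]

end Crest.Agent.R244
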