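import Crest.Agent.R244.NCPEnd
import Crest.Agent.R244.ChartMetric
import Crest.Agent.R244.CFLift

/-!
# R244 (S0377): geodesic and Jacobi equations in one fixed chart

`IsGeodesic`/`IsJacobiField` test each parameter in its own preferred chart; here the equations
are transported to the chart at `γ s₀` for all parameters `s` with `γ s` in its domain.
-/

set_option autoImplicit false
set_option maxSynthPendingDepth 3

open Filter Topology Set Bundle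
open scoped ContDiff Manifold

noncomputable section

namespace Crest.Agent.R244.NCP

open Crest.GeometryTopology.CoordMetric Crest.GeometryTopology.ChartCurvature
  Crest.GeometryTopology.Geodesic

section Germs

variable {n : ℕ}

theorem geodesicEqAt_congr_curve {g : MetricField n} {c c' : ℝ → EuclideanSpace ℝ (Fin n)} {s : ℝ}
    (h : c =ᶠ[𝓝 s] c') : GeodesicEqAt g c s ↔ GeodesicEqAt g c' s := by
  have h1 : deriv c =ᶠ[𝓝 s] deriv c' := h.deriv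
  unfold GeodesicEqAt
  rw [h1.deriv_eq, h.self_of_nhds, h1.self_of_nhds]

theorem covDeriv_congr_curve {g : MetricField n} {c c' V V' : ℝ → EuclideanSpace ℝ (Fin n)} {s : ℝ}
    (h : c =ᶠ[𝓝 s] c') (hV : V =ᶠ[𝓝 s] V') : covDeriv g c V =ᶠ[𝓝 s] covDeriv g c' V' := by
  filter_upwards [h.eventuallyEq_nhds, hV.eventuallyEq_nhds] with t ht htV
  unfold covDeriv
  rw [htV.deriv_eq, htV.self_of_nhds, ht.deriv_eq, ht.self_of_nhds]

theorem jacobiEqAt_congr_curve {g : MetricField n} {c c' V V' : ℝ → EuclideanSpace ℝ (Fin n)}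
    {s : ℝ} (h : c =ᶠ[𝓝 s] c') (hV : V =ᶠ[𝓝 s] V') :
    JacobiEqAt g c V s ↔ JacobiEqAt g c' V' s := by
  have h1 := covDeriv_congr_curve (g := g) h (covDeriv_congr_curve (g := g) h hV)
  unfold JacobiEqAt
  rw [h1.self_of_nhds, h.self_of_nhds, h.deriv_eq, hV.self_of_nhds]

end Germs

variable {n : ℕ} {M : Type*} [TopologicalSpace M] [ChartedSpace (EuclideanSpace ℝ (Fin n)) M]
  [IsManifold 𝓘(ℝ, EuclideanSpace ℝ (Fin n)) ∞ M]

local notation "𝔼" => EuclideanSpace ℝ (Fin n)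
local notation "𝓘E" => 𝓘(ℝ, EuclideanSpace ℝ (Fin n))

/-- The curve `γ` in the preferred chart at `γ t₀`. -/
def chartCurve (γ : ℝ → M) (t₀ : ℝ) : ℝ → 𝔼 := fun s => chartAt 𝔼 (γ t₀) (γ s)

theorem contDiffAt_chartCurve {γ : ℝ → M} (hγ : ContMDiff 𝓘(ℝ, ℝ) 𝓘E ∞ γ) {x₀ : M} {s : ℝ}
    (hs : γ s ∈ (chartAt 𝔼 x₀).source) : ContDiffAt ℝ ∞ (fun s => chartAt 𝔼 x₀ (γ s)) s := by
  rw [← contMDiffAt_iff_contDiffAt]
  have h1 : ContMDiffAt 𝓘E 𝓘E ∞ (chartAt 𝔼 x₀) (γ s) :=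
    contMDiffOn_chart.contMDiffAt ((chartAt 𝔼 x₀).open_source.mem_nhds hs)
  exact h1.comp s (hγ s)

theorem contDiffAt_mfderiv_chart {γ : ℝ → M} {J : ℝ → 𝔼}
    (hJ : ContMDiff 𝓘(ℝ, ℝ) (𝓘E).tangent ∞
      (fun t => (TotalSpace.mk' 𝔼 (γ t) (J t) : TangentBundle 𝓘E M))) {x₀ : M} {s : ℝ}
    (hs : γ s ∈ (chartAt 𝔼 x₀).source) :
    ContDiffAt ℝ ∞ (fun s => (mfderiv 𝓘E 𝓘E (chartAt 𝔼 x₀) (γ s) (J s) : 𝔼)) s := by
  have h1 : ContMDiffOn 𝓘E 𝓘E ∞ (chartAt 𝔼 x₀) (chartAt 𝔼 x₀).source := contMDiffOn_chart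
  have h2 := h1.contMDiffOn_tangentMapWithin (m := ∞) (by simp)
    (chartAt 𝔼 x₀).open_source.uniqueMDiffOn
  have hγc : ContinuousAt γ s := by
    have := (hJ s).continuousAt
    exact (FiberBundle.continuous_proj 𝔼 (TangentSpace 𝓘E)).continuousAt.comp this
  have hopen : IsOpen (π 𝔼 (TangentSpace 𝓘E) ⁻¹' (chartAt 𝔼 x₀).source) :=
    (chartAt 𝔼 x₀).open_source.preimage (FiberBundle.continuous_proj 𝔼 (TangentSpace 𝓘E))
  have h3 := (h2.contMDiffAt (x := TotalSpace.mk' 𝔼 (γ s) (J s)) (hopen.mem_nhds hs)).comp s (hJ s)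
  have h4 := (contMDiff_snd_tangentBundle_modelSpace 𝔼 𝓘E (n := ∞)).contMDiffAt.comp s h3
  rw [contMDiffAt_iff_contDiffAt] at h4
  refine h4.congr_of_eventuallyEq ?_
  filter_upwards [hγc.eventually ((chartAt 𝔼 x₀).open_source.mem_nhds hs)] with t ht
  simp only [Function.comp, tangentMapWithin]
  rw [mfderivWithin_eq_mfderiv ((chartAt 𝔼 x₀).open_source.uniqueMDiffWithinAt ht)
    ((h1.contMDiffAt ((chartAt 𝔼 x₀).open_source.mem_nhds ht)).mdifferentiableAt (by simp))]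

variable (g : ContMDiffRiemannianMetric 𝓘(ℝ, EuclideanSpace ℝ (Fin n)) ∞ (EuclideanSpace ℝ (Fin n))
      (fun x : M => TangentSpace 𝓘(ℝ, EuclideanSpace ℝ (Fin n)) x))

/-- The geodesic equation in the chart at `x₀`, at every parameter `s` with `γ s` in its domain. -/
theorem geodesicEqAt_chart {γ : ℝ → M} (hγ : IsGeodesic g γ) {x₀ : M} {s : ℝ}
    (hs : γ s ∈ (chartAt 𝔼 x₀).source) :
    GeodesicEqAt (metricInChart g x₀) (fun s => chartAt 𝔼 x₀ (γ s)) s := by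
  have hy : chartAt 𝔼 x₀ (γ s) ∈ (chartAt 𝔼 x₀).target := (chartAt 𝔼 x₀).map_source hs
  have hy1 : (chartAt 𝔼 x₀).symm (chartAt 𝔼 x₀ (γ s)) ∈ (chartAt 𝔼 (γ s)).source := by
    rw [(chartAt 𝔼 x₀).left_inv hs]; exact mem_chart_source 𝔼 (γ s)
  have hφ := locIsoAt_transition g x₀ (γ s) hy hy1
  have hc := (contDiffAt_chartCurve hγ.1 hs).of_le (m := 2) CF.two_le_infty
  rw [← CF.geodesicEqAt_comp (isRiemannianOn_metricInChart g x₀)
    (isRiemannianOn_metricInChart g (γ s)) (c := fun s => chartAt 𝔼 x₀ (γ s)) hφ hc]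
  refine (geodesicEqAt_congr_curve ?_).1 (hγ.2 s)
  filter_upwards [hγ.1.continuous.continuousAt.eventually
    ((chartAt 𝔼 x₀).open_source.mem_nhds hs)] with u hu
  simp only [Function.comp_apply]
  rw [(chartAt 𝔼 x₀).left_inv hu]

/-- The Jacobi equation in the chart at `x₀`, at every parameter `s` with `γ s` in its domain. -/
theorem jacobiEqAt_chart {γ : ℝ → M} {J : ℝ → 𝔼} (hγ : IsGeodesic g γ)
    (hJ : IsJacobiField g γ J) {x₀ : M} {s : ℝ} (hs : γ s ∈ (chartAt 𝔼 x₀).source) :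
    JacobiEqAt (metricInChart g x₀) (fun s => chartAt 𝔼 x₀ (γ s))
      (fun s => (mfderiv 𝓘E 𝓘E (chartAt 𝔼 x₀) (γ s) (J s) : 𝔼)) s := by
  have hy : chartAt 𝔼 x₀ (γ s) ∈ (chartAt 𝔼 x₀).target := (chartAt 𝔼 x₀).map_source hs
  have hy1 : (chartAt 𝔼 x₀).symm (chartAt 𝔼 x₀ (γ s)) ∈ (chartAt 𝔼 (γ s)).source := by
    rw [(chartAt 𝔼 x₀).left_inv hs]; exact mem_chart_source 𝔼 (γ s)
  have hφ := locIsoAt_transition g x₀ (γ s) hy hy1
  have hc := (contDiffAt_chartCurve hγ.1 hs).of_le (m := 2) CF.two_le_infty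
  have hV := (contDiffAt_mfderiv_chart hJ.1 hs).of_le (m := 2) CF.two_le_infty
  rw [← CF.jacobiEqAt_comp (isRiemannianOn_metricInChart g x₀)
    (isRiemannianOn_metricInChart g (γ s)) (c := fun s => chartAt 𝔼 x₀ (γ s)) hφ hc hV]
  have hnear : ∀ᶠ u in 𝓝 s, γ u ∈ (chartAt 𝔼 x₀).source ∩ (chartAt 𝔼 (γ s)).source :=
    hγ.1.continuous.continuousAt.eventually
      (((chartAt 𝔼 x₀).open_source.inter (chartAt 𝔼 (γ s)).open_source).mem_nhds
        ⟨hs, mem_chart_source 𝔼 (γ s)⟩)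
  refine (jacobiEqAt_congr_curve ?_ ?_).1 (hJ.2 s)
  · filter_upwards [hnear] with u hu
    simp only [Function.comp_apply]
    rw [(chartAt 𝔼 x₀).left_inv hu.1]
  · filter_upwards [hnear] with u hu
    -- chain rule at `γ u`
    set τ : 𝔼 → 𝔼 := (chartAt 𝔼 (γ s)) ∘ (chartAt 𝔼 x₀).symm with hτ
    have hyu : chartAt 𝔼 x₀ (γ u) ∈ (chartAt 𝔼 x₀).target := (chartAt 𝔼 x₀).map_source hu.1
    have hyu1 : (chartAt 𝔼 x₀).symm (chartAt 𝔼 x₀ (γ u)) ∈ (chartAt 𝔼 (γ s)).source := by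
      rw [(chartAt 𝔼 x₀).left_inv hu.1]; exact hu.2
    have hτd : MDifferentiableAt 𝓘E 𝓘E τ (chartAt 𝔼 x₀ (γ u)) := by
      have h1 : MDifferentiableAt 𝓘E 𝓘E (chartAt 𝔼 x₀).symm (chartAt 𝔼 x₀ (γ u)) :=
        mdifferentiableAt_atlas_symm (chart_mem_atlas _ _) hyu
      have h2 : MDifferentiableAt 𝓘E 𝓘E (chartAt 𝔼 (γ s))
          ((chartAt 𝔼 x₀).symm (chartAt 𝔼 x₀ (γ u))) :=
        mdifferentiableAt_atlas (chart_mem_atlas _ _) hyu1
      exact h2.comp _ h1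
    have hcd : MDifferentiableAt 𝓘E 𝓘E (chartAt 𝔼 x₀) (γ u) :=
      mdifferentiableAt_atlas (chart_mem_atlas _ _) hu.1
    have hEq : (chartAt 𝔼 (γ s) : M → 𝔼) =ᶠ[𝓝 (γ u)] τ ∘ (chartAt 𝔼 x₀) := by
      filter_upwards [(chartAt 𝔼 x₀).open_source.mem_nhds hu.1] with z hz
      simp only [hτ, Function.comp_apply]
      rw [(chartAt 𝔼 x₀).left_inv hz]
    have h3 := mfderiv_comp (γ u) hτd hcd
    have h4 : mfderiv 𝓘E 𝓘E (chartAt 𝔼 (γ s)) (γ u) =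
        mfderiv 𝓘E 𝓘E (τ ∘ (chartAt 𝔼 x₀)) (γ u) := hEq.mfderiv_eq
    rw [h4, h3, mfderiv_eq_fderiv]
    rfl

end Crest.Agent.R244.NCP
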