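import Mathlib

/-!
# R244 package COL : the collar profile

`Q_t = P dx² + 2 B dx dy + D dy²` with `P = A² + a²`, `D = E²`, `B = a² b`,
`A' = ρ`, `E' = -θ`.
-/

set_option autoImplicit false

open Real

namespace Crest.Agent.R244.Col

/-! ## Algebraic core inequalities -/

/-- right side of the condition (R) for the velocity `(1,m)` -/
def rhsR (P B D P1 B1 D1 m : ℝ) : ℝ :=
  D * (P1 - D1 * m ^ 2) ^ 2 - 4 * B * (P1 - D1 * m ^ 2) * (B1 + D1 * m)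
    + 4 * P * (B1 + D1 * m) ^ 2

/-- right side of the condition (L) for the velocity `(n,1)` -/
def rhsL (P B D P1 B1 D1 n : ℝ) : ℝ :=
  P * (D1 - P1 * n ^ 2) ^ 2 - 4 * B * (D1 - P1 * n ^ 2) * (P1 * n + B1)
    + 4 * D * (P1 * n + B1) ^ 2

/-- `2|x| ≤ u + v` if `x² ≤ u v`. -/
theorem two_abs_le {x u v : ℝ} (hu : 0 ≤ u) (hv : 0 ≤ v) (h : x ^ 2 ≤ u * v) : 2 * |x| ≤ u + v := by
  have h1 : (2 * |x|) ^ 2 ≤ (u + v) ^ 2 := by
    rw [mul_pow, sq_abs]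
    nlinarith [sq_nonneg (u - v)]
  exact abs_le_of_sq_le_sq' h1 (by positivity) |>.2

theorem zone2_R {a K c0 A E ρ θ r q m : ℝ} (hK : 0 < K) (ha : 0 < a) (hc0 : 0 < c0)
    (hKA : K ≤ A) (haE : a ≤ E) (_hρ0 : 0 ≤ ρ) (hρ1 : ρ ≤ 1) (hθ0 : 0 ≤ θ) (hθ1 : θ ≤ 1)
    (hr : 0 ≤ r) (hq : c0 * θ ≤ q) (ha8 : 8 ≤ a * c0) (hK8 : 8 ≤ K * c0)
    (hF : 0 ≤ 2 * A * ρ + (-(2 * E * θ)) * m ^ 2) :
    rhsR (A ^ 2 + a ^ 2) 0 (E ^ 2) (2 * A * ρ) 0 (-(2 * E * θ)) m ≤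
      2 * ((A ^ 2 + a ^ 2) * E ^ 2 - 0 ^ 2) *
        ((2 * ρ ^ 2 + 2 * A * r) + 2 * 0 * m + (2 * θ ^ 2 + 2 * E * q) * m ^ 2) := by
  have hA : 0 < A := hK.trans_le hKA
  have hE : 0 < E := ha.trans_le haE
  set P := A ^ 2 + a ^ 2 with hP
  have hPpos : 0 < P := by positivity
  set y := 2 * E * θ * m ^ 2 with hy
  have hy0 : 0 ≤ y := by positivity
  have hyP1 : y ≤ 2 * A * ρ := by rw [hy]; linarith
  have hAc : 8 ≤ A * c0 := hK8.trans (by gcongr)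
  have hEc : 8 ≤ E * c0 := ha8.trans (by gcongr)
  unfold rhsR
  -- main estimates
  have e1 : (2 * A * ρ - -(2 * E * θ) * m ^ 2) = 2 * A * ρ + y := by rw [hy]; ring
  have e2 : (0 + -(2 * E * θ) * m) ^ 2 = 2 * E * θ * y := by rw [hy]; ring
  rw [e1, e2]
  have t1 : (2 * A * ρ + y) ^ 2 ≤ (2 * A * ρ) ^ 2 + 3 * (2 * A * ρ) * y := by nlinarith
  have t2 : c0 * y ≤ (2 * θ ^ 2 + 2 * E * q) * m ^ 2 := by
    have : c0 * y = 2 * E * (c0 * θ) * m ^ 2 := by rw [hy]; ring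
    rw [this]
    have h3 : 2 * E * (c0 * θ) ≤ 2 * θ ^ 2 + 2 * E * q := by nlinarith [sq_nonneg θ]
    gcongr
  have t3 : A * (2 * A * ρ) ≤ 2 * P := by
    rw [hP]; nlinarith [sq_nonneg a, sq_nonneg A, mul_nonneg hA.le hA.le]
  -- 3 E² P1 y ≤ E² P c0 y
  have t4 : 3 * (2 * A * ρ) ≤ P * c0 := by
    have : 3 * (2 * A * ρ) * A ≤ P * c0 * A := by
      have h8 : 8 * P ≤ P * (A * c0) := by
        nlinarith
      nlinarith
    exact le_of_mul_le_mul_right this hA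
  have t5 : 8 * P * E * θ ≤ P * E ^ 2 * c0 := by
    have h5 : 8 * (P * E) ≤ E * c0 * (P * E) := by gcongr
    have h6 : 8 * P * E * θ ≤ 8 * P * E * 1 := by gcongr
    nlinarith
  have t6 : (2 * A * ρ) ^ 2 ≤ 2 * P * (2 * ρ ^ 2 + 2 * A * r) := by
    have h6 : (2 * A * ρ) ^ 2 = 2 * A ^ 2 * (2 * ρ ^ 2) := by ring
    rw [h6]
    have h7 : A ^ 2 ≤ P := by rw [hP]; nlinarith [sq_nonneg a]
    have h8 : 2 * ρ ^ 2 ≤ 2 * ρ ^ 2 + 2 * A * r := by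
      have : 0 ≤ 2 * A * r := by positivity
      linarith
    gcongr
  have hE2 : 0 < E ^ 2 := by positivity
  calc E ^ 2 * (2 * A * ρ + y) ^ 2 - 4 * 0 * (2 * A * ρ + y) * (0 + -(2 * E * θ) * m)
        + 4 * P * (2 * E * θ * y)
      = E ^ 2 * (2 * A * ρ + y) ^ 2 + (8 * P * E * θ) * y := by ring
    _ ≤ E ^ 2 * ((2 * A * ρ) ^ 2 + 3 * (2 * A * ρ) * y) + (P * E ^ 2 * c0) * y := by gcongr
    _ = E ^ 2 * (2 * A * ρ) ^ 2 + E ^ 2 * (3 * (2 * A * ρ)) * y + (P * E ^ 2 * c0) * y := by ring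
    _ ≤ E ^ 2 * (2 * P * (2 * ρ ^ 2 + 2 * A * r)) + E ^ 2 * (P * c0) * y + (P * E ^ 2 * c0) * y := by
        gcongr
    _ = 2 * (P * E ^ 2) * ((2 * ρ ^ 2 + 2 * A * r) + c0 * y) := by ring
    _ ≤ 2 * (P * E ^ 2) * ((2 * ρ ^ 2 + 2 * A * r) + (2 * θ ^ 2 + 2 * E * q) * m ^ 2) := by gcongr
    _ = _ := by ring

theorem zone2_L {a K c0 A E ρ θ r q n : ℝ} (hK : 0 < K) (ha : 0 < a) (hc0 : 0 < c0)
    (hKA : K ≤ A) (haE : a ≤ E) (hρ0 : 0 ≤ ρ) (hρ1 : ρ ≤ 1) (hθ0 : 0 ≤ θ) (hθ1 : θ ≤ 1)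
    (hr : 0 ≤ r) (hq : c0 * θ ≤ q) (ha8 : 8 ≤ a * c0) (hK8 : 8 ≤ K * c0)
    (hF : 2 * A * ρ * n ^ 2 + (-(2 * E * θ)) ≤ 0) :
    rhsL (A ^ 2 + a ^ 2) 0 (E ^ 2) (2 * A * ρ) 0 (-(2 * E * θ)) n ≤
      2 * ((A ^ 2 + a ^ 2) * E ^ 2 - 0 ^ 2) *
        ((2 * ρ ^ 2 + 2 * A * r) * n ^ 2 + 2 * 0 * n + (2 * θ ^ 2 + 2 * E * q)) := by
  have hA : 0 < A := hK.trans_le hKA
  have hE : 0 < E := ha.trans_le haE
  set P := A ^ 2 + a ^ 2 with hP
  have hPpos : 0 < P := by positivity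
  set z := 2 * A * ρ * n ^ 2 with hz
  have hz0 : 0 ≤ z := by positivity
  set e := 2 * E * θ with he
  have he0 : 0 ≤ e := by positivity
  have hze : z ≤ e := by linarith
  have hAc : 8 ≤ A * c0 := hK8.trans (by gcongr)
  have hEc : 8 ≤ E * c0 := ha8.trans (by gcongr)
  unfold rhsL
  have e1 : (-e - 2 * A * ρ * n ^ 2) ^ 2 = (e + z) ^ 2 := by rw [hz]; ring
  have e2 : (2 * A * ρ * n + 0) ^ 2 = 2 * A * ρ * z := by rw [hz]; ring
  rw [e1, e2]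
  have t1 : (e + z) ^ 2 ≤ 4 * e * e := by nlinarith
  have t2 : c0 * e ≤ 2 * θ ^ 2 + 2 * E * q := by
    have : c0 * e = 2 * E * (c0 * θ) := by rw [he]; ring
    rw [this]
    nlinarith [sq_nonneg θ]
  have t3 : A * (2 * A * ρ) ≤ 2 * P := by
    rw [hP]; nlinarith [sq_nonneg a, sq_nonneg A, mul_nonneg hA.le hA.le]
  have t4 : 4 * (2 * A * ρ) ≤ P * c0 := by
    have : 4 * (2 * A * ρ) * A ≤ P * c0 * A := by
      have h8 : 8 * P ≤ P * (A * c0) := by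
        nlinarith
      nlinarith
    exact le_of_mul_le_mul_right this hA
  have t5 : 4 * P * e ≤ P * E ^ 2 * c0 := by
    have h5 : 8 * (P * E) ≤ E * c0 * (P * E) := by gcongr
    have h6 : 8 * P * E * θ ≤ 8 * P * E * 1 := by gcongr
    have h7 : 4 * P * e = 8 * P * E * θ := by rw [he]; ring
    nlinarith
  have hE2 : 0 < E ^ 2 := by positivity
  calc P * (e + z) ^ 2 - 4 * 0 * (-e - 2 * A * ρ * n ^ 2) * (2 * A * ρ * n + 0)
        + 4 * E ^ 2 * (2 * A * ρ * z)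
      = P * (e + z) ^ 2 + E ^ 2 * (4 * (2 * A * ρ)) * z := by ring
    _ ≤ P * (4 * e * e) + E ^ 2 * (P * c0) * e := by gcongr
    _ = (4 * P * e) * e + E ^ 2 * (P * c0) * e := by ring
    _ ≤ (P * E ^ 2 * c0) * e + E ^ 2 * (P * c0) * e := by gcongr
    _ = 2 * (P * E ^ 2) * (0 + c0 * e) := by ring
    _ ≤ 2 * (P * E ^ 2) * ((2 * ρ ^ 2 + 2 * A * r) * n ^ 2 + (2 * θ ^ 2 + 2 * E * q)) := by
        gcongr
        positivity
    _ = _ := by ring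

set_option maxHeartbeats 2000000 in
theorem zone3_R {a K c0 c1 M A E ρ θ r q B B1 B2 m : ℝ} (ha : 1 ≤ a) (hc0 : 0 < c0)
    (hc1 : 0 < c1) (hM : 0 ≤ M) (haK : a ≤ K)
    (hKA : K ≤ A) (haE : a ≤ E) (hEa : E ≤ a + 4) (hρ0 : 0 ≤ ρ) (hρ1 : ρ ≤ 1) (hθ0 : 0 ≤ θ)
    (hθ1 : θ ≤ 1) (hr : c1 ≤ r) (hq : c0 * θ ≤ q)
    (hB : |B| ≤ a ^ 2) (hB1 : B1 ^ 2 ≤ M * θ) (hB2 : B2 ^ 2 ≤ M * θ)
    (ha8 : 128 ≤ a * c0) (hK2 : 2 * M ≤ a * K) (hK3 : M ≤ a * c0 * c1 * K)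
    (hK4 : 77 + 30 * M + 140 * (a + 4) ≤ 2 * K * c1)
    (hF : 0 ≤ 2 * A * ρ + 2 * B1 * m + (-(2 * E * θ)) * m ^ 2) :
    rhsR (A ^ 2 + a ^ 2) B (E ^ 2) (2 * A * ρ) B1 (-(2 * E * θ)) m ≤
      2 * ((A ^ 2 + a ^ 2) * E ^ 2 - B ^ 2) *
        ((2 * ρ ^ 2 + 2 * A * r) + 2 * B2 * m + (2 * θ ^ 2 + 2 * E * q) * m ^ 2) := by
  have ha0 : 0 < a := by linarith
  have hK : 0 < K := by linarith
  have hA : 0 < A := hK.trans_le hKA
  have hA1 : 1 ≤ A := by linarith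
  have hE : 0 < E := ha0.trans_le haE
  have hE1 : 1 ≤ E := by linarith
  have haA : a ≤ A := by linarith
  set N := M / a with hN
  have hN0 : 0 ≤ N := by positivity
  have hMN : M = N * a := by rw [hN]; field_simp
  have hA2N : 2 * N ≤ A := by
    have : 2 * N * a ≤ K * a := by rw [hMN] at hK2; linarith
    have := le_of_mul_le_mul_right this ha0
    linarith
  have hAN : N / c0 ≤ A * c1 := by
    rw [div_le_iff₀ hc0]
    have h1 : N * a ≤ (A * c1 * c0) * a := by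
      have h2 : a * c0 * c1 * K ≤ a * c0 * c1 * A := by gcongr
      rw [hMN] at hK3
      linarith only [h2, hK3]
    exact le_of_mul_le_mul_right h1 ha0
  set y := 2 * E * θ * m ^ 2 with hy
  have hy0 : 0 ≤ y := by positivity
  have hθm : a * (θ * m ^ 2) ≤ y / 2 := by
    have h1 : a * (θ * m ^ 2) ≤ E * (θ * m ^ 2) := by gcongr
    have h2 : E * (θ * m ^ 2) = y / 2 := by rw [hy]; ring
    linarith
  have hB1m : (B1 * m) ^ 2 ≤ (y / 2) * N := by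
    have h1 : (B1 * m) ^ 2 = B1 ^ 2 * m ^ 2 := by ring
    have h2 : B1 ^ 2 * m ^ 2 ≤ M * θ * m ^ 2 := by gcongr
    have h3 : M * θ * m ^ 2 = (a * (θ * m ^ 2)) * N := by rw [hMN]; ring
    have h4 : (a * (θ * m ^ 2)) * N ≤ (y / 2) * N := by gcongr
    linarith
  have hB2m : (B2 * m) ^ 2 ≤ (c0 / 2 * y) * (N / c0) := by
    have h1 : (B2 * m) ^ 2 = B2 ^ 2 * m ^ 2 := by ring
    have h2 : B2 ^ 2 * m ^ 2 ≤ M * θ * m ^ 2 := by gcongr
    have h3 : M * θ * m ^ 2 = (a * (θ * m ^ 2)) * N := by rw [hMN]; ring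
    have h4 : (a * (θ * m ^ 2)) * N ≤ (y / 2) * N := by gcongr
    have h5 : (c0 / 2 * y) * (N / c0) = (y / 2) * N := by field_simp
    linarith
  have k1 := two_abs_le (by positivity) hN0 hB1m
  have k2 := two_abs_le (by positivity) (by positivity) hB2m
  have hP1 : 2 * A * ρ ≤ 2 * A := mul_le_of_le_one_right (by positivity) hρ1
  have hP10 : 0 ≤ 2 * A * ρ := by positivity
  have hyA : y ≤ 5 * A := by
    have h1 : y ≤ 2 * A * ρ + 2 * (B1 * m) := by rw [hy]; linarith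
    have h2 := le_abs_self (B1 * m)
    linarith
  -- bound for S_y
  have hB1sq : B1 ^ 2 ≤ M := hB1.trans (mul_le_of_le_one_right hM hθ1)
  have hB1M : 2 * |B1| ≤ 1 + M := by
    apply two_abs_le zero_le_one hM
    linarith only [hB1sq]
  have hem : (2 * E * θ * m) ^ 2 = 2 * E * θ * y := by rw [hy]; ring
  have heθ : 2 * E * θ ≤ 2 * E := mul_le_of_le_one_right (by positivity) hθ1
  have heθ0 : 0 ≤ 2 * E * θ := by positivity
  have hem2 : 2 * |2 * E * θ * m| ≤ 1 + 10 * E * A := by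
    apply two_abs_le zero_le_one (by positivity)
    rw [hem]
    calc 2 * E * θ * y ≤ 2 * E * (5 * A) := by gcongr
      _ = 1 * (10 * E * A) := by ring
  set S := B1 + -(2 * E * θ) * m with hS
  have hSabs : 2 * |S| ≤ 2 + M + 10 * E * A := by
    have h1 : |S| ≤ |B1| + |2 * E * θ * m| := by
      rw [hS]
      have : B1 + -(2 * E * θ) * m = B1 - 2 * E * θ * m := by ring
      rw [this]
      exact abs_sub _ _
    linarith
  have hSsq : S ^ 2 ≤ 2 * (M + 2 * E * y) := by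
    have h1 : S ^ 2 ≤ 2 * (B1 ^ 2 + (2 * E * θ * m) ^ 2) := by
      have h0 := sq_nonneg (B1 + 2 * E * θ * m)
      rw [hS]; linarith only [h0]
    have h3 : (2 * E * θ * m) ^ 2 ≤ 2 * E * y := by rw [hem]; gcongr
    linarith only [h1, hB1sq, h3]
  set P := A ^ 2 + a ^ 2 with hP
  have hP0 : 0 < P := by positivity
  have hP2A : P ≤ 2 * A ^ 2 := by
    have : a ^ 2 ≤ A ^ 2 := by gcongr
    rw [hP]; linarith
  have hB2' : B ^ 2 ≤ a ^ 2 * a ^ 2 := by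
    rw [← sq_abs]
    calc |B| ^ 2 ≤ (a ^ 2) ^ 2 := by gcongr
      _ = _ := by ring
  have hΔ : A ^ 2 * E ^ 2 ≤ P * E ^ 2 - B ^ 2 := by
    have h1 : a ^ 2 * a ^ 2 ≤ a ^ 2 * E ^ 2 := by gcongr
    rw [hP]; linarith only [h1, hB2']
  -- T1
  have T0 : 0 ≤ 2 * A * ρ + y := by positivity
  have T0' : 2 * A * ρ + y ≤ 7 * A := by linarith
  have T1 : E ^ 2 * (2 * A * ρ + y) ^ 2 ≤ 49 * (A ^ 2 * E ^ 2) := by
    calc E ^ 2 * (2 * A * ρ + y) ^ 2 ≤ E ^ 2 * (7 * A) ^ 2 := by gcongr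
      _ = _ := by ring
  have T2 : -(4 * B * (2 * A * ρ + y) * S) ≤ A ^ 2 * E ^ 2 * (14 * (2 + M + 10 * E)) := by
    have h1 : -(4 * B * (2 * A * ρ + y) * S) ≤ |4 * B * (2 * A * ρ + y) * S| := neg_le_abs _
    have h2 : |4 * B * (2 * A * ρ + y) * S| = 2 * (|B| * (2 * A * ρ + y) * (2 * |S|)) := by
      rw [abs_mul, abs_mul, abs_mul, abs_of_nonneg T0, abs_of_pos (by norm_num : (0:ℝ) < 4)]; ring
    have h3 : |B| * (2 * A * ρ + y) * (2 * |S|) ≤ a ^ 2 * (7 * A) * (2 + M + 10 * E * A) := by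
      gcongr
    have h4 : a ^ 2 * (7 * A) * (2 + M + 10 * E * A) ≤ E ^ 2 * (7 * A) * (A * (2 + M + 10 * E)) := by
      have h5 : 2 + M + 10 * E * A ≤ A * (2 + M + 10 * E) := by
        have h6 : 0 ≤ (A - 1) * (2 + M) := mul_nonneg (by linarith only [hA1]) (by positivity)
        linarith only [h6]
      gcongr
    calc _ ≤ _ := h1
      _ = _ := h2
      _ ≤ 2 * (E ^ 2 * (7 * A) * (A * (2 + M + 10 * E))) := by linarith
      _ = _ := by ring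
  have T3 : 4 * P * S ^ 2 ≤ A ^ 2 * E ^ 2 * (16 * M) + 32 * (A ^ 2 * E * y) := by
    calc 4 * P * S ^ 2 ≤ 4 * (2 * A ^ 2) * (2 * (M + 2 * E * y)) := by gcongr
      _ = A ^ 2 * 1 * (16 * M) + 32 * (A ^ 2 * E * y) := by ring
      _ ≤ A ^ 2 * E ^ 2 * (16 * M) + 32 * (A ^ 2 * E * y) := by
          have : 1 ≤ E ^ 2 := one_le_pow₀ hE1
          gcongr
  have T4 : 32 * (A ^ 2 * E * y) ≤ A ^ 2 * E ^ 2 * (c0 * y) := by
    have h1 : 32 ≤ E * c0 := by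
      have : a * c0 ≤ E * c0 := by gcongr
      linarith
    calc 32 * (A ^ 2 * E * y) ≤ (E * c0) * (A ^ 2 * E * y) := by gcongr
      _ = _ := by ring
  have T5 : 49 + 14 * (2 + M + 10 * E) + 16 * M ≤ 2 * A * c1 := by
    have : 2 * K * c1 ≤ 2 * A * c1 := by gcongr
    linarith
  -- LHS
  have L1 : A * c1 + c0 / 2 * y ≤
      (2 * ρ ^ 2 + 2 * A * r) + 2 * B2 * m + (2 * θ ^ 2 + 2 * E * q) * m ^ 2 := by
    have h1 : 2 * A * c1 ≤ 2 * ρ ^ 2 + 2 * A * r := by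
      have : 2 * A * c1 ≤ 2 * A * r := by gcongr
      have := sq_nonneg ρ
      linarith
    have h2 : c0 * y ≤ (2 * θ ^ 2 + 2 * E * q) * m ^ 2 := by
      have : c0 * y = 2 * E * (c0 * θ) * m ^ 2 := by rw [hy]; ring
      rw [this]
      have h3 : 2 * E * (c0 * θ) ≤ 2 * θ ^ 2 + 2 * E * q := by
        have h4 : E * (c0 * θ) ≤ E * q := by gcongr
        have h5 := sq_nonneg θ
        linarith only [h4, h5]
      gcongr
    have h3 := neg_abs_le (B2 * m)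
    linarith only [h1, h2, h3, k2, hAN]
  have L0 : 0 ≤ A * c1 + c0 / 2 * y := by positivity
  unfold rhsR
  have e1 : (2 * A * ρ - -(2 * E * θ) * m ^ 2) = 2 * A * ρ + y := by rw [hy]; ring
  rw [e1]
  calc E ^ 2 * (2 * A * ρ + y) ^ 2 - 4 * B * (2 * A * ρ + y) * S + 4 * P * S ^ 2
      = E ^ 2 * (2 * A * ρ + y) ^ 2 + -(4 * B * (2 * A * ρ + y) * S) + 4 * P * S ^ 2 := by ring
    _ ≤ 49 * (A ^ 2 * E ^ 2) + A ^ 2 * E ^ 2 * (14 * (2 + M + 10 * E)) +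
        (A ^ 2 * E ^ 2 * (16 * M) + A ^ 2 * E ^ 2 * (c0 * y)) := by
        linarith only [T1, T2, T3, T4]
    _ = A ^ 2 * E ^ 2 * (49 + 14 * (2 + M + 10 * E) + 16 * M) + A ^ 2 * E ^ 2 * (c0 * y) := by ring
    _ ≤ A ^ 2 * E ^ 2 * (2 * A * c1) + A ^ 2 * E ^ 2 * (c0 * y) := by gcongr
    _ = 2 * (A ^ 2 * E ^ 2) * (A * c1 + c0 / 2 * y) := by ring
    _ ≤ _ := by
        have hΔ0 : 0 ≤ 2 * (P * E ^ 2 - B ^ 2) := by
          have : 0 ≤ A ^ 2 * E ^ 2 := by positivity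
          linarith only [this, hΔ]
        gcongr

set_option maxHeartbeats 2000000 in
theorem zone3_L {a K c0 c1 c4 M A E ρ θ r q B B1 B2 n : ℝ} (ha : 1 ≤ a) (hc0 : 0 < c0)
    (hc1 : 0 < c1) (hc4 : 0 < c4) (hM : 0 ≤ M) (haK : a ≤ K)
    (hKA : K ≤ A) (haE : a ≤ E) (hEa : E ≤ a + 4) (hρ0 : c4 ≤ ρ) (hρ1 : ρ ≤ 1) (hθ0 : 0 ≤ θ)
    (hθ1 : θ ≤ 1) (hr : c1 ≤ r) (hq : c0 * θ ≤ q)
    (hB : |B| ≤ a ^ 2) (hB1 : B1 ^ 2 ≤ M * θ) (hB2 : B2 ^ 2 ≤ M * θ)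
    (ha8 : 128 ≤ a * c0) (hK2 : M ≤ K * c4 * a) (hK3 : M ≤ a * c0 * c1 * K)
    (hK5 : 128 + 32 * M + 192 * (a + 4) ≤ K * c0)
    (hF : 2 * A * ρ * n ^ 2 + 2 * B1 * n + (-(2 * E * θ)) ≤ 0) :
    rhsL (A ^ 2 + a ^ 2) B (E ^ 2) (2 * A * ρ) B1 (-(2 * E * θ)) n ≤
      2 * ((A ^ 2 + a ^ 2) * E ^ 2 - B ^ 2) *
        ((2 * ρ ^ 2 + 2 * A * r) * n ^ 2 + 2 * B2 * n + (2 * θ ^ 2 + 2 * E * q)) := by
  have ha0 : 0 < a := by linarith
  have hK : 0 < K := by linarith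
  have hA : 0 < A := hK.trans_le hKA
  have hA1 : 1 ≤ A := by linarith
  have hE : 0 < E := ha0.trans_le haE
  have hE1 : 1 ≤ E := by linarith
  have haA : a ≤ A := by linarith
  have hρpos : 0 < ρ := hc4.trans_le hρ0
  set z := 2 * A * ρ * n ^ 2 with hz
  have hz0 : 0 ≤ z := by positivity
  set e := 2 * E * θ with he
  have he0 : 0 ≤ e := by positivity
  have heE : e ≤ 2 * E := by rw [he]; exact mul_le_of_le_one_right (by positivity) hθ1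
  have hθe : θ ≤ e := by
    rw [he]; exact le_mul_of_one_le_left hθ0 (by linarith only [hE1])
  have hn2 : 0 ≤ n ^ 2 := sq_nonneg n
  have hMAE : M ≤ A * ρ * E := by
    calc M ≤ K * c4 * a := hK2
      _ ≤ A * ρ * E := by gcongr
  have hB1n : (B1 * n) ^ 2 ≤ (z / 2) * (e / 2) := by
    have h1 : (B1 * n) ^ 2 = B1 ^ 2 * n ^ 2 := by ring
    have h2 : B1 ^ 2 * n ^ 2 ≤ M * θ * n ^ 2 := by gcongr
    have h3 : M * θ * n ^ 2 ≤ (A * ρ * E) * θ * n ^ 2 := by gcongr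
    have h4 : (A * ρ * E) * θ * n ^ 2 = (z / 2) * (e / 2) := by rw [hz, he]; ring
    linarith
  have k1 := two_abs_le (by positivity) (by positivity) hB1n
  have hze : z ≤ 3 * e := by
    have := neg_abs_le (B1 * n)
    linarith
  have hB2n : (B2 * n) ^ 2 ≤ (2 * A * c1 * n ^ 2) * (c0 / 2 * e) := by
    have h1 : (B2 * n) ^ 2 = B2 ^ 2 * n ^ 2 := by ring
    have h2 : B2 ^ 2 * n ^ 2 ≤ M * θ * n ^ 2 := by gcongr
    have h3 : M ≤ 2 * A * E * c1 * c0 := by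
      calc M ≤ a * c0 * c1 * K := hK3
        _ ≤ E * c0 * c1 * A := by gcongr
        _ ≤ 2 * (E * c0 * c1 * A) := by
            have : 0 ≤ E * c0 * c1 * A := by positivity
            linarith
        _ = _ := by ring
    have h4 : M * θ * n ^ 2 ≤ (2 * A * E * c1 * c0) * θ * n ^ 2 := by gcongr
    have h5 : (2 * A * E * c1 * c0) * θ * n ^ 2 = (2 * A * c1 * n ^ 2) * (c0 / 2 * e) := by
      rw [he]; ring
    linarith
  have k2 := two_abs_le (by positivity) (by positivity) hB2n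
  -- bound for S_x
  have hB1sq : B1 ^ 2 ≤ M := hB1.trans (mul_le_of_le_one_right hM hθ1)
  have hB1M : 2 * |B1| ≤ 1 + M := by
    apply two_abs_le zero_le_one hM
    linarith only [hB1sq]
  have hpn : (2 * A * ρ * n) ^ 2 = 2 * A * ρ * z := by rw [hz]; ring
  have hAρ : 2 * A * ρ ≤ 2 * A := mul_le_of_le_one_right (by positivity) hρ1
  have hpn1 : (2 * A * ρ * n) ^ 2 ≤ 6 * A * e := by
    rw [hpn]
    calc 2 * A * ρ * z ≤ 2 * A * (3 * e) := by gcongr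
      _ = _ := by ring
  have hpn2 : 2 * |2 * A * ρ * n| ≤ 1 + 12 * E * A := by
    apply two_abs_le zero_le_one (by positivity)
    calc (2 * A * ρ * n) ^ 2 ≤ 6 * A * e := hpn1
      _ ≤ 6 * A * (2 * E) := by gcongr
      _ = 1 * (12 * E * A) := by ring
  set S := 2 * A * ρ * n + B1 with hS
  have hSabs : 2 * |S| ≤ 2 + M + 12 * E * A := by
    have h1 : |S| ≤ |2 * A * ρ * n| + |B1| := by
      rw [hS]
      exact abs_add_le _ _
    linarith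
  have hSsq : S ^ 2 ≤ 2 * ((6 * A + M) * e) := by
    have h1 : S ^ 2 ≤ 2 * ((2 * A * ρ * n) ^ 2 + B1 ^ 2) := by
      have h0 := sq_nonneg (2 * A * ρ * n - B1)
      rw [hS]; linarith only [h0]
    have h2 : B1 ^ 2 ≤ M * e := by
      calc B1 ^ 2 ≤ M * θ := hB1
        _ ≤ M * e := by gcongr
    linarith only [h1, h2, hpn1]
  set P := A ^ 2 + a ^ 2 with hP
  have hP0 : 0 < P := by positivity
  have hP2A : P ≤ 2 * A ^ 2 := by
    have : a ^ 2 ≤ A ^ 2 := by gcongr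
    rw [hP]; linarith
  have hB2' : B ^ 2 ≤ a ^ 2 * a ^ 2 := by
    rw [← sq_abs]
    calc |B| ^ 2 ≤ (a ^ 2) ^ 2 := by gcongr
      _ = _ := by ring
  have hΔ : A ^ 2 * E ^ 2 ≤ P * E ^ 2 - B ^ 2 := by
    have h1 : a ^ 2 * a ^ 2 ≤ a ^ 2 * E ^ 2 := by gcongr
    rw [hP]; linarith only [h1, hB2']
  have T0 : 0 ≤ e + z := by positivity
  have T0' : e + z ≤ 4 * e := by linarith
  have T1 : P * (e + z) ^ 2 ≤ 64 * (A ^ 2 * E) * e := by
    calc P * (e + z) ^ 2 ≤ (2 * A ^ 2) * (4 * e) ^ 2 := by gcongr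
      _ = 32 * A ^ 2 * e * e := by ring
      _ ≤ 32 * A ^ 2 * (2 * E) * e := by gcongr
      _ = _ := by ring
  have T2 : 4 * B * (e + z) * S ≤ A * E ^ 2 * (8 * (2 + M + 12 * E)) * e := by
    have h1 : 4 * B * (e + z) * S ≤ |4 * B * (e + z) * S| := le_abs_self _
    have h2 : |4 * B * (e + z) * S| = 2 * (|B| * (e + z) * (2 * |S|)) := by
      rw [abs_mul, abs_mul, abs_mul, abs_of_nonneg T0, abs_of_pos (by norm_num : (0:ℝ) < 4)]; ring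
    have h3 : |B| * (e + z) * (2 * |S|) ≤ a ^ 2 * (4 * e) * (2 + M + 12 * E * A) := by
      gcongr
    have h4 : a ^ 2 * (4 * e) * (2 + M + 12 * E * A) ≤ E ^ 2 * (4 * e) * (A * (2 + M + 12 * E)) := by
      have h5 : 2 + M + 12 * E * A ≤ A * (2 + M + 12 * E) := by
        have h6 : 0 ≤ (A - 1) * (2 + M) := mul_nonneg (by linarith only [hA1]) (by positivity)
        linarith only [h6]
      gcongr
    calc _ ≤ _ := h1
      _ = _ := h2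
      _ ≤ 2 * (E ^ 2 * (4 * e) * (A * (2 + M + 12 * E))) := by linarith
      _ = _ := by ring
  have T3 : 4 * E ^ 2 * S ^ 2 ≤ A * E ^ 2 * (48 + 8 * M) * e := by
    calc 4 * E ^ 2 * S ^ 2 ≤ 4 * E ^ 2 * (2 * ((6 * A + M) * e)) := by gcongr
      _ ≤ 4 * E ^ 2 * (2 * ((A * (6 + M)) * e)) := by
          have : 6 * A + M ≤ A * (6 + M) := by
            have h6 : 0 ≤ (A - 1) * M := mul_nonneg (by linarith only [hA1]) hM
            linarith only [h6]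
          gcongr
      _ = _ := by ring
  have T4 : 64 * (A ^ 2 * E) * e ≤ A ^ 2 * E ^ 2 * (c0 / 2) * e := by
    have h1 : 128 ≤ E * c0 := by
      have : a * c0 ≤ E * c0 := by gcongr
      linarith
    calc 64 * (A ^ 2 * E) * e = 128 * (A ^ 2 * E / 2) * e := by ring
      _ ≤ (E * c0) * (A ^ 2 * E / 2) * e := by gcongr
      _ = _ := by ring
  have T5 : 8 * (2 + M + 12 * E) + (48 + 8 * M) ≤ A * c0 / 2 := by
    have : K * c0 ≤ A * c0 := by gcongr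
    linarith
  have L1 : c0 / 2 * e ≤
      (2 * ρ ^ 2 + 2 * A * r) * n ^ 2 + 2 * B2 * n + (2 * θ ^ 2 + 2 * E * q) := by
    have h1 : 2 * A * c1 * n ^ 2 ≤ (2 * ρ ^ 2 + 2 * A * r) * n ^ 2 := by
      have h0 : 2 * A * c1 ≤ 2 * ρ ^ 2 + 2 * A * r := by
        have : 2 * A * c1 ≤ 2 * A * r := by gcongr
        have := sq_nonneg ρ
        linarith
      gcongr
    have h2 : c0 * e ≤ 2 * θ ^ 2 + 2 * E * q := by
      have : c0 * e = 2 * E * (c0 * θ) := by rw [he]; ring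
      rw [this]
      have h4 : E * (c0 * θ) ≤ E * q := by gcongr
      have h5 := sq_nonneg θ
      linarith only [h4, h5]
    have h3 := neg_abs_le (B2 * n)
    linarith only [h1, h2, h3, k2]
  unfold rhsL
  have e1 : (-e - 2 * A * ρ * n ^ 2) = -(e + z) := by rw [hz]; ring
  rw [e1]
  calc P * (-(e + z)) ^ 2 - 4 * B * -(e + z) * S + 4 * E ^ 2 * S ^ 2
      = P * (e + z) ^ 2 + 4 * B * (e + z) * S + 4 * E ^ 2 * S ^ 2 := by ring
    _ ≤ A ^ 2 * E ^ 2 * (c0 / 2) * e + A * E ^ 2 * (8 * (2 + M + 12 * E)) * e +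
        A * E ^ 2 * (48 + 8 * M) * e := by linarith only [T1, T2, T3, T4]
    _ = A ^ 2 * E ^ 2 * (c0 / 2) * e + A * E ^ 2 * (8 * (2 + M + 12 * E) + (48 + 8 * M)) * e := by
        ring
    _ ≤ A ^ 2 * E ^ 2 * (c0 / 2) * e + A * E ^ 2 * (A * c0 / 2) * e := by gcongr
    _ = 2 * (A ^ 2 * E ^ 2) * (c0 / 2 * e) := by ring
    _ ≤ _ := by
        have hΔ0 : 0 ≤ 2 * (P * E ^ 2 - B ^ 2) := by
          have : 0 ≤ A ^ 2 * E ^ 2 := by positivity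
          linarith only [this, hΔ]
        gcongr

end Crest.Agent.R244.Col
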