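import Mathlib

/-!
R244 (S0377), package NCP, part 1: the monotone form along Jacobi fields in the collar.

All objects are functions of the parameter `s` of the geodesic: `t` is the collar coordinate,
`w = t'`, `a = dt`, `b = dt'`, `X = dx`, `Y = dy`; `p, q` are the conserved momenta and `dp, dq`
their variations; `A, B, C` are the entries of the cometric `W(t)`.
-/

set_option autoImplicit false

open Filter Topology

namespace Crest.Agent.R244.NCP

/-- `W'(p,p)`, given first derivatives of the entries of `W`. -/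
def qf (A B C p q : ℝ) : ℝ := A * p ^ 2 + 2 * B * p * q + C * q ^ 2

/-- polar form -/
def bf (A B C p q dp dq : ℝ) : ℝ := A * p * dp + B * (p * dq + q * dp) + C * q * dq

/-- The linearised geodesic equations of the collar in momentum form at the parameter `s`. -/
structure VarAt (A B C : ℝ → ℝ) (p q dp dq : ℝ) (t w a b X Y : ℝ → ℝ) (s : ℝ) : Prop where
  ht : HasDerivAt t (w s) s
  hw : HasDerivAt w (-(qf (deriv A (t s)) (deriv B (t s)) (deriv C (t s)) p q) / 2) s
  ha : HasDerivAt a (b s) s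
  hb : HasDerivAt b (-(qf (deriv (deriv A) (t s)) (deriv (deriv B) (t s)) (deriv (deriv C) (t s))
    p q) / 2 * a s - bf (deriv A (t s)) (deriv B (t s)) (deriv C (t s)) p q dp dq) s
  hX : HasDerivAt X (A (t s) * dp + B (t s) * dq + a s * (deriv A (t s) * p + deriv B (t s) * q)) s
  hY : HasDerivAt Y (B (t s) * dp + C (t s) * dq + a s * (deriv B (t s) * p + deriv C (t s) * q)) s

variable {A B C : ℝ → ℝ} {p q dp dq : ℝ} {t w a b X Y : ℝ → ℝ} {s : ℝ}

/-- Exchange of the roles of `x` and `y`. -/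
theorem VarAt.swap (h : VarAt A B C p q dp dq t w a b X Y s) :
    VarAt C B A q p dq dp t w a b Y X s := by
  refine ⟨h.ht, ?_, h.ha, ?_, ?_, ?_⟩
  · have := h.hw
    convert this using 1
    unfold qf; ring
  · have := h.hb
    convert this using 1
    unfold qf bf; ring
  · have := h.hY
    convert this using 1
    ring
  · have := h.hX
    convert this using 1
    ring

/-- The form `q~ = dt·dt' + dp·(dx,dy)`. -/
def hZ (dp dq : ℝ) (a b X Y : ℝ → ℝ) (s : ℝ) : ℝ := a s * b s + dp * X s + dq * Y s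

theorem hasDerivAt_hZ (h : VarAt A B C p q dp dq t w a b X Y s) :
    HasDerivAt (hZ dp dq a b X Y)
      (b s ^ 2 + qf (A (t s)) (B (t s)) (C (t s)) dp dq -
        qf (deriv (deriv A) (t s)) (deriv (deriv B) (t s)) (deriv (deriv C) (t s)) p q / 2 *
          a s ^ 2) s := by
  have := ((h.ha.mul h.hb).add (h.hX.const_mul dp)).add (h.hY.const_mul dq)
  refine HasDerivAt.congr_deriv this ?_
  unfold qf bf
  ring

/-- The `x`-form (used where `V_t < 0`). -/
noncomputable def hR (A B C : ℝ → ℝ) (p q dp dq : ℝ) (t w a b X Y : ℝ → ℝ) (s : ℝ) : ℝ :=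
  hZ dp dq a b X Y s +
    qf (deriv A (t s)) (deriv B (t s)) (deriv C (t s)) p q / (A (t s) * p + B (t s) * q) *
      (X s * a s) -
    qf (deriv A (t s)) (deriv B (t s)) (deriv C (t s)) p q * w s /
      (2 * (A (t s) * p + B (t s) * q) ^ 2) * X s ^ 2

/-- The coefficient of `τ²` in the derivative of the `x`-form. -/
noncomputable def cR (A B C A' B' C' A'' B'' C'' p q : ℝ) : ℝ :=
  -(qf A'' B'' C'' p q) / 2 + qf A' B' C' p q * (A' * p + B' * q) / (A * p + B * q) -
    qf A' B' C' p q ^ 2 * A / (4 * (A * p + B * q) ^ 2)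

theorem hasDerivAt_hR (h : VarAt A B C p q dp dq t w a b X Y s)
    (hA : DifferentiableAt ℝ A (t s)) (hB : DifferentiableAt ℝ B (t s))
    (hA' : DifferentiableAt ℝ (deriv A) (t s)) (hB' : DifferentiableAt ℝ (deriv B) (t s))
    (hC' : DifferentiableAt ℝ (deriv C) (t s))
    (hu : A (t s) * p + B (t s) * q ≠ 0) :
    HasDerivAt (hR A B C p q dp dq t w a b X Y)
      ((b s + qf (deriv A (t s)) (deriv B (t s)) (deriv C (t s)) p q /
          (A (t s) * p + B (t s) * q) * X s / 2) ^ 2 +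
        qf (A (t s)) (B (t s)) (C (t s))
          (dp + qf (deriv A (t s)) (deriv B (t s)) (deriv C (t s)) p q *
            (a s - w s * X s / (A (t s) * p + B (t s) * q)) / (2 * (A (t s) * p + B (t s) * q)))
          dq +
        cR (A (t s)) (B (t s)) (C (t s)) (deriv A (t s)) (deriv B (t s)) (deriv C (t s))
          (deriv (deriv A) (t s)) (deriv (deriv B) (t s)) (deriv (deriv C) (t s)) p q *
          (a s - w s * X s / (A (t s) * p + B (t s) * q)) ^ 2) s := by
  have hAt : HasDerivAt (fun s => A (t s)) (deriv A (t s) * w s) s :=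
    hA.hasDerivAt.comp s h.ht
  have hBt : HasDerivAt (fun s => B (t s)) (deriv B (t s) * w s) s :=
    hB.hasDerivAt.comp s h.ht
  have hAt' : HasDerivAt (fun s => deriv A (t s)) (deriv (deriv A) (t s) * w s) s :=
    hA'.hasDerivAt.comp s h.ht
  have hBt' : HasDerivAt (fun s => deriv B (t s)) (deriv (deriv B) (t s) * w s) s :=
    hB'.hasDerivAt.comp s h.ht
  have hCt' : HasDerivAt (fun s => deriv C (t s)) (deriv (deriv C) (t s) * w s) s :=
    hC'.hasDerivAt.comp s h.ht
  have hV : HasDerivAt (fun s => qf (deriv A (t s)) (deriv B (t s)) (deriv C (t s)) p q)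
      (qf (deriv (deriv A) (t s)) (deriv (deriv B) (t s)) (deriv (deriv C) (t s)) p q * w s) s := by
    have := ((hAt'.mul_const (p ^ 2)).add ((hBt'.const_mul 2).mul_const p |>.mul_const q)).add
      (hCt'.mul_const (q ^ 2))
    refine HasDerivAt.congr_deriv this ?_
    unfold qf; ring
  have hU : HasDerivAt (fun s => A (t s) * p + B (t s) * q)
      ((deriv A (t s) * p + deriv B (t s) * q) * w s) s := by
    have := (hAt.mul_const p).add (hBt.mul_const q)
    refine HasDerivAt.congr_deriv this ?_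
    ring
  have h1 := (hasDerivAt_hZ h)
  have h2 := (hV.div hU hu).mul (h.hX.mul h.ha)
  have h3 := ((hV.mul h.hw).div ((hU.pow 2).const_mul 2)
    (by positivity : (2:ℝ) * (A (t s) * p + B (t s) * q) ^ 2 ≠ 0)).mul (h.hX.pow 2)
  have h4 := (h1.add h2).sub h3
  refine HasDerivAt.congr_deriv h4 ?_
  simp only [Pi.div_apply, Pi.mul_apply, Pi.pow_apply, Nat.cast_ofNat, Nat.add_one_sub_one, pow_one]
  unfold cR
  set V' := qf (deriv A (t s)) (deriv B (t s)) (deriv C (t s)) p q with hV'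
  set V'' := qf (deriv (deriv A) (t s)) (deriv (deriv B) (t s)) (deriv (deriv C) (t s)) p q
  set u := A (t s) * p + B (t s) * q with hu'
  set u' := deriv A (t s) * p + deriv B (t s) * q
  unfold qf
  field_simp
  ring

theorem qf_nonneg {A B C : ℝ} (hA : 0 < A) (hD : 0 < A * C - B ^ 2) (x y : ℝ) :
    0 ≤ qf A B C x y := by
  have h1 : A * qf A B C x y = (A * x + B * y) ^ 2 + (A * C - B ^ 2) * y ^ 2 := by
    unfold qf; ring
  have h2 : 0 ≤ A * qf A B C x y := by
    rw [h1]; positivity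
  exact nonneg_of_mul_nonneg_right h2 hA

theorem qf_pos {A B C : ℝ} (hA : 0 < A) (hD : 0 < A * C - B ^ 2) {x y : ℝ}
    (hxy : x ≠ 0 ∨ y ≠ 0) : 0 < qf A B C x y := by
  have h1 : A * qf A B C x y = (A * x + B * y) ^ 2 + (A * C - B ^ 2) * y ^ 2 := by
    unfold qf; ring
  have h2 : 0 < A * qf A B C x y := by
    rw [h1]
    by_cases hy : y = 0
    · have hx : x ≠ 0 := by
        rcases hxy with h | h
        · exact h
        · exact absurd hy h
      subst hy
      have : 0 < (A * x) ^ 2 := by positivity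
      nlinarith
    · have : 0 < (A * C - B ^ 2) * y ^ 2 := by positivity
      have h3 := sq_nonneg (A * x + B * y)
      linarith
  exact (mul_pos_iff_of_pos_left hA).1 h2

/-- The derivative of the form `hR` is nonnegative, and positive at a zero of the Jacobi field. -/
theorem hR_good (h : VarAt A B C p q dp dq t w a b X Y s)
    (hA : DifferentiableAt ℝ A (t s)) (hB : DifferentiableAt ℝ B (t s))
    (hA' : DifferentiableAt ℝ (deriv A) (t s)) (hB' : DifferentiableAt ℝ (deriv B) (t s))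
    (hC' : DifferentiableAt ℝ (deriv C) (t s))
    (hu : A (t s) * p + B (t s) * q ≠ 0)
    (hApos : 0 < A (t s)) (hD : 0 < A (t s) * C (t s) - B (t s) ^ 2)
    (hR0 : 0 ≤ cR (A (t s)) (B (t s)) (C (t s)) (deriv A (t s)) (deriv B (t s)) (deriv C (t s))
          (deriv (deriv A) (t s)) (deriv (deriv B) (t s)) (deriv (deriv C) (t s)) p q) :
    ∃ d, 0 ≤ d ∧ HasDerivAt (hR A B C p q dp dq t w a b X Y) d s ∧
      (a s = 0 → X s = 0 → (b s ≠ 0 ∨ dp ≠ 0 ∨ dq ≠ 0) → 0 < d) := by
  refine ⟨_, ?_, hasDerivAt_hR h hA hB hA' hB' hC' hu, ?_⟩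
  · have h1 := qf_nonneg hApos hD (dp + qf (deriv A (t s)) (deriv B (t s)) (deriv C (t s)) p q *
            (a s - w s * X s / (A (t s) * p + B (t s) * q)) / (2 * (A (t s) * p + B (t s) * q))) dq
    have h2 := mul_nonneg hR0 (sq_nonneg (a s - w s * X s / (A (t s) * p + B (t s) * q)))
    have h3 := sq_nonneg (b s + qf (deriv A (t s)) (deriv B (t s)) (deriv C (t s)) p q /
          (A (t s) * p + B (t s) * q) * X s / 2)
    linarith
  · intro ha hX hne
    rw [ha, hX]
    simp only [mul_zero, zero_div, sub_zero, add_zero, zero_pow two_ne_zero]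
    by_cases hb : b s = 0
    · have hdp : dp ≠ 0 ∨ dq ≠ 0 := by
        rcases hne with h | h
        · exact absurd hb h
        · exact h
      have := qf_pos hApos hD hdp
      have h3 := sq_nonneg (b s)
      linarith
    · have := qf_nonneg hApos hD dp dq
      have h3 : 0 < b s ^ 2 := by positivity
      linarith

theorem hZ_good (h : VarAt A B C p q dp dq t w a b X Y s)
    (hApos : 0 < A (t s)) (hD : 0 < A (t s) * C (t s) - B (t s) ^ 2)
    (hV : qf (deriv (deriv A) (t s)) (deriv (deriv B) (t s)) (deriv (deriv C) (t s)) p q ≤ 0) :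
    ∃ d, 0 ≤ d ∧ HasDerivAt (hZ dp dq a b X Y) d s ∧
      (a s = 0 → X s = 0 → (b s ≠ 0 ∨ dp ≠ 0 ∨ dq ≠ 0) → 0 < d) := by
  refine ⟨_, ?_, hasDerivAt_hZ h, ?_⟩
  · have h1 := qf_nonneg hApos hD dp dq
    have h2 := mul_nonneg (neg_nonneg.2 hV) (sq_nonneg (a s))
    have h3 := sq_nonneg (b s)
    linarith
  · intro ha hX hne
    rw [ha]
    by_cases hb : b s = 0
    · have hdp : dp ≠ 0 ∨ dq ≠ 0 := by
        rcases hne with h | h
        · exact absurd hb h
        · exact h
      have := qf_pos hApos hD hdp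
      have h3 := sq_nonneg (b s)
      linarith
    · have := qf_nonneg hApos hD dp dq
      have h3 : 0 < b s ^ 2 := by positivity
      linarith

/-- The form `<J,J'>`, i.e. half of the derivative of `|J|²`; `Qa, Qb, Qc` are the entries of the
metric `Q_t = W(t)⁻¹`. -/
noncomputable def hF (A B C Qa Qb Qc : ℝ → ℝ) (p q dp dq : ℝ) (t w a b X Y : ℝ → ℝ) (s : ℝ) : ℝ :=
  hZ dp dq a b X Y s -
    a s * bf (deriv Qa (t s)) (deriv Qb (t s)) (deriv Qc (t s)) (A (t s) * p + B (t s) * q)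
      (B (t s) * p + C (t s) * q) (X s) (Y s) +
    w s / 2 * qf (deriv Qa (t s)) (deriv Qb (t s)) (deriv Qc (t s)) (X s) (Y s)

/-- `|J|²` -/
def eJ (Qa Qb Qc : ℝ → ℝ) (t a X Y : ℝ → ℝ) (s : ℝ) : ℝ :=
  a s ^ 2 + qf (Qa (t s)) (Qb (t s)) (Qc (t s)) (X s) (Y s)

theorem hasDerivAt_eJ {Qa Qb Qc : ℝ → ℝ} (h : VarAt A B C p q dp dq t w a b X Y s)
    (hA : DifferentiableAt ℝ A (t s)) (hB : DifferentiableAt ℝ B (t s))
    (hC : DifferentiableAt ℝ C (t s))
    (hQa : DifferentiableAt ℝ Qa (t s)) (hQb : DifferentiableAt ℝ Qb (t s))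
    (hQc : DifferentiableAt ℝ Qc (t s))
    (h11 : ∀ r, Qa r * A r + Qb r * B r = 1) (h12 : ∀ r, Qa r * B r + Qb r * C r = 0)
    (h21 : ∀ r, Qb r * A r + Qc r * B r = 0) (h22 : ∀ r, Qb r * B r + Qc r * C r = 1) :
    HasDerivAt (eJ Qa Qb Qc t a X Y) (2 * hF A B C Qa Qb Qc p q dp dq t w a b X Y s) s := by
  have hAt : HasDerivAt (fun s => Qa (t s)) (deriv Qa (t s) * w s) s :=
    hQa.hasDerivAt.comp s h.ht
  have hBt : HasDerivAt (fun s => Qb (t s)) (deriv Qb (t s) * w s) s :=
    hQb.hasDerivAt.comp s h.ht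
  have hCt : HasDerivAt (fun s => Qc (t s)) (deriv Qc (t s) * w s) s :=
    hQc.hasDerivAt.comp s h.ht
  have r11 : deriv Qa (t s) * A (t s) + Qa (t s) * deriv A (t s) +
      (deriv Qb (t s) * B (t s) + Qb (t s) * deriv B (t s)) = 0 := by
    have h1 := (hQa.hasDerivAt.mul hA.hasDerivAt).add (hQb.hasDerivAt.mul hB.hasDerivAt)
    have h2 : (Qa * A + Qb * B) = fun _ => (1:ℝ) := by funext r; exact h11 r
    rw [h2] at h1
    exact h1.unique (hasDerivAt_const _ _)
  have r12 : deriv Qa (t s) * B (t s) + Qa (t s) * deriv B (t s) +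
      (deriv Qb (t s) * C (t s) + Qb (t s) * deriv C (t s)) = 0 := by
    have h1 := (hQa.hasDerivAt.mul hB.hasDerivAt).add (hQb.hasDerivAt.mul hC.hasDerivAt)
    have h2 : (Qa * B + Qb * C) = fun _ => (0:ℝ) := by funext r; exact h12 r
    rw [h2] at h1
    exact h1.unique (hasDerivAt_const _ _)
  have r21 : deriv Qb (t s) * A (t s) + Qb (t s) * deriv A (t s) +
      (deriv Qc (t s) * B (t s) + Qc (t s) * deriv B (t s)) = 0 := by
    have h1 := (hQb.hasDerivAt.mul hA.hasDerivAt).add (hQc.hasDerivAt.mul hB.hasDerivAt)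
    have h2 : (Qb * A + Qc * B) = fun _ => (0:ℝ) := by funext r; exact h21 r
    rw [h2] at h1
    exact h1.unique (hasDerivAt_const _ _)
  have r22 : deriv Qb (t s) * B (t s) + Qb (t s) * deriv B (t s) +
      (deriv Qc (t s) * C (t s) + Qc (t s) * deriv C (t s)) = 0 := by
    have h1 := (hQb.hasDerivAt.mul hB.hasDerivAt).add (hQc.hasDerivAt.mul hC.hasDerivAt)
    have h2 : (Qb * B + Qc * C) = fun _ => (1:ℝ) := by funext r; exact h22 r
    rw [h2] at h1
    exact h1.unique (hasDerivAt_const _ _)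
  have h1 := (h.ha.pow 2).add (((hAt.mul (h.hX.pow 2)).add
    (((hBt.const_mul 2).mul h.hX).mul h.hY)).add (hCt.mul (h.hY.pow 2)))
  refine HasDerivAt.congr_deriv h1 ?_
  simp only [Pi.mul_apply, Pi.pow_apply, Nat.cast_ofNat, Nat.add_one_sub_one, pow_one]
  unfold hF hZ bf qf
  linear_combination (2 * X s * dp) * h11 (t s) + (2 * X s * dq) * h12 (t s) +
    (2 * Y s * dp) * h21 (t s) + (2 * Y s * dq) * h22 (t s) +
    (2 * X s * a s * p) * r11 + (2 * X s * a s * q) * r12 +
    (2 * Y s * a s * p) * r21 + (2 * Y s * a s * q) * r22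

/-- Values and derivatives of `W` and `Q` at a point of a flat polar end where the `y`-circles have
derivative `Q_yy' = -κ` (`κ > 0` at the left end; the right end is obtained by exchanging `x` and
`y`, with `κ < 0`). -/
structure FlatEnd (A B C Qa Qb Qc : ℝ → ℝ) (κ r : ℝ) : Prop where
  A1 : deriv A r = κ * B r ^ 2
  B1 : deriv B r = κ * B r * C r
  C1 : deriv C r = κ * C r ^ 2
  A2 : deriv (deriv A) r = 3 / 2 * κ ^ 2 * C r * B r ^ 2
  B2 : deriv (deriv B) r = 3 / 2 * κ ^ 2 * C r * B r * C r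
  C2 : deriv (deriv C) r = 3 / 2 * κ ^ 2 * C r * C r ^ 2
  Qa1 : deriv Qa r = 0
  Qb1 : deriv Qb r = 0
  Qc1 : deriv Qc r = -κ
  Qa2 : deriv (deriv Qa) r = 0
  Qb2 : deriv (deriv Qb) r = 0
  Qc2 : deriv (deriv Qc) r = 1 / 2 * κ ^ 2 * C r

theorem hasDerivAt_hF {Qa Qb Qc : ℝ → ℝ} {κ : ℝ} (h : VarAt A B C p q dp dq t w a b X Y s)
    (hA : DifferentiableAt ℝ A (t s)) (hB : DifferentiableAt ℝ B (t s))
    (hC : DifferentiableAt ℝ C (t s))
    (hQa : DifferentiableAt ℝ (deriv Qa) (t s)) (hQb : DifferentiableAt ℝ (deriv Qb) (t s))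
    (hQc : DifferentiableAt ℝ (deriv Qc) (t s)) (e : FlatEnd A B C Qa Qb Qc κ (t s)) :
    HasDerivAt (hF A B C Qa Qb Qc p q dp dq t w a b X Y)
      ((b s + 1 / 2 * κ * (B (t s) * p + C (t s) * q) * Y s) ^ 2 +
        qf (A (t s)) (B (t s)) (C (t s)) dp
          (dq - 1 / 2 * κ * (w s * Y s - a s * (B (t s) * p + C (t s) * q)))) s := by
  have hAt : HasDerivAt (fun s => A (t s)) (deriv A (t s) * w s) s :=
    hA.hasDerivAt.comp s h.ht
  have hBt : HasDerivAt (fun s => B (t s)) (deriv B (t s) * w s) s :=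
    hB.hasDerivAt.comp s h.ht
  have hCt : HasDerivAt (fun s => C (t s)) (deriv C (t s) * w s) s :=
    hC.hasDerivAt.comp s h.ht
  have hQat : HasDerivAt (fun s => deriv Qa (t s)) (deriv (deriv Qa) (t s) * w s) s :=
    hQa.hasDerivAt.comp s h.ht
  have hQbt : HasDerivAt (fun s => deriv Qb (t s)) (deriv (deriv Qb) (t s) * w s) s :=
    hQb.hasDerivAt.comp s h.ht
  have hQct : HasDerivAt (fun s => deriv Qc (t s)) (deriv (deriv Qc) (t s) * w s) s :=
    hQc.hasDerivAt.comp s h.ht
  have hvx := (hAt.mul_const p).add (hBt.mul_const q)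
  have hvy := (hBt.mul_const p).add (hCt.mul_const q)
  have h1 := hasDerivAt_hZ h
  have h2 := h.ha.mul ((((hQat.mul hvx).mul h.hX).add
    (hQbt.mul ((hvx.mul h.hY).add (hvy.mul h.hX)))).add ((hQct.mul hvy).mul h.hY))
  have h3 := (h.hw.div_const 2).mul (((hQat.mul (h.hX.pow 2)).add
    (((hQbt.const_mul 2).mul h.hX).mul h.hY)).add (hQct.mul (h.hY.pow 2)))
  have h4 := (h1.sub h2).add h3
  refine HasDerivAt.congr_deriv h4 ?_
  simp only [Pi.mul_apply, Pi.add_apply, Pi.pow_apply, Nat.cast_ofNat, Nat.add_one_sub_one, pow_one,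
    e.A1, e.B1, e.C1, e.A2, e.B2, e.C2, e.Qa1, e.Qb1, e.Qc1, e.Qa2, e.Qb2, e.Qc2]
  unfold qf
  ring

end Crest.Agent.R244.NCP
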