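import Mathlib
import Crest.Agent.R244.NCPForm

/-!
# R244 package COL : the collar data (interface)

Metric on the collar `(t,x,y)`:  `dt² + P(t) dx² + 2 B(t) dx dy + D(t) dy²`.
Inverse (cometric) entries `colA = D/(PD-B²)`, `colB = -B/(PD-B²)`, `colC = P/(PD-B²)`, so that
`V = colA p² + 2 colB p q + colC q²` for the momentum `(p,q)` and `x' = colA p + colB q`,
`y' = colB p + colC q`.
-/

set_option autoImplicit false

open scoped ContDiff
open Crest.Agent.R244.NCP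

namespace Crest.Agent.R244

/-- `W₁₁` -/
noncomputable def colA (P B D : ℝ → ℝ) (t : ℝ) : ℝ := D t / (P t * D t - B t ^ 2)

/-- `W₁₂` -/
noncomputable def colB (P B D : ℝ → ℝ) (t : ℝ) : ℝ := -B t / (P t * D t - B t ^ 2)

/-- `W₂₂` -/
noncomputable def colC (P B D : ℝ → ℝ) (t : ℝ) : ℝ := P t / (P t * D t - B t ^ 2)

/-- `V_t` for the momentum `(p,q)` -/
noncomputable def colV1 (P B D : ℝ → ℝ) (t p q : ℝ) : ℝ :=
  qf (deriv (colA P B D) t) (deriv (colB P B D) t) (deriv (colC P B D) t) p q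

/-- `V_tt` for the momentum `(p,q)` -/
noncomputable def colV2 (P B D : ℝ → ℝ) (t p q : ℝ) : ℝ :=
  qf (deriv (deriv (colA P B D)) t) (deriv (deriv (colB P B D)) t)
    (deriv (deriv (colC P B D)) t) p q

/-- A collar profile: product zones `t ≤ t0` (only `dy²` varies) and `t1 ≤ t` (only `dx²` varies,
in the sheared coordinates `dx, dx+dy`), flat polar ends `t ≤ tL` and `tR ≤ t`. -/
structure CollarData where
  P : ℝ → ℝ
  B : ℝ → ℝ
  D : ℝ → ℝ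
  tL : ℝ
  t0 : ℝ
  t1 : ℝ
  tR : ℝ
  c1 : ℝ
  c2 : ℝ
  Φ0 : ℝ
  R0 : ℝ
  smooth_P : ContDiff ℝ ∞ P
  smooth_B : ContDiff ℝ ∞ B
  smooth_D : ContDiff ℝ ∞ D
  P_pos : ∀ t, 0 < P t
  D_pos : ∀ t, 0 < D t
  det_pos : ∀ t, 0 < P t * D t - B t ^ 2
  tL_lt_t0 : tL < t0
  t0_lt_t1 : t0 < t1
  t1_lt_tR : t1 < tR
  Φ0_pos : 0 < Φ0
  R0_pos : 0 < R0
  c1_pos : 0 < c1 - tL
  c2_pos : 0 < c2 + tR
  -- product zones and flat ends
  left_P : ∀ t ≤ t0, P t = Φ0 ^ 2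
  left_B : ∀ t ≤ t0, B t = 0
  left_D : ∀ t ≤ tL, D t = (c1 - t) ^ 2
  right_D : ∀ t, t1 ≤ t → D t = R0 ^ 2
  right_B : ∀ t, t1 ≤ t → B t = R0 ^ 2
  right_P : ∀ t, tR ≤ t → P t = (t + c2) ^ 2 + R0 ^ 2
  /-- (R): where `V_t < 0` the `x`-form can be used. -/
  condR : ∀ t p q : ℝ, colV1 P B D t p q < 0 →
    colA P B D t * p + colB P B D t * q ≠ 0 ∧
    0 ≤ cR (colA P B D t) (colB P B D t) (colC P B D t)
      (deriv (colA P B D) t) (deriv (colB P B D) t) (deriv (colC P B D) t)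
      (deriv (deriv (colA P B D)) t) (deriv (deriv (colB P B D)) t)
      (deriv (deriv (colC P B D)) t) p q
  /-- (L): where `V_t > 0` the `y`-form can be used. -/
  condL : ∀ t p q : ℝ, 0 < colV1 P B D t p q →
    colB P B D t * p + colC P B D t * q ≠ 0 ∧
    0 ≤ cR (colC P B D t) (colB P B D t) (colA P B D t)
      (deriv (colC P B D) t) (deriv (colB P B D) t) (deriv (colA P B D) t)
      (deriv (deriv (colC P B D)) t) (deriv (deriv (colB P B D)) t)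
      (deriv (deriv (colA P B D)) t) q p
  /-- (Z) -/
  condZ : ∀ t p q : ℝ, colV1 P B D t p q = 0 → colV2 P B D t p q ≤ 0
  /-- (N), first half -/
  neX : ∀ t p q : ℝ, (p ≠ 0 ∨ q ≠ 0) → colV1 P B D t p q ≤ 0 →
    colA P B D t * p + colB P B D t * q ≠ 0 ∨ (p = q ∧ t1 ≤ t)
  /-- (N), second half -/
  neY : ∀ t p q : ℝ, (p ≠ 0 ∨ q ≠ 0) → 0 ≤ colV1 P B D t p q →
    colB P B D t * p + colC P B D t * q ≠ 0 ∨ (q = 0 ∧ t ≤ t0)
  /-- `V_t ≤ 0` for the momentum `(1,0)`, i.e. `W₁₁` is nonincreasing. -/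
  monoX : ∀ t, deriv (colA P B D) t ≤ 0
  /-- `V_t ≥ 0` for the momentum `(1,1)`. -/
  monoY : ∀ t, 0 ≤ colV1 P B D t 1 1

end Crest.Agent.R244
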