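import Mathlib

/-!
# R244 package COL : cut-off functions
-/

set_option autoImplicit false

open scoped ContDiff
open Real Set

namespace Crest.Agent.R244.Col

/-- the derivative of `smoothTransition` -/
noncomputable def st1 (x : ℝ) : ℝ :=
  smoothTransition x * (1 - smoothTransition x) * ((x⁻¹) ^ 2 + ((1 - x)⁻¹) ^ 2)

theorem hasDerivAt_glue (x : ℝ) :
    HasDerivAt expNegInvGlue ((x⁻¹) ^ 2 * expNegInvGlue x) x := by
  have h := expNegInvGlue.hasDerivAt_polynomial_eval_inv_mul (1 : Polynomial ℝ) x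
  simpa using h

theorem hasDerivAt_st (x : ℝ) : HasDerivAt smoothTransition (st1 x) x := by
  have h1 := hasDerivAt_glue x
  have h2 : HasDerivAt (fun x => expNegInvGlue (1 - x))
      (((1 - x)⁻¹) ^ 2 * expNegInvGlue (1 - x) * (-1)) x := by
    have h3 : HasDerivAt (fun x : ℝ => 1 - x) (-1) x := by
      simpa using (hasDerivAt_id x).const_sub 1
    exact (hasDerivAt_glue (1 - x)).comp x h3
  have hd := (smoothTransition.pos_denom x)
  have h4 := h1.div (h1.add h2) hd.ne'
  have h5 : smoothTransition = fun x =>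
    expNegInvGlue x / (expNegInvGlue x + expNegInvGlue (1 - x)) := rfl
  refine HasDerivAt.congr_deriv (h4.congr_of_eventuallyEq ?_) ?_
  · exact Filter.Eventually.of_forall fun y => rfl
  · simp only [st1, h5, Pi.add_apply]
    have hd' := hd.ne'
    generalize expNegInvGlue x = f at hd' ⊢
    generalize expNegInvGlue (1 - x) = g at hd' ⊢
    generalize x⁻¹ = u
    generalize (1 - x)⁻¹ = v
    field_simp
    ring

theorem st1_nonneg (x : ℝ) : 0 ≤ st1 x := by
  unfold st1
  have h1 := smoothTransition.nonneg x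
  have h2 := smoothTransition.le_one x
  have h3 : 0 ≤ 1 - smoothTransition x := by linarith
  positivity

theorem st1_lower {x y z : ℝ} (hx : 0 < x) (hxy : x ≤ y) (hyz : y ≤ z) (hz : z ≤ 1) :
    smoothTransition x * (1 - smoothTransition z) ≤ st1 y := by
  have hy : 0 < y := hx.trans_le hxy
  have h1 : smoothTransition x ≤ smoothTransition y := smoothTransition.monotone hxy
  have h2 : smoothTransition y ≤ smoothTransition z := smoothTransition.monotone hyz
  have h3 := smoothTransition.nonneg x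
  have h3' := smoothTransition.nonneg y
  have h4 := smoothTransition.le_one z
  have h5 : 1 ≤ (y⁻¹) ^ 2 := one_le_pow₀ (one_le_inv₀ hy |>.2 (hyz.trans hz))
  have h6 : 1 ≤ (y⁻¹) ^ 2 + ((1 - y)⁻¹) ^ 2 := by have := sq_nonneg ((1 - y)⁻¹); linarith
  unfold st1
  have h7 : smoothTransition x * (1 - smoothTransition z) ≤
      smoothTransition y * (1 - smoothTransition y) := by
    apply mul_le_mul h1 (by linarith) (by linarith) h3'
  have h8 : 0 ≤ smoothTransition y * (1 - smoothTransition y) :=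
    mul_nonneg h3' (by linarith)
  calc _ ≤ _ := h7
    _ = smoothTransition y * (1 - smoothTransition y) * 1 := by ring
    _ ≤ _ := by gcongr

/-! ## The functions `θ`, `ρ`, `b` -/

noncomputable def th (t : ℝ) : ℝ := 1 - smoothTransition (t / 4)
noncomputable def qq (t : ℝ) : ℝ := st1 (t / 4) / 4
noncomputable def rho (t : ℝ) : ℝ := smoothTransition ((t - 1) / 4)
noncomputable def rr (t : ℝ) : ℝ := st1 ((t - 1) / 4) / 4
noncomputable def bb (t : ℝ) : ℝ := smoothTransition (t - 2)
noncomputable def bb1 (t : ℝ) : ℝ := st1 (t - 2)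

theorem hasDerivAt_th (t : ℝ) : HasDerivAt th (-(qq t)) t := by
  have h1 : HasDerivAt (fun t : ℝ => t / 4) (1 / 4) t := (hasDerivAt_id t).div_const 4
  have h2 := ((hasDerivAt_st (t / 4)).comp t h1).const_sub 1
  refine HasDerivAt.congr_deriv h2 ?_
  unfold qq; ring

theorem hasDerivAt_rho (t : ℝ) : HasDerivAt rho (rr t) t := by
  have h1 : HasDerivAt (fun t : ℝ => (t - 1) / 4) (1 / 4) t :=
    ((hasDerivAt_id t).sub_const 1).div_const 4
  have h2 := ((hasDerivAt_st ((t - 1) / 4)).comp t h1)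
  refine HasDerivAt.congr_deriv h2 ?_
  unfold rr; ring

theorem hasDerivAt_bb (t : ℝ) : HasDerivAt bb (bb1 t) t := by
  have h1 : HasDerivAt (fun t : ℝ => t - 2) 1 t := (hasDerivAt_id t).sub_const 2
  have h2 := ((hasDerivAt_st (t - 2)).comp t h1)
  refine HasDerivAt.congr_deriv h2 ?_
  unfold bb1; ring

theorem contDiff_th : ContDiff ℝ ∞ th := by
  unfold th
  exact contDiff_const.sub (smoothTransition.contDiff.comp (contDiff_id.div_const 4))

theorem contDiff_rho : ContDiff ℝ ∞ rho := by
  unfold rho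
  exact (smoothTransition.contDiff.comp ((contDiff_id.sub contDiff_const).div_const 4))

theorem contDiff_bb : ContDiff ℝ ∞ bb := by
  unfold bb
  exact (smoothTransition.contDiff.comp (contDiff_id.sub contDiff_const))

theorem deriv_bb : deriv bb = bb1 := funext fun t => (hasDerivAt_bb t).deriv

theorem contDiff_bb1 : ContDiff ℝ ∞ bb1 := by
  have h := contDiff_bb
  rw [contDiff_infty_iff_deriv, deriv_bb] at h
  exact h.2

theorem contDiff_bb2 : ContDiff ℝ ∞ (deriv bb1) := by
  have h := contDiff_bb1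
  rw [contDiff_infty_iff_deriv] at h
  exact h.2

theorem hasDerivAt_bb1 (t : ℝ) : HasDerivAt bb1 (deriv bb1 t) t :=
  (contDiff_bb1.differentiable (by simp)).differentiableAt.hasDerivAt

theorem th_nonneg (t : ℝ) : 0 ≤ th t := by
  have := smoothTransition.le_one (t / 4)
  unfold th; linarith

theorem th_le_one (t : ℝ) : th t ≤ 1 := by
  have := smoothTransition.nonneg (t / 4)
  unfold th; linarith

theorem th_pos {t : ℝ} (ht : t < 4) : 0 < th t := by
  have := smoothTransition.lt_one_of_lt_one (x := t / 4) (by linarith)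
  unfold th; linarith

theorem th_eq_zero {t : ℝ} (ht : 4 ≤ t) : th t = 0 := by
  have := smoothTransition.one_of_one_le (x := t / 4) (by linarith)
  unfold th; linarith

theorem th_eq_one {t : ℝ} (ht : t ≤ 0) : th t = 1 := by
  have := smoothTransition.zero_of_nonpos (x := t / 4) (by linarith)
  unfold th; linarith

theorem th_antitone : Antitone th := by
  intro x y hxy
  have := smoothTransition.monotone (show x / 4 ≤ y / 4 by linarith)
  unfold th; linarith

theorem qq_nonneg (t : ℝ) : 0 ≤ qq t := by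
  have := st1_nonneg (t / 4)
  unfold qq; linarith

theorem qq_eq_zero {t : ℝ} (ht : 4 ≤ t) : qq t = 0 := by
  have := smoothTransition.one_of_one_le (x := t / 4) (by linarith)
  unfold qq st1; rw [this]; ring

theorem rr_nonneg (t : ℝ) : 0 ≤ rr t := by
  have := st1_nonneg ((t - 1) / 4)
  unfold rr; linarith

theorem rr_eq_zero {t : ℝ} (ht : t ≤ 1) : rr t = 0 := by
  have := smoothTransition.zero_of_nonpos (x := (t - 1) / 4) (by linarith)
  unfold rr st1; rw [this]; ring

theorem rho_nonneg (t : ℝ) : 0 ≤ rho t := smoothTransition.nonneg _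

theorem rho_le_one (t : ℝ) : rho t ≤ 1 := smoothTransition.le_one _

theorem rho_pos {t : ℝ} (ht : 1 < t) : 0 < rho t :=
  smoothTransition.pos_of_pos (by linarith)

theorem rho_eq_zero {t : ℝ} (ht : t ≤ 1) : rho t = 0 :=
  smoothTransition.zero_of_nonpos (by linarith)

theorem rho_eq_one {t : ℝ} (ht : 5 ≤ t) : rho t = 1 :=
  smoothTransition.one_of_one_le (by linarith)

theorem bb_nonneg (t : ℝ) : 0 ≤ bb t := smoothTransition.nonneg _

theorem bb_le_one (t : ℝ) : bb t ≤ 1 := smoothTransition.le_one _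

theorem bb_eq_zero {t : ℝ} (ht : t ≤ 2) : bb t = 0 :=
  smoothTransition.zero_of_nonpos (by linarith)

theorem bb_eq_one {t : ℝ} (ht : 3 ≤ t) : bb t = 1 :=
  smoothTransition.one_of_one_le (by linarith)

theorem bb1_eq_zero_left {t : ℝ} (ht : t ≤ 2) : bb1 t = 0 := by
  have := smoothTransition.zero_of_nonpos (x := t - 2) (by linarith)
  unfold bb1 st1; rw [this]; ring

theorem bb1_eq_zero_right {t : ℝ} (ht : 3 ≤ t) : bb1 t = 0 := by
  have := smoothTransition.one_of_one_le (x := t - 2) (by linarith)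
  unfold bb1 st1; rw [this]; ring

theorem bb2_eq_zero_left {t : ℝ} (ht : t < 2) : deriv bb1 t = 0 := by
  have h : bb1 =ᶠ[nhds t] fun _ => (0 : ℝ) := by
    filter_upwards [Iio_mem_nhds ht] with x hx
    exact bb1_eq_zero_left (le_of_lt hx)
  rw [h.deriv_eq]; simp

theorem bb2_eq_zero_right {t : ℝ} (ht : 3 < t) : deriv bb1 t = 0 := by
  have h : bb1 =ᶠ[nhds t] fun _ => (0 : ℝ) := by
    filter_upwards [Ioi_mem_nhds ht] with x hx
    exact bb1_eq_zero_right (le_of_lt hx)
  rw [h.deriv_eq]; simp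

/-- constant `c0` -/
theorem exists_c0 : ∃ c0 : ℝ, 0 < c0 ∧ ∀ t, 1 ≤ t → c0 * th t ≤ qq t := by
  refine ⟨smoothTransition (1 / 4) / 4, ?_, ?_⟩
  · have := smoothTransition.pos_of_pos (x := 1 / 4) (by norm_num)
    positivity
  · intro t ht
    by_cases h4 : 4 ≤ t
    · rw [th_eq_zero h4, qq_eq_zero h4]; simp
    · push Not at h4
      have := st1_lower (x := 1 / 4) (y := t / 4) (z := t / 4) (by norm_num) (by linarith) le_rfl
        (by linarith)
      unfold th qq
      linarith

theorem exists_c1 : ∃ c1 : ℝ, 0 < c1 ∧ ∀ t, 2 ≤ t → t ≤ 4 → c1 ≤ rr t := by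
  refine ⟨smoothTransition (1 / 4) * (1 - smoothTransition (3 / 4)) / 4, ?_, ?_⟩
  · have h1 := smoothTransition.pos_of_pos (x := 1 / 4) (by norm_num)
    have h2 := smoothTransition.lt_one_of_lt_one (x := 3 / 4) (by norm_num)
    have h3 : 0 < 1 - smoothTransition (3 / 4) := by linarith
    positivity
  · intro t ht ht4
    have := st1_lower (x := 1 / 4) (y := (t - 1) / 4) (z := 3 / 4) (by norm_num) (by linarith)
      (by linarith) (by norm_num)
    unfold rr
    linarith

theorem exists_c4 : ∃ c4 : ℝ, 0 < c4 ∧ ∀ t, 2 ≤ t → c4 ≤ rho t := by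
  refine ⟨smoothTransition (1 / 4), smoothTransition.pos_of_pos (by norm_num), ?_⟩
  intro t ht
  exact smoothTransition.monotone (by linarith)

theorem exists_M : ∃ M : ℝ, 0 ≤ M ∧ ∀ t, bb1 t ^ 2 ≤ M * th t ∧ deriv bb1 t ^ 2 ≤ M * th t := by
  obtain ⟨C1, hC1⟩ := (isCompact_Icc (a := (2:ℝ)) (b := 3)).exists_bound_of_continuousOn
    contDiff_bb1.continuous.continuousOn
  obtain ⟨C2, hC2⟩ := (isCompact_Icc (a := (2:ℝ)) (b := 3)).exists_bound_of_continuousOn
    contDiff_bb2.continuous.continuousOn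
  have hth3 : 0 < th 3 := th_pos (by norm_num)
  refine ⟨(C1 ^ 2 + C2 ^ 2) / th 3, by positivity, fun t => ?_⟩
  have hnn : 0 ≤ (C1 ^ 2 + C2 ^ 2) / th 3 * th t :=
    mul_nonneg (by positivity) (th_nonneg t)
  rcases lt_or_ge t 2 with h2 | h2
  · rw [bb1_eq_zero_left h2.le, bb2_eq_zero_left h2]
    constructor <;> simpa using hnn
  rcases lt_or_ge 3 t with h3 | h3
  · rw [bb1_eq_zero_right h3.le, bb2_eq_zero_right h3]
    constructor <;> simpa using hnn
  have hth : th 3 ≤ th t := th_antitone h3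
  have key : C1 ^ 2 + C2 ^ 2 ≤ (C1 ^ 2 + C2 ^ 2) / th 3 * th t := by
    rw [div_mul_eq_mul_div, le_div_iff₀ hth3]
    gcongr
  have h1 : bb1 t ^ 2 ≤ C1 ^ 2 := by
    have := hC1 t ⟨h2, h3⟩
    rw [Real.norm_eq_abs] at this
    exact sq_le_sq' (by linarith [neg_abs_le (bb1 t)]) (by linarith [le_abs_self (bb1 t)])
  have h2' : deriv bb1 t ^ 2 ≤ C2 ^ 2 := by
    have := hC2 t ⟨h2, h3⟩
    rw [Real.norm_eq_abs] at this
    exact sq_le_sq' (by linarith [neg_abs_le (deriv bb1 t)]) (by linarith [le_abs_self (deriv bb1 t)])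
  constructor
  · have := sq_nonneg C2; linarith
  · have := sq_nonneg C1; linarith

/-! ## Antiderivatives -/

theorem continuous_th : Continuous th := contDiff_th.continuous
theorem continuous_rho : Continuous rho := contDiff_rho.continuous

/-- antiderivative of `θ` -/
noncomputable def Jth (t : ℝ) : ℝ := ∫ x in (4:ℝ)..t, th x
/-- antiderivative of `ρ` -/
noncomputable def Jrho (t : ℝ) : ℝ := ∫ x in (1:ℝ)..t, rho x

theorem hasDerivAt_Jth (t : ℝ) : HasDerivAt Jth (th t) t :=
  (continuous_th.integral_hasStrictDerivAt 4 t).hasDerivAt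

theorem hasDerivAt_Jrho (t : ℝ) : HasDerivAt Jrho (rho t) t :=
  (continuous_rho.integral_hasStrictDerivAt 1 t).hasDerivAt

theorem contDiff_Jth : ContDiff ℝ ∞ Jth := by
  rw [contDiff_infty_iff_deriv]
  refine ⟨fun t => (hasDerivAt_Jth t).differentiableAt, ?_⟩
  have : deriv Jth = th := funext fun t => (hasDerivAt_Jth t).deriv
  rw [this]; exact contDiff_th

theorem contDiff_Jrho : ContDiff ℝ ∞ Jrho := by
  rw [contDiff_infty_iff_deriv]
  refine ⟨fun t => (hasDerivAt_Jrho t).differentiableAt, ?_⟩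
  have : deriv Jrho = rho := funext fun t => (hasDerivAt_Jrho t).deriv
  rw [this]; exact contDiff_rho

theorem Jth_monotone : Monotone Jth :=
  monotone_of_deriv_nonneg (contDiff_Jth.differentiable (by simp)) fun t => by
    rw [(hasDerivAt_Jth t).deriv]; exact th_nonneg t

theorem Jrho_monotone : Monotone Jrho :=
  monotone_of_deriv_nonneg (contDiff_Jrho.differentiable (by simp)) fun t => by
    rw [(hasDerivAt_Jrho t).deriv]; exact rho_nonneg t

theorem Jth_right {t : ℝ} (ht : 4 ≤ t) : Jth t = 0 := by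
  unfold Jth
  rw [intervalIntegral.integral_congr (g := fun _ => (0:ℝ))]
  · simp
  · intro x hx
    rw [uIcc_of_le ht] at hx
    exact th_eq_zero hx.1

theorem Jrho_left {t : ℝ} (ht : t ≤ 1) : Jrho t = 0 := by
  unfold Jrho
  rw [intervalIntegral.integral_congr (g := fun _ => (0:ℝ))]
  · simp
  · intro x hx
    rw [uIcc_of_ge ht] at hx
    exact rho_eq_zero hx.2

theorem Jth_nonpos (t : ℝ) : Jth t ≤ 0 := by
  rcases le_total t 4 with h | h
  · have := Jth_monotone h
    rw [Jth_right le_rfl] at this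
    exact this
  · exact (Jth_right h).le

theorem Jrho_nonneg (t : ℝ) : 0 ≤ Jrho t := by
  rcases le_total t 1 with h | h
  · exact (Jrho_left h).ge
  · have := Jrho_monotone h
    rw [Jrho_left le_rfl] at this
    exact this

theorem Jth_left {t : ℝ} (ht : t ≤ 0) : Jth t = Jth 0 + t := by
  unfold Jth
  have h1 : (∫ x in (4:ℝ)..t, th x) = (∫ x in (4:ℝ)..0, th x) + ∫ x in (0:ℝ)..t, th x :=
    (intervalIntegral.integral_add_adjacent_intervals (continuous_th.intervalIntegrable _ _)
      (continuous_th.intervalIntegrable _ _)).symm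
  rw [h1, intervalIntegral.integral_congr (a := (0:ℝ)) (b := t) (g := fun _ => (1:ℝ))]
  · simp
  · intro x hx
    rw [uIcc_of_ge ht] at hx
    exact th_eq_one hx.2

theorem Jrho_right {t : ℝ} (ht : 5 ≤ t) : Jrho t = Jrho 5 + (t - 5) := by
  unfold Jrho
  have h1 : (∫ x in (1:ℝ)..t, rho x) = (∫ x in (1:ℝ)..5, rho x) + ∫ x in (5:ℝ)..t, rho x :=
    (intervalIntegral.integral_add_adjacent_intervals (continuous_rho.intervalIntegrable _ _)
      (continuous_rho.intervalIntegrable _ _)).symm
  rw [h1, intervalIntegral.integral_congr (a := (5:ℝ)) (b := t) (g := fun _ => (1:ℝ))]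
  · simp
  · intro x hx
    rw [uIcc_of_le ht] at hx
    exact rho_eq_one hx.1

theorem Jth_lower {t : ℝ} (ht : 0 ≤ t) : -4 ≤ Jth t := by
  -- `Jth - id` is antitone
  have h : Antitone fun t => Jth t - t := by
    apply antitone_of_deriv_nonpos
    · exact (contDiff_Jth.differentiable (by simp)).sub differentiable_id
    · intro x
      have : HasDerivAt (fun t => Jth t - t) (th x - 1) x :=
        (hasDerivAt_Jth x).sub (hasDerivAt_id x)
      rw [this.deriv]
      linarith [th_le_one x]
  rcases le_total t 4 with h4 | h4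
  · have := h h4
    simp only [Jth_right le_rfl] at this
    linarith
  · rw [Jth_right h4]; norm_num

/-- `-J ≤ θ/c0` on `[1,∞)` -/
theorem Jth_bound {c0 : ℝ} (hc0 : 0 < c0) (h : ∀ t, 1 ≤ t → c0 * th t ≤ qq t) {t : ℝ}
    (ht : 1 ≤ t) : c0 * (-Jth t) ≤ th t := by
  rcases le_total 4 t with h4 | h4
  · rw [Jth_right h4, th_eq_zero h4]; simp
  have hanti : AntitoneOn (fun t => th t + c0 * Jth t) (Icc 1 4) := by
    have hd : ∀ x, HasDerivAt (fun t => th t + c0 * Jth t) (-(qq x) + c0 * th x) x := fun x =>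
      (hasDerivAt_th x).add ((hasDerivAt_Jth x).const_mul c0)
    apply antitoneOn_of_deriv_nonpos (convex_Icc 1 4)
    · exact fun x _ => (hd x).continuousAt.continuousWithinAt
    · exact fun x _ => (hd x).differentiableAt.differentiableWithinAt
    · intro x hx
      rw [interior_Icc] at hx
      rw [(hd x).deriv]
      linarith [h x hx.1.le]
  have := hanti ⟨ht, h4⟩ ⟨by norm_num, le_rfl⟩ h4
  simp only [Jth_right le_rfl, th_eq_zero le_rfl] at this
  linarith

end Crest.Agent.R244.Col
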