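import Mathlib
import Crest.Agent.R244.ColDefs
import Crest.Agent.R244.Col

/-!
# R244 package COL : from the metric entries to the cometric entries
-/

set_option autoImplicit false

open scoped ContDiff
open Crest.Agent.R244.NCP

namespace Crest.Agent.R244.Col

/-- first and second derivatives of the metric entries -/
structure QD (P B D P1 B1 D1 P2 B2 D2 : ℝ → ℝ) : Prop where
  hP : ∀ t, HasDerivAt P (P1 t) t
  hB : ∀ t, HasDerivAt B (B1 t) t
  hD : ∀ t, HasDerivAt D (D1 t) t
  hP1 : ∀ t, HasDerivAt P1 (P2 t) t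
  hB1 : ∀ t, HasDerivAt B1 (B2 t) t
  hD1 : ∀ t, HasDerivAt D1 (D2 t) t
  det : ∀ t, 0 < P t * D t - B t ^ 2

variable {P B D P1 B1 D1 P2 B2 D2 : ℝ → ℝ}

/-- `W'₁₁` -/
def wA1 (A B C P1 B1 D1 : ℝ) : ℝ := -(A ^ 2 * P1 + 2 * A * B * B1 + B ^ 2 * D1) + 0 * C
/-- `W'₁₂` -/
def wB1 (A B C P1 B1 D1 : ℝ) : ℝ := -(A * B * P1 + (A * C + B ^ 2) * B1 + B * C * D1)
/-- `W'₂₂` -/
def wC1 (A B C P1 B1 D1 : ℝ) : ℝ := -(B ^ 2 * P1 + 2 * B * C * B1 + C ^ 2 * D1) + 0 * A

theorem QD.hasDerivAt_A (h : QD P B D P1 B1 D1 P2 B2 D2) (t : ℝ) :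
    HasDerivAt (colA P B D) (wA1 (colA P B D t) (colB P B D t) (colC P B D t)
      (P1 t) (B1 t) (D1 t)) t := by
  have hd : P t * D t - B t ^ 2 ≠ 0 := (h.det t).ne'
  have h1 := (h.hD t).div (((h.hP t).mul (h.hD t)).sub ((h.hB t).pow 2)) hd
  refine HasDerivAt.congr_deriv h1 ?_
  simp only [wA1, colA, colB, colC, Pi.mul_apply, Pi.pow_apply, Pi.sub_apply]
  field_simp
  ring

theorem QD.hasDerivAt_B (h : QD P B D P1 B1 D1 P2 B2 D2) (t : ℝ) :
    HasDerivAt (colB P B D) (wB1 (colA P B D t) (colB P B D t) (colC P B D t)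
      (P1 t) (B1 t) (D1 t)) t := by
  have hd : P t * D t - B t ^ 2 ≠ 0 := (h.det t).ne'
  have h1 := ((h.hB t).neg).div (((h.hP t).mul (h.hD t)).sub ((h.hB t).pow 2)) hd
  refine HasDerivAt.congr_deriv h1 ?_
  simp only [wB1, colA, colB, colC, Pi.mul_apply, Pi.pow_apply, Pi.sub_apply, Pi.neg_apply]
  field_simp
  ring

theorem QD.hasDerivAt_C (h : QD P B D P1 B1 D1 P2 B2 D2) (t : ℝ) :
    HasDerivAt (colC P B D) (wC1 (colA P B D t) (colB P B D t) (colC P B D t)
      (P1 t) (B1 t) (D1 t)) t := by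
  have hd : P t * D t - B t ^ 2 ≠ 0 := (h.det t).ne'
  have h1 := (h.hP t).div (((h.hP t).mul (h.hD t)).sub ((h.hB t).pow 2)) hd
  refine HasDerivAt.congr_deriv h1 ?_
  simp only [wC1, colA, colB, colC, Pi.mul_apply, Pi.pow_apply, Pi.sub_apply]
  field_simp
  ring

theorem QD.deriv_A (h : QD P B D P1 B1 D1 P2 B2 D2) : deriv (colA P B D) = fun t =>
    wA1 (colA P B D t) (colB P B D t) (colC P B D t) (P1 t) (B1 t) (D1 t) :=
  funext fun t => (h.hasDerivAt_A t).deriv

theorem QD.deriv_B (h : QD P B D P1 B1 D1 P2 B2 D2) : deriv (colB P B D) = fun t =>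
    wB1 (colA P B D t) (colB P B D t) (colC P B D t) (P1 t) (B1 t) (D1 t) :=
  funext fun t => (h.hasDerivAt_B t).deriv

theorem QD.deriv_C (h : QD P B D P1 B1 D1 P2 B2 D2) : deriv (colC P B D) = fun t =>
    wC1 (colA P B D t) (colB P B D t) (colC P B D t) (P1 t) (B1 t) (D1 t) :=
  funext fun t => (h.hasDerivAt_C t).deriv

/-- `V_t = - Q'(v,v)` -/
theorem QD.V1_eq (h : QD P B D P1 B1 D1 P2 B2 D2) (t p q : ℝ) :
    colV1 P B D t p q =
      -(P1 t * (colA P B D t * p + colB P B D t * q) ^ 2 +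
        2 * B1 t * (colA P B D t * p + colB P B D t * q) * (colB P B D t * p + colC P B D t * q) +
        D1 t * (colB P B D t * p + colC P B D t * q) ^ 2) := by
  unfold colV1 qf
  rw [h.deriv_A, h.deriv_B, h.deriv_C]
  simp only [wA1, wB1, wC1]
  ring

theorem QD.deriv2_A (h : QD P B D P1 B1 D1 P2 B2 D2) (t : ℝ) :
    deriv (deriv (colA P B D)) t =
      -(2 * colA P B D t * deriv (colA P B D) t * P1 t + colA P B D t ^ 2 * P2 t +
        2 * (deriv (colA P B D) t * colB P B D t + colA P B D t * deriv (colB P B D) t) * B1 t +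
        2 * colA P B D t * colB P B D t * B2 t +
        2 * colB P B D t * deriv (colB P B D) t * D1 t + colB P B D t ^ 2 * D2 t) := by
  have hA := h.hasDerivAt_A t
  have hB := h.hasDerivAt_B t
  have h1 := ((((hA.pow 2).mul (h.hP1 t)).add (((hA.const_mul 2).mul hB).mul (h.hB1 t))).add
    ((hB.pow 2).mul (h.hD1 t))).neg
  have h2 : deriv (colA P B D) = fun t =>
      -(colA P B D t ^ 2 * P1 t + 2 * colA P B D t * colB P B D t * B1 t +
        colB P B D t ^ 2 * D1 t) := by
    rw [h.deriv_A]; funext t; simp only [wA1]; ring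
  have h3 : deriv (colA P B D) t = wA1 (colA P B D t) (colB P B D t) (colC P B D t)
      (P1 t) (B1 t) (D1 t) := hA.deriv
  have h4 : deriv (colB P B D) t = wB1 (colA P B D t) (colB P B D t) (colC P B D t)
      (P1 t) (B1 t) (D1 t) := hB.deriv
  rw [h3, h4]
  have h5 : deriv (deriv (colA P B D)) t = deriv (fun t =>
      -(colA P B D t ^ 2 * P1 t + 2 * colA P B D t * colB P B D t * B1 t +
        colB P B D t ^ 2 * D1 t)) t := by rw [h2]
  rw [h5]
  refine (HasDerivAt.congr_deriv h1 ?_).deriv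
  simp only [Pi.mul_apply, Pi.pow_apply]
  push_cast
  ring

theorem QD.deriv2_C (h : QD P B D P1 B1 D1 P2 B2 D2) (t : ℝ) :
    deriv (deriv (colC P B D)) t =
      -(2 * colB P B D t * deriv (colB P B D) t * P1 t + colB P B D t ^ 2 * P2 t +
        2 * (deriv (colB P B D) t * colC P B D t + colB P B D t * deriv (colC P B D) t) * B1 t +
        2 * colB P B D t * colC P B D t * B2 t +
        2 * colC P B D t * deriv (colC P B D) t * D1 t + colC P B D t ^ 2 * D2 t) := by
  have hC := h.hasDerivAt_C t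
  have hB := h.hasDerivAt_B t
  have h1 := ((((hB.pow 2).mul (h.hP1 t)).add (((hB.const_mul 2).mul hC).mul (h.hB1 t))).add
    ((hC.pow 2).mul (h.hD1 t))).neg
  have h2 : deriv (colC P B D) = fun t =>
      -(colB P B D t ^ 2 * P1 t + 2 * colB P B D t * colC P B D t * B1 t +
        colC P B D t ^ 2 * D1 t) := by
    rw [h.deriv_C]; funext t; simp only [wC1]; ring
  have h3 : deriv (colC P B D) t = wC1 (colA P B D t) (colB P B D t) (colC P B D t)
      (P1 t) (B1 t) (D1 t) := hC.deriv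
  have h4 : deriv (colB P B D) t = wB1 (colA P B D t) (colB P B D t) (colC P B D t)
      (P1 t) (B1 t) (D1 t) := hB.deriv
  rw [h3, h4]
  have h5 : deriv (deriv (colC P B D)) t = deriv (fun t =>
      -(colB P B D t ^ 2 * P1 t + 2 * colB P B D t * colC P B D t * B1 t +
        colC P B D t ^ 2 * D1 t)) t := by rw [h2]
  rw [h5]
  refine (HasDerivAt.congr_deriv h1 ?_).deriv
  simp only [Pi.mul_apply, Pi.pow_apply]
  push_cast
  ring

theorem QD.deriv2_B (h : QD P B D P1 B1 D1 P2 B2 D2) (t : ℝ) :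
    deriv (deriv (colB P B D)) t =
      -((deriv (colA P B D) t * colB P B D t + colA P B D t * deriv (colB P B D) t) * P1 t +
        colA P B D t * colB P B D t * P2 t +
        (deriv (colA P B D) t * colC P B D t + colA P B D t * deriv (colC P B D) t +
          2 * colB P B D t * deriv (colB P B D) t) * B1 t +
        (colA P B D t * colC P B D t + colB P B D t ^ 2) * B2 t +
        (deriv (colB P B D) t * colC P B D t + colB P B D t * deriv (colC P B D) t) * D1 t +
        colB P B D t * colC P B D t * D2 t) := by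
  have hA := h.hasDerivAt_A t
  have hC := h.hasDerivAt_C t
  have hB := h.hasDerivAt_B t
  have h1 := ((((hA.mul hB).mul (h.hP1 t)).add
    (((hA.mul hC).add (hB.pow 2)).mul (h.hB1 t))).add
    ((hB.mul hC).mul (h.hD1 t))).neg
  have h2 : deriv (colB P B D) = fun t =>
      -(colA P B D t * colB P B D t * P1 t +
        (colA P B D t * colC P B D t + colB P B D t ^ 2) * B1 t +
        colB P B D t * colC P B D t * D1 t) := by
    rw [h.deriv_B]; funext t; simp only [wB1]
  have h3 : deriv (colC P B D) t = wC1 (colA P B D t) (colB P B D t) (colC P B D t)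
      (P1 t) (B1 t) (D1 t) := hC.deriv
  have h4 : deriv (colB P B D) t = wB1 (colA P B D t) (colB P B D t) (colC P B D t)
      (P1 t) (B1 t) (D1 t) := hB.deriv
  have h6 : deriv (colA P B D) t = wA1 (colA P B D t) (colB P B D t) (colC P B D t)
      (P1 t) (B1 t) (D1 t) := hA.deriv
  rw [h3, h4, h6]
  have h5 : deriv (deriv (colB P B D)) t = deriv (fun t =>
      -(colA P B D t * colB P B D t * P1 t +
        (colA P B D t * colC P B D t + colB P B D t ^ 2) * B1 t +
        colB P B D t * colC P B D t * D1 t)) t := by rw [h2]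
  rw [h5]
  refine (HasDerivAt.congr_deriv h1 ?_).deriv
  simp only [Pi.mul_apply, Pi.pow_apply, Pi.add_apply]
  push_cast
  ring

/-- `V_tt = - Q''(v,v) + 2 W(Q'v,Q'v)` -/
theorem QD.V2_eq (h : QD P B D P1 B1 D1 P2 B2 D2) (t p q X Y : ℝ)
    (hX : X = colA P B D t * p + colB P B D t * q)
    (hY : Y = colB P B D t * p + colC P B D t * q) :
    colV2 P B D t p q =
      -(P2 t * X ^ 2 + 2 * B2 t * X * Y + D2 t * Y ^ 2) +
      2 * (colA P B D t * (P1 t * X + B1 t * Y) ^ 2 +
        2 * colB P B D t * (P1 t * X + B1 t * Y) * (B1 t * X + D1 t * Y) +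
        colC P B D t * (B1 t * X + D1 t * Y) ^ 2) := by
  unfold colV2 qf
  rw [h.deriv2_A, h.deriv2_B, h.deriv2_C, h.deriv_A, h.deriv_B, h.deriv_C]
  simp only [wA1, wB1, wC1]
  rw [hX, hY]
  ring

/-- The coefficient `cR` in terms of the metric entries. -/
theorem QD.cR_eq (h : QD P B D P1 B1 D1 P2 B2 D2) (t p q X Y : ℝ)
    (hX : X = colA P B D t * p + colB P B D t * q)
    (hY : Y = colB P B D t * p + colC P B D t * q) (hX0 : X ≠ 0) :
    cR (colA P B D t) (colB P B D t) (colC P B D t)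
      (deriv (colA P B D) t) (deriv (colB P B D) t) (deriv (colC P B D) t)
      (deriv (deriv (colA P B D)) t) (deriv (deriv (colB P B D)) t)
      (deriv (deriv (colC P B D)) t) p q =
    X ^ 2 / (4 * (P t * D t - B t ^ 2)) *
      (2 * (P t * D t - B t ^ 2) * (P2 t + 2 * B2 t * (Y / X) + D2 t * (Y / X) ^ 2) -
        rhsR (P t) (B t) (D t) (P1 t) (B1 t) (D1 t) (Y / X)) := by
  have hV1 := h.V1_eq t p q
  have hV2 := h.V2_eq t p q X Y hX hY
  unfold colV1 at hV1
  unfold colV2 at hV2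
  rw [← hX, ← hY] at hV1
  have hu : deriv (colA P B D) t * p + deriv (colB P B D) t * q =
      -(colA P B D t * (P1 t * X + B1 t * Y) + colB P B D t * (B1 t * X + D1 t * Y)) := by
    rw [h.deriv_A, h.deriv_B]
    simp only [wA1, wB1]
    rw [hX, hY]
    ring
  unfold cR
  rw [hV1, hV2, hu, ← hX]
  have hd : P t * D t - B t ^ 2 ≠ 0 := (h.det t).ne'
  simp only [colA, colB, colC, rhsR]
  generalize P t * D t - B t ^ 2 = Δ at hd
  field_simp
  ring

/-- The coefficient `cR` with exchanged roles, in terms of the metric entries. -/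
theorem QD.cL_eq (h : QD P B D P1 B1 D1 P2 B2 D2) (t p q X Y : ℝ)
    (hX : X = colA P B D t * p + colB P B D t * q)
    (hY : Y = colB P B D t * p + colC P B D t * q) (hY0 : Y ≠ 0) :
    cR (colC P B D t) (colB P B D t) (colA P B D t)
      (deriv (colC P B D) t) (deriv (colB P B D) t) (deriv (colA P B D) t)
      (deriv (deriv (colC P B D)) t) (deriv (deriv (colB P B D)) t)
      (deriv (deriv (colA P B D)) t) q p =
    Y ^ 2 / (4 * (P t * D t - B t ^ 2)) *
      (2 * (P t * D t - B t ^ 2) * (P2 t * (X / Y) ^ 2 + 2 * B2 t * (X / Y) + D2 t) -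
        rhsL (P t) (B t) (D t) (P1 t) (B1 t) (D1 t) (X / Y)) := by
  have hV1 := h.V1_eq t p q
  have hV2 := h.V2_eq t p q X Y hX hY
  unfold colV1 at hV1
  unfold colV2 at hV2
  rw [← hX, ← hY] at hV1
  have hu : deriv (colC P B D) t * q + deriv (colB P B D) t * p =
      -(colB P B D t * (P1 t * X + B1 t * Y) + colC P B D t * (B1 t * X + D1 t * Y)) := by
    rw [h.deriv_C, h.deriv_B]
    simp only [wC1, wB1]
    rw [hX, hY]
    ring
  have hq1 : ∀ a b c : ℝ, qf c b a q p = qf a b c p q := by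
    intro a b c; unfold qf; ring
  have hY' : colC P B D t * q + colB P B D t * p = Y := by rw [hY]; ring
  unfold cR
  rw [hq1, hq1, hV1, hV2, hu, hY']
  have hd : P t * D t - B t ^ 2 ≠ 0 := (h.det t).ne'
  simp only [colA, colB, colC, rhsL]
  generalize P t * D t - B t ^ 2 = Δ at hd
  field_simp
  ring

end Crest.Agent.R244.Col
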