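import Mathlib
import Crest.Agent.R244.ColDefs
import Crest.Agent.R244.Col
import Crest.Agent.R244.ColW
import Crest.Agent.R244.ColFun

/-! # R244 package COL : existence of collar data (helper579) -/

set_option autoImplicit false

open scoped ContDiff
open Filter
open Crest.Agent.R244.NCP

namespace Crest.Agent.R244

namespace Col

/-- the constants of the construction -/
structure Consts where
  a : ℝ
  K : ℝ
  c0 : ℝ
  c1 : ℝ
  c4 : ℝ
  M : ℝ
  M2 : ℝ
  ha : 1 ≤ a
  hc0 : 0 < c0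
  hc1 : 0 < c1
  hc4 : 0 < c4
  hM : 0 ≤ M
  hM2 : 0 ≤ M2
  q_le : ∀ t, 1 ≤ t → c0 * th t ≤ qq t
  r_ge : ∀ t, 2 ≤ t → t ≤ 4 → c1 ≤ rr t
  rho_ge : ∀ t, 2 ≤ t → c4 ≤ rho t
  b1_le : ∀ t, (a ^ 2 * bb1 t) ^ 2 ≤ M * th t
  b2_le : ∀ t, (a ^ 2 * deriv bb1 t) ^ 2 ≤ M * th t
  g_le : ∀ t, 1 ≤ t → ((a - Jth t) ^ 2 - a ^ 2 * bb t) ^ 2 ≤ M2 * th t
  haK : a ≤ K
  ha8 : 128 ≤ a * c0
  hK2 : 2 * M ≤ a * K
  hK3 : M ≤ a * c0 * c1 * K
  hK4 : 77 + 30 * M + 140 * (a + 4) ≤ 2 * K * c1
  hK2' : M ≤ K * c4 * a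
  hK5 : 128 + 32 * M + 192 * (a + 4) ≤ K * c0
  hK6 : 1 + M + 2 * a ≤ 2 * K * c4
  hK7 : M + 3 * M2 ≤ K

theorem exists_consts : Nonempty Consts := by
  obtain ⟨c0, hc0, hq⟩ := exists_c0
  obtain ⟨c1, hc1, hr⟩ := exists_c1
  obtain ⟨c4, hc4, hrho⟩ := exists_c4
  obtain ⟨Mb, hMb, hb⟩ := exists_M
  set a := 1 + 128 / c0 with ha_def
  have ha : 1 ≤ a := by
    have : 0 < 128 / c0 := by positivity
    linarith
  have ha0 : 0 < a := by linarith
  have ha8 : 128 ≤ a * c0 := by
    have : a * c0 = c0 + 128 := by rw [ha_def]; field_simp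
    linarith
  set M := a ^ 4 * Mb with hM_def
  have hM : 0 ≤ M := by positivity
  have hth3 : 0 < th 3 := th_pos (by norm_num)
  set C := (2 * a + 4) / c0 + a ^ 2 / th 3 with hC
  have hC0 : 0 ≤ C := by positivity
  -- bound for G
  have hG : ∀ t, 1 ≤ t → ((a - Jth t) ^ 2 - a ^ 2 * bb t) ^ 2 ≤ C ^ 2 * th t := by
    intro t ht
    have h1 := Jth_bound hc0 hq ht
    have h2 := Jth_nonpos t
    have h3 := Jth_lower (t := t) (by linarith)
    have h4 := th_nonneg t
    have h5 := th_le_one t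
    have h6 : 1 - bb t ≤ th t / th 3 := by
      rcases le_total 3 t with h | h
      · rw [bb_eq_one h]
        have : 0 ≤ th t / th 3 := by positivity
        linarith
      · rw [le_div_iff₀ hth3]
        have h7 : th 3 ≤ th t := th_antitone h
        have h8 := bb_nonneg t
        have h9 := bb_le_one t
        nlinarith
    have h7 : -Jth t ≤ th t / c0 := by
      rw [le_div_iff₀ hc0]; linarith
    have h8 : (a - Jth t) ^ 2 - a ^ 2 * bb t = (-Jth t) * (2 * a - Jth t) + a ^ 2 * (1 - bb t) := by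
      ring
    have h9 : 0 ≤ 1 - bb t := by linarith [bb_le_one t]
    have h10 : 0 ≤ (a - Jth t) ^ 2 - a ^ 2 * bb t := by
      rw [h8]
      have : 0 ≤ -Jth t := by linarith
      have : 0 ≤ 2 * a - Jth t := by linarith
      positivity
    have h11 : (a - Jth t) ^ 2 - a ^ 2 * bb t ≤ C * th t := by
      rw [h8]
      have e1 : (-Jth t) * (2 * a - Jth t) ≤ (th t / c0) * (2 * a + 4) := by
        apply mul_le_mul h7 (by linarith) (by linarith) (by positivity)
      have e2 : a ^ 2 * (1 - bb t) ≤ a ^ 2 * (th t / th 3) := by gcongr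
      have e3 : C * th t = (th t / c0) * (2 * a + 4) + a ^ 2 * (th t / th 3) := by
        rw [hC]; ring
      linarith
    calc ((a - Jth t) ^ 2 - a ^ 2 * bb t) ^ 2 ≤ (C * th t) ^ 2 := by gcongr
      _ = C ^ 2 * (th t * th t) := by ring
      _ ≤ C ^ 2 * (th t * 1) := by gcongr
      _ = _ := by ring
  have hM2 : 0 ≤ C ^ 2 := by positivity
  -- choice of K
  obtain ⟨K, k1, k2, k3, k4, k5, k6, k7, k8⟩ : ∃ K : ℝ, a ≤ K ∧ 2 * M / a ≤ K ∧
      M / (a * c0 * c1) ≤ K ∧ (77 + 30 * M + 140 * (a + 4)) / (2 * c1) ≤ K ∧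
      M / (c4 * a) ≤ K ∧ (128 + 32 * M + 192 * (a + 4)) / c0 ≤ K ∧
      (1 + M + 2 * a) / (2 * c4) ≤ K ∧ M + 3 * C ^ 2 ≤ K :=
    ((eventually_ge_atTop _).and ((eventually_ge_atTop _).and ((eventually_ge_atTop _).and
      ((eventually_ge_atTop _).and ((eventually_ge_atTop _).and ((eventually_ge_atTop _).and
      ((eventually_ge_atTop _).and (eventually_ge_atTop _)))))))).exists
  refine ⟨⟨a, K, c0, c1, c4, M, C ^ 2, ha, hc0, hc1, hc4, hM, hM2, hq, hr, hrho, ?_, ?_, hG, k1,
    ha8, ?_, ?_, ?_, ?_, ?_, ?_, k8⟩⟩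
  · intro t
    have h1 := (hb t).1
    have : (a ^ 2 * bb1 t) ^ 2 = a ^ 4 * bb1 t ^ 2 := by ring
    rw [this, hM_def, mul_assoc]
    gcongr
  · intro t
    have h1 := (hb t).2
    have : (a ^ 2 * deriv bb1 t) ^ 2 = a ^ 4 * deriv bb1 t ^ 2 := by ring
    rw [this, hM_def, mul_assoc]
    gcongr
  · rw [div_le_iff₀ ha0] at k2; linarith
  · rw [div_le_iff₀ (by positivity)] at k3; linarith
  · rw [div_le_iff₀ (by positivity)] at k4; linarith
  · rw [div_le_iff₀ (by positivity)] at k5; linarith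
  · rw [div_le_iff₀ (by positivity)] at k6; linarith
  · rw [div_le_iff₀ (by positivity)] at k7; linarith

namespace Consts

variable (c : Consts)

noncomputable def A (t : ℝ) : ℝ := c.K + Jrho t
noncomputable def E (t : ℝ) : ℝ := c.a - Jth t
noncomputable def P (t : ℝ) : ℝ := c.A t ^ 2 + c.a ^ 2
noncomputable def B (t : ℝ) : ℝ := c.a ^ 2 * bb t
noncomputable def D (t : ℝ) : ℝ := c.E t ^ 2
noncomputable def P1 (t : ℝ) : ℝ := 2 * c.A t * rho t
noncomputable def B1 (t : ℝ) : ℝ := c.a ^ 2 * bb1 t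
noncomputable def D1 (t : ℝ) : ℝ := -(2 * c.E t * th t)
noncomputable def P2 (t : ℝ) : ℝ := 2 * rho t ^ 2 + 2 * c.A t * rr t
noncomputable def B2 (t : ℝ) : ℝ := c.a ^ 2 * deriv bb1 t
noncomputable def D2 (t : ℝ) : ℝ := 2 * th t ^ 2 + 2 * c.E t * qq t

theorem a_pos : 0 < c.a := lt_of_lt_of_le one_pos c.ha
theorem K_pos : 0 < c.K := c.a_pos.trans_le c.haK
theorem K_le_A (t : ℝ) : c.K ≤ c.A t := by
  have := Jrho_nonneg t; unfold A; linarith
theorem A_pos (t : ℝ) : 0 < c.A t := c.K_pos.trans_le (c.K_le_A t)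
theorem a_le_E (t : ℝ) : c.a ≤ c.E t := by
  have := Jth_nonpos t; unfold E; linarith
theorem E_pos (t : ℝ) : 0 < c.E t := c.a_pos.trans_le (c.a_le_E t)
theorem E_le {t : ℝ} (ht : 0 ≤ t) : c.E t ≤ c.a + 4 := by
  have := Jth_lower ht; unfold E; linarith

theorem hasDerivAt_A (t : ℝ) : HasDerivAt c.A (rho t) t :=
  (hasDerivAt_Jrho t).const_add c.K
theorem hasDerivAt_E (t : ℝ) : HasDerivAt c.E (-(th t)) t :=
  (hasDerivAt_Jth t).const_sub c.a

theorem contDiff_A : ContDiff ℝ ∞ c.A := contDiff_const.add contDiff_Jrho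
theorem contDiff_E : ContDiff ℝ ∞ c.E := contDiff_const.sub contDiff_Jth
theorem contDiff_P : ContDiff ℝ ∞ c.P := (c.contDiff_A.pow 2).add contDiff_const
theorem contDiff_B : ContDiff ℝ ∞ c.B := contDiff_const.mul contDiff_bb
theorem contDiff_D : ContDiff ℝ ∞ c.D := c.contDiff_E.pow 2

theorem det_ge (t : ℝ) : c.A t ^ 2 * c.E t ^ 2 ≤ c.P t * c.D t - c.B t ^ 2 := by
  unfold P B D
  have h1 := bb_nonneg t
  have h2 := bb_le_one t
  have h3 := c.a_le_E t
  have h4 := c.a_pos
  have h5 : (c.a ^ 2 * bb t) ^ 2 ≤ (c.a ^ 2 * 1) ^ 2 := by gcongr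
  have h6 : c.a ^ 2 * c.a ^ 2 ≤ c.a ^ 2 * c.E t ^ 2 := by gcongr
  linarith only [h5, h6]

theorem qd : QD c.P c.B c.D c.P1 c.B1 c.D1 c.P2 c.B2 c.D2 where
  hP t := by
    have h := ((c.hasDerivAt_A t).pow 2).add_const (c.a ^ 2)
    refine HasDerivAt.congr_deriv h ?_
    unfold P1; push_cast; ring
  hB t := (hasDerivAt_bb t).const_mul (c.a ^ 2)
  hD t := by
    have h := ((c.hasDerivAt_E t).pow 2)
    refine HasDerivAt.congr_deriv h ?_
    unfold D1; push_cast; ring
  hP1 t := by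
    have h := (((c.hasDerivAt_A t).const_mul 2).mul (hasDerivAt_rho t))
    refine HasDerivAt.congr_deriv h ?_
    unfold P2; ring
  hB1 t := (hasDerivAt_bb1 t).const_mul (c.a ^ 2)
  hD1 t := by
    have h := (((c.hasDerivAt_E t).const_mul 2).mul (hasDerivAt_th t)).neg
    refine HasDerivAt.congr_deriv h ?_
    unfold D2; ring
  det t := by
    have h := c.det_ge t
    have h1 := c.A_pos t
    have h2 := c.E_pos t
    have : 0 < c.A t ^ 2 * c.E t ^ 2 := by positivity
    linarith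

theorem P1_nonneg (t : ℝ) : 0 ≤ c.P1 t := by
  have h1 := c.A_pos t
  have h2 := rho_nonneg t
  unfold P1; positivity

theorem D1_nonpos (t : ℝ) : c.D1 t ≤ 0 := by
  have h1 := c.E_pos t
  have h2 := th_nonneg t
  have : 0 ≤ 2 * c.E t * th t := by positivity
  unfold D1; linarith

theorem coreR (t m : ℝ) (hF : 0 ≤ c.P1 t + 2 * c.B1 t * m + c.D1 t * m ^ 2) :
    rhsR (c.P t) (c.B t) (c.D t) (c.P1 t) (c.B1 t) (c.D1 t) m ≤
      2 * (c.P t * c.D t - c.B t ^ 2) * (c.P2 t + 2 * c.B2 t * m + c.D2 t * m ^ 2) := by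
  have hA := c.A_pos t
  have hE := c.E_pos t
  have ha := c.a_pos
  have h0 := rho_nonneg t
  have h0' := rho_le_one t
  have h1 := th_nonneg t
  have h1' := th_le_one t
  rcases lt_or_ge t 1 with ht | ht
  · have e1 : rho t = 0 := rho_eq_zero ht.le
    have e2 : bb1 t = 0 := bb1_eq_zero_left (by linarith)
    have e3 : deriv bb1 t = 0 := bb2_eq_zero_left (by linarith)
    have e4 : rr t = 0 := rr_eq_zero ht.le
    have hth : 0 < th t := th_pos (by linarith)
    unfold P1 B1 D1 at hF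
    rw [e1, e2] at hF
    have hm : m ^ 2 = 0 := by
      have h3 : 0 < 2 * c.E t * th t := by positivity
      have h4 : 0 ≤ m ^ 2 := sq_nonneg m
      by_contra hne
      have h5 : 0 < m ^ 2 := lt_of_le_of_ne h4 (Ne.symm hne)
      have := mul_pos h3 h5
      linarith
    have hm0 : m = 0 := by simpa using hm
    unfold P1 B1 P2 B2 rhsR
    rw [hm0, e1, e2, e3, e4]
    simp
  rcases lt_or_ge t 2 with ht2 | ht2
  · have e2 : bb1 t = 0 := bb1_eq_zero_left (by linarith)
    have e3 : deriv bb1 t = 0 := bb2_eq_zero_left (by linarith)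
    have e4 : bb t = 0 := bb_eq_zero (by linarith)
    have hB1 : c.B1 t = 0 := by unfold B1; rw [e2, mul_zero]
    have hB2 : c.B2 t = 0 := by unfold B2; rw [e3, mul_zero]
    have hB : c.B t = 0 := by unfold B; rw [e4, mul_zero]
    rw [hB1] at hF ⊢
    rw [hB2, hB]
    refine zone2_R c.K_pos ha c.hc0 (c.K_le_A t) (c.a_le_E t) h0 h0' h1 h1' (rr_nonneg t)
      (c.q_le t ht) ?_ ?_ ?_
    · linarith [c.ha8]
    · linarith [c.hK5, c.hM, c.ha]
    · unfold P1 D1 at hF; linarith
  rcases lt_or_ge t 4 with ht4 | ht4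
  · refine zone3_R c.ha c.hc0 c.hc1 c.hM c.haK (c.K_le_A t) (c.a_le_E t)
      (c.E_le (by linarith)) h0 h0' h1 h1' (c.r_ge t ht2 ht4.le) (c.q_le t ht) ?_ (c.b1_le t)
      (c.b2_le t) c.ha8 c.hK2 c.hK3 c.hK4 ?_
    · unfold B
      rw [abs_mul, abs_of_nonneg (by positivity : (0:ℝ) ≤ c.a ^ 2), abs_of_nonneg (bb_nonneg t)]
      exact mul_le_of_le_one_right (by positivity) (bb_le_one t)
    · unfold P1 B1 D1 at hF; exact hF
  · have e1 : th t = 0 := th_eq_zero ht4
    have e2 : bb1 t = 0 := bb1_eq_zero_right (by linarith)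
    have e3 : deriv bb1 t = 0 := bb2_eq_zero_right (by linarith)
    have e4 : qq t = 0 := qq_eq_zero ht4
    have e5 : bb t = 1 := bb_eq_one (by linarith)
    have e6 : c.E t = c.a := by unfold E; rw [Jth_right ht4, sub_zero]
    have hr := rr_nonneg t
    unfold rhsR P1 B1 D1 P2 B2 D2 P B D
    rw [e1, e2, e3, e4, e5, e6]
    have key : 0 ≤ 4 * c.A t ^ 2 * c.a ^ 2 * (c.A t * rr t) := by positivity
    linarith only [key]

theorem coreL (t n : ℝ) (hF : c.P1 t * n ^ 2 + 2 * c.B1 t * n + c.D1 t ≤ 0) :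
    rhsL (c.P t) (c.B t) (c.D t) (c.P1 t) (c.B1 t) (c.D1 t) n ≤
      2 * (c.P t * c.D t - c.B t ^ 2) * (c.P2 t * n ^ 2 + 2 * c.B2 t * n + c.D2 t) := by
  have hA := c.A_pos t
  have hE := c.E_pos t
  have ha := c.a_pos
  have h0 := rho_nonneg t
  have h0' := rho_le_one t
  have h1 := th_nonneg t
  have h1' := th_le_one t
  rcases lt_or_ge t 1 with ht | ht
  · have e1 : rho t = 0 := rho_eq_zero ht.le
    have e2 : bb1 t = 0 := bb1_eq_zero_left (by linarith)
    have e3 : deriv bb1 t = 0 := bb2_eq_zero_left (by linarith)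
    have e4 : rr t = 0 := rr_eq_zero ht.le
    have e5 : bb t = 0 := bb_eq_zero (by linarith)
    have hq := qq_nonneg t
    unfold rhsL P1 B1 D1 P2 B2 D2 P B D
    rw [e1, e2, e3, e4, e5]
    have key : 0 ≤ 4 * (c.A t ^ 2 + c.a ^ 2) * c.E t ^ 2 * (c.E t * qq t) := by positivity
    linarith only [key]
  rcases lt_or_ge t 2 with ht2 | ht2
  · have e2 : bb1 t = 0 := bb1_eq_zero_left (by linarith)
    have e3 : deriv bb1 t = 0 := bb2_eq_zero_left (by linarith)
    have e4 : bb t = 0 := bb_eq_zero (by linarith)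
    have hB1 : c.B1 t = 0 := by unfold B1; rw [e2, mul_zero]
    have hB2 : c.B2 t = 0 := by unfold B2; rw [e3, mul_zero]
    have hB : c.B t = 0 := by unfold B; rw [e4, mul_zero]
    rw [hB1] at hF ⊢
    rw [hB2, hB]
    refine zone2_L c.K_pos ha c.hc0 (c.K_le_A t) (c.a_le_E t) h0 h0' h1 h1' (rr_nonneg t)
      (c.q_le t ht) ?_ ?_ ?_
    · linarith [c.ha8]
    · linarith [c.hK5, c.hM, c.ha]
    · unfold P1 D1 at hF; linarith
  rcases lt_or_ge t 4 with ht4 | ht4
  · refine zone3_L c.ha c.hc0 c.hc1 c.hc4 c.hM c.haK (c.K_le_A t) (c.a_le_E t)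
      (c.E_le (by linarith)) (c.rho_ge t ht2) h0' h1 h1' (c.r_ge t ht2 ht4.le) (c.q_le t ht) ?_
      (c.b1_le t) (c.b2_le t) c.ha8 c.hK2' c.hK3 c.hK5 ?_
    · unfold B
      rw [abs_mul, abs_of_nonneg (by positivity : (0:ℝ) ≤ c.a ^ 2), abs_of_nonneg (bb_nonneg t)]
      exact mul_le_of_le_one_right (by positivity) (bb_le_one t)
    · unfold P1 B1 D1 at hF; exact hF
  · have e1 : th t = 0 := th_eq_zero ht4
    have e2 : bb1 t = 0 := bb1_eq_zero_right (by linarith)
    have e3 : deriv bb1 t = 0 := bb2_eq_zero_right (by linarith)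
    have e4 : qq t = 0 := qq_eq_zero ht4
    have hrho : 0 < rho t := rho_pos (by linarith)
    unfold P1 B1 D1 at hF
    rw [e1, e2] at hF
    have hn : n ^ 2 = 0 := by
      have h3 : 0 < 2 * c.A t * rho t := by positivity
      have h4 : 0 ≤ n ^ 2 := sq_nonneg n
      by_contra hne
      have h5 : 0 < n ^ 2 := lt_of_le_of_ne h4 (Ne.symm hne)
      have := mul_pos h3 h5
      linarith
    have hn0 : n = 0 := by simpa using hn
    unfold rhsL B1 D1 B2 D2
    rw [hn0, e1, e2, e3, e4]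
    simp

theorem mom1 (t p q : ℝ) : p = c.P t * (colA c.P c.B c.D t * p + colB c.P c.B c.D t * q) +
    c.B t * (colB c.P c.B c.D t * p + colC c.P c.B c.D t * q) := by
  have hd := (c.qd.det t).ne'
  have e : c.P t * (colA c.P c.B c.D t * p + colB c.P c.B c.D t * q) +
    c.B t * (colB c.P c.B c.D t * p + colC c.P c.B c.D t * q) =
      (c.P t * c.D t - c.B t ^ 2) * p / (c.P t * c.D t - c.B t ^ 2) := by
    unfold colA colB colC
    ring
  rw [e, mul_div_cancel_left₀ _ hd]

theorem mom2 (t p q : ℝ) : q = c.B t * (colA c.P c.B c.D t * p + colB c.P c.B c.D t * q) +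
    c.D t * (colB c.P c.B c.D t * p + colC c.P c.B c.D t * q) := by
  have hd := (c.qd.det t).ne'
  have e : c.B t * (colA c.P c.B c.D t * p + colB c.P c.B c.D t * q) +
    c.D t * (colB c.P c.B c.D t * p + colC c.P c.B c.D t * q) =
      (c.P t * c.D t - c.B t ^ 2) * q / (c.P t * c.D t - c.B t ^ 2) := by
    unfold colA colB colC
    ring
  rw [e, mul_div_cancel_left₀ _ hd]

theorem cR_nonneg (t p q : ℝ) (hV : colV1 c.P c.B c.D t p q ≤ 0)
    (hX : colA c.P c.B c.D t * p + colB c.P c.B c.D t * q ≠ 0) :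
    0 ≤ cR (colA c.P c.B c.D t) (colB c.P c.B c.D t) (colC c.P c.B c.D t)
      (deriv (colA c.P c.B c.D) t) (deriv (colB c.P c.B c.D) t) (deriv (colC c.P c.B c.D) t)
      (deriv (deriv (colA c.P c.B c.D)) t) (deriv (deriv (colB c.P c.B c.D)) t)
      (deriv (deriv (colC c.P c.B c.D)) t) p q := by
  rw [c.qd.V1_eq] at hV
  rw [c.qd.cR_eq t p q _ _ rfl rfl hX]
  have hdet := c.qd.det t
  generalize colA c.P c.B c.D t * p + colB c.P c.B c.D t * q = X at *
  generalize colB c.P c.B c.D t * p + colC c.P c.B c.D t * q = Y at *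
  apply mul_nonneg (by positivity)
  rw [sub_nonneg]
  apply c.coreR
  have hX2 : 0 < X ^ 2 := by positivity
  have e : c.P1 t + 2 * c.B1 t * (Y / X) + c.D1 t * (Y / X) ^ 2 =
      (c.P1 t * X ^ 2 + 2 * c.B1 t * X * Y + c.D1 t * Y ^ 2) / X ^ 2 := by
    field_simp
  rw [e]
  apply div_nonneg _ hX2.le
  linarith

theorem cL_nonneg (t p q : ℝ) (hV : 0 ≤ colV1 c.P c.B c.D t p q)
    (hY : colB c.P c.B c.D t * p + colC c.P c.B c.D t * q ≠ 0) :
    0 ≤ cR (colC c.P c.B c.D t) (colB c.P c.B c.D t) (colA c.P c.B c.D t)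
      (deriv (colC c.P c.B c.D) t) (deriv (colB c.P c.B c.D) t) (deriv (colA c.P c.B c.D) t)
      (deriv (deriv (colC c.P c.B c.D)) t) (deriv (deriv (colB c.P c.B c.D)) t)
      (deriv (deriv (colA c.P c.B c.D)) t) q p := by
  rw [c.qd.V1_eq] at hV
  rw [c.qd.cL_eq t p q _ _ rfl rfl hY]
  have hdet := c.qd.det t
  generalize colA c.P c.B c.D t * p + colB c.P c.B c.D t * q = X at *
  generalize colB c.P c.B c.D t * p + colC c.P c.B c.D t * q = Y at *
  apply mul_nonneg (by positivity)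
  rw [sub_nonneg]
  apply c.coreL
  have hY2 : 0 < Y ^ 2 := by positivity
  have e : c.P1 t * (X / Y) ^ 2 + 2 * c.B1 t * (X / Y) + c.D1 t =
      (c.P1 t * X ^ 2 + 2 * c.B1 t * X * Y + c.D1 t * Y ^ 2) / Y ^ 2 := by
    field_simp
  rw [e]
  apply div_nonpos_of_nonpos_of_nonneg _ hY2.le
  linarith

theorem monoX (t : ℝ) : deriv (colA c.P c.B c.D) t ≤ 0 := by
  have h := c.qd.V1_eq t 1 0
  unfold colV1 qf at h
  have h' : deriv (colA c.P c.B c.D) t =
    -(c.P1 t * (colA c.P c.B c.D t) ^ 2 +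
        2 * c.B1 t * (colA c.P c.B c.D t) * (colB c.P c.B c.D t) +
        c.D1 t * (colB c.P c.B c.D t) ^ 2) := by
    simpa using h
  rw [h']
  have hdet := c.qd.det t
  have e : c.P1 t * (colA c.P c.B c.D t) ^ 2 +
        2 * c.B1 t * (colA c.P c.B c.D t) * (colB c.P c.B c.D t) +
        c.D1 t * (colB c.P c.B c.D t) ^ 2 =
      (c.P1 t * c.D t ^ 2 - 2 * c.B1 t * c.B t * c.D t + c.D1 t * c.B t ^ 2) /
        (c.P t * c.D t - c.B t ^ 2) ^ 2 := by
    unfold colA colB
    generalize c.P t * c.D t - c.B t ^ 2 = Δ at hdet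
    have := hdet.ne'
    field_simp
    ring
  rw [e, neg_nonpos]
  apply div_nonneg _ (by positivity)
  have hA := c.A_pos t
  have hE := c.E_pos t
  have ha := c.a_pos
  rcases le_total t 2 with ht | ht
  · have e4 : bb t = 0 := bb_eq_zero ht
    have hB : c.B t = 0 := by unfold B; rw [e4, mul_zero]
    rw [hB]
    have := c.P1_nonneg t
    have : 0 ≤ c.P1 t * c.D t ^ 2 := by positivity
    linarith
  · have h1 := th_nonneg t
    have h1' := th_le_one t
    have hb0 := bb_nonneg t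
    have hb1 := bb_le_one t
    have haE := c.a_le_E t
    have hM := c.hM
    have hB1 : 2 * |c.B1 t| ≤ 1 + c.M := by
      apply two_abs_le zero_le_one c.hM
      have h2 := c.b1_le t
      have h3 : c.M * th t ≤ c.M := mul_le_of_le_one_right c.hM h1'
      unfold B1
      linarith
    have hBa : c.B t ≤ c.a ^ 2 := mul_le_of_le_one_right (by positivity) hb1
    have hB0 : 0 ≤ c.B t := by unfold B; positivity
    have hrho := c.rho_ge t ht
    have hKA := c.K_le_A t
    have hK := c.K_pos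
    have hc4 := c.hc4
    have s1 : 2 * c.K * c.c4 * c.E t ^ 4 ≤ c.P1 t * c.D t ^ 2 := by
      have : c.K * c.c4 ≤ c.A t * rho t := by gcongr
      have e1 : c.P1 t * c.D t ^ 2 = 2 * (c.A t * rho t) * c.E t ^ 4 := by unfold P1 D; ring
      rw [e1]
      calc 2 * c.K * c.c4 * c.E t ^ 4 = 2 * (c.K * c.c4) * c.E t ^ 4 := by ring
        _ ≤ _ := by gcongr
    have s2 : 2 * c.B1 t * c.B t * c.D t ≤ (1 + c.M) * c.E t ^ 4 := by
      calc 2 * c.B1 t * c.B t * c.D t ≤ (2 * |c.B1 t|) * c.B t * c.D t := by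
            have := le_abs_self (c.B1 t)
            have hD : 0 ≤ c.D t := by unfold D; positivity
            gcongr
        _ ≤ (1 + c.M) * c.a ^ 2 * c.E t ^ 2 := by unfold D; gcongr
        _ ≤ (1 + c.M) * c.E t ^ 2 * c.E t ^ 2 := by gcongr
        _ = _ := by ring
    have s3 : -(c.D1 t * c.B t ^ 2) ≤ 2 * c.a * c.E t ^ 4 := by
      have e1 : -(c.D1 t * c.B t ^ 2) = 2 * c.E t * th t * c.B t ^ 2 := by unfold D1; ring
      rw [e1]
      calc 2 * c.E t * th t * c.B t ^ 2 ≤ 2 * c.E t * 1 * (c.a ^ 2) ^ 2 := by gcongr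
        _ = 2 * c.a * (c.E t * c.a ^ 3) := by ring
        _ ≤ 2 * c.a * (c.E t * c.E t ^ 3) := by gcongr
        _ = _ := by ring
    have s4 : (1 + c.M + 2 * c.a) * c.E t ^ 4 ≤ 2 * c.K * c.c4 * c.E t ^ 4 := by
      have := c.hK6
      gcongr
    linarith only [s1, s2, s3, s4]

theorem monoY (t : ℝ) : 0 ≤ colV1 c.P c.B c.D t 1 1 := by
  rw [c.qd.V1_eq]
  have hdet := c.qd.det t
  have e : c.P1 t * (colA c.P c.B c.D t * 1 + colB c.P c.B c.D t * 1) ^ 2 +
        2 * c.B1 t * (colA c.P c.B c.D t * 1 + colB c.P c.B c.D t * 1) *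
          (colB c.P c.B c.D t * 1 + colC c.P c.B c.D t * 1) +
        c.D1 t * (colB c.P c.B c.D t * 1 + colC c.P c.B c.D t * 1) ^ 2 =
      (c.P1 t * (c.D t - c.B t) ^ 2 + 2 * c.B1 t * (c.D t - c.B t) * (c.P t - c.B t) +
        c.D1 t * (c.P t - c.B t) ^ 2) / (c.P t * c.D t - c.B t ^ 2) ^ 2 := by
    unfold colA colB colC
    generalize c.P t * c.D t - c.B t ^ 2 = Δ at hdet
    have := hdet.ne'
    field_simp
    ring
  rw [e, neg_nonneg]
  apply div_nonpos_of_nonpos_of_nonneg _ (by positivity)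
  have hA := c.A_pos t
  have hE := c.E_pos t
  have ha := c.a_pos
  rcases lt_or_ge t 1 with ht | ht
  · have e1 : rho t = 0 := rho_eq_zero ht.le
    have e2 : bb1 t = 0 := bb1_eq_zero_left (by linarith)
    have hP1 : c.P1 t = 0 := by unfold P1; rw [e1, mul_zero]
    have hB1 : c.B1 t = 0 := by unfold B1; rw [e2, mul_zero]
    rw [hP1, hB1]
    have h1 := c.D1_nonpos t
    have h2 := mul_nonneg (neg_nonneg.2 h1) (sq_nonneg (c.P t - c.B t))
    linarith
  · have hth := th_nonneg t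
    have hM2 := c.hM2
    have hM := c.hM
    have hG := c.g_le t ht
    have hGe : (c.a - Jth t) ^ 2 - c.a ^ 2 * bb t = c.D t - c.B t := rfl
    rw [hGe] at hG
    have hBb := c.b1_le t
    have hBe : c.a ^ 2 * bb1 t = c.B1 t := rfl
    rw [hBe] at hBb
    have hH : c.A t ^ 2 ≤ c.P t - c.B t := by
      have hb1 := bb_le_one t
      have : c.a ^ 2 * bb t ≤ c.a ^ 2 := mul_le_of_le_one_right (by positivity) hb1
      unfold P B
      linarith
    have hA1 : 1 ≤ c.A t := c.ha.trans (c.haK.trans (c.K_le_A t))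
    have hE1 : 1 ≤ c.E t := c.ha.trans (c.a_le_E t)
    have hAH : c.A t ≤ c.P t - c.B t := by
      refine le_trans ?_ hH
      rw [sq]; exact le_mul_of_one_le_left hA.le hA1
    have hP1 : c.P1 t ≤ 2 * c.A t := by
      unfold P1; exact mul_le_of_le_one_right (by positivity) (rho_le_one t)
    have hP10 := c.P1_nonneg t
    have hD1 : c.D1 t = -(2 * c.E t * th t) := rfl
    have hKA := c.K_le_A t
    have hK7 := c.hK7
    rw [hD1]
    generalize c.D t - c.B t = G at *
    generalize c.P t - c.B t = H at *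
    have hH0 : 0 < H := hA.trans_le hAH
    have s1 : c.P1 t * G ^ 2 ≤ 2 * H * (c.M2 * th t) := by
      calc c.P1 t * G ^ 2 ≤ (2 * c.A t) * (c.M2 * th t) := by gcongr
        _ ≤ _ := by gcongr
    have s2 : 2 * c.B1 t * G * H ≤ (c.M + c.M2) * th t * H := by
      have h3 : 2 * c.B1 t * G ≤ c.B1 t ^ 2 + G ^ 2 := by
        have := sq_nonneg (c.B1 t - G)
        linarith only [this]
      have h4 : 2 * c.B1 t * G ≤ (c.M + c.M2) * th t := by linarith only [h3, hG, hBb]
      gcongr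
    have s3 : (c.M + 3 * c.M2) * (th t * H) ≤ 2 * c.E t * th t * H ^ 2 := by
      have h5 : c.M + 3 * c.M2 ≤ 2 * c.E t * H := by
        calc c.M + 3 * c.M2 ≤ c.K := hK7
          _ ≤ H := hKA.trans hAH
          _ ≤ 2 * c.E t * H := le_mul_of_one_le_left hH0.le (by linarith only [hE1])
      calc (c.M + 3 * c.M2) * (th t * H) ≤ (2 * c.E t * H) * (th t * H) := by gcongr
        _ = _ := by ring
    linarith only [s1, s2, s3]

end Consts

end Col

open Col in
/-- **Existence of collar data** (package COL, final statement). -/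
theorem exists_collarData : Nonempty CollarData := by
  obtain ⟨c⟩ := exists_consts
  have hdet := c.qd.det
  refine ⟨{ P := c.P, B := c.B, D := c.D, tL := 0, t0 := 1, t1 := 4, tR := 5
            c1 := c.E 0, c2 := c.A 5 - 5, Φ0 := Real.sqrt (c.K ^ 2 + c.a ^ 2), R0 := c.a
            smooth_P := c.contDiff_P, smooth_B := c.contDiff_B, smooth_D := c.contDiff_D
            P_pos := ?_, D_pos := ?_, det_pos := hdet
            tL_lt_t0 := by norm_num, t0_lt_t1 := by norm_num, t1_lt_tR := by norm_num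
            Φ0_pos := ?_, R0_pos := c.a_pos
            c1_pos := ?_, c2_pos := ?_
            left_P := ?_, left_B := ?_, left_D := ?_
            right_D := ?_, right_B := ?_, right_P := ?_
            condR := ?_, condL := ?_, condZ := ?_, neX := ?_, neY := ?_
            monoX := c.monoX, monoY := c.monoY }⟩
  · intro t
    have h1 := c.A_pos t
    have h2 := c.a_pos
    show 0 < c.A t ^ 2 + c.a ^ 2
    positivity
  · intro t
    have h1 := c.E_pos t
    show 0 < c.E t ^ 2
    positivity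
  · have := c.a_pos
    apply Real.sqrt_pos.2
    positivity
  · have := c.E_pos 0
    linarith
  · have := c.A_pos 5
    linarith
  · intro t ht
    show c.A t ^ 2 + c.a ^ 2 = _
    have e : c.A t = c.K := by unfold Consts.A; rw [Jrho_left ht, add_zero]
    have := c.a_pos
    rw [e, Real.sq_sqrt (by positivity)]
  · intro t ht
    show c.a ^ 2 * bb t = 0
    rw [bb_eq_zero (by linarith), mul_zero]
  · intro t ht
    show c.E t ^ 2 = _
    have e : c.E t = c.E 0 - t := by unfold Consts.E; rw [Jth_left ht]; ring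
    rw [e]
  · intro t ht
    show c.E t ^ 2 = _
    have e : c.E t = c.a := by unfold Consts.E; rw [Jth_right ht, sub_zero]
    rw [e]
  · intro t ht
    show c.a ^ 2 * bb t = _
    rw [bb_eq_one (by linarith), mul_one]
  · intro t ht
    show c.A t ^ 2 + c.a ^ 2 = _
    have e : c.A t = t + (c.A 5 - 5) := by unfold Consts.A; rw [Jrho_right ht]; ring
    rw [e]
  · intro t p q hV
    have hX : colA c.P c.B c.D t * p + colB c.P c.B c.D t * q ≠ 0 := by
      intro h0
      rw [c.qd.V1_eq, h0] at hV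
      have h1 := mul_nonneg (neg_nonneg.2 (c.D1_nonpos t))
        (sq_nonneg (colB c.P c.B c.D t * p + colC c.P c.B c.D t * q))
      linarith
    exact ⟨hX, c.cR_nonneg t p q hV.le hX⟩
  · intro t p q hV
    have hY : colB c.P c.B c.D t * p + colC c.P c.B c.D t * q ≠ 0 := by
      intro h0
      rw [c.qd.V1_eq, h0] at hV
      have h1 := mul_nonneg (c.P1_nonneg t)
        (sq_nonneg (colA c.P c.B c.D t * p + colB c.P c.B c.D t * q))
      linarith
    exact ⟨hY, c.cL_nonneg t p q hV.le hY⟩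
  · intro t p q hV
    by_cases hX : colA c.P c.B c.D t * p + colB c.P c.B c.D t * q = 0
    · by_cases hY : colB c.P c.B c.D t * p + colC c.P c.B c.D t * q = 0
      · rw [c.qd.V2_eq t p q _ _ rfl rfl, hX, hY]
        simp
      · have h := c.cL_nonneg t p q hV.ge hY
        have hq1 : ∀ a b c : ℝ, qf c b a q p = qf a b c p q := by
          intro a b c; unfold qf; ring
        unfold colV1 at hV
        unfold cR at h
        rw [hq1, hq1, hV] at h
        unfold colV2
        simp only [zero_mul, zero_div, add_zero, ne_eq, OfNat.ofNat_ne_zero, not_false_eq_true,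
          zero_pow, sub_zero] at h
        linarith
    · have h := c.cR_nonneg t p q hV.le hX
      unfold colV1 at hV
      unfold cR at h
      rw [hV] at h
      unfold colV2
      simp only [zero_mul, zero_div, add_zero, ne_eq, OfNat.ofNat_ne_zero, not_false_eq_true,
        zero_pow, sub_zero] at h
      linarith
  · intro t p q hpq hV
    by_contra hcon
    push Not at hcon
    obtain ⟨hX, hcon⟩ := hcon
    have hp := c.mom1 t p q
    have hq := c.mom2 t p q
    rw [hX, mul_zero, zero_add] at hp hq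
    rw [c.qd.V1_eq, hX] at hV
    generalize colB c.P c.B c.D t * p + colC c.P c.B c.D t * q = Y at *
    have hY : Y ≠ 0 := by
      rintro rfl
      rcases hpq with h | h
      · exact h (by rw [hp]; ring)
      · exact h (by rw [hq]; ring)
    have hY2 : 0 < Y ^ 2 := by positivity
    have ht : 4 ≤ t := by
      by_contra hlt
      push Not at hlt
      have h1 := th_pos hlt
      have h2 := c.E_pos t
      have h3 : 0 < 2 * c.E t * th t * Y ^ 2 := by positivity
      have h4 : c.D1 t = -(2 * c.E t * th t) := rfl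
      rw [h4] at hV
      linarith
    have e1 : c.E t = c.a := by unfold Consts.E; rw [Jth_right ht, sub_zero]
    have e2 : bb t = 1 := bb_eq_one (by linarith)
    have hne := hcon ?_
    · linarith
    · rw [hp, hq]
      unfold Consts.B Consts.D
      rw [e1, e2]
      ring
  · intro t p q hpq hV
    by_contra hcon
    push Not at hcon
    obtain ⟨hY, hcon⟩ := hcon
    have hp := c.mom1 t p q
    have hq := c.mom2 t p q
    rw [hY, mul_zero, add_zero] at hp hq
    rw [c.qd.V1_eq, hY] at hV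
    generalize colA c.P c.B c.D t * p + colB c.P c.B c.D t * q = X at *
    have hX : X ≠ 0 := by
      rintro rfl
      rcases hpq with h | h
      · exact h (by rw [hp]; ring)
      · exact h (by rw [hq]; ring)
    have hX2 : 0 < X ^ 2 := by positivity
    have ht : t ≤ 1 := by
      by_contra hlt
      push Not at hlt
      have h1 := rho_pos hlt
      have h2 := c.A_pos t
      have h3 : 0 < 2 * c.A t * rho t * X ^ 2 := by positivity
      have h4 : c.P1 t = 2 * c.A t * rho t := rfl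
      rw [h4] at hV
      linarith
    have e2 : bb t = 0 := bb_eq_zero (by linarith)
    have hne := hcon ?_
    · linarith
    · rw [hq]
      unfold Consts.B
      rw [e2]
      ring

end Crest.Agent.R244
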