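import Mathlib

/-!
Coordinate-free local Riemannian calculus: metric compatibility, Jacobi fields and the
infinitesimal CN inequality for the geodesic "midpoint" of a two-point family.
-/

open Set Filter Topology
open scoped ContDiff

namespace Crest.Agent.R244

section

variable {E : Type*} [NormedAddCommGroup E] [NormedSpace ℝ E]

/-- Coordinate-free curvature of the connection `G`:
`R(u,v)w = (DG.u)(v,w) - (DG.v)(u,w) + G(u,G(v,w)) - G(v,G(u,w))`. -/
noncomputable def curv (G : E → E →L[ℝ] E →L[ℝ] E) (x u v w : E) : E :=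
  fderiv ℝ G x u v w - fderiv ℝ G x v u w + G x u (G x v w) - G x v (G x u w)

/-- Local Riemannian data on an open set `U` of a normed space: a smooth metric `g`, a smooth
symmetric connection `G` compatible with it, with nonpositive sectional curvature. -/
structure IsNPCData (U : Set E) (g : E → E →L[ℝ] E →L[ℝ] ℝ) (G : E → E →L[ℝ] E →L[ℝ] E) :
    Prop where
  isOpen : IsOpen U
  contDiffOn_g : ContDiffOn ℝ ∞ g U
  contDiffOn_G : ContDiffOn ℝ ∞ G U
  symm_g : ∀ x ∈ U, ∀ u v, g x u v = g x v u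
  pos_g : ∀ x ∈ U, ∀ u, u ≠ 0 → 0 < g x u u
  symm_G : ∀ x ∈ U, ∀ u v, G x u v = G x v u
  compat : ∀ x ∈ U, ∀ u v w, fderiv ℝ g x u v w = g x (G x u v) w + g x v (G x u w)
  curv_nonpos : ∀ x ∈ U, ∀ u v, g x (curv G x u v v) u ≤ 0

/-- A real function on `[0,1]` with second derivative at least `2κ` satisfies the midpoint
inequality `f (1/2) ≤ (f 0 + f 1)/2 - κ/4`. -/
theorem midpoint_le_of_deriv2 {f f' f'' : ℝ → ℝ} {κ : ℝ}
    (hf : ∀ s ∈ Icc (0:ℝ) 1, HasDerivAt f (f' s) s)
    (hf' : ∀ s ∈ Icc (0:ℝ) 1, HasDerivAt f' (f'' s) s)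
    (h : ∀ s ∈ Icc (0:ℝ) 1, 2 * κ ≤ f'' s) :
    f (1/2) ≤ (f 0 + f 1) / 2 - κ / 4 := by
  have hconv : ConvexOn ℝ (Icc (0:ℝ) 1) (fun s => f s - κ * s ^ 2) := by
    have hd : ∀ s ∈ Icc (0:ℝ) 1, HasDerivAt (fun s => f s - κ * s ^ 2) (f' s - κ * (2 * s)) s := by
      intro s hs
      have h1 := hf s hs
      have h2 : HasDerivAt (fun s : ℝ => κ * s ^ 2) (κ * (2 * s)) s := by
        have := (hasDerivAt_pow 2 s).const_mul κ
        simpa using this
      exact h1.sub h2
    have hd' : ∀ s ∈ Icc (0:ℝ) 1,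
        HasDerivAt (fun s => f' s - κ * (2 * s)) (f'' s - κ * 2) s := by
      intro s hs
      have h1 := hf' s hs
      have h2 : HasDerivAt (fun s : ℝ => κ * (2 * s)) (κ * 2) s := by
        have := ((hasDerivAt_id s).const_mul (2:ℝ)).const_mul κ
        simpa using this
      exact h1.sub h2
    apply MonotoneOn.convexOn_of_deriv (convex_Icc 0 1)
    · exact fun s hs => (hd s hs).continuousAt.continuousWithinAt
    · exact fun s hs => (hd s (interior_subset hs)).differentiableAt.differentiableWithinAt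
    · rw [interior_Icc]
      have : MonotoneOn (fun s => f' s - κ * (2 * s)) (Ioo 0 1) := by
        apply monotoneOn_of_deriv_nonneg (convex_Ioo 0 1)
        · exact fun s hs => (hd' s (Ioo_subset_Icc_self hs)).continuousAt.continuousWithinAt
        · intro s hs
          rw [interior_Ioo] at hs
          exact (hd' s (Ioo_subset_Icc_self hs)).differentiableAt.differentiableWithinAt
        · intro s hs
          rw [interior_Ioo] at hs
          rw [(hd' s (Ioo_subset_Icc_self hs)).deriv]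
          have := h s (Ioo_subset_Icc_self hs)
          linarith
      intro a ha b hb hab
      rw [(hd a (Ioo_subset_Icc_self ha)).deriv, (hd b (Ioo_subset_Icc_self hb)).deriv]
      exact this ha hb hab
  have := hconv.2 (left_mem_Icc.2 zero_le_one) (right_mem_Icc.2 zero_le_one)
    (show (0:ℝ) ≤ 1/2 by norm_num) (show (0:ℝ) ≤ 1/2 by norm_num) (by norm_num)
  simp only [smul_eq_mul] at this
  norm_num at this
  norm_num
  linarith

/-- Derivative of `s ↦ g (c s) (v s) (w s)`. -/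
theorem hasDerivAt_metric {g : E → E →L[ℝ] E →L[ℝ] ℝ} {c v w : ℝ → E} {c' v' w' : E} {s : ℝ}
    (hg : DifferentiableAt ℝ g (c s))
    (hc : HasDerivAt c c' s) (hv : HasDerivAt v v' s) (hw : HasDerivAt w w' s) :
    HasDerivAt (fun s => g (c s) (v s) (w s))
      (fderiv ℝ g (c s) c' (v s) (w s) + g (c s) v' (w s) + g (c s) (v s) w') s := by
  have h1 : HasDerivAt (fun s => g (c s)) (fderiv ℝ g (c s) c') s :=
    (HasFDerivAt.comp_hasDerivAt (l := g) s hg.hasFDerivAt hc :)
  have h2 := h1.clm_apply hv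
  have h3 := h2.clm_apply hw
  simpa [add_assoc] using h3

variable {F : Type*} [NormedAddCommGroup F] [NormedSpace ℝ F] in
/-- Derivative of `s ↦ G (c s) (v s) (w s)`. -/
theorem hasDerivAt_bilin {G : E → E →L[ℝ] E →L[ℝ] F} {c v w : ℝ → E} {c' v' w' : E} {s : ℝ}
    (hg : DifferentiableAt ℝ G (c s))
    (hc : HasDerivAt c c' s) (hv : HasDerivAt v v' s) (hw : HasDerivAt w w' s) :
    HasDerivAt (fun s => G (c s) (v s) (w s))
      (fderiv ℝ G (c s) c' (v s) (w s) + G (c s) v' (w s) + G (c s) (v s) w') s := by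
  have h1 : HasDerivAt (fun s => G (c s)) (fderiv ℝ G (c s) c') s :=
    (HasFDerivAt.comp_hasDerivAt (l := G) s hg.hasFDerivAt hc :)
  have h2 := h1.clm_apply hv
  have h3 := h2.clm_apply hw
  simpa [add_assoc] using h3

/-- Metric compatibility along a curve: `g(v,w)' = g(v' + G(c',v), w) + g(v, w' + G(c',w))`. -/
theorem IsNPCData.hasDerivAt_metric_cov {U : Set E} {g : E → E →L[ℝ] E →L[ℝ] ℝ}
    {G : E → E →L[ℝ] E →L[ℝ] E} (h : IsNPCData U g G) {c v w : ℝ → E} {c' v' w' : E} {s : ℝ}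
    (hU : c s ∈ U)
    (hc : HasDerivAt c c' s) (hv : HasDerivAt v v' s) (hw : HasDerivAt w w' s) :
    HasDerivAt (fun s => g (c s) (v s) (w s))
      (g (c s) (v' + G (c s) c' (v s)) (w s) + g (c s) (v s) (w' + G (c s) c' (w s))) s := by
  have hg : DifferentiableAt ℝ g (c s) :=
    (h.contDiffOn_g.contDiffAt (h.isOpen.mem_nhds hU)).differentiableAt (by simp)
  have := hasDerivAt_metric hg hc hv hw
  rw [h.compat _ hU] at this
  convert this using 1
  simp only [map_add, add_apply]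
  ring

theorem IsNPCData.differentiableAt_G {U : Set E} {g : E → E →L[ℝ] E →L[ℝ] ℝ}
    {G : E → E →L[ℝ] E →L[ℝ] E} (h : IsNPCData U g G) {x : E} (hx : x ∈ U) :
    DifferentiableAt ℝ G x :=
  (h.contDiffOn_G.contDiffAt (h.isOpen.mem_nhds hx)).differentiableAt (by simp)

theorem IsNPCData.differentiableAt_g {U : Set E} {g : E → E →L[ℝ] E →L[ℝ] ℝ}
    {G : E → E →L[ℝ] E →L[ℝ] E} (h : IsNPCData U g G) {x : E} (hx : x ∈ U) :
    DifferentiableAt ℝ g x :=
  (h.contDiffOn_g.contDiffAt (h.isOpen.mem_nhds hx)).differentiableAt (by simp)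

/-- The derivative of a symmetric connection is symmetric in the last two slots. -/
theorem IsNPCData.symm_fderiv_G {U : Set E} {g : E → E →L[ℝ] E →L[ℝ] ℝ}
    {G : E → E →L[ℝ] E →L[ℝ] E} (h : IsNPCData U g G) {x : E} (hx : x ∈ U) (u v w : E) :
    fderiv ℝ G x u v w = fderiv ℝ G x u w v := by
  have hG := h.differentiableAt_G hx
  have key : ∀ v w : E, HasDerivAt (fun t : ℝ => G (x + t • u) v w) (fderiv ℝ G x u v w) 0 := by
    intro v w
    have hc : HasDerivAt (fun t : ℝ => x + t • u) u 0 := by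
      simpa using ((hasDerivAt_id (0:ℝ)).smul_const u).const_add x
    have := hasDerivAt_bilin (G := G) (c := fun t : ℝ => x + t • u) (v := fun _ => v)
      (w := fun _ => w) (s := 0) (by simpa using hG) hc (hasDerivAt_const _ _)
      (hasDerivAt_const _ _)
    simpa using this
  have h1 := key v w
  have h2 := key w v
  have : (fun t : ℝ => G (x + t • u) v w) =ᶠ[𝓝 0] (fun t : ℝ => G (x + t • u) w v) := by
    have hcont : ContinuousAt (fun t : ℝ => x + t • u) 0 := by fun_prop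
    have := hcont.preimage_mem_nhds (by simpa using h.isOpen.mem_nhds hx)
    filter_upwards [this] with t ht
    exact h.symm_G _ ht _ _
  exact (h1.congr_of_eventuallyEq this.symm).unique h2

/-- Second covariant derivative of a Jacobi field. `w = c'`, `J' = K`, with `c'' = -G(c',c')` and
`K' = -(DG.J)(w,w) - 2 G(w,K)` (the linearised geodesic equation). Then `A = K + G(w,J)`
satisfies `A' + G(w,A) = -R(J,w)w`. -/
theorem IsNPCData.hasDerivAt_cov {U : Set E} {g : E → E →L[ℝ] E →L[ℝ] ℝ}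
    {G : E → E →L[ℝ] E →L[ℝ] E} (h : IsNPCData U g G) {c w J K : ℝ → E} {s : ℝ}
    (hU : c s ∈ U)
    (hc : HasDerivAt c (w s) s) (hw : HasDerivAt w (-(G (c s) (w s) (w s))) s)
    (hJ : HasDerivAt J (K s) s)
    (hK : HasDerivAt K (-(fderiv ℝ G (c s) (J s) (w s) (w s)) - (2:ℝ) • G (c s) (w s) (K s)) s) :
    HasDerivAt (fun s => K s + G (c s) (w s) (J s))
      (-(curv G (c s) (J s) (w s) (w s)) - G (c s) (w s) (K s + G (c s) (w s) (J s))) s := by
  have hG : DifferentiableAt ℝ G (c s) :=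
    (h.contDiffOn_G.contDiffAt (h.isOpen.mem_nhds hU)).differentiableAt (by simp)
  have := hK.fun_add (hasDerivAt_bilin hG hc hw hJ)
  convert this using 1
  simp only [curv, map_add, map_neg, neg_apply, two_smul]
  rw [h.symm_G _ hU (J s) (G (c s) (w s) (w s)), h.symm_G _ hU (J s) (w s),
    h.symm_fderiv_G hU (w s) (J s) (w s)]
  abel

/-- The energy density `e = g(J,J)` of a Jacobi field along a geodesic satisfies
`e(1/2) ≤ (e 0 + e 1)/2 - κ/4` whenever `κ ≤ g(DJ,DJ)` along the geodesic. -/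
theorem IsNPCData.jacobi_midpoint {U : Set E} {g : E → E →L[ℝ] E →L[ℝ] ℝ}
    {G : E → E →L[ℝ] E →L[ℝ] E} (h : IsNPCData U g G) {c w J K : ℝ → E} {κ : ℝ}
    (hU : ∀ s ∈ Icc (0:ℝ) 1, c s ∈ U)
    (hc : ∀ s ∈ Icc (0:ℝ) 1, HasDerivAt c (w s) s)
    (hw : ∀ s ∈ Icc (0:ℝ) 1, HasDerivAt w (-(G (c s) (w s) (w s))) s)
    (hJ : ∀ s ∈ Icc (0:ℝ) 1, HasDerivAt J (K s) s)
    (hK : ∀ s ∈ Icc (0:ℝ) 1,
      HasDerivAt K (-(fderiv ℝ G (c s) (J s) (w s) (w s)) - (2:ℝ) • G (c s) (w s) (K s)) s)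
    (hκ : ∀ s ∈ Icc (0:ℝ) 1,
      κ ≤ g (c s) (K s + G (c s) (w s) (J s)) (K s + G (c s) (w s) (J s))) :
    g (c (1/2)) (J (1/2)) (J (1/2)) ≤ (g (c 0) (J 0) (J 0) + g (c 1) (J 1) (J 1)) / 2 - κ / 4 := by
  apply midpoint_le_of_deriv2 (f := fun s => g (c s) (J s) (J s))
    (f' := fun s => 2 * g (c s) (K s + G (c s) (w s) (J s)) (J s))
    (f'' := fun s => 2 * (g (c s) (-(curv G (c s) (J s) (w s) (w s))) (J s) +
      g (c s) (K s + G (c s) (w s) (J s)) (K s + G (c s) (w s) (J s))))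
  · intro s hs
    have := h.hasDerivAt_metric_cov (hU s hs) (hc s hs) (hJ s hs) (hJ s hs)
    convert this using 1
    rw [h.symm_g _ (hU s hs) (J s)]
    ring
  · intro s hs
    have := (h.hasDerivAt_metric_cov (hU s hs) (hc s hs)
      (h.hasDerivAt_cov (hU s hs) (hc s hs) (hw s hs) (hJ s hs) (hK s hs)) (hJ s hs)).const_mul
      (2:ℝ)
    rw [sub_add_cancel] at this
    exact this
  · intro s hs
    have h1 := h.curv_nonpos _ (hU s hs) (J s) (w s)
    have h2 := hκ s hs
    have : 0 ≤ g (c s) (-(curv G (c s) (J s) (w s) (w s))) (J s) := by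
      rw [map_neg, neg_apply]
      linarith
    linarith

end

end Crest.Agent.R244
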