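import Crest.Agent.R244.MetricDefs

/-!
# R244 package B2a : local consequences of `LocalCN`

All lemmas assume that all points involved are at mutual distance `< r` (or `< r/3`), so that the
CN inequality can be applied. `mid h a b` is the chosen midpoint.
-/

set_option autoImplicit false

open Filter Topology

namespace Crest.Agent.R244

variable {M : Type*} [MetricSpace M] {r : ℝ}

open Classical in
/-- The chosen midpoint of `a` and `b` (junk value `a` when `dist a b ≥ r`). -/
noncomputable def mid (h : LocalCN M r) (a b : M) : M :=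
  if hab : dist a b < r then (h.2 a b hab).choose else a

theorem mid_CN (h : LocalCN M r) {a b p : M} (hab : dist a b < r) (hpa : dist p a < r)
    (hpb : dist p b < r) :
    dist p (mid h a b) ^ 2 ≤ dist p a ^ 2 / 2 + dist p b ^ 2 / 2 - dist a b ^ 2 / 4 := by
  unfold mid
  rw [dif_pos hab]
  exact (h.2 a b hab).choose_spec p hpa hpb

private theorem left_mid_le (h : LocalCN M r) {a b : M} (hab : dist a b < r) :
    dist a (mid h a b) ≤ dist a b / 2 := by
  have h1 := mid_CN h hab (p := a) (by simpa using h.1) hab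
  rw [dist_self] at h1
  refine abs_le_of_sq_le_sq' (b := dist a b / 2) ?_ (by positivity) |>.2
  nlinarith [h1]

private theorem right_mid_le (h : LocalCN M r) {a b : M} (hab : dist a b < r) :
    dist b (mid h a b) ≤ dist a b / 2 := by
  have h1 := mid_CN h hab (p := b) (by rwa [dist_comm]) (by simpa using h.1)
  rw [dist_self, dist_comm b a] at h1
  refine abs_le_of_sq_le_sq' (b := dist a b / 2) ?_ (by positivity) |>.2
  nlinarith [h1]

theorem dist_left_mid (h : LocalCN M r) {a b : M} (hab : dist a b < r) :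
    dist a (mid h a b) = dist a b / 2 := by
  have h1 := left_mid_le h hab
  have h2 := right_mid_le h hab
  have h3 := dist_triangle_right a b (mid h a b)
  linarith

theorem dist_right_mid (h : LocalCN M r) {a b : M} (hab : dist a b < r) :
    dist b (mid h a b) = dist a b / 2 := by
  have h1 := left_mid_le h hab
  have h2 := right_mid_le h hab
  have h3 := dist_triangle_right a b (mid h a b)
  linarith

theorem mid_unique (h : LocalCN M r) {a b m : M} (hab : dist a b < r)
    (h1 : dist a m ≤ dist a b / 2) (h2 : dist b m ≤ dist a b / 2) : m = mid h a b := by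
  have hr := h.1
  have hd : 0 ≤ dist a b := dist_nonneg
  have h3 := mid_CN h hab (p := m) (by rw [dist_comm]; linarith) (by rw [dist_comm]; linarith)
  rw [dist_comm m a, dist_comm m b] at h3
  have h4 : dist m (mid h a b) ^ 2 ≤ 0 := by
    have e1 : dist a m ^ 2 ≤ (dist a b / 2) ^ 2 := by
      apply pow_le_pow_left₀ dist_nonneg h1
    have e2 : dist b m ^ 2 ≤ (dist a b / 2) ^ 2 := by
      apply pow_le_pow_left₀ dist_nonneg h2
    nlinarith
  have h5 : dist m (mid h a b) = 0 := by
    have := sq_nonneg (dist m (mid h a b))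
    exact pow_eq_zero_iff (two_ne_zero) |>.1 (le_antisymm h4 this)
  exact dist_eq_zero.1 h5

theorem mid_self (h : LocalCN M r) (a : M) : mid h a a = a := by
  symm
  apply mid_unique h (by simpa using h.1) <;> simp

theorem mid_comm (h : LocalCN M r) {a b : M} (hab : dist a b < r) : mid h a b = mid h b a := by
  have hba : dist b a < r := by rwa [dist_comm]
  apply mid_unique h hba
  · rw [dist_right_mid h hab, dist_comm b a]
  · rw [dist_left_mid h hab, dist_comm b a]

/-- the midpoint of `a b` is at distance `< r` from any point which is `r`-close to `a` and `b` -/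
theorem dist_mid_lt (h : LocalCN M r) {a b p : M} (hab : dist a b < r) (hpa : dist p a < r)
    (hpb : dist p b < r) : dist p (mid h a b) < r := by
  have h1 := mid_CN h hab hpa hpb
  have hr := h.1
  have e1 : dist p a ^ 2 < r ^ 2 := pow_lt_pow_left₀ hpa dist_nonneg two_ne_zero
  have e2 : dist p b ^ 2 < r ^ 2 := pow_lt_pow_left₀ hpb dist_nonneg two_ne_zero
  have h2 : dist p (mid h a b) ^ 2 < r ^ 2 := by nlinarith [sq_nonneg (dist a b)]
  exact lt_of_pow_lt_pow_left₀ 2 hr.le h2

/-- weak quadrilateral inequality -/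
theorem quad_weak (h : LocalCN M r) {x₁ x₂ x₃ x₄ : M} (h12 : dist x₁ x₂ < r)
    (h13 : dist x₁ x₃ < r) (h14 : dist x₁ x₄ < r) (h23 : dist x₂ x₃ < r) (h24 : dist x₂ x₄ < r)
    (h34 : dist x₃ x₄ < r) :
    dist x₁ x₃ ^ 2 + dist x₂ x₄ ^ 2 ≤
      dist x₁ x₂ ^ 2 + dist x₂ x₃ ^ 2 + dist x₃ x₄ ^ 2 + dist x₄ x₁ ^ 2 := by
  have h21 : dist x₂ x₁ < r := by rwa [dist_comm]
  have h41 : dist x₄ x₁ < r := by rwa [dist_comm]
  have h43 : dist x₄ x₃ < r := by rwa [dist_comm]
  have a1 := mid_CN h h13 h21 h23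
  have a2 := mid_CN h h13 h41 h43
  have b1 := dist_mid_lt h h13 h21 h23
  have b2 := dist_mid_lt h h13 h41 h43
  rw [dist_comm] at b1 b2
  have a3 := mid_CN h h24 b1 b2
  rw [dist_comm (mid h x₁ x₃) x₂, dist_comm (mid h x₁ x₃) x₄] at a3
  have a4 := sq_nonneg (dist (mid h x₁ x₃) (mid h x₂ x₄))
  rw [dist_comm x₂ x₁] at a1
  rw [dist_comm x₄ x₃] at a2
  nlinarith

/-- triangle comparison for midpoints -/
theorem dist_mid_mid_left (h : LocalCN M r) {a b b' : M} (hab : dist a b < r)
    (hab' : dist a b' < r) (hbb' : dist b b' < r) :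
    dist (mid h a b) (mid h a b') ≤ dist b b' / 2 := by
  have hb'a : dist b' a < r := by rwa [dist_comm]
  have hb'b : dist b' b < r := by rwa [dist_comm]
  have haa : dist a a < r := by simpa using h.1
  have a1 := mid_CN h hab hb'a hb'b
  have b1 := dist_mid_lt h hab hb'a hb'b
  have b2 := dist_mid_lt h hab haa hab
  rw [dist_comm] at b1 b2
  have a2 := mid_CN h hab' b2 b1
  have a3 := dist_left_mid h hab
  rw [dist_comm (mid h a b) a, dist_comm (mid h a b) b', a3] at a2
  rw [dist_comm b' a, dist_comm b' b] at a1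
  refine abs_le_of_sq_le_sq' (b := dist b b' / 2) ?_ (by positivity) |>.2
  nlinarith

/-- Points at parameter `t` on the short geodesic from `a` to `b`. -/
def HasParam (r : ℝ) (a b : M) (t : ℝ) (p : M) : Prop :=
  ∀ z : M, dist z a < r → dist z b < r →
    dist z p ^ 2 ≤ (1 - t) * dist z a ^ 2 + t * dist z b ^ 2 - t * (1 - t) * dist a b ^ 2

theorem HasParam.left_le {a b p : M} {t : ℝ} (hr : 0 < r) (hp : HasParam r a b t p)
    (hab : dist a b < r) (ht : 0 ≤ t) : dist a p ≤ t * dist a b := by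
  have h1 := hp a (by simpa using hr) hab
  rw [dist_self] at h1
  refine abs_le_of_sq_le_sq' (b := t * dist a b) ?_ (by positivity) |>.2
  nlinarith

theorem HasParam.right_le {a b p : M} {t : ℝ} (hr : 0 < r) (hp : HasParam r a b t p)
    (hab : dist a b < r) (ht : t ≤ 1) : dist b p ≤ (1 - t) * dist a b := by
  have h1 := hp b (by rwa [dist_comm]) (by simpa using hr)
  rw [dist_self, dist_comm b a] at h1
  have h0 : 0 ≤ (1 - t) * dist a b := mul_nonneg (by linarith) dist_nonneg
  refine abs_le_of_sq_le_sq' (b := (1 - t) * dist a b) ?_ h0 |>.2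
  nlinarith

theorem HasParam.left_eq {a b p : M} {t : ℝ} (hr : 0 < r) (hp : HasParam r a b t p)
    (hab : dist a b < r) (ht : 0 ≤ t) (ht1 : t ≤ 1) : dist a p = t * dist a b := by
  have h1 := hp.left_le hr hab ht
  have h2 := hp.right_le hr hab ht1
  have h3 := dist_triangle_right a b p
  nlinarith

theorem HasParam.right_eq {a b p : M} {t : ℝ} (hr : 0 < r) (hp : HasParam r a b t p)
    (hab : dist a b < r) (ht : 0 ≤ t) (ht1 : t ≤ 1) : dist b p = (1 - t) * dist a b := by
  have h1 := hp.left_le hr hab ht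
  have h2 := hp.right_le hr hab ht1
  have h3 := dist_triangle_right a b p
  nlinarith

theorem HasParam.dist_lt {a b p z : M} {t : ℝ} (hr : 0 < r) (hp : HasParam r a b t p)
    (ht : 0 ≤ t) (ht1 : t ≤ 1) (hza : dist z a < r) (hzb : dist z b < r) : dist z p < r := by
  have h1 := hp z hza hzb
  have e1 : dist z a ^ 2 < r ^ 2 := pow_lt_pow_left₀ hza dist_nonneg two_ne_zero
  have e2 : dist z b ^ 2 < r ^ 2 := pow_lt_pow_left₀ hzb dist_nonneg two_ne_zero
  have h0 : 0 ≤ t * (1 - t) * dist a b ^ 2 :=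
    mul_nonneg (mul_nonneg ht (by linarith)) (sq_nonneg _)
  have h2 : dist z p ^ 2 < r ^ 2 := by
    rcases eq_or_lt_of_le ht with h | h
    · subst h; nlinarith
    · nlinarith
  exact lt_of_pow_lt_pow_left₀ 2 hr.le h2

theorem HasParam.mid (h : LocalCN M r) {a b p q : M} {s t : ℝ} (hp : HasParam r a b s p)
    (hq : HasParam r a b t q) (hab : dist a b < r) (hs : 0 ≤ s) (hs1 : s ≤ 1) (ht : 0 ≤ t)
    (ht1 : t ≤ 1) : HasParam r a b ((s + t) / 2) (R244.mid h p q) := by
  have hr := h.1
  have haa : dist a a < r := by simpa using hr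
  have hba : dist b a < r := by rwa [dist_comm]
  have hbb : dist b b < r := by simpa using hr
  -- `dist p q = |s - t| * dist a b`
  have hap := hp.left_eq hr hab hs hs1
  have hbp := hp.right_eq hr hab hs hs1
  have haq := hq.left_eq hr hab ht ht1
  have hbq := hq.right_eq hr hab ht ht1
  have hlow : (s - t) ^ 2 * dist a b ^ 2 ≤ dist p q ^ 2 := by
    have e1 := abs_dist_sub_le p q a
    have e2 : |dist p a - dist q a| ^ 2 ≤ dist p q ^ 2 :=
      pow_le_pow_left₀ (abs_nonneg _) e1 2
    rw [sq_abs, dist_comm p a, dist_comm q a, hap, haq] at e2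
    nlinarith
  have hpa : dist p a < r := by rw [dist_comm]; exact hp.dist_lt hr hs hs1 haa hab
  have hpb : dist p b < r := by rw [dist_comm]; exact hp.dist_lt hr hs hs1 hba hbb
  have hpq : dist p q < r := hq.dist_lt hr ht ht1 hpa hpb
  intro z hza hzb
  have hzp := hp.dist_lt hr hs hs1 hza hzb
  have hzq := hq.dist_lt hr ht ht1 hza hzb
  have h1 := mid_CN h hpq hzp hzq
  have h2 := hp z hza hzb
  have h3 := hq z hza hzb
  nlinarith

theorem hasParam_zero (a b : M) : HasParam r a b 0 a := by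
  intro z _ _; nlinarith

theorem hasParam_one (a b : M) : HasParam r a b 1 b := by
  intro z _ _; nlinarith

/-- a closed midpoint-closed subset of `[0,1]` containing `0` and `1` is everything -/
theorem mem_of_closed_midpoint {S : Set ℝ} (hS : IsClosed S) (h0 : (0 : ℝ) ∈ S) (h1 : (1 : ℝ) ∈ S)
    (hm : ∀ s ∈ S, ∀ t ∈ S, 0 ≤ s → s ≤ 1 → 0 ≤ t → t ≤ 1 → (s + t) / 2 ∈ S)
    {t : ℝ} (ht0 : 0 ≤ t) (ht1 : t ≤ 1) : t ∈ S := by
  set A : Set ℝ := S ∩ Set.Icc 0 t with hA
  set B : Set ℝ := S ∩ Set.Icc t 1 with hB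
  have hAc : IsCompact A := isCompact_Icc.inter_left hS
  have hBc : IsCompact B := isCompact_Icc.inter_left hS
  have hAn : A.Nonempty := ⟨0, h0, le_refl _, ht0⟩
  have hBn : B.Nonempty := ⟨1, h1, ht1, le_refl _⟩
  obtain ⟨hsS, hs0, hst⟩ := hAc.sSup_mem hAn
  obtain ⟨huS, htu, hu1⟩ := hBc.sInf_mem hBn
  set s := sSup A
  set u := sInf B
  by_cases hsu : s = t
  · rwa [← hsu]
  by_cases hut : u = t
  · rwa [← hut]
  exfalso
  have hslt : s < t := lt_of_le_of_ne hst hsu
  have hult : t < u := lt_of_le_of_ne htu (Ne.symm hut)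
  have hmS := hm s hsS u huS hs0 (by linarith) (by linarith) hu1
  rcases le_total ((s + u) / 2) t with hle | hle
  · have : (s + u) / 2 ≤ s := le_csSup hAc.bddAbove ⟨hmS, by constructor <;> linarith⟩
    linarith
  · have : u ≤ (s + u) / 2 := csInf_le hBc.bddBelow ⟨hmS, by constructor <;> linarith⟩
    linarith

theorem exists_hasParam [CompactSpace M] (h : LocalCN M r) {a b : M} (hab : dist a b < r)
    {t : ℝ} (ht0 : 0 ≤ t) (ht1 : t ≤ 1) : ∃ p, HasParam r a b t p := by
  have key : t ∈ {t : ℝ | ∃ p, HasParam r a b t p} := by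
    refine mem_of_closed_midpoint (S := {t : ℝ | ∃ p, HasParam r a b t p}) ?_
      ⟨a, hasParam_zero a b⟩ ⟨b, hasParam_one a b⟩ ?_ ht0 ht1
    · -- closedness
      have hK : IsClosed {x : ℝ × M | HasParam r a b x.1 x.2} := by
        have : {x : ℝ × M | HasParam r a b x.1 x.2} = ⋂ z : M, ⋂ (_ : dist z a < r),
            ⋂ (_ : dist z b < r), {x : ℝ × M | dist z x.2 ^ 2 ≤
              (1 - x.1) * dist z a ^ 2 + x.1 * dist z b ^ 2 - x.1 * (1 - x.1) * dist a b ^ 2} := by
          ext x; simp [HasParam]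
        rw [this]
        refine isClosed_iInter fun z => isClosed_iInter fun _ => isClosed_iInter fun _ => ?_
        apply isClosed_le <;> fun_prop
      have himg := isClosedMap_fst_of_compactSpace (X := ℝ) (Y := M) _ hK
      convert himg using 1
      ext s; simp
    · rintro s ⟨p, hp⟩ t ⟨q, hq⟩ hs0 hs1 ht0 ht1
      exact ⟨_, hp.mid h hq hab hs0 hs1 ht0 ht1⟩
  exact key

/-- subdivision of a short geodesic into `n` equal parts (dyadic subdivision + compactness) -/
theorem exists_subdivision [CompactSpace M] (h : LocalCN M r) {a b : M} (hab : dist a b < r)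
    (n : ℕ) (hn : 0 < n) :
    ∃ x : ℕ → M, x 0 = a ∧ x n = b ∧ ∀ i ≤ n, ∀ j ≤ n, i ≤ j →
      dist (x i) (x j) = ((j : ℝ) - i) / n * dist a b := by
  have hr := h.1
  have hn' : (0 : ℝ) < n := by exact_mod_cast hn
  have hex : ∀ i : ℕ, i ≤ n → ∃ p, HasParam r a b ((i : ℝ) / n) p := fun i hi =>
    exists_hasParam h hab (by positivity)
      (by rw [div_le_one hn']; exact_mod_cast hi)
  classical
  let x : ℕ → M := fun i => if hi : i ≤ n then (hex i hi).choose else a
  have hx : ∀ i, i ≤ n → HasParam r a b ((i : ℝ) / n) (x i) := by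
    intro i hi
    simp only [x, dif_pos hi]
    exact (hex i hi).choose_spec
  have h01 : ∀ i, i ≤ n → 0 ≤ ((i : ℝ) / n) ∧ ((i : ℝ) / n) ≤ 1 := fun i hi =>
    ⟨by positivity, by rw [div_le_one hn']; exact_mod_cast hi⟩
  refine ⟨x, ?_, ?_, ?_⟩
  · have h1 := (hx 0 (Nat.zero_le _)).left_eq hr hab (h01 0 (Nat.zero_le _)).1
      (h01 0 (Nat.zero_le _)).2
    simp at h1
    exact h1.symm
  · have h1 := (hx n le_rfl).right_eq hr hab (h01 n le_rfl).1 (h01 n le_rfl).2
    rw [div_self hn'.ne'] at h1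
    simp at h1
    exact h1.symm
  · intro i hi j hj hij
    obtain ⟨hi0, hi1⟩ := h01 i hi
    obtain ⟨hj0, hj1⟩ := h01 j hj
    have ai := (hx i hi).left_eq hr hab hi0 hi1
    have bi := (hx i hi).right_eq hr hab hi0 hi1
    have aj := (hx j hj).left_eq hr hab hj0 hj1
    have hia : dist (x i) a < r := by
      rw [dist_comm]; exact (hx i hi).dist_lt hr hi0 hi1 (by simpa using hr) hab
    have hib : dist (x i) b < r := by
      rw [dist_comm]
      exact (hx i hi).dist_lt hr hi0 hi1 (by rwa [dist_comm]) (by simpa using hr)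
    have h1 := hx j hj (x i) hia hib
    rw [dist_comm (x i) a, dist_comm (x i) b, ai, bi] at h1
    have hij' : (i : ℝ) / n ≤ (j : ℝ) / n := by
      have : (i : ℝ) ≤ j := by exact_mod_cast hij
      gcongr
    have hsub : ((j : ℝ) - i) / n = (j : ℝ) / n - (i : ℝ) / n := by ring
    rw [hsub]
    set s := (i : ℝ) / n
    set t := (j : ℝ) / n
    apply le_antisymm
    · have h0 : 0 ≤ (t - s) * dist a b := mul_nonneg (by linarith) dist_nonneg
      refine abs_le_of_sq_le_sq' (b := (t - s) * dist a b) ?_ h0 |>.2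
      nlinarith
    · have h2 := dist_triangle a (x i) (x j)
      rw [ai, aj] at h2
      linarith

/-- strong quadrilateral inequality (quasi Cauchy-Schwarz) -/
theorem quad_strong [CompactSpace M] (h : LocalCN M r) {x₁ x₂ x₃ x₄ : M}
    (h12 : dist x₁ x₂ < r / 3) (h14 : dist x₁ x₄ < r / 3) (h34 : dist x₃ x₄ < r / 3) :
    dist x₁ x₃ ^ 2 + dist x₂ x₄ ^ 2 ≤
      dist x₂ x₃ ^ 2 + dist x₁ x₄ ^ 2 + 2 * dist x₁ x₂ * dist x₃ x₄ := by
  have hr := h.1
  have h13 : dist x₁ x₃ < r := by
    have := dist_triangle_right x₁ x₃ x₄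
    linarith
  have h24 : dist x₂ x₄ < r := by
    have := dist_triangle_left x₂ x₄ x₁
    linarith
  have h23 : dist x₂ x₃ < r := by
    have := dist_triangle_left x₂ x₃ x₁
    have := dist_triangle_right x₁ x₃ x₄
    linarith
  have h12r : dist x₁ x₂ < r := by linarith
  have h14r : dist x₁ x₄ < r := by linarith
  have h34r : dist x₃ x₄ < r := by linarith
  rcases eq_or_lt_of_le (dist_nonneg (x := x₁) (y := x₂)) with hA | hA
  · have : x₁ = x₂ := dist_eq_zero.1 hA.symm
    subst this
    simp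
  rcases eq_or_lt_of_le (dist_nonneg (x := x₃) (y := x₄)) with hB | hB
  · have : x₃ = x₄ := dist_eq_zero.1 hB.symm
    subst this
    simp
    linarith
  set A := dist x₁ x₂ with hAdef
  set B := dist x₃ x₄ with hBdef
  set t := A / (A + B) with ht
  have hAB : 0 < A + B := by linarith
  have ht0 : 0 ≤ t := by positivity
  have ht1 : t ≤ 1 := by rw [ht, div_le_one hAB]; linarith
  have h1t : 1 - t = B / (A + B) := by rw [ht]; field_simp; ring
  obtain ⟨p, hp⟩ := exists_hasParam h (a := x₁) (b := x₃) h13 ht0 ht1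
  obtain ⟨q, hq⟩ := exists_hasParam h (a := x₂) (b := x₄) h24 ht0 ht1
  have e2 := hp x₂ (by rwa [dist_comm]) h23
  have e3 := hp x₄ (by rwa [dist_comm]) (by rwa [dist_comm])
  have d2 := hp.dist_lt hr ht0 ht1 (z := x₂) (by rwa [dist_comm]) h23
  have d4 := hp.dist_lt hr ht0 ht1 (z := x₄) (by rwa [dist_comm]) (by rwa [dist_comm])
  have e1 := hq p (by rwa [dist_comm]) (by rwa [dist_comm])
  have e0 := sq_nonneg (dist p q)
  rw [dist_comm p x₂, dist_comm p x₄] at e1
  rw [dist_comm x₂ x₁, ← hAdef] at e2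
  rw [dist_comm x₄ x₁, dist_comm x₄ x₃, ← hBdef] at e3
  have key : 0 ≤ (1 - t) ^ 2 * A ^ 2 + t ^ 2 * B ^ 2 -
      t * (1 - t) * (dist x₁ x₃ ^ 2 + dist x₂ x₄ ^ 2 - dist x₂ x₃ ^ 2 - dist x₁ x₄ ^ 2) := by
    have i1 := mul_le_mul_of_nonneg_left e2 (show (0:ℝ) ≤ 1 - t by linarith)
    have i2 := mul_le_mul_of_nonneg_left e3 ht0
    nlinarith
  rw [h1t, ht] at key
  have hkey2 : 0 ≤ 2 * A * B -
      (dist x₁ x₃ ^ 2 + dist x₂ x₄ ^ 2 - dist x₂ x₃ ^ 2 - dist x₁ x₄ ^ 2) := by
    have hpos : 0 < A * B / (A + B) ^ 2 := by positivity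
    have : (B / (A + B)) ^ 2 * A ^ 2 + (A / (A + B)) ^ 2 * B ^ 2 -
        A / (A + B) * (B / (A + B)) *
          (dist x₁ x₃ ^ 2 + dist x₂ x₄ ^ 2 - dist x₂ x₃ ^ 2 - dist x₁ x₄ ^ 2) =
        A * B / (A + B) ^ 2 * (2 * A * B -
          (dist x₁ x₃ ^ 2 + dist x₂ x₄ ^ 2 - dist x₂ x₃ ^ 2 - dist x₁ x₄ ^ 2)) := by
      field_simp
      ring
    rw [this] at key
    exact nonneg_of_mul_nonneg_right key hpos
  linarith

/-- midpoint comparison with gap -/
theorem dist_mid_mid_sq [CompactSpace M] (h : LocalCN M r) {x x' y y' : M}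
    (hx : dist x x' < r / 3) (hy : dist y y' < r / 3) (hxy : dist x y < r / 3) :
    dist (mid h x x') (mid h y y') ^ 2 ≤
      dist x y ^ 2 / 2 + dist x' y' ^ 2 / 2 - (dist x x' - dist y y') ^ 2 / 4 := by
  have hr := h.1
  have hq := quad_strong h (x₁ := x) (x₂ := x') (x₃ := y') (x₄ := y) hx hxy
    (by rwa [dist_comm])
  have hxy' : dist x y' < r := by
    have := dist_triangle x y y'
    linarith
  have hx'y : dist x' y < r := by
    have := dist_triangle_left x' y x
    linarith
  have hx'y' : dist x' y' < r := by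
    have := dist_triangle_left x' y' x
    have := dist_triangle x y y'
    linarith
  have a1 := mid_CN h (a := x) (b := x') (p := y) (by linarith)
    (by rw [dist_comm]; linarith) (by rwa [dist_comm])
  have a2 := mid_CN h (a := x) (b := x') (p := y') (by linarith)
    (by rwa [dist_comm]) (by rwa [dist_comm])
  have b1 := dist_mid_lt h (a := x) (b := x') (p := y) (by linarith)
    (by rw [dist_comm]; linarith) (by rwa [dist_comm])
  have b2 := dist_mid_lt h (a := x) (b := x') (p := y') (by linarith)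
    (by rwa [dist_comm]) (by rwa [dist_comm])
  rw [dist_comm] at b1 b2
  have a3 := mid_CN h (a := y) (b := y') (by linarith) b1 b2
  rw [dist_comm (mid h x x') y, dist_comm (mid h x x') y'] at a3
  rw [dist_comm y x, dist_comm y x'] at a1
  rw [dist_comm y' x, dist_comm y' x'] at a2
  rw [dist_comm y' y] at hq
  nlinarith

/-- Busemann convexity of the metric at small scale -/
theorem dist_mid_mid (h : LocalCN M r) {x x' y y' : M}
    (hx : dist x x' < r / 3) (hy : dist y y' < r / 3) (hxy : dist x y < r / 3) :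
    dist (mid h x x') (mid h y y') ≤ dist x y / 2 + dist x' y' / 2 := by
  have hr := h.1
  have hxy' : dist x y' < r := by
    have := dist_triangle x y y'
    linarith
  have hx'y' : dist x' y' < r := by
    have := dist_triangle_left x' y' x
    have := dist_triangle x y y'
    linarith
  have h1 := dist_mid_mid_left h (a := x) (b := x') (b' := y') (by linarith) hxy' hx'y'
  have h2 := dist_mid_mid_left h (a := y') (b := x) (b' := y) (by rwa [dist_comm])
    (by rw [dist_comm]; linarith) (by linarith)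
  rw [mid_comm h (a := y') (b := x) (by rwa [dist_comm]),
    mid_comm h (a := y') (b := y) (by rw [dist_comm]; linarith)] at h2
  have h3 := dist_triangle (mid h x x') (mid h x y') (mid h y y')
  linarith

end Crest.Agent.R244
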