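/-
R244 (S0377), work package B4, part 1: path holonomies.
A `Hol Y G` assigns to each path in `Y` an element of the group `G`, multiplicatively and
homotopy invariantly.  For a function `F` from a vector space to `Y`, `S F p q` is the holonomy of
`F` along the straight segment from `p` to `q`.
-/
import Mathlib

set_option autoImplicit false

namespace Crest.Agent.R244.Loops

open unitInterval Set

/-- A multiplicative, homotopy invariant assignment of group elements to paths. -/
structure Hol (Y : Type*) [TopologicalSpace Y] (G : Type*) [Group G] where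
  hol : ∀ {x y : Y}, Path x y → G
  hol_trans : ∀ {x y z : Y} (p : Path x y) (q : Path y z), hol (p.trans q) = hol p * hol q
  hol_homotopic : ∀ {x y : Y} (p q : Path x y), p.Homotopic q → hol p = hol q

namespace Hol

variable {Y : Type*} [TopologicalSpace Y] {G : Type*} [Group G] (H : Hol Y G)

theorem hol_congr {x y x' y' : Y} (p : Path x y) (q : Path x' y') (h : ∀ t, p t = q t) :
    H.hol p = H.hol q := by
  have h0 : x = x' := by simpa using h 0
  have h1 : y = y' := by simpa using h 1
  subst h0; subst h1
  congr 1
  ext t; exact h t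

theorem hol_refl (x : Y) : H.hol (Path.refl x) = 1 := by
  have h := H.hol_trans (Path.refl x) (Path.refl x)
  rw [Path.refl_trans_refl] at h
  exact (mul_eq_left.mp h.symm)

/-- A continuous curve `I → Y` as a path between its endpoints. -/
def curve (f : I → Y) (hf : Continuous f) : Path (f 0) (f 1) := ⟨⟨f, hf⟩, rfl, rfl⟩

@[simp] theorem curve_apply (f : I → Y) (hf : Continuous f) (t : I) : curve f hf t = f t := rfl

section Vec

variable {E : Type*} [AddCommGroup E] [Module ℝ E] [TopologicalSpace E]
  [ContinuousAdd E] [ContinuousSMul ℝ E]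
variable {E' : Type*} [AddCommGroup E'] [Module ℝ E'] [TopologicalSpace E']
  [ContinuousAdd E'] [ContinuousSMul ℝ E']

/-- straight line parametrization -/
def line (p q : E) (t : I) : E := (1 - (t : ℝ)) • p + (t : ℝ) • q

omit [TopologicalSpace E] [ContinuousAdd E] [ContinuousSMul ℝ E] in
@[simp] theorem line_zero (p q : E) : line p q 0 = p := by simp [line]
omit [TopologicalSpace E] [ContinuousAdd E] [ContinuousSMul ℝ E] in
@[simp] theorem line_one (p q : E) : line p q 1 = q := by simp [line]

theorem continuous_line (p q : E) : Continuous (line p q) := by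
  unfold line; fun_prop

omit [TopologicalSpace E] [ContinuousAdd E] [ContinuousSMul ℝ E] in
theorem line_mem {K : Set E} (hK : Convex ℝ K) {p q : E} (hp : p ∈ K) (hq : q ∈ K) (t : I) :
    line p q t ∈ K :=
  hK hp hq (by linarith [t.2.2]) t.2.1 (by ring)

open Classical in
/-- Holonomy of `F` along the segment from `p` to `q` (junk value `1` if `F` is not continuous
along the segment). -/
noncomputable def S (F : E → Y) (p q : E) : G :=
  if h : Continuous (fun t : I => F (line p q t)) then H.hol (curve _ h) else 1

omit [TopologicalSpace E] [ContinuousAdd E] [ContinuousSMul ℝ E] in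
theorem S_of_continuous (F : E → Y) (p q : E) (h : Continuous (fun t : I => F (line p q t))) :
    H.S F p q = H.hol (curve _ h) := by
  simp [S, h]

/-- Main homotopy lemma: two curves with the same endpoints in a convex set on which `F` is
continuous. -/
theorem hol_eq_of_convex {F : E → Y} {K : Set E} (hK : Convex ℝ K) (hF : ContinuousOn F K)
    (f g : I → E) (hf : Continuous f) (hg : Continuous g) (hfK : ∀ t, f t ∈ K) (hgK : ∀ t, g t ∈ K)
    (h0 : f 0 = g 0) (h1 : f 1 = g 1)
    {x y x' y' : Y} (p : Path x y) (q : Path x' y') (hp : ∀ t, p t = F (f t))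
    (hq : ∀ t, q t = F (g t)) :
    H.hol p = H.hol q := by
  have e0 : x = x' := by
    have a := hp 0; have b := hq 0
    simp only [Path.source] at a b
    rw [a, b, h0]
  have e1 : y = y' := by
    have a := hp 1; have b := hq 1
    simp only [Path.target] at a b
    rw [a, b, h1]
  subst e0; subst e1
  apply H.hol_homotopic
  refine ⟨⟨⟨⟨fun z : I × I => F ((1 - (z.1 : ℝ)) • f z.2 + (z.1 : ℝ) • g z.2), ?_⟩, ?_, ?_⟩, ?_⟩⟩
  · rw [← continuousOn_univ]
    refine hF.comp (by fun_prop) ?_
    intro z _
    exact hK (hfK _) (hgK _) (by linarith [z.1.2.2]) z.1.2.1 (by ring)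
  · intro t; simp [hp]
  · intro t; simp [hq]
  · intro t s hs
    rcases hs with hs | hs
    · subst hs
      simp only [ContinuousMap.coe_mk, Path.coe_toContinuousMap]
      rw [hp 0, ← h0, ← add_smul]; simp
    · rw [mem_singleton_iff] at hs
      subst hs
      simp only [ContinuousMap.coe_mk, Path.coe_toContinuousMap]
      rw [hp 1, ← h1, ← add_smul]; simp

/-- The segment holonomy of `F = F' ∘ P` equals that of `F'` between the image points, provided the
image of the segment stays in a convex set on which `F'` is continuous. -/
theorem S_comp {F : E → Y} {F' : E' → Y} {K : Set E'} (hK : Convex ℝ K) (hF' : ContinuousOn F' K)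
    (P : E → E') {a b : E} (hP : Continuous fun t : I => P (line a b t))
    (hPK : ∀ t : I, P (line a b t) ∈ K) (hFP : ∀ t : I, F (line a b t) = F' (P (line a b t))) :
    H.S F a b = H.S F' (P a) (P b) := by
  have ha : P a ∈ K := by simpa using hPK 0
  have hb : P b ∈ K := by simpa using hPK 1
  have c1 : Continuous fun t : I => F (line a b t) := by
    have : (fun t : I => F (line a b t)) = fun t : I => F' (P (line a b t)) := funext hFP
    rw [this, ← continuousOn_univ]
    exact hF'.comp hP.continuousOn (fun t _ => hPK t)
  have c2 : Continuous fun t : I => F' (line (P a) (P b) t) := by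
    rw [← continuousOn_univ]
    exact hF'.comp (continuous_line _ _).continuousOn (fun t _ => line_mem hK ha hb t)
  rw [H.S_of_continuous _ _ _ c1, H.S_of_continuous _ _ _ c2]
  exact H.hol_eq_of_convex hK hF' (fun t => P (line a b t)) (line (P a) (P b)) hP
    (continuous_line _ _) hPK (fun t => line_mem hK ha hb t) (by simp) (by simp) _ _
    (fun t => by simp [hFP]) (fun t => by simp)

/-- Triangle rule. -/
theorem S_mul {F : E → Y} {K : Set E} (hK : Convex ℝ K) (hF : ContinuousOn F K) {a b c : E}
    (ha : a ∈ K) (hb : b ∈ K) (hc : c ∈ K) : H.S F a b * H.S F b c = H.S F a c := by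
  have cc : ∀ {p q : E}, p ∈ K → q ∈ K → Continuous fun t : I => F (line p q t) := by
    intro p q hp hq
    rw [← continuousOn_univ]
    exact hF.comp (continuous_line _ _).continuousOn (fun t _ => line_mem hK hp hq t)
  rw [H.S_of_continuous _ _ _ (cc ha hb), H.S_of_continuous _ _ _ (cc hb hc),
    H.S_of_continuous _ _ _ (cc ha hc)]
  let pab : Path a b := ⟨⟨line a b, continuous_line _ _⟩, by simp, by simp⟩
  let pbc : Path b c := ⟨⟨line b c, continuous_line _ _⟩, by simp, by simp⟩
  let qab : Path (F a) (F b) := ⟨⟨fun t => F (line a b t), cc ha hb⟩, by simp, by simp⟩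
  let qbc : Path (F b) (F c) := ⟨⟨fun t => F (line b c t), cc hb hc⟩, by simp, by simp⟩
  have e1 : H.hol (curve _ (cc ha hb)) = H.hol qab := H.hol_congr _ _ (fun t => rfl)
  have e2 : H.hol (curve _ (cc hb hc)) = H.hol qbc := H.hol_congr _ _ (fun t => rfl)
  rw [e1, e2, ← H.hol_trans]
  refine H.hol_eq_of_convex hK hF (pab.trans pbc) (line a c) (Path.continuous _)
    (continuous_line _ _) ?_ (fun t => line_mem hK ha hc t) (by simp) (by simp) _ _ ?_
    (fun t => rfl)
  · intro t
    rw [Path.trans_apply]
    split_ifs with h
    · exact line_mem hK ha hb _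
    · exact line_mem hK hb hc _
  · intro t
    rw [Path.trans_apply, Path.trans_apply]
    split_ifs with h
    · rfl
    · rfl

theorem S_self (F : E → Y) (a : E) : H.S F a a = 1 := by
  have h : (fun t : I => F (line a a t)) = fun _ => F a := by
    funext t; congr 1; simp [line, ← add_smul]
  have hc : Continuous fun t : I => F (line a a t) := by rw [h]; exact continuous_const
  rw [H.S_of_continuous _ _ _ hc, ← H.hol_refl (F a)]
  exact H.hol_congr _ _ (fun t => congrFun h t)

theorem S_inv {F : E → Y} {K : Set E} (hK : Convex ℝ K) (hF : ContinuousOn F K) {a b : E}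
    (ha : a ∈ K) (hb : b ∈ K) : H.S F b a = (H.S F a b)⁻¹ := by
  have h := H.S_mul hK hF ha hb ha
  rw [H.S_self] at h
  exact (inv_eq_of_mul_eq_one_right h).symm

end Vec

end Hol

end Crest.Agent.R244.Loops
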