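/-
R244 (S0377), work package B4, part 2: the square annulus.
For `F` continuous on {square minus open disc} x R, the holonomy around the square equals a
conjugate of the holonomy around the circle.
-/
import Mathlib
import Crest.Agent.R244.Loops

set_option autoImplicit false

namespace Crest.Agent.R244.Loops

open unitInterval Set Real

/-- (closed square of half side `L` minus open disc of radius `r`) x R, centre `(p1, p2)` -/
def Ann (p1 p2 r L : ℝ) : Set (ℝ × ℝ × ℝ) :=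
  {q | |q.1 - p1| ≤ L ∧ |q.2.1 - p2| ≤ L ∧ r ^ 2 ≤ (q.1 - p1) ^ 2 + (q.2.1 - p2) ^ 2}

/-- radial function of the square interpolation -/
noncomputable def rad (r L l y : ℝ) : ℝ :=
  (1 - l) * r + l * (L / max |cos (2 * π * y)| |sin (2 * π * y)|)

/-- polar coordinates: `l = 0` is the circle of radius `r`, `l = 1` the boundary of the square. -/
noncomputable def polar (p1 p2 r L : ℝ) (q : ℝ × ℝ × ℝ) : ℝ × ℝ × ℝ :=
  (p1 + rad r L q.1 q.2.1 * cos (2 * π * q.2.1), p2 + rad r L q.1 q.2.1 * sin (2 * π * q.2.1),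
    q.2.2)

theorem max_pos (x : ℝ) : 0 < max |cos x| |sin x| := by
  rcases eq_or_ne (cos x) 0 with h | h
  · have : sin x ≠ 0 := by
      intro h2
      have := sin_sq_add_cos_sq x
      rw [h, h2] at this; norm_num at this
    exact lt_max_of_lt_right (abs_pos.mpr this)
  · exact lt_max_of_lt_left (abs_pos.mpr h)

theorem max_le_one (x : ℝ) : max |cos x| |sin x| ≤ 1 :=
  max_le (abs_cos_le_one x) (abs_sin_le_one x)

theorem continuous_polar (p1 p2 r L : ℝ) : Continuous (polar p1 p2 r L) := by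
  have h : Continuous fun q : ℝ × ℝ × ℝ => rad r L q.1 q.2.1 := by
    unfold rad
    refine Continuous.add (by fun_prop) (Continuous.mul (by fun_prop) ?_)
    refine Continuous.div (by fun_prop) (by fun_prop) (fun q => (max_pos _).ne')
  unfold polar
  fun_prop

theorem rad_add_one (r L l y : ℝ) : rad r L l (y + 1) = rad r L l y := by
  unfold rad
  rw [show 2 * π * (y + 1) = 2 * π * y + 2 * π by ring, cos_add_two_pi, sin_add_two_pi]

theorem polar_add_one (p1 p2 r L l y th : ℝ) :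
    polar p1 p2 r L (l, y + 1, th) = polar p1 p2 r L (l, y, th) := by
  unfold polar
  simp only [rad_add_one]
  rw [show 2 * π * (y + 1) = 2 * π * y + 2 * π by ring, cos_add_two_pi, sin_add_two_pi]

theorem polar_mem {p1 p2 r L : ℝ} (hr : 0 < r) (hL : r ≤ L) {q : ℝ × ℝ × ℝ} (h0 : 0 ≤ q.1)
    (h1 : q.1 ≤ 1) : polar p1 p2 r L q ∈ Ann p1 p2 r L := by
  obtain ⟨l, y, th⟩ := q
  simp only at h0 h1
  have hm := max_pos (2 * π * y)
  have hm1 := max_le_one (2 * π * y)
  set m := max |cos (2 * π * y)| |sin (2 * π * y)| with hmdef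
  have hc : |cos (2 * π * y)| ≤ m := le_max_left _ _
  have hs : |sin (2 * π * y)| ≤ m := le_max_right _ _
  have hLm : L ≤ L / m := by
    rw [le_div_iff₀ hm]; nlinarith
  have hrad : rad r L l y = (1 - l) * r + l * (L / m) := rfl
  have hradr : r ≤ rad r L l y := by
    rw [hrad]; nlinarith
  have key : ∀ c : ℝ, |c| ≤ m → |rad r L l y * c| ≤ L := by
    intro c hc
    rw [abs_mul, abs_of_pos (lt_of_lt_of_le hr hradr)]
    have h2 : rad r L l y * m ≤ L := by
      rw [hrad, add_mul, mul_assoc l, div_mul_cancel₀ _ hm.ne']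
      have : (1 - l) * r * m ≤ (1 - l) * L := by
        have : r * m ≤ L := by nlinarith
        nlinarith
      nlinarith
    calc rad r L l y * |c| ≤ rad r L l y * m := by
          apply mul_le_mul_of_nonneg_left hc (by linarith)
      _ ≤ L := h2
  refine ⟨?_, ?_, ?_⟩
  · simp only [polar, add_sub_cancel_left]; exact key _ hc
  · simp only [polar, add_sub_cancel_left]; exact key _ hs
  · simp only [polar, add_sub_cancel_left]
    have h2 := sin_sq_add_cos_sq (2 * π * y)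
    have e : (rad r L l y * cos (2 * π * y)) ^ 2 + (rad r L l y * sin (2 * π * y)) ^ 2
        = (rad r L l y) ^ 2 := by
      linear_combination (rad r L l y) ^ 2 * h2
    rw [e]
    nlinarith

/-- trig inequality on the right arc -/
theorem right_arc {y : ℝ} (h0 : -(1/8) ≤ y) (h1 : y ≤ 1/8) :
    |sin (2 * π * y)| ≤ cos (2 * π * y) := by
  have hpi := pi_pos
  have h2 : 0 < √2 := by positivity
  rw [abs_le]
  constructor
  · have h : 0 ≤ cos (2 * π * y - π / 4) :=
      cos_nonneg_of_mem_Icc ⟨by nlinarith, by nlinarith⟩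
    rw [cos_sub, cos_pi_div_four, sin_pi_div_four] at h
    nlinarith
  · have h : 0 ≤ cos (2 * π * y + π / 4) :=
      cos_nonneg_of_mem_Icc ⟨by nlinarith, by nlinarith⟩
    rw [cos_add, cos_pi_div_four, sin_pi_div_four] at h
    nlinarith

theorem top_arc {y : ℝ} (h0 : 1/8 ≤ y) (h1 : y ≤ 3/8) :
    |cos (2 * π * y)| ≤ sin (2 * π * y) := by
  have h := right_arc (y := y - 1/4) (by linarith) (by linarith)
  rw [show 2 * π * (y - 1/4) = 2 * π * y - π / 2 by ring, sin_sub_pi_div_two,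
    cos_sub_pi_div_two, abs_neg] at h
  exact h

theorem left_arc {y : ℝ} (h0 : 3/8 ≤ y) (h1 : y ≤ 5/8) :
    |sin (2 * π * y)| ≤ -cos (2 * π * y) := by
  have h := right_arc (y := y - 1/2) (by linarith) (by linarith)
  rw [show 2 * π * (y - 1/2) = 2 * π * y - π by ring, sin_sub_pi,
    cos_sub_pi, abs_neg] at h
  exact h

theorem bottom_arc {y : ℝ} (h0 : -(3/8) ≤ y) (h1 : y ≤ -(1/8)) :
    |cos (2 * π * y)| ≤ -sin (2 * π * y) := by
  have h := right_arc (y := y + 1/4) (by linarith) (by linarith)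
  rw [show 2 * π * (y + 1/4) = 2 * π * y + π / 2 by ring, sin_add_pi_div_two,
    cos_add_pi_div_two] at h
  exact h

theorem polar_bottom {p1 p2 r L y th : ℝ} (hL : 0 < L) (h0 : -(3/8) ≤ y) (h1 : y ≤ -(1/8)) :
    (polar p1 p2 r L (1, y, th)).2.1 = p2 - L ∧ |(polar p1 p2 r L (1, y, th)).1 - p1| ≤ L := by
  have h := bottom_arc h0 h1
  have hm := max_pos (2 * π * y)
  have hs : |sin (2 * π * y)| = -sin (2 * π * y) :=
    abs_of_nonpos (by linarith [abs_nonneg (cos (2 * π * y))])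
  have hmax : max |cos (2 * π * y)| |sin (2 * π * y)| = -sin (2 * π * y) := by
    rw [hs]; exact max_eq_right h
  rw [hmax] at hm
  have hr : rad r L 1 y = L / (-sin (2 * π * y)) := by
    unfold rad; rw [hmax]; ring
  constructor
  · simp only [polar, hr]
    have : sin (2 * π * y) ≠ 0 := by intro h2; rw [h2] at hm; norm_num at hm
    field_simp
    ring
  · simp only [polar, hr, add_sub_cancel_left]
    rw [abs_mul, abs_div, abs_of_pos hL, abs_of_pos hm, div_mul_eq_mul_div, div_le_iff₀ hm]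
    exact mul_le_mul_of_nonneg_left h hL.le

theorem polar_top {p1 p2 r L y th : ℝ} (hL : 0 < L) (h0 : 1/8 ≤ y) (h1 : y ≤ 3/8) :
    (polar p1 p2 r L (1, y, th)).2.1 = p2 + L ∧ |(polar p1 p2 r L (1, y, th)).1 - p1| ≤ L := by
  have h := top_arc h0 h1
  have hm := max_pos (2 * π * y)
  have hs : |sin (2 * π * y)| = sin (2 * π * y) :=
    abs_of_nonneg (by linarith [abs_nonneg (cos (2 * π * y))])
  have hmax : max |cos (2 * π * y)| |sin (2 * π * y)| = sin (2 * π * y) := by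
    rw [hs]; exact max_eq_right h
  rw [hmax] at hm
  have hr : rad r L 1 y = L / (sin (2 * π * y)) := by
    unfold rad; rw [hmax]; ring
  constructor
  · simp only [polar, hr]
    rw [div_mul_cancel₀ _ hm.ne']
  · simp only [polar, hr, add_sub_cancel_left]
    rw [abs_mul, abs_div, abs_of_pos hL, abs_of_pos hm, div_mul_eq_mul_div, div_le_iff₀ hm]
    exact mul_le_mul_of_nonneg_left h hL.le

theorem polar_right {p1 p2 r L y th : ℝ} (hL : 0 < L) (h0 : -(1/8) ≤ y) (h1 : y ≤ 1/8) :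
    (polar p1 p2 r L (1, y, th)).1 = p1 + L ∧ |(polar p1 p2 r L (1, y, th)).2.1 - p2| ≤ L := by
  have h := right_arc h0 h1
  have hm := max_pos (2 * π * y)
  have hs : |cos (2 * π * y)| = cos (2 * π * y) :=
    abs_of_nonneg (by linarith [abs_nonneg (sin (2 * π * y))])
  have hmax : max |cos (2 * π * y)| |sin (2 * π * y)| = cos (2 * π * y) := by
    rw [hs]; exact max_eq_left h
  rw [hmax] at hm
  have hr : rad r L 1 y = L / (cos (2 * π * y)) := by
    unfold rad; rw [hmax]; ring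
  constructor
  · simp only [polar, hr]
    rw [div_mul_cancel₀ _ hm.ne']
  · simp only [polar, hr, add_sub_cancel_left]
    rw [abs_mul, abs_div, abs_of_pos hL, abs_of_pos hm, div_mul_eq_mul_div, div_le_iff₀ hm]
    exact mul_le_mul_of_nonneg_left h hL.le

theorem polar_left {p1 p2 r L y th : ℝ} (hL : 0 < L) (h0 : 3/8 ≤ y) (h1 : y ≤ 5/8) :
    (polar p1 p2 r L (1, y, th)).1 = p1 - L ∧ |(polar p1 p2 r L (1, y, th)).2.1 - p2| ≤ L := by
  have h := left_arc h0 h1
  have hm := max_pos (2 * π * y)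
  have hs : |cos (2 * π * y)| = -cos (2 * π * y) :=
    abs_of_nonpos (by linarith [abs_nonneg (sin (2 * π * y))])
  have hmax : max |cos (2 * π * y)| |sin (2 * π * y)| = -cos (2 * π * y) := by
    rw [hs]; exact max_eq_left h
  rw [hmax] at hm
  have hr : rad r L 1 y = L / (-cos (2 * π * y)) := by
    unfold rad; rw [hmax]; ring
  constructor
  · simp only [polar, hr]
    have : cos (2 * π * y) ≠ 0 := by intro h2; rw [h2] at hm; norm_num at hm
    field_simp
    ring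
  · simp only [polar, hr, add_sub_cancel_left]
    rw [abs_mul, abs_div, abs_of_pos hL, abs_of_pos hm, div_mul_eq_mul_div, div_le_iff₀ hm]
    exact mul_le_mul_of_nonneg_left h hL.le

theorem polar_c10 {p1 p2 r L th : ℝ} (hL : 0 < L) :
    polar p1 p2 r L (1, -(1/8), th) = (p1 + L, p2 - L, th) := by
  have h1 := (polar_bottom (p1 := p1) (p2 := p2) (r := r) (th := th) hL
    (y := -(1/8)) (by norm_num) le_rfl).1
  have h2 := (polar_right (p1 := p1) (p2 := p2) (r := r) (th := th) hL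
    (y := -(1/8)) le_rfl (by norm_num)).1
  exact Prod.ext h2 (Prod.ext h1 rfl)

theorem polar_c11 {p1 p2 r L th : ℝ} (hL : 0 < L) :
    polar p1 p2 r L (1, 1/8, th) = (p1 + L, p2 + L, th) := by
  have h1 := (polar_top (p1 := p1) (p2 := p2) (r := r) (th := th) hL
    (y := 1/8) le_rfl (by norm_num)).1
  have h2 := (polar_right (p1 := p1) (p2 := p2) (r := r) (th := th) hL
    (y := 1/8) (by norm_num) le_rfl).1
  exact Prod.ext h2 (Prod.ext h1 rfl)

theorem polar_c01 {p1 p2 r L th : ℝ} (hL : 0 < L) :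
    polar p1 p2 r L (1, 3/8, th) = (p1 - L, p2 + L, th) := by
  have h1 := (polar_top (p1 := p1) (p2 := p2) (r := r) (th := th) hL
    (y := 3/8) (by norm_num) le_rfl).1
  have h2 := (polar_left (p1 := p1) (p2 := p2) (r := r) (th := th) hL
    (y := 3/8) le_rfl (by norm_num)).1
  exact Prod.ext h2 (Prod.ext h1 rfl)

theorem polar_c00 {p1 p2 r L th : ℝ} (hL : 0 < L) :
    polar p1 p2 r L (1, -(3/8), th) = (p1 - L, p2 - L, th) := by
  have h1 := (polar_bottom (p1 := p1) (p2 := p2) (r := r) (th := th) hL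
    (y := -(3/8)) le_rfl (by norm_num)).1
  have h2 := (polar_left (p1 := p1) (p2 := p2) (r := r) (th := th) hL
    (y := 5/8) (by norm_num) le_rfl).1
  have h3 := polar_add_one p1 p2 r L 1 (-(3/8)) th
  rw [show (-(3/8) + 1 : ℝ) = 5/8 by norm_num] at h3
  rw [h3] at h2
  exact Prod.ext h2 (Prod.ext h1 rfl)

theorem polar_c00' {p1 p2 r L th : ℝ} (hL : 0 < L) :
    polar p1 p2 r L (1, 5/8, th) = (p1 - L, p2 - L, th) := by
  have h3 := polar_add_one p1 p2 r L 1 (-(3/8)) th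
  rw [show (-(3/8) + 1 : ℝ) = 5/8 by norm_num] at h3
  rw [h3, polar_c00 hL]

/-- the circle end -/
theorem polar_zero (p1 p2 r L y th : ℝ) :
    polar p1 p2 r L (0, y, th) = (p1 + r * cos (2 * π * y), p2 + r * sin (2 * π * y), th) := by
  simp [polar, rad]

/-- the domain of the polar map -/
def Strip : Set (ℝ × ℝ × ℝ) := {q | 0 ≤ q.1 ∧ q.1 ≤ 1}

theorem convex_strip : Convex ℝ Strip := by
  have h : Strip = (fun q : ℝ × ℝ × ℝ => q.1) ⁻¹' Icc 0 1 := rfl
  rw [h]
  exact (convex_Icc (0 : ℝ) 1).is_linear_preimage ⟨fun _ _ => rfl, fun _ _ => rfl⟩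

variable {Y : Type*} [TopologicalSpace Y]

theorem continuousOn_comp_polar {F : ℝ × ℝ × ℝ → Y} {p1 p2 r L : ℝ} (hr : 0 < r) (hL : r ≤ L)
    (hF : ContinuousOn F (Ann p1 p2 r L)) :
    ContinuousOn (fun q => F (polar p1 p2 r L q)) Strip :=
  hF.comp (continuous_polar p1 p2 r L).continuousOn (fun _ hq => polar_mem hr hL hq.1 hq.2)

/-- horizontal edge at height `b`, times the fibre line -/
def HEdge (p1 L b : ℝ) : Set (ℝ × ℝ × ℝ) := {q | q.2.1 = b ∧ |q.1 - p1| ≤ L}
/-- vertical edge at abscissa `b`, times the fibre line -/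
def VEdge (p2 L b : ℝ) : Set (ℝ × ℝ × ℝ) := {q | q.1 = b ∧ |q.2.1 - p2| ≤ L}

theorem convex_hedge (p1 L b : ℝ) : Convex ℝ (HEdge p1 L b) := by
  intro x hx y hy s t hs ht hst
  obtain ⟨h1, h3⟩ := hx
  obtain ⟨h4, h6⟩ := hy
  refine ⟨?_, ?_⟩
  · simp only [Prod.snd_add, Prod.fst_add, Prod.smul_snd, Prod.smul_fst, smul_eq_mul, h1, h4]
    rw [← add_mul, hst, one_mul]
  · simp only [Prod.fst_add, Prod.smul_fst, smul_eq_mul]
    rw [abs_le] at h3 h6 ⊢
    have e : s * x.1 + t * y.1 - p1 = s * (x.1 - p1) + t * (y.1 - p1) := by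
      linear_combination (-p1) * (-hst)
    rw [e]
    constructor <;> nlinarith

theorem convex_vedge (p2 L b : ℝ) : Convex ℝ (VEdge p2 L b) := by
  intro x hx y hy s t hs ht hst
  obtain ⟨h1, h3⟩ := hx
  obtain ⟨h4, h6⟩ := hy
  refine ⟨?_, ?_⟩
  · simp only [Prod.fst_add, Prod.smul_fst, smul_eq_mul, h1, h4]
    rw [← add_mul, hst, one_mul]
  · simp only [Prod.fst_add, Prod.snd_add, Prod.smul_snd, Prod.smul_fst, smul_eq_mul]
    rw [abs_le] at h3 h6 ⊢
    have e : s * x.2.1 + t * y.2.1 - p2 = s * (x.2.1 - p2) + t * (y.2.1 - p2) := by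
      linear_combination (-p2) * (-hst)
    rw [e]
    constructor <;> nlinarith

theorem hedge_bottom_subset {p1 p2 r L : ℝ} (hr : 0 < r) (hL : r ≤ L) :
    HEdge p1 L (p2 - L) ⊆ Ann p1 p2 r L := by
  rintro q ⟨h1, h2⟩
  refine ⟨h2, ?_, ?_⟩
  · rw [h1, show p2 - L - p2 = -L by ring, abs_neg, abs_of_pos (by linarith)]
  · rw [h1]; nlinarith [sq_nonneg (q.1 - p1)]

theorem hedge_top_subset {p1 p2 r L : ℝ} (hr : 0 < r) (hL : r ≤ L) :
    HEdge p1 L (p2 + L) ⊆ Ann p1 p2 r L := by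
  rintro q ⟨h1, h2⟩
  refine ⟨h2, ?_, ?_⟩
  · rw [h1, show p2 + L - p2 = L by ring, abs_of_pos (by linarith)]
  · rw [h1]; nlinarith [sq_nonneg (q.1 - p1)]

theorem vedge_left_subset {p1 p2 r L : ℝ} (hr : 0 < r) (hL : r ≤ L) :
    VEdge p2 L (p1 - L) ⊆ Ann p1 p2 r L := by
  rintro q ⟨h1, h2⟩
  refine ⟨?_, h2, ?_⟩
  · rw [h1, show p1 - L - p1 = -L by ring, abs_neg, abs_of_pos (by linarith)]
  · rw [h1]; nlinarith [sq_nonneg (q.2.1 - p2)]

theorem vedge_right_subset {p1 p2 r L : ℝ} (hr : 0 < r) (hL : r ≤ L) :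
    VEdge p2 L (p1 + L) ⊆ Ann p1 p2 r L := by
  rintro q ⟨h1, h2⟩
  refine ⟨?_, h2, ?_⟩
  · rw [h1, show p1 + L - p1 = L by ring, abs_of_pos (by linarith)]
  · rw [h1]; nlinarith [sq_nonneg (q.2.1 - p2)]

theorem line_fst (p q : ℝ × ℝ × ℝ) (t : I) :
    (Hol.line p q t).1 = (1 - (t:ℝ)) * p.1 + t * q.1 := by
  simp [Hol.line]
theorem line_snd (p q : ℝ × ℝ × ℝ) (t : I) :
    (Hol.line p q t).2.1 = (1 - (t:ℝ)) * p.2.1 + t * q.2.1 := by
  simp [Hol.line]
theorem line_trd (p q : ℝ × ℝ × ℝ) (t : I) :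
    (Hol.line p q t).2.2 = (1 - (t:ℝ)) * p.2.2 + t * q.2.2 := by
  simp [Hol.line]

theorem line_mk (a b c a' b' c' : ℝ) (t : I) :
    Hol.line (a, b, c) (a', b', c') t =
      ((1 - (t:ℝ)) * a + t * a', (1 - (t:ℝ)) * b + t * b', (1 - (t:ℝ)) * c + t * c') := by
  simp [Hol.line]

variable {G : Type*} [Group G] (H : Hol Y G)

section Square

variable {F : ℝ × ℝ × ℝ → Y} {p1 p2 r L : ℝ}

/-- the function in polar coordinates -/
noncomputable def pol (F : ℝ × ℝ × ℝ → Y) (p1 p2 r L : ℝ) (q : ℝ × ℝ × ℝ) : Y :=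
  F (polar p1 p2 r L q)

theorem continuousOn_pol (hr : 0 < r) (hL : r ≤ L)
    (hF : ContinuousOn F (Ann p1 p2 r L)) : ContinuousOn (pol F p1 p2 r L) Strip :=
  continuousOn_comp_polar hr hL hF

theorem edge_bottom (hr : 0 < r) (hL : r ≤ L) (hF : ContinuousOn F (Ann p1 p2 r L)) :
    H.S (pol F p1 p2 r L) (1, -(3/8), 0) (1, -(1/8), 0) =
      H.S F (p1 - L, p2 - L, 0) (p1 + L, p2 - L, 0) := by
  have hL0 : 0 < L := by linarith
  rw [← polar_c00 (r := r) (th := 0) hL0, ← polar_c10 (r := r) (th := 0) hL0]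
  refine H.S_comp (convex_hedge p1 L (p2 - L)) (hF.mono (hedge_bottom_subset hr hL)) _
    ((continuous_polar _ _ _ _).comp (Hol.continuous_line _ _)) ?_ (fun t => rfl)
  intro t
  rw [line_mk]
  rw [show (1 - (t:ℝ)) * 1 + (t:ℝ) * 1 = 1 by ring]
  have h := polar_bottom (p1 := p1) (p2 := p2) (r := r) (y := (1 - (t:ℝ)) * -(3/8) + t * -(1/8))
    (th := (1 - (t:ℝ)) * 0 + t * 0) hL0 (by linarith [t.2.1]) (by linarith [t.2.2])
  exact ⟨h.1, h.2⟩

theorem edge_right (hr : 0 < r) (hL : r ≤ L) (hF : ContinuousOn F (Ann p1 p2 r L)) :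
    H.S (pol F p1 p2 r L) (1, -(1/8), 0) (1, 1/8, 0) =
      H.S F (p1 + L, p2 - L, 0) (p1 + L, p2 + L, 0) := by
  have hL0 : 0 < L := by linarith
  rw [← polar_c11 (r := r) (th := 0) hL0, ← polar_c10 (r := r) (th := 0) hL0]
  refine H.S_comp (convex_vedge p2 L (p1 + L)) (hF.mono (vedge_right_subset hr hL)) _
    ((continuous_polar _ _ _ _).comp (Hol.continuous_line _ _)) ?_ (fun t => rfl)
  intro t
  rw [line_mk]
  rw [show (1 - (t:ℝ)) * 1 + (t:ℝ) * 1 = 1 by ring]
  have h := polar_right (p1 := p1) (p2 := p2) (r := r) (y := (1 - (t:ℝ)) * -(1/8) + t * (1/8))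
    (th := (1 - (t:ℝ)) * 0 + t * 0) hL0 (by linarith [t.2.1]) (by linarith [t.2.2])
  exact ⟨h.1, h.2⟩

theorem edge_top (hr : 0 < r) (hL : r ≤ L) (hF : ContinuousOn F (Ann p1 p2 r L)) :
    H.S (pol F p1 p2 r L) (1, 1/8, 0) (1, 3/8, 0) =
      H.S F (p1 + L, p2 + L, 0) (p1 - L, p2 + L, 0) := by
  have hL0 : 0 < L := by linarith
  rw [← polar_c11 (r := r) (th := 0) hL0, ← polar_c01 (r := r) (th := 0) hL0]
  refine H.S_comp (convex_hedge p1 L (p2 + L)) (hF.mono (hedge_top_subset hr hL)) _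
    ((continuous_polar _ _ _ _).comp (Hol.continuous_line _ _)) ?_ (fun t => rfl)
  intro t
  rw [line_mk]
  rw [show (1 - (t:ℝ)) * 1 + (t:ℝ) * 1 = 1 by ring]
  have h := polar_top (p1 := p1) (p2 := p2) (r := r) (y := (1 - (t:ℝ)) * (1/8) + t * (3/8))
    (th := (1 - (t:ℝ)) * 0 + t * 0) hL0 (by linarith [t.2.1]) (by linarith [t.2.2])
  exact ⟨h.1, h.2⟩

theorem edge_left (hr : 0 < r) (hL : r ≤ L) (hF : ContinuousOn F (Ann p1 p2 r L)) :
    H.S (pol F p1 p2 r L) (1, 3/8, 0) (1, 5/8, 0) =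
      H.S F (p1 - L, p2 + L, 0) (p1 - L, p2 - L, 0) := by
  have hL0 : 0 < L := by linarith
  rw [← polar_c01 (r := r) (th := 0) hL0, ← polar_c00' (r := r) (th := 0) hL0]
  refine H.S_comp (convex_vedge p2 L (p1 - L)) (hF.mono (vedge_left_subset hr hL)) _
    ((continuous_polar _ _ _ _).comp (Hol.continuous_line _ _)) ?_ (fun t => rfl)
  intro t
  rw [line_mk]
  rw [show (1 - (t:ℝ)) * 1 + (t:ℝ) * 1 = 1 by ring]
  have h := polar_left (p1 := p1) (p2 := p2) (r := r) (y := (1 - (t:ℝ)) * (3/8) + t * (5/8))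
    (th := (1 - (t:ℝ)) * 0 + t * 0) hL0 (by linarith [t.2.1]) (by linarith [t.2.2])
  exact ⟨h.1, h.2⟩

theorem pol_shift (q : ℝ × ℝ × ℝ) : pol F p1 p2 r L (q + (0, 1, 0)) = pol F p1 p2 r L q := by
  obtain ⟨l, y, th⟩ := q
  unfold pol
  congr 1
  simpa using polar_add_one p1 p2 r L l y th

/-- connecting path from the corner to the circle -/
noncomputable def dlt (F : ℝ × ℝ × ℝ → Y) (p1 p2 r L : ℝ) : G :=
  H.S (pol F p1 p2 r L) (1, -(3/8), 0) (0, 0, 0)

/-- the boundary circle -/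
noncomputable def bd (F : ℝ × ℝ × ℝ → Y) (p1 p2 r L : ℝ) : G :=
  H.S (pol F p1 p2 r L) (0, 0, 0) (0, 1, 0)

/-- **Square lemma.** -/
theorem square (hr : 0 < r) (hL : r ≤ L) (hF : ContinuousOn F (Ann p1 p2 r L)) :
    H.S F (p1 - L, p2 - L, 0) (p1 + L, p2 - L, 0) * H.S F (p1 + L, p2 - L, 0) (p1 + L, p2 + L, 0)
      * (H.S F (p1 - L, p2 + L, 0) (p1 + L, p2 + L, 0))⁻¹
      * (H.S F (p1 - L, p2 - L, 0) (p1 - L, p2 + L, 0))⁻¹
    = dlt H F p1 p2 r L * bd H F p1 p2 r L * (dlt H F p1 p2 r L)⁻¹ := by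
  have hL0 : 0 < L := by linarith
  have hA := continuousOn_pol hr hL hF
  have m : ∀ {l y th : ℝ}, 0 ≤ l → l ≤ 1 → ((l, y, th) : ℝ × ℝ × ℝ) ∈ Strip :=
    fun h0 h1 => ⟨h0, h1⟩
  have e3 : (H.S F (p1 - L, p2 + L, 0) (p1 + L, p2 + L, 0))⁻¹
      = H.S F (p1 + L, p2 + L, 0) (p1 - L, p2 + L, 0) := by
    refine (H.S_inv (convex_hedge p1 L (p2 + L)) (hF.mono (hedge_top_subset hr hL)) ?_ ?_).symm
    · refine ⟨rfl, ?_⟩
      simp only; rw [show p1 - L - p1 = -L by ring, abs_neg, abs_of_pos hL0]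
    · refine ⟨rfl, ?_⟩
      simp only; rw [show p1 + L - p1 = L by ring, abs_of_pos hL0]
  have e4 : (H.S F (p1 - L, p2 - L, 0) (p1 - L, p2 + L, 0))⁻¹
      = H.S F (p1 - L, p2 + L, 0) (p1 - L, p2 - L, 0) := by
    refine (H.S_inv (convex_vedge p2 L (p1 - L)) (hF.mono (vedge_left_subset hr hL)) ?_ ?_).symm
    · refine ⟨rfl, ?_⟩
      simp only; rw [show p2 - L - p2 = -L by ring, abs_neg, abs_of_pos hL0]
    · refine ⟨rfl, ?_⟩
      simp only; rw [show p2 + L - p2 = L by ring, abs_of_pos hL0]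
  rw [e3, e4, ← edge_bottom H hr hL hF, ← edge_right H hr hL hF, ← edge_top H hr hL hF,
    ← edge_left H hr hL hF]
  rw [H.S_mul convex_strip hA (m zero_le_one le_rfl) (m zero_le_one le_rfl) (m zero_le_one le_rfl),
    H.S_mul convex_strip hA (m zero_le_one le_rfl) (m zero_le_one le_rfl) (m zero_le_one le_rfl),
    H.S_mul convex_strip hA (m zero_le_one le_rfl) (m zero_le_one le_rfl) (m zero_le_one le_rfl)]
  have e5 : (dlt H F p1 p2 r L)⁻¹ = H.S (pol F p1 p2 r L) (0, 1, 0) (1, 5/8, 0) := by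
    unfold dlt
    rw [← H.S_inv convex_strip hA (m zero_le_one le_rfl) (m le_rfl zero_le_one)]
    have h := H.S_comp (F := pol F p1 p2 r L) (F' := pol F p1 p2 r L) convex_strip hA
      (fun q => q + (0, 1, 0)) (a := (0, 0, 0)) (b := (1, -(3/8), 0))
      ((Hol.continuous_line _ _).add continuous_const) ?_ (fun t => (pol_shift _).symm)
    · rw [h]; congr 1
      · norm_num
      · norm_num
    · intro t
      rw [line_mk]
      refine ⟨?_, ?_⟩
      · simp only [Prod.mk_add_mk]; linarith [t.2.1]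
      · simp only [Prod.mk_add_mk]; linarith [t.2.2]
  rw [e5]
  unfold dlt bd
  rw [H.S_mul convex_strip hA (m zero_le_one le_rfl) (m le_rfl zero_le_one) (m le_rfl zero_le_one),
    H.S_mul convex_strip hA (m zero_le_one le_rfl) (m le_rfl zero_le_one) (m zero_le_one le_rfl)]

end Square

end Crest.Agent.R244.Loops
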