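/-
R244 (S0377), work package B4, part 3: relations in the blocks and collars.
-/
import Mathlib
import Crest.Agent.R244.Loops
import Crest.Agent.R244.LoopsSquare

set_option autoImplicit false

namespace Crest.Agent.R244.Loops

open unitInterval Set Real
open scoped commutatorElement

variable {Y : Type*} [TopologicalSpace Y] {G : Type*} [Group G] (H : Hol Y G)

section Shift

variable {E : Type*} [AddCommGroup E] [Module ℝ E] [TopologicalSpace E]
  [ContinuousAdd E] [ContinuousSMul ℝ E]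

/-- Invariance of the holonomy under a translation leaving `F` invariant. -/
theorem S_shift {F : E → Y} {K : Set E} (hK : Convex ℝ K) (hF : ContinuousOn F K) (v : E)
    {a b : E} (ha : a + v ∈ K) (hb : b + v ∈ K)
    (hv : ∀ t : I, F (Hol.line a b t + v) = F (Hol.line a b t)) :
    H.S F a b = H.S F (a + v) (b + v) := by
  have key : ∀ t : I, Hol.line a b t + v = Hol.line (a + v) (b + v) t := by
    intro t
    simp only [Hol.line, smul_add, sub_smul, one_smul]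
    abel
  refine H.S_comp hK hF (fun x => x + v) ((Hol.continuous_line a b).add continuous_const) ?_
    (fun t => (hv t).symm)
  intro t
  rw [key t]
  exact Hol.line_mem hK ha hb t

/-- The loops `F` along `v` based at `a` and `b` are conjugate by the path from `a` to `b`. -/
theorem S_transport {F : E → Y} {K : Set E} (hK : Convex ℝ K) (hF : ContinuousOn F K) (v : E)
    {a b : E} (ha : a ∈ K) (hb : b ∈ K) (hav : a + v ∈ K) (hbv : b + v ∈ K)
    (hv : ∀ t : I, F (Hol.line a b t + v) = F (Hol.line a b t)) :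
    H.S F a (a + v) * H.S F a b = H.S F a b * H.S F b (b + v) := by
  have h := S_shift H hK hF v hav hbv hv
  calc H.S F a (a + v) * H.S F a b = H.S F a (a + v) * H.S F (a + v) (b + v) := by rw [← h]
    _ = H.S F a (b + v) := H.S_mul hK hF ha hav hbv
    _ = H.S F a b * H.S F b (b + v) := (H.S_mul hK hF ha hb hbv).symm

end Shift

section Fibre

variable {F : ℝ × ℝ × ℝ → Y} {p1 p2 r L a : ℝ}

theorem mem_hedge {p1 L b z th : ℝ} (h : |z - p1| ≤ L) : ((z, b, th) : ℝ × ℝ × ℝ) ∈ HEdge p1 L b :=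
  ⟨rfl, h⟩
theorem mem_vedge {p2 L b z th : ℝ} (h : |z - p2| ≤ L) : ((b, z, th) : ℝ × ℝ × ℝ) ∈ VEdge p2 L b :=
  ⟨rfl, h⟩

theorem abs_left {p L : ℝ} (hL : 0 < L) : |p - L - p| ≤ L := by
  rw [show p - L - p = -L by ring, abs_neg, abs_of_pos hL]
theorem abs_right {p L : ℝ} (hL : 0 < L) : |p + L - p| ≤ L := by
  rw [show p + L - p = L by ring, abs_of_pos hL]

/-- fibre period -/
def FibPer (F : ℝ × ℝ × ℝ → Y) (p1 p2 r L a : ℝ) : Prop :=
  ∀ q ∈ Ann p1 p2 r L, F (q + (0, 0, a)) = F q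

/-- fibre loop at `(z1, z2)` -/
noncomputable def fib (F : ℝ × ℝ × ℝ → Y) (a z1 z2 : ℝ) : G := H.S F (z1, z2, 0) (z1, z2, a)

theorem fib_bottom (hr : 0 < r) (hL : r ≤ L) (hF : ContinuousOn F (Ann p1 p2 r L))
    (ha : FibPer F p1 p2 r L a) :
    fib H F a (p1 - L) (p2 - L) * H.S F (p1 - L, p2 - L, 0) (p1 + L, p2 - L, 0)
      = H.S F (p1 - L, p2 - L, 0) (p1 + L, p2 - L, 0) * fib H F a (p1 + L) (p2 - L) := by
  have hL0 : 0 < L := by linarith
  have h := S_transport H (convex_hedge p1 L (p2 - L)) (hF.mono (hedge_bottom_subset hr hL))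
    (0, 0, a) (a := (p1 - L, p2 - L, 0)) (b := (p1 + L, p2 - L, 0))
    (mem_hedge (abs_left hL0)) (mem_hedge (abs_right hL0))
    (by simpa using mem_hedge (th := a) (b := p2 - L) (abs_left (p := p1) hL0))
    (by simpa using mem_hedge (th := a) (b := p2 - L) (abs_right (p := p1) hL0))
    (fun t => ha _ (hedge_bottom_subset hr hL (Hol.line_mem (convex_hedge p1 L (p2 - L))
      (mem_hedge (abs_left hL0)) (mem_hedge (abs_right hL0)) t)))
  simpa [fib] using h

theorem fib_left (hr : 0 < r) (hL : r ≤ L) (hF : ContinuousOn F (Ann p1 p2 r L))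
    (ha : FibPer F p1 p2 r L a) :
    fib H F a (p1 - L) (p2 - L) * H.S F (p1 - L, p2 - L, 0) (p1 - L, p2 + L, 0)
      = H.S F (p1 - L, p2 - L, 0) (p1 - L, p2 + L, 0) * fib H F a (p1 - L) (p2 + L) := by
  have hL0 : 0 < L := by linarith
  have h := S_transport H (convex_vedge p2 L (p1 - L)) (hF.mono (vedge_left_subset hr hL))
    (0, 0, a) (a := (p1 - L, p2 - L, 0)) (b := (p1 - L, p2 + L, 0))
    (mem_vedge (abs_left hL0)) (mem_vedge (abs_right hL0))
    (by simpa using mem_vedge (th := a) (b := p1 - L) (abs_left (p := p2) hL0))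
    (by simpa using mem_vedge (th := a) (b := p1 - L) (abs_right (p := p2) hL0))
    (fun t => ha _ (vedge_left_subset hr hL (Hol.line_mem (convex_vedge p2 L (p1 - L))
      (mem_vedge (abs_left hL0)) (mem_vedge (abs_right hL0)) t)))
  simpa [fib] using h

/-- fibre loop on the boundary circle -/
noncomputable def fibc (F : ℝ × ℝ × ℝ → Y) (p1 p2 r L a : ℝ) : G :=
  H.S (pol F p1 p2 r L) (0, 0, 0) (0, 0, a)

theorem strip_add {q : ℝ × ℝ × ℝ} (hq : q ∈ Strip) (m n : ℝ) : q + (0, m, n) ∈ Strip := by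
  obtain ⟨l, y, th⟩ := q
  obtain ⟨h0, h1⟩ := hq
  exact ⟨by simpa using h0, by simpa using h1⟩

theorem polar_add_fib (p1 p2 r L a : ℝ) (q : ℝ × ℝ × ℝ) :
    polar p1 p2 r L (q + (0, 0, a)) = polar p1 p2 r L q + (0, 0, a) := by
  obtain ⟨l, y, th⟩ := q
  simp [polar]

theorem fib_dlt (hr : 0 < r) (hL : r ≤ L) (hF : ContinuousOn F (Ann p1 p2 r L))
    (ha : FibPer F p1 p2 r L a) :
    fib H F a (p1 - L) (p2 - L) * dlt H F p1 p2 r L
      = dlt H F p1 p2 r L * fibc H F p1 p2 r L a := by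
  have hL0 : 0 < L := by linarith
  have s0 : ((0, 0, 0) : ℝ × ℝ × ℝ) ∈ Strip := ⟨le_rfl, zero_le_one⟩
  have s1 : ((1, -(3/8), 0) : ℝ × ℝ × ℝ) ∈ Strip := ⟨zero_le_one, le_rfl⟩
  have h := S_transport H convex_strip (continuousOn_pol hr hL hF)
    (0, 0, a) (a := (1, -(3/8), 0)) (b := (0, 0, 0)) s1 s0 (strip_add s1 0 a) (strip_add s0 0 a)
    (fun t => by
      have hm : polar p1 p2 r L (Hol.line (1, -(3/8), 0) (0, 0, 0) t) ∈ Ann p1 p2 r L := by
        have := Hol.line_mem convex_strip s1 s0 t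
        exact polar_mem hr hL this.1 this.2
      unfold pol
      rw [polar_add_fib]
      exact ha _ hm)
  have e : H.S (pol F p1 p2 r L) (1, -(3/8), 0) (1, -(3/8), a) = fib H F a (p1 - L) (p2 - L) := by
    unfold fib
    rw [← polar_c00 (r := r) (th := 0) hL0, ← polar_c00 (r := r) (th := a) hL0]
    refine H.S_comp (convex_vedge p2 L (p1 - L)) (hF.mono (vedge_left_subset hr hL)) _
      ((continuous_polar _ _ _ _).comp (Hol.continuous_line _ _)) ?_ (fun t => rfl)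
    intro t
    rw [line_mk, show (1 - (t:ℝ)) * 1 + (t:ℝ) * 1 = 1 by ring,
      show (1 - (t:ℝ)) * -(3/8) + (t:ℝ) * -(3/8) = -(3/8) by ring, polar_c00 hL0]
    exact mem_vedge (abs_left hL0)
  simp only [Prod.mk_add_mk, add_zero, zero_add] at h
  rw [e] at h
  exact h

theorem vert_eq {b b' : ℝ} (hF' : ContinuousOn F (VEdge p2 L b'))
    (hx : ∀ z th, |z - p2| ≤ L → F (b, z, th) = F (b', z, th)) {y th y' th' : ℝ}
    (h1 : |y - p2| ≤ L) (h2 : |y' - p2| ≤ L) :
    H.S F (b, y, th) (b, y', th') = H.S F (b', y, th) (b', y', th') := by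
  have hm : ∀ t : I, Hol.line (b, y, th) (b, y', th') t ∈ VEdge p2 L b :=
    Hol.line_mem (convex_vedge p2 L b) (mem_vedge h1) (mem_vedge h2)
  refine H.S_comp (convex_vedge p2 L b') hF' (fun q : ℝ × ℝ × ℝ => (b', q.2)) ?_ ?_ ?_
  · exact (continuous_const.prodMk continuous_snd).comp (Hol.continuous_line _ _)
  · intro t
    exact ⟨rfl, (hm t).2⟩
  · intro t
    have e : Hol.line (b, y, th) (b, y', th') t = (b, (Hol.line (b, y, th) (b, y', th') t).2) :=
      Prod.ext (hm t).1 rfl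
    rw [e]
    exact hx _ _ (hm t).2

theorem horiz_eq {b b' : ℝ} (hF' : ContinuousOn F (HEdge p1 L b'))
    (hy : ∀ z th, |z - p1| ≤ L → F (z, b, th) = F (z, b', th)) {x th x' th' : ℝ}
    (h1 : |x - p1| ≤ L) (h2 : |x' - p1| ≤ L) :
    H.S F (x, b, th) (x', b, th') = H.S F (x, b', th) (x', b', th') := by
  have hm : ∀ t : I, Hol.line (x, b, th) (x', b, th') t ∈ HEdge p1 L b :=
    Hol.line_mem (convex_hedge p1 L b) (mem_hedge h1) (mem_hedge h2)
  refine H.S_comp (convex_hedge p1 L b') hF' (fun q : ℝ × ℝ × ℝ => (q.1, b', q.2.2)) ?_ ?_ ?_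
  · exact (continuous_fst.prodMk (continuous_const.prodMk (continuous_snd.comp
      continuous_snd))).comp (Hol.continuous_line _ _)
  · intro t
    exact ⟨rfl, (hm t).2⟩
  · intro t
    have e : Hol.line (x, b, th) (x', b, th') t = ((Hol.line (x, b, th) (x', b, th') t).1, b,
        (Hol.line (x, b, th) (x', b, th') t).2.2) :=
      Prod.ext rfl (Prod.ext (hm t).1 rfl)
    rw [e]
    exact hy _ _ (hm t).2

/-- Hypotheses on the map `F : (square annulus) x R → Y` of an outer block. -/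
structure Outer (F : ℝ × ℝ × ℝ → Y) (p1 p2 r L a : ℝ) : Prop where
  hr : 0 < r
  hL : r ≤ L
  hF : ContinuousOn F (Ann p1 p2 r L)
  hx : ∀ z th, |z - p2| ≤ L → F (p1 + L, z, th) = F (p1 - L, z, th)
  hy : ∀ z th, |z - p1| ≤ L → F (z, p2 + L, th) = F (z, p2 - L, th)
  ha : FibPer F p1 p2 r L a

/-- horizontal generator -/
noncomputable def hgen (F : ℝ × ℝ × ℝ → Y) (p1 p2 L : ℝ) : G :=
  H.S F (p1 - L, p2 - L, 0) (p1 + L, p2 - L, 0)
/-- vertical generator -/
noncomputable def vgen (F : ℝ × ℝ × ℝ → Y) (p1 p2 L : ℝ) : G :=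
  H.S F (p1 - L, p2 - L, 0) (p1 - L, p2 + L, 0)

theorem Outer.relations {F : ℝ × ℝ × ℝ → Y} {p1 p2 r L a : ℝ} (h : Outer F p1 p2 r L a) :
    Commute (fib H F a (p1 - L) (p2 - L)) (hgen H F p1 p2 L) ∧
    Commute (fib H F a (p1 - L) (p2 - L)) (vgen H F p1 p2 L) ∧
    hgen H F p1 p2 L * vgen H F p1 p2 L * (hgen H F p1 p2 L)⁻¹ * (vgen H F p1 p2 L)⁻¹ =
      dlt H F p1 p2 r L * bd H F p1 p2 r L * (dlt H F p1 p2 r L)⁻¹ ∧
    fib H F a (p1 - L) (p2 - L) * dlt H F p1 p2 r L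
      = dlt H F p1 p2 r L * fibc H F p1 p2 r L a := by
  obtain ⟨hr, hL, hF, hx, hy, ha⟩ := h
  have hL0 : 0 < L := by linarith
  have e1 : H.S F (p1 + L, p2 - L, 0) (p1 + L, p2 + L, 0) = vgen H F p1 p2 L :=
    vert_eq H (hF.mono (vedge_left_subset hr hL)) hx (abs_left hL0) (abs_right hL0)
  have e2 : H.S F (p1 - L, p2 + L, 0) (p1 + L, p2 + L, 0) = hgen H F p1 p2 L :=
    horiz_eq H (hF.mono (hedge_bottom_subset hr hL)) hy (abs_left hL0) (abs_right hL0)
  have e3 : fib H F a (p1 + L) (p2 - L) = fib H F a (p1 - L) (p2 - L) :=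
    vert_eq H (hF.mono (vedge_left_subset hr hL)) hx (abs_left hL0) (abs_left hL0)
  have e4 : fib H F a (p1 - L) (p2 + L) = fib H F a (p1 - L) (p2 - L) :=
    horiz_eq H (hF.mono (hedge_bottom_subset hr hL)) hy (abs_left hL0) (abs_left hL0)
  refine ⟨?_, ?_, ?_, fib_dlt H hr hL hF ha⟩
  · have := fib_bottom H hr hL hF ha
    rw [e3] at this
    exact this
  · have := fib_left H hr hL hF ha
    rw [e4] at this
    exact this
  · have := square H hr hL hF
    rw [e1, e2] at this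
    exact this

/-- Hypotheses on the map `F` of the centre block (two square annuli side by side). -/
structure Centre (F : ℝ × ℝ × ℝ → Y) (p1 p2 r L a : ℝ) : Prop where
  hr : 0 < r
  hL : r ≤ L
  hF : ContinuousOn F (Ann p1 p2 r L)
  hF' : ContinuousOn F (Ann (p1 + 2 * L) p2 r L)
  hx : ∀ z th, |z - p2| ≤ L → F (p1 + 3 * L, z, th) = F (p1 - L, z, th)
  hy : ∀ z th, |z - p1| ≤ L → F (z, p2 + L, th) = F (z, p2 - L, th)
  hy' : ∀ z th, |z - (p1 + 2 * L)| ≤ L → F (z, p2 + L, th) = F (z, p2 - L, th)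
  ha : FibPer F p1 p2 r L a
  ha' : FibPer F (p1 + 2 * L) p2 r L a

theorem Centre.relations {F : ℝ × ℝ × ℝ → Y} {p1 p2 r L a : ℝ} (h : Centre F p1 p2 r L a) :
    Commute (fib H F a (p1 - L) (p2 - L)) (hgen H F p1 p2 L * hgen H F (p1 + 2 * L) p2 L) ∧
    Commute (fib H F a (p1 - L) (p2 - L)) (vgen H F p1 p2 L) ∧
    ⁅hgen H F p1 p2 L * hgen H F (p1 + 2 * L) p2 L, vgen H F p1 p2 L⁆ =
      ((hgen H F p1 p2 L * dlt H F (p1 + 2 * L) p2 r L) * bd H F (p1 + 2 * L) p2 r L *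
        (hgen H F p1 p2 L * dlt H F (p1 + 2 * L) p2 r L)⁻¹) *
      (dlt H F p1 p2 r L * bd H F p1 p2 r L * (dlt H F p1 p2 r L)⁻¹) ∧
    fib H F a (p1 - L) (p2 - L) * dlt H F p1 p2 r L
      = dlt H F p1 p2 r L * fibc H F p1 p2 r L a ∧
    fib H F a (p1 - L) (p2 - L) * (hgen H F p1 p2 L * dlt H F (p1 + 2 * L) p2 r L)
      = (hgen H F p1 p2 L * dlt H F (p1 + 2 * L) p2 r L) * fibc H F (p1 + 2 * L) p2 r L a := by
  obtain ⟨hr, hL, hF, hF', hx, hy, hy', ha, ha'⟩ := h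
  have hL0 : 0 < L := by linarith
  have c1 : p1 + 2 * L - L = p1 + L := by ring
  have c2 : p1 + 2 * L + L = p1 + 3 * L := by ring
  have e1 : H.S F (p1 + 3 * L, p2 - L, 0) (p1 + 3 * L, p2 + L, 0) = vgen H F p1 p2 L :=
    vert_eq H (hF.mono (vedge_left_subset hr hL)) hx (abs_left hL0) (abs_right hL0)
  have e2 : H.S F (p1 - L, p2 + L, 0) (p1 + L, p2 + L, 0) = hgen H F p1 p2 L :=
    horiz_eq H (hF.mono (hedge_bottom_subset hr hL)) hy (abs_left hL0) (abs_right hL0)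
  have e2' : H.S F (p1 + 2 * L - L, p2 + L, 0) (p1 + 2 * L + L, p2 + L, 0)
      = hgen H F (p1 + 2 * L) p2 L :=
    horiz_eq H (hF'.mono (hedge_bottom_subset hr hL)) hy' (abs_left hL0) (abs_right hL0)
  have e3 : fib H F a (p1 + 3 * L) (p2 - L) = fib H F a (p1 - L) (p2 - L) :=
    vert_eq H (hF.mono (vedge_left_subset hr hL)) hx (abs_left hL0) (abs_left hL0)
  have e4 : fib H F a (p1 - L) (p2 + L) = fib H F a (p1 - L) (p2 - L) :=
    horiz_eq H (hF.mono (hedge_bottom_subset hr hL)) hy (abs_left hL0) (abs_left hL0)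
  have b1 := fib_bottom H hr hL hF ha
  have b2 := fib_bottom H hr hL hF' ha'
  have l1 := fib_left H hr hL hF ha
  have s1 := square H hr hL hF
  have s2 := square H hr hL hF'
  have d1 := fib_dlt H hr hL hF ha
  have d2 := fib_dlt H hr hL hF' ha'
  rw [e2'] at s2
  rw [c2, e1] at s2
  rw [c1] at s2
  rw [e2] at s1
  rw [c1, c2, e3] at b2
  rw [c1] at d2
  rw [e4] at l1
  have g2 : hgen H F (p1 + 2 * L) p2 L = H.S F (p1 + L, p2 - L, 0) (p1 + 3 * L, p2 - L, 0) := by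
    unfold hgen; rw [c1, c2]
  have g1 : H.S F (p1 - L, p2 - L, 0) (p1 + L, p2 - L, 0) = hgen H F p1 p2 L := rfl
  have g3 : H.S F (p1 - L, p2 - L, 0) (p1 - L, p2 + L, 0) = vgen H F p1 p2 L := rfl
  rw [← g2] at b2 s2
  rw [g1] at b1 s1
  rw [g3] at s1 l1
  generalize hgen H F p1 p2 L = α₁ at *
  generalize hgen H F (p1 + 2 * L) p2 L = α₂ at *
  generalize vgen H F p1 p2 L = β at *
  generalize fib H F a (p1 - L) (p2 - L) = f at *
  generalize fib H F a (p1 + L) (p2 - L) = f' at *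
  generalize dlt H F p1 p2 r L = δ₁ at *
  generalize dlt H F (p1 + 2 * L) p2 r L = δ₂ at *
  generalize bd H F p1 p2 r L = b₁ at *
  generalize bd H F (p1 + 2 * L) p2 r L = b₂ at *
  generalize H.S F (p1 + L, p2 - L, 0) (p1 + L, p2 + L, 0) = m at *
  refine ⟨?_, l1, ?_, d1, ?_⟩
  · show f * (α₁ * α₂) = (α₁ * α₂) * f
    rw [← mul_assoc, b1, mul_assoc, b2, mul_assoc]
  · rw [commutatorElement_def]
    rw [← s1]
    have : α₁ * δ₂ * b₂ * (α₁ * δ₂)⁻¹ = α₁ * (δ₂ * b₂ * δ₂⁻¹) * α₁⁻¹ := by group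
    rw [this, ← s2]
    group
  · rw [← mul_assoc, b1, mul_assoc, d2, mul_assoc]

end Fibre

end Crest.Agent.R244.Loops
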