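/-
R244 (S0377), work package B4, part 4: the collar and the final list of relations (2-block M).
-/
import Mathlib
import Crest.Agent.R244.Loops
import Crest.Agent.R244.LoopsSquare
import Crest.Agent.R244.LoopsBlock

set_option autoImplicit false

namespace Crest.Agent.R244.Loops

open unitInterval Set Real
open scoped commutatorElement

variable {Y : Type*} [TopologicalSpace Y]

/-- Collar domain -/
def Col (t₀ t₁ : ℝ) : Set (ℝ × ℝ × ℝ) := {q | t₀ ≤ q.1 ∧ q.1 ≤ t₁}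

theorem convex_col (t₀ t₁ : ℝ) : Convex ℝ (Col t₀ t₁) := by
  have h : Col t₀ t₁ = (fun q : ℝ × ℝ × ℝ => q.1) ⁻¹' Icc t₀ t₁ := rfl
  rw [h]
  exact (convex_Icc t₀ t₁).is_linear_preimage ⟨fun _ _ => rfl, fun _ _ => rfl⟩

/-- Hypotheses on the map `K : [t₀,t₁] x R x R → Y` of the collar connecting the hole `(p1, p2)` of
block 1 to the hole `(o1, o2)` of block 2. -/
structure Collar (K : ℝ × ℝ × ℝ → Y) (t₀ t₁ : ℝ) (F₁ : ℝ × ℝ × ℝ → Y) (p1 p2 r : ℝ)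
    (F₂ : ℝ × ℝ × ℝ → Y) (o1 o2 ro : ℝ) : Prop where
  hT : t₀ ≤ t₁
  hK : ContinuousOn K (Col t₀ t₁)
  perx : ∀ q ∈ Col t₀ t₁, K (q + (0, 2 * π, 0)) = K q
  pery : ∀ q ∈ Col t₀ t₁, K (q + (0, 0, 2 * π)) = K q
  left : ∀ x y, K (t₀, x, y) = F₁ (p1 + r * cos y, p2 + r * sin y, x)
  right : ∀ x y, K (t₁, x, y) = F₂ (o1 + ro * cos x, o2 + ro * sin x, x + y)

variable {G : Type*} [Group G] (H : Hol Y G)

/-- the three basic holonomies of the collar -/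
noncomputable def cX (K : ℝ × ℝ × ℝ → Y) (t₀ : ℝ) : G := H.S K (t₀, 0, 0) (t₀, 2 * π, 0)
noncomputable def cY (K : ℝ × ℝ × ℝ → Y) (t₀ : ℝ) : G := H.S K (t₀, 0, 0) (t₀, 0, 2 * π)
noncomputable def cT (K : ℝ × ℝ × ℝ → Y) (t₀ t₁ : ℝ) : G := H.S K (t₀, 0, 0) (t₁, 0, 0)

theorem Collar.relations {K : ℝ × ℝ × ℝ → Y} {t₀ t₁ : ℝ} {F₁ : ℝ × ℝ × ℝ → Y} {p1 p2 r L : ℝ}
    {F₂ : ℝ × ℝ × ℝ → Y} {o1 o2 ro Lo : ℝ} (h : Collar K t₀ t₁ F₁ p1 p2 r F₂ o1 o2 ro)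
    (hr : 0 < r) (hL : r ≤ L) (hF : ContinuousOn F₁ (Ann p1 p2 r L))
    (hro : 0 < ro) (hLo : ro ≤ Lo) (hFO : ContinuousOn F₂ (Ann o1 o2 ro Lo)) :
    Commute (cX H K t₀) (cY H K t₀) ∧
    fibc H F₁ p1 p2 r L (2 * π) = cX H K t₀ ∧
    bd H F₁ p1 p2 r L = cY H K t₀ ∧
    fibc H F₂ o1 o2 ro Lo (2 * π) = (cT H K t₀ t₁)⁻¹ * cY H K t₀ * cT H K t₀ t₁ ∧
    bd H F₂ o1 o2 ro Lo =
      (cT H K t₀ t₁)⁻¹ * (cX H K t₀ * (cY H K t₀)⁻¹) * cT H K t₀ t₁ := by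
  obtain ⟨hT, hK, perx, pery, left, right⟩ := h
  have hpi : (2 * π) ≠ 0 := by positivity
  have hA := continuousOn_pol hr hL hF
  have hB := continuousOn_pol hro hLo hFO
  have m0 : ∀ u v : ℝ, ((t₀, u, v) : ℝ × ℝ × ℝ) ∈ Col t₀ t₁ := fun u v => ⟨le_rfl, hT⟩
  have mT : ∀ u v : ℝ, ((t₁, u, v) : ℝ × ℝ × ℝ) ∈ Col t₀ t₁ := fun u v => ⟨hT, le_rfl⟩
  -- left end
  have eL : ∀ x0 y0 x1 y1 : ℝ, H.S K (t₀, x0, y0) (t₀, x1, y1)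
      = H.S (pol F₁ p1 p2 r L) (0, y0 / (2 * π), x0) (0, y1 / (2 * π), x1) := by
    intro x0 y0 x1 y1
    refine H.S_comp convex_strip hA (fun q : ℝ × ℝ × ℝ => ((0 : ℝ), q.2.2 / (2 * π), q.2.1))
      (by have hc := Hol.continuous_line (E := ℝ × ℝ × ℝ) (t₀, x0, y0) (t₀, x1, y1); fun_prop) ?_ ?_
    · intro t; exact ⟨le_rfl, zero_le_one⟩
    · intro t
      rw [line_mk, show (1 - (t:ℝ)) * t₀ + t * t₀ = t₀ by ring]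
      simp only [pol, polar_zero, mul_div_cancel₀ _ hpi]
      exact left _ _
  -- right end
  have eR : ∀ x0 y0 x1 y1 : ℝ, H.S K (t₁, x0, y0) (t₁, x1, y1)
      = H.S (pol F₂ o1 o2 ro Lo) (0, x0 / (2 * π), x0 + y0) (0, x1 / (2 * π), x1 + y1) := by
    intro x0 y0 x1 y1
    refine H.S_comp convex_strip hB
      (fun q : ℝ × ℝ × ℝ => ((0 : ℝ), q.2.1 / (2 * π), q.2.1 + q.2.2))
      (by have hc := Hol.continuous_line (E := ℝ × ℝ × ℝ) (t₁, x0, y0) (t₁, x1, y1); fun_prop) ?_ ?_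
    · intro t; exact ⟨le_rfl, zero_le_one⟩
    · intro t
      rw [line_mk, show (1 - (t:ℝ)) * t₁ + t * t₁ = t₁ by ring]
      simp only [pol, polar_zero, mul_div_cancel₀ _ hpi]
      exact right _ _
  -- transport of the two periods
  have tX : ∀ {q q' : ℝ × ℝ × ℝ}, q ∈ Col t₀ t₁ → q' ∈ Col t₀ t₁ →
      H.S K q (q + (0, 2 * π, 0)) * H.S K q q' = H.S K q q' * H.S K q' (q' + (0, 2 * π, 0)) := by
    intro q q' hq hq'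
    refine S_transport H (convex_col t₀ t₁) hK _ hq hq' ?_ ?_ ?_
    · exact ⟨by simpa using hq.1, by simpa using hq.2⟩
    · exact ⟨by simpa using hq'.1, by simpa using hq'.2⟩
    · intro t; exact perx _ (Hol.line_mem (convex_col t₀ t₁) hq hq' t)
  have tY : ∀ {q q' : ℝ × ℝ × ℝ}, q ∈ Col t₀ t₁ → q' ∈ Col t₀ t₁ →
      H.S K q (q + (0, 0, 2 * π)) * H.S K q q' = H.S K q q' * H.S K q' (q' + (0, 0, 2 * π)) := by
    intro q q' hq hq'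
    refine S_transport H (convex_col t₀ t₁) hK _ hq hq' ?_ ?_ ?_
    · exact ⟨by simpa using hq.1, by simpa using hq.2⟩
    · exact ⟨by simpa using hq'.1, by simpa using hq'.2⟩
    · intro t; exact pery _ (Hol.line_mem (convex_col t₀ t₁) hq hq' t)
  have tX0 := tX (m0 0 0) (mT 0 0)
  have tY0 := tY (m0 0 0) (mT 0 0)
  have tYX := tY (m0 0 0) (m0 (2 * π) 0)
  have sY0 : H.S K (t₀, 2 * π, 0) (t₀, 2 * π, 2 * π) = cY H K t₀ := by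
    have := S_shift H (convex_col t₀ t₁) hK (0, 2 * π, 0) (a := (t₀, 0, 0)) (b := (t₀, 0, 2 * π))
      (by simpa using m0 (2 * π) 0) (by simpa using m0 (2 * π) (2 * π))
      (fun t => perx _ (Hol.line_mem (convex_col t₀ t₁) (m0 0 0) (m0 0 (2 * π)) t))
    simpa [cY] using this.symm
  have sYT : H.S K (t₁, 2 * π, -(2 * π)) (t₁, 2 * π, 0) = H.S K (t₁, 0, 0) (t₁, 0, 2 * π) := by
    have h1 := S_shift H (convex_col t₀ t₁) hK (0, 2 * π, 0) (a := (t₁, 0, 0))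
      (b := (t₁, 0, 2 * π))
      (by simpa using mT (2 * π) 0) (by simpa using mT (2 * π) (2 * π))
      (fun t => perx _ (Hol.line_mem (convex_col t₀ t₁) (mT 0 0) (mT 0 (2 * π)) t))
    have h2 := S_shift H (convex_col t₀ t₁) hK (0, 0, 2 * π) (a := (t₁, 2 * π, -(2 * π)))
      (b := (t₁, 2 * π, 0))
      (by simpa using mT (2 * π) 0) (by simpa using mT (2 * π) (2 * π))
      (fun t => pery _ (Hol.line_mem (convex_col t₀ t₁) (mT (2 * π) (-(2 * π))) (mT (2 * π) 0) t))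
    rw [h1, h2]
    congr 1
    · norm_num
    · norm_num
  simp only [Prod.mk_add_mk, add_zero, zero_add] at tX0 tY0 tYX
  rw [sY0] at tYX
  change cX H K t₀ * cT H K t₀ t₁ = cT H K t₀ t₁ * _ at tX0
  change cY H K t₀ * cT H K t₀ t₁ = cT H K t₀ t₁ * _ at tY0
  change cY H K t₀ * cX H K t₀ = cX H K t₀ * cY H K t₀ at tYX
  refine ⟨tYX.symm, ?_, ?_, ?_, ?_⟩
  · have := eL 0 0 (2 * π) 0
    rw [zero_div] at this
    exact this.symm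
  · have := eL 0 0 0 (2 * π)
    rw [zero_div, div_self hpi] at this
    exact this.symm
  · have := eR 0 0 0 (2 * π)
    rw [zero_div, add_zero, zero_add] at this
    unfold fibc
    rw [← this, mul_assoc, tY0]; group
  · have := eR 0 0 (2 * π) (-(2 * π))
    rw [zero_div, add_zero, div_self hpi, add_neg_cancel] at this
    unfold bd
    have e3 : H.S K (t₁, 0, 0) (t₁, 2 * π, -(2 * π)) * H.S K (t₁, 2 * π, -(2 * π)) (t₁, 2 * π, 0)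
        = H.S K (t₁, 0, 0) (t₁, 2 * π, 0) :=
      H.S_mul (convex_col t₀ t₁) hK (mT 0 0) (mT (2 * π) (-(2 * π))) (mT (2 * π) 0)
    rw [sYT] at e3
    have e1 : H.S K (t₁, 0, 0) (t₁, 2 * π, 0) =
        (cT H K t₀ t₁)⁻¹ * (cX H K t₀ * cT H K t₀ t₁) := by
      rw [tX0]; group
    have e2 : H.S K (t₁, 0, 0) (t₁, 0, 2 * π) =
        (cT H K t₀ t₁)⁻¹ * (cY H K t₀ * cT H K t₀ t₁) := by
      rw [tY0]; group
    rw [← this, eq_mul_inv_of_mul_eq e3, e1, e2]; group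

/-- Data of block maps into `Y` : two blocks and one collar (2-block version of `M`). -/
structure Blocks (Y : Type*) [TopologicalSpace Y] where
  F₁ : ℝ × ℝ × ℝ → Y
  (p1 p2 r L : ℝ)
  hO₁ : Outer F₁ p1 p2 r L (2 * π)
  F₂ : ℝ × ℝ × ℝ → Y
  (o1 o2 ro Lo : ℝ)
  hO₂ : Outer F₂ o1 o2 ro Lo (2 * π)
  K : ℝ × ℝ × ℝ → Y
  (t₀ t₁ : ℝ)
  hK : Collar K t₀ t₁ F₁ p1 p2 r F₂ o1 o2 ro

/-- **Output of B4, group form**: `f₁`, `f₂` are the `x`-loop and the `y`-loop of the collar. -/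
theorem Blocks.relations (B : Blocks Y) (H : Hol Y G) :
    ∃ a₁ c₁ a₂ c₂ : G,
      Commute (cX H B.K B.t₀) a₁ ∧ Commute (cX H B.K B.t₀) c₁ ∧
      cY H B.K B.t₀ = a₁ * c₁ * a₁⁻¹ * c₁⁻¹ ∧
      Commute (cY H B.K B.t₀) a₂ ∧ Commute (cY H B.K B.t₀) c₂ ∧
      cX H B.K B.t₀ * (cY H B.K B.t₀)⁻¹ = a₂ * c₂ * a₂⁻¹ * c₂⁻¹ := by
  obtain ⟨o1, o2, o3, o4⟩ := B.hO₁.relations H
  obtain ⟨u1, u2, u3, u4⟩ := B.hO₂.relations H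
  obtain ⟨k1, k2, k3, k4, k5⟩ := B.hK.relations H B.hO₁.hr B.hO₁.hL B.hO₁.hF B.hO₂.hr B.hO₂.hL
    B.hO₂.hF
  rw [k3] at o3
  rw [k2] at o4
  rw [k5] at u3
  rw [k4] at u4
  generalize fib H B.F₁ (2 * π) (B.p1 - B.L) (B.p2 - B.L) = φ₁ at *
  generalize fib H B.F₂ (2 * π) (B.o1 - B.Lo) (B.o2 - B.Lo) = φ₂ at *
  generalize hgen H B.F₁ B.p1 B.p2 B.L = α₁ at *
  generalize vgen H B.F₁ B.p1 B.p2 B.L = β₁ at *
  generalize hgen H B.F₂ B.o1 B.o2 B.Lo = α₂ at *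
  generalize vgen H B.F₂ B.o1 B.o2 B.Lo = β₂ at *
  generalize dlt H B.F₁ B.p1 B.p2 B.r B.L = δ₁ at *
  generalize dlt H B.F₂ B.o1 B.o2 B.ro B.Lo = δ₂ at *
  generalize cX H B.K B.t₀ = X at *
  generalize cY H B.K B.t₀ = Z at *
  generalize cT H B.K B.t₀ B.t₁ = τ at *
  refine ⟨δ₁⁻¹ * α₁ * δ₁, δ₁⁻¹ * β₁ * δ₁, (τ * δ₂⁻¹) * α₂ * (τ * δ₂⁻¹)⁻¹,
    (τ * δ₂⁻¹) * β₂ * (τ * δ₂⁻¹)⁻¹, ?_, ?_, ?_, ?_, ?_, ?_⟩
  · have e : X = δ₁⁻¹ * φ₁ * (δ₁⁻¹)⁻¹ := by rw [inv_inv, mul_assoc, o4]; group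
    have e' : δ₁⁻¹ * α₁ * δ₁ = δ₁⁻¹ * α₁ * (δ₁⁻¹)⁻¹ := by rw [inv_inv]
    rw [e, e']; exact (Commute.conj_iff _).mpr o1
  · have e : X = δ₁⁻¹ * φ₁ * (δ₁⁻¹)⁻¹ := by rw [inv_inv, mul_assoc, o4]; group
    have e' : δ₁⁻¹ * β₁ * δ₁ = δ₁⁻¹ * β₁ * (δ₁⁻¹)⁻¹ := by rw [inv_inv]
    rw [e, e']; exact (Commute.conj_iff _).mpr o2
  · have : δ₁⁻¹ * α₁ * δ₁ * (δ₁⁻¹ * β₁ * δ₁) * (δ₁⁻¹ * α₁ * δ₁)⁻¹ * (δ₁⁻¹ * β₁ * δ₁)⁻¹
        = δ₁⁻¹ * (α₁ * β₁ * α₁⁻¹ * β₁⁻¹) * δ₁ := by group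
    rw [this, o3]; group
  · have e : Z = (τ * δ₂⁻¹) * φ₂ * (τ * δ₂⁻¹)⁻¹ := by
      have : φ₂ = δ₂ * (τ⁻¹ * Z * τ) * δ₂⁻¹ := by rw [← u4]; group
      rw [this]; group
    rw [e]; exact (Commute.conj_iff _).mpr u1
  · have e : Z = (τ * δ₂⁻¹) * φ₂ * (τ * δ₂⁻¹)⁻¹ := by
      have : φ₂ = δ₂ * (τ⁻¹ * Z * τ) * δ₂⁻¹ := by rw [← u4]; group
      rw [this]; group
    rw [e]; exact (Commute.conj_iff _).mpr u2
  · have : τ * δ₂⁻¹ * α₂ * (τ * δ₂⁻¹)⁻¹ * (τ * δ₂⁻¹ * β₂ * (τ * δ₂⁻¹)⁻¹) *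
        (τ * δ₂⁻¹ * α₂ * (τ * δ₂⁻¹)⁻¹)⁻¹ * (τ * δ₂⁻¹ * β₂ * (τ * δ₂⁻¹)⁻¹)⁻¹
        = (τ * δ₂⁻¹) * (α₂ * β₂ * α₂⁻¹ * β₂⁻¹) * (τ * δ₂⁻¹)⁻¹ := by group
    rw [this, u3]; group

end Crest.Agent.R244.Loops
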