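/-
R244 (S0377), work package B4, part 5: output in `FundamentalGroup Y x₀`.
-/
import Mathlib
import Crest.Agent.R244.LoopsMain
import Crest.Agent.R244.B4Theta

set_option autoImplicit false

namespace Crest.Agent.R244.Loops

open unitInterval Set Real
open Crest.Agent.R244.B4

/-- The holonomy with values in the fundamental group. -/
noncomputable def piHol {Y : Type*} [TopologicalSpace Y] [PathConnectedSpace Y] (x₀ : Y) :
    Hol Y (FundamentalGroup Y x₀) where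
  hol := fun p => (Th x₀ (Path.Homotopic.Quotient.mk p))⁻¹
  hol_trans := by
    intro x y z p q
    rw [Path.Homotopic.Quotient.mk_trans, Th_trans, mul_inv_rev]
  hol_homotopic := by
    intro x y p q h
    rw [Path.Homotopic.Quotient.eq.mpr h]

/-- **Final output of B4 (2-block M).**  The relations required by `NoNPC.lean`, where `f₂` is
nontrivial because the `y`-loop of the collar is not null-homotopic. -/
theorem Blocks.exists_relations {Y : Type*} [TopologicalSpace Y] [PathConnectedSpace Y]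
    (B : Blocks Y) (x₀ : Y)
    (hne : ∀ γ : Path (B.K (B.t₀, 0, 0)) (B.K (B.t₀, 0, 0)),
      (∀ s : I, γ s = B.K (B.t₀, 0, 2 * π * s)) → ¬ γ.Homotopic (Path.refl _)) :
    ∃ f₁ f₂ a₁ c₁ a₂ c₂ : FundamentalGroup Y x₀,
      Commute f₁ a₁ ∧ Commute f₁ c₁ ∧ f₂ = a₁ * c₁ * a₁⁻¹ * c₁⁻¹ ∧
      Commute f₂ a₂ ∧ Commute f₂ c₂ ∧ f₁ * f₂⁻¹ = a₂ * c₂ * a₂⁻¹ * c₂⁻¹ ∧ f₂ ≠ 1 := by
  obtain ⟨a₁, c₁, a₂, c₂, h1, h2, h3, h4, h5, h6⟩ := B.relations (piHol x₀)
  refine ⟨_, _, a₁, c₁, a₂, c₂, h1, h2, h3, h4, h5, h6, ?_⟩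
  intro h
  have hT := B.hK.hT
  have hcont : Continuous fun t : I => B.K (Hol.line (B.t₀, 0, 0) (B.t₀, 0, 2 * π) t) := by
    rw [← continuousOn_univ]
    exact B.hK.hK.comp (Hol.continuous_line _ _).continuousOn
      (fun t _ => Hol.line_mem (p := ((B.t₀, 0, 0) : ℝ × ℝ × ℝ)) (q := (B.t₀, 0, 2 * π))
        (convex_col B.t₀ B.t₁) ⟨le_rfl, hT⟩ ⟨le_rfl, hT⟩ t)
  have hend : B.K (B.t₀, 0, 2 * π) = B.K (B.t₀, 0, 0) := by
    have := B.hK.pery (B.t₀, 0, 0) ⟨le_rfl, hT⟩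
    simpa using this
  let γ : Path (B.K (B.t₀, 0, 0)) (B.K (B.t₀, 0, 0)) :=
    ⟨⟨fun t : I => B.K (Hol.line (B.t₀, 0, 0) (B.t₀, 0, 2 * π) t), hcont⟩, by simp, by
      simp [hend]⟩
  have hγ : ∀ s : I, γ s = B.K (B.t₀, 0, 2 * π * s) := by
    intro s
    change B.K (Hol.line (B.t₀, 0, 0) (B.t₀, 0, 2 * π) s) = _
    rw [line_mk]
    congr 1
    ext <;> simp <;> ring
  refine hne γ hγ ?_
  unfold cY at h
  rw [Hol.S_of_continuous _ _ _ _ hcont] at h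
  rw [(piHol x₀).hol_congr (Hol.curve _ hcont) γ (fun t => rfl)] at h
  have h' : (Th x₀ (Path.Homotopic.Quotient.mk γ))⁻¹ = 1 := h
  rw [inv_eq_one] at h'
  exact Path.Homotopic.Quotient.eq.mp (eq_of_Th_eq_one x₀ _ h')

end Crest.Agent.R244.Loops
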