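import Mathlib

/-!
# R244 MAN-C : the concrete 3-patch manifold, part 1: patches, polar maps, invariants
-/

set_option autoImplicit false

open Set Filter Topology
open scoped ContDiff Real

noncomputable section

namespace Crest.Agent.R244.ManC

/-- coordinates space -/
abbrev E3 := EuclideanSpace ℝ (Fin 3)

/-- parameters of the 3-patch manifold -/
structure Par where
  S : ℝ
  c1 : ℝ
  c2 : ℝ
  tL : ℝ
  tR : ℝ
  hLR : tL < tR
  h1 : 0 < c1 - tL
  h2 : 0 < c2 + tR
  hS1 : 2 * (c1 - tL + 2) < S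
  hS2 : 2 * (c2 + tR + 2) < S

namespace Par

variable (D : Par)

lemma S_pos : 0 < D.S := by have := D.h1; have := D.hS1; linarith

/-- class of a real in `ℝ / Sℤ` -/
abbrev tc (a : ℝ) : AddCircle D.S := (a : AddCircle D.S)

/-- distance of `(u,v)` to the lattice `(S/2,S/2) + S ℤ²` -/
def rho (u v : ℝ) : ℝ :=
  Real.sqrt (‖D.tc (u - D.S / 2)‖ ^ 2 + ‖D.tc (v - D.S / 2)‖ ^ 2)

lemma continuous_tc : Continuous D.tc := AddCircle.continuous_mk' _

lemma continuous_rho : Continuous fun p : ℝ × ℝ => D.rho p.1 p.2 := by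
  unfold rho
  have h1 : Continuous fun p : ℝ × ℝ => D.tc (p.1 - D.S / 2) :=
    D.continuous_tc.comp (by fun_prop)
  have h2 : Continuous fun p : ℝ × ℝ => D.tc (p.2 - D.S / 2) :=
    D.continuous_tc.comp (by fun_prop)
  fun_prop

lemma tc_add_int (a : ℝ) (k : ℤ) : D.tc (a + D.S * k) = D.tc a := by
  simp only [tc, AddCircle.coe_add]
  have : ((D.S * k : ℝ) : AddCircle D.S) = 0 := by
    rw [AddCircle.coe_eq_zero_iff]
    exact ⟨k, by simp [mul_comm]⟩
  rw [this, add_zero]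

lemma tc_eq_iff {a b : ℝ} : D.tc a = D.tc b ↔ ∃ k : ℤ, b = a + D.S * k := by
  constructor
  · intro h
    have : ((b - a : ℝ) : AddCircle D.S) = 0 := by
      rw [AddCircle.coe_sub]; exact sub_eq_zero.2 h.symm
    rw [AddCircle.coe_eq_zero_iff] at this
    obtain ⟨n, hn⟩ := this
    refine ⟨n, ?_⟩
    simp only [zsmul_eq_mul] at hn
    linarith
  · rintro ⟨k, rfl⟩
    exact (D.tc_add_int a k).symm

lemma norm_tc {a : ℝ} (h : |a| ≤ D.S / 2) : ‖D.tc a‖ = |a| := by
  rw [tc, AddCircle.norm_coe_eq_abs_iff _ D.S_pos.ne']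
  rwa [abs_of_pos D.S_pos]

lemma rho_add_int (u v : ℝ) (k l : ℤ) : D.rho (u + D.S * k) (v + D.S * l) = D.rho u v := by
  unfold rho
  rw [show u + D.S * k - D.S / 2 = (u - D.S / 2) + D.S * k by ring,
    show v + D.S * l - D.S / 2 = (v - D.S / 2) + D.S * l by ring, tc_add_int, tc_add_int]

lemma rho_of_small {a b : ℝ} (ha : |a| ≤ D.S / 2) (hb : |b| ≤ D.S / 2) :
    D.rho (D.S / 2 + a) (D.S / 2 + b) = Real.sqrt (a ^ 2 + b ^ 2) := by
  unfold rho
  rw [show D.S / 2 + a - D.S / 2 = a by ring, show D.S / 2 + b - D.S / 2 = b by ring,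
    D.norm_tc ha, D.norm_tc hb, sq_abs, sq_abs]

lemma rho_polar {r y : ℝ} (hr : 0 ≤ r) (hr' : r ≤ D.S / 2) :
    D.rho (D.S / 2 + r * Real.cos y) (D.S / 2 + r * Real.sin y) = r := by
  have hc : |r * Real.cos y| ≤ D.S / 2 := by
    rw [abs_mul, abs_of_nonneg hr]
    nlinarith [Real.abs_cos_le_one y, abs_nonneg (Real.cos y)]
  have hs : |r * Real.sin y| ≤ D.S / 2 := by
    rw [abs_mul, abs_of_nonneg hr]
    nlinarith [Real.abs_sin_le_one y, abs_nonneg (Real.sin y)]
  rw [D.rho_of_small hc hs]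
  rw [show (r * Real.cos y) ^ 2 + (r * Real.sin y) ^ 2 = r ^ 2 by
    nlinarith [Real.sin_sq_add_cos_sq y]]
  exact Real.sqrt_sq hr

/-- every point of the plane is, modulo the lattice, in polar position w.r.t. the centre. -/
lemma exists_polar (u v : ℝ) : ∃ (k l : ℤ) (y : ℝ), y ∈ Icc 0 (2 * π) ∧
    u = D.S / 2 + D.rho u v * Real.cos y + D.S * k ∧
    v = D.S / 2 + D.rho u v * Real.sin y + D.S * l := by
  have hS := D.S_pos
  -- nearest lattice point
  set k : ℤ := round (D.S⁻¹ * (u - D.S / 2)) with hk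
  set l : ℤ := round (D.S⁻¹ * (v - D.S / 2)) with hl
  set a : ℝ := u - D.S / 2 - k * D.S with ha
  set b : ℝ := v - D.S / 2 - l * D.S with hb
  have hna : ‖D.tc (u - D.S / 2)‖ = |a| := by rw [tc, AddCircle.norm_eq]
  have hnb : ‖D.tc (v - D.S / 2)‖ = |b| := by rw [tc, AddCircle.norm_eq]
  have hrho : D.rho u v = Real.sqrt (a ^ 2 + b ^ 2) := by
    unfold rho; rw [hna, hnb, sq_abs, sq_abs]
  set w : ℂ := ⟨a, b⟩ with hw
  have hnorm : ‖w‖ = D.rho u v := by
    rw [hrho, Complex.norm_def, Complex.normSq_apply]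
    congr 1
    simp only [hw]; ring
  have hcos : ‖w‖ * Real.cos w.arg = a := by
    rw [Complex.norm_mul_cos_arg]
  have hsin : ‖w‖ * Real.sin w.arg = b := by
    rw [Complex.norm_mul_sin_arg]
  rw [hnorm] at hcos hsin
  by_cases h0 : 0 ≤ w.arg
  · refine ⟨k, l, w.arg, ⟨h0, by linarith [Complex.arg_le_pi w, Real.pi_pos]⟩, ?_, ?_⟩
    · rw [hcos, ha]; ring
    · rw [hsin, hb]; ring
  · refine ⟨k, l, w.arg + 2 * π, ⟨by linarith [Complex.neg_pi_lt_arg w], by linarith⟩, ?_, ?_⟩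
    · rw [Real.cos_add_two_pi, hcos, ha]; ring
    · rw [Real.sin_add_two_pi, hsin, hb]; ring

lemma rho_nonneg (u v : ℝ) : 0 ≤ D.rho u v := Real.sqrt_nonneg _

/-- equality mod `S` of polar points with the same small radius -/
lemma polar_inj {r y y' : ℝ} (hr : 0 < r) (hr' : r < D.S / 2)
    (h1 : D.tc (D.S / 2 + r * Real.cos y) = D.tc (D.S / 2 + r * Real.cos y'))
    (h2 : D.tc (D.S / 2 + r * Real.sin y) = D.tc (D.S / 2 + r * Real.sin y')) :
    ∃ n : ℤ, y' = y + 2 * π * n := by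
  have hS := D.S_pos
  obtain ⟨k, hk⟩ := D.tc_eq_iff.1 h1
  obtain ⟨l, hl⟩ := D.tc_eq_iff.1 h2
  have key : ∀ (c c' : ℝ) (k : ℤ), |c| ≤ 1 → |c'| ≤ 1 →
      D.S / 2 + r * c' = D.S / 2 + r * c + D.S * k → c = c' := by
    intro c c' k hc hc' h
    have h3 : r * (c' - c) = D.S * k := by linarith
    have h4 : |(k : ℝ)| < 1 := by
      have h5 : D.S * |(k : ℝ)| < D.S := by
        calc D.S * |(k : ℝ)| = |D.S * k| := by rw [abs_mul, abs_of_pos hS]
          _ = |r * (c' - c)| := by rw [h3]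
          _ = r * |c' - c| := by rw [abs_mul, abs_of_pos hr]
          _ ≤ r * 2 := by
            apply mul_le_mul_of_nonneg_left _ hr.le
            calc |c' - c| ≤ |c'| + |c| := abs_sub _ _
              _ ≤ 2 := by linarith
          _ < D.S := by linarith
      nlinarith [abs_nonneg (k : ℝ)]
    have h6 : k = 0 := by
      have : |k| < 1 := by exact_mod_cast h4
      exact Int.abs_lt_one_iff.1 this
    rw [h6] at h3
    simp only [Int.cast_zero, mul_zero, mul_eq_zero] at h3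
    rcases h3 with h3 | h3
    · exact absurd h3 hr.ne'
    · linarith
  have hcos := key _ _ k (Real.abs_cos_le_one y) (Real.abs_cos_le_one y') hk
  have hsin := key _ _ l (Real.abs_sin_le_one y) (Real.abs_sin_le_one y') hl
  have h := Real.Angle.cos_sin_inj hcos.symm hsin.symm
  rw [Real.Angle.angle_eq_iff_two_pi_dvd_sub] at h
  obtain ⟨n, hn⟩ := h
  exact ⟨n, by linarith⟩

lemma angle_inj {y y' : ℝ} (hc : Real.cos y = Real.cos y') (hs : Real.sin y = Real.sin y') :
    ∃ n : ℤ, y' = y + 2 * π * n := by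
  have h := Real.Angle.cos_sin_inj hc.symm hs.symm
  rw [Real.Angle.angle_eq_iff_two_pi_dvd_sub] at h
  obtain ⟨n, hn⟩ := h
  exact ⟨n, by linarith⟩

/-! ## Patches -/

/-- The three patches: `0` = block 1, `1` = collar, `2` = block 2. -/
def P : Fin 3 → Set E3 :=
  ![{z | D.c1 - D.tL < D.rho (z 0) (z 1)},
    {z | D.tL - 2 < z 0 ∧ z 0 < D.tR + 2},
    {z | D.c2 + D.tR < D.rho (z 0) (z 1)}]

lemma mem_P0 {z : E3} : z ∈ D.P 0 ↔ D.c1 - D.tL < D.rho (z 0) (z 1) := Iff.rfl
lemma mem_P1 {z : E3} : z ∈ D.P 1 ↔ D.tL - 2 < z 0 ∧ z 0 < D.tR + 2 := Iff.rfl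
lemma mem_P2 {z : E3} : z ∈ D.P 2 ↔ D.c2 + D.tR < D.rho (z 0) (z 1) := Iff.rfl

lemma continuous_rho' : Continuous fun z : E3 => D.rho (z 0) (z 1) := by
  unfold rho
  have h1 : Continuous fun p : E3 => D.tc (p 0 - D.S / 2) :=
    D.continuous_tc.comp (by fun_prop)
  have h2 : Continuous fun p : E3 => D.tc (p 1 - D.S / 2) :=
    D.continuous_tc.comp (by fun_prop)
  exact (((continuous_norm.comp h1).pow 2).add ((continuous_norm.comp h2).pow 2)).sqrt

lemma isOpen_P (i : Fin 3) : IsOpen (D.P i) := by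
  fin_cases i
  · exact isOpen_lt continuous_const D.continuous_rho'
  · have h1 : Continuous fun z : E3 => z 0 := by fun_prop
    exact (isOpen_lt continuous_const h1).inter (isOpen_lt h1 continuous_const)
  · exact isOpen_lt continuous_const D.continuous_rho'

/-- lattice vector for the two blocks -/
def lam (k l n : ℤ) : E3 := !₂[D.S * k, D.S * l, 2 * π * n]

/-- lattice vector for the collar -/
def lamc (m n : ℤ) : E3 := !₂[0, 2 * π * m, 2 * π * n]

/-- collar → block 1 -/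
def pol1 (z : E3) : E3 :=
  !₂[D.S / 2 + (D.c1 - z 0) * Real.cos (z 2), D.S / 2 + (D.c1 - z 0) * Real.sin (z 2), z 1]

/-- collar → block 2 -/
def pol2 (z : E3) : E3 :=
  !₂[D.S / 2 + (z 0 + D.c2) * Real.cos (z 1), D.S / 2 + (z 0 + D.c2) * Real.sin (z 1), z 1 + z 2]

@[simp] lemma lam_0 (k l n : ℤ) : D.lam k l n 0 = D.S * k := by simp [lam]
@[simp] lemma lam_1 (k l n : ℤ) : D.lam k l n 1 = D.S * l := by simp [lam]
@[simp] lemma lam_2 (k l n : ℤ) : D.lam k l n 2 = 2 * π * n := by simp [lam]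
@[simp] lemma lamc_0 (m n : ℤ) : lamc m n 0 = 0 := by simp [lamc]
@[simp] lemma lamc_1 (m n : ℤ) : lamc m n 1 = 2 * π * m := by simp [lamc]
@[simp] lemma lamc_2 (m n : ℤ) : lamc m n 2 = 2 * π * n := by simp [lamc]
@[simp] lemma pol1_0 (z : E3) : D.pol1 z 0 = D.S / 2 + (D.c1 - z 0) * Real.cos (z 2) := by
  simp [pol1]
@[simp] lemma pol1_1 (z : E3) : D.pol1 z 1 = D.S / 2 + (D.c1 - z 0) * Real.sin (z 2) := by
  simp [pol1]
@[simp] lemma pol1_2 (z : E3) : D.pol1 z 2 = z 1 := by simp [pol1]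
@[simp] lemma pol2_0 (z : E3) : D.pol2 z 0 = D.S / 2 + (z 0 + D.c2) * Real.cos (z 1) := by
  simp [pol2]
@[simp] lemma pol2_1 (z : E3) : D.pol2 z 1 = D.S / 2 + (z 0 + D.c2) * Real.sin (z 1) := by
  simp [pol2]
@[simp] lemma pol2_2 (z : E3) : D.pol2 z 2 = z 1 + z 2 := by simp [pol2]

/-! ## The separating invariants -/

/-- The target of the separating invariants. -/
abbrev Y : Type :=
  ℝ × (AddCircle D.S × AddCircle D.S) × (ℝ × ℝ) × (AddCircle D.S × AddCircle D.S) × (ℝ × ℝ)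

/-- cut-off `1` for `t ≤ tL`, `0` for `t ≥ tR` -/
def chi1 (t : ℝ) : ℝ := max 0 (min 1 ((D.tR - t) / (D.tR - D.tL)))
/-- cut-off `0` for `t ≤ tL`, `1` for `t ≥ tR` -/
def chi2 (t : ℝ) : ℝ := max 0 (min 1 ((t - D.tL) / (D.tR - D.tL)))
/-- radius in block 1 of the collar point -/
def g1 (t : ℝ) : ℝ := D.chi1 t * (D.c1 - min t D.tL)
/-- radius in block 2 of the collar point -/
def g2 (t : ℝ) : ℝ := D.chi2 t * (D.c2 + max t D.tR)

lemma continuous_chi1 : Continuous D.chi1 := by unfold chi1; fun_prop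
lemma continuous_chi2 : Continuous D.chi2 := by unfold chi2; fun_prop
lemma continuous_g1 : Continuous D.g1 := by
  unfold g1; exact D.continuous_chi1.mul (by fun_prop)
lemma continuous_g2 : Continuous D.g2 := by
  unfold g2; exact D.continuous_chi2.mul (by fun_prop)

lemma chi1_of_le {t : ℝ} (h : t ≤ D.tL) : D.chi1 t = 1 := by
  unfold chi1
  have h0 : 0 < D.tR - D.tL := sub_pos.2 D.hLR
  have : 1 ≤ (D.tR - t) / (D.tR - D.tL) := by rw [le_div_iff₀ h0]; linarith
  rw [min_eq_left this]; norm_num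

lemma chi1_of_ge {t : ℝ} (h : D.tR ≤ t) : D.chi1 t = 0 := by
  unfold chi1
  have h0 : 0 < D.tR - D.tL := sub_pos.2 D.hLR
  have : (D.tR - t) / (D.tR - D.tL) ≤ 0 := div_nonpos_of_nonpos_of_nonneg (by linarith) h0.le
  rw [max_eq_left]; exact (min_le_right _ _).trans this

lemma chi1_pos {t : ℝ} (h : t < D.tR) : 0 < D.chi1 t := by
  unfold chi1
  have h0 : 0 < D.tR - D.tL := sub_pos.2 D.hLR
  have : 0 < (D.tR - t) / (D.tR - D.tL) := div_pos (by linarith) h0
  exact lt_max_of_lt_right (lt_min one_pos this)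

lemma chi1_le_one (t : ℝ) : D.chi1 t ≤ 1 := by
  unfold chi1; exact max_le zero_le_one (min_le_left _ _)

lemma chi1_nonneg (t : ℝ) : 0 ≤ D.chi1 t := by
  unfold chi1; exact le_max_left _ _

lemma chi2_of_ge {t : ℝ} (h : D.tR ≤ t) : D.chi2 t = 1 := by
  unfold chi2
  have h0 : 0 < D.tR - D.tL := sub_pos.2 D.hLR
  have : 1 ≤ (t - D.tL) / (D.tR - D.tL) := by rw [le_div_iff₀ h0]; linarith
  rw [min_eq_left this]; norm_num

lemma chi2_of_le {t : ℝ} (h : t ≤ D.tL) : D.chi2 t = 0 := by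
  unfold chi2
  have h0 : 0 < D.tR - D.tL := sub_pos.2 D.hLR
  have : (t - D.tL) / (D.tR - D.tL) ≤ 0 := div_nonpos_of_nonpos_of_nonneg (by linarith) h0.le
  rw [max_eq_left]; exact (min_le_right _ _).trans this

lemma chi2_pos {t : ℝ} (h : D.tL < t) : 0 < D.chi2 t := by
  unfold chi2
  have h0 : 0 < D.tR - D.tL := sub_pos.2 D.hLR
  have : 0 < (t - D.tL) / (D.tR - D.tL) := div_pos (by linarith) h0
  exact lt_max_of_lt_right (lt_min one_pos this)

lemma chi2_le_one (t : ℝ) : D.chi2 t ≤ 1 := by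
  unfold chi2; exact max_le zero_le_one (min_le_left _ _)

lemma chi2_nonneg (t : ℝ) : 0 ≤ D.chi2 t := by
  unfold chi2; exact le_max_left _ _

lemma g1_of_le {t : ℝ} (h : t ≤ D.tL) : D.g1 t = D.c1 - t := by
  unfold g1; rw [D.chi1_of_le h, min_eq_left h, one_mul]

lemma g1_of_ge {t : ℝ} (h : D.tR ≤ t) : D.g1 t = 0 := by
  unfold g1; rw [D.chi1_of_ge h, zero_mul]

lemma g1_pos {t : ℝ} (h : t < D.tR) : 0 < D.g1 t := by
  unfold g1
  refine mul_pos (D.chi1_pos h) ?_
  have := min_le_right t D.tL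
  have := D.h1
  linarith

lemma g1_lt {t : ℝ} (h : D.tL - 2 < t) : D.g1 t < D.S / 2 := by
  unfold g1
  have h1 : D.c1 - min t D.tL < D.S / 2 := by
    have := D.hS1
    rcases le_total t D.tL with h2 | h2
    · rw [min_eq_left h2]; linarith
    · rw [min_eq_right h2]; linarith
  have h0 : 0 < D.c1 - min t D.tL := by
    have := min_le_right t D.tL
    have := D.h1
    linarith
  nlinarith [D.chi1_le_one t, D.chi1_nonneg t]

lemma g2_of_ge {t : ℝ} (h : D.tR ≤ t) : D.g2 t = t + D.c2 := by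
  unfold g2; rw [D.chi2_of_ge h, max_eq_left h, one_mul, add_comm]

lemma g2_of_le {t : ℝ} (h : t ≤ D.tL) : D.g2 t = 0 := by
  unfold g2; rw [D.chi2_of_le h, zero_mul]

lemma g2_pos {t : ℝ} (h : D.tL < t) : 0 < D.g2 t := by
  unfold g2
  refine mul_pos (D.chi2_pos h) ?_
  have := le_max_right t D.tR
  have := D.h2
  linarith

lemma g2_lt {t : ℝ} (h : t < D.tR + 2) : D.g2 t < D.S / 2 := by
  unfold g2
  have h1 : D.c2 + max t D.tR < D.S / 2 := by
    have := D.hS2
    rcases le_total t D.tR with h2 | h2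
    · rw [max_eq_right h2]; linarith
    · rw [max_eq_left h2]; linarith
  have h0 : 0 < D.c2 + max t D.tR := by
    have := le_max_right t D.tR
    have := D.h2
    linarith
  nlinarith [D.chi2_le_one t, D.chi2_nonneg t]

/-- invariants on block 1 -/
def F0 (z : E3) : D.Y :=
  (max (D.tL - 2) (D.c1 - D.rho (z 0) (z 1)), (D.tc (z 0), D.tc (z 1)),
    (Real.cos (z 2), Real.sin (z 2)), (D.tc (D.S / 2), D.tc (D.S / 2)), (0, 0))

/-- invariants on the collar -/
def F1 (z : E3) : D.Y :=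
  (z 0, (D.tc (D.S / 2 + D.g1 (z 0) * Real.cos (z 2)), D.tc (D.S / 2 + D.g1 (z 0) * Real.sin (z 2))),
    (D.chi1 (z 0) * Real.cos (z 1), D.chi1 (z 0) * Real.sin (z 1)),
    (D.tc (D.S / 2 + D.g2 (z 0) * Real.cos (z 1)), D.tc (D.S / 2 + D.g2 (z 0) * Real.sin (z 1))),
    (D.chi2 (z 0) * Real.cos (z 1 + z 2), D.chi2 (z 0) * Real.sin (z 1 + z 2)))

/-- invariants on block 2 -/
def F2 (z : E3) : D.Y :=
  (min (D.tR + 2) (D.rho (z 0) (z 1) - D.c2), (D.tc (D.S / 2), D.tc (D.S / 2)), (0, 0),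
    (D.tc (z 0), D.tc (z 1)), (Real.cos (z 2), Real.sin (z 2)))

/-- the invariants -/
def F : Fin 3 → E3 → D.Y := ![D.F0, D.F1, D.F2]

lemma continuous_F (i : Fin 3) : Continuous (D.F i) := by
  have hρ := D.continuous_rho'
  have htc := D.continuous_tc
  have hg1 : Continuous fun z : E3 => D.g1 (z 0) := D.continuous_g1.comp (by fun_prop)
  have hg2 : Continuous fun z : E3 => D.g2 (z 0) := D.continuous_g2.comp (by fun_prop)
  have hc1 : Continuous fun z : E3 => D.chi1 (z 0) := D.continuous_chi1.comp (by fun_prop)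
  have hc2 : Continuous fun z : E3 => D.chi2 (z 0) := D.continuous_chi2.comp (by fun_prop)
  fin_cases i
  · show Continuous D.F0
    unfold F0
    refine Continuous.prodMk (by fun_prop) (Continuous.prodMk
      (Continuous.prodMk (htc.comp (by fun_prop)) (htc.comp (by fun_prop)))
      (Continuous.prodMk (by fun_prop) continuous_const))
  · show Continuous D.F1
    unfold F1
    refine Continuous.prodMk (by fun_prop) (Continuous.prodMk
      (Continuous.prodMk (htc.comp (by fun_prop)) (htc.comp (by fun_prop)))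
      (Continuous.prodMk (by fun_prop) (Continuous.prodMk
        (Continuous.prodMk (htc.comp (by fun_prop)) (htc.comp (by fun_prop))) (by fun_prop))))
  · show Continuous D.F2
    unfold F2
    refine Continuous.prodMk (by fun_prop) (Continuous.prodMk continuous_const
      (Continuous.prodMk continuous_const (Continuous.prodMk
        (Continuous.prodMk (htc.comp (by fun_prop)) (htc.comp (by fun_prop))) (by fun_prop))))

end Par

end Crest.Agent.R244.ManC
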