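import Mathlib
import Crest.Prelude.Def_Geodesic
import Crest.Agent.R244.Man

/-!
# R244 package MAN, part 2: invariant metrics on glued manifolds
-/

set_option autoImplicit false
open Bundle Set Filter Topology Bornology
open scoped ContDiff Manifold
open Crest.GeometryTopology.CoordMetric Crest.GeometryTopology.ChartCurvature
open Crest.GeometryTopology.Geodesic

noncomputable section

namespace Crest.Agent.R244.Man

namespace Glue

variable {ι : Type} {n : ℕ} (G : Glue ι n)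

local notation "E" => EuclideanSpace ℝ (Fin n)

/-- An invariant family of smooth metrics on the pieces. -/
structure MetricData where
  g : ι → E → E →L[ℝ] E →L[ℝ] ℝ
  contDiffOn : ∀ i, ContDiffOn ℝ ∞ (g i) (G.U i)
  symm : ∀ i, ∀ z ∈ G.U i, ∀ u v, g i z u v = g i z v u
  pos : ∀ i, ∀ z ∈ G.U i, ∀ v, v ≠ 0 → 0 < g i z v v
  inv : ∀ (i j : ι) (p : G.U i) (q : G.U j), G.r ⟨i, p⟩ ⟨j, q⟩ →
    ∃ τ, G.Trans i j p q τ ∧ ∀ u v, g i p u v = g j q (fderiv ℝ τ p u) (fderiv ℝ τ p v)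

variable {G}

theorem MetricData.inv' (D : G.MetricData) {i j : ι} {p q : E} {τ : E → E}
    (h : G.Trans i j p q τ) (u v : E) :
    D.g i p u v = D.g j q (fderiv ℝ τ p u) (fderiv ℝ τ p v) := by
  obtain ⟨hp, hq, hr⟩ := h.rel
  obtain ⟨τ', h1, h2⟩ := D.inv i j ⟨p, hp⟩ ⟨q, hq⟩ hr
  rw [(h.eventuallyEq G h1).fderiv_eq]
  exact h2 u v

theorem isVonNBounded_of_pos {B : E →L[ℝ] E →L[ℝ] ℝ} (hB : ∀ v, v ≠ 0 → 0 < B v v) :
    IsVonNBounded ℝ {v : E | B v v < 1} := by
  rw [NormedSpace.isVonNBounded_iff']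
  rcases subsingleton_or_nontrivial E with hE | hE
  · exact ⟨0, fun x _ => by rw [Subsingleton.elim x 0, norm_zero]⟩
  · have hcomp : IsCompact (Metric.sphere (0 : E) 1) := isCompact_sphere 0 1
    have hne : (Metric.sphere (0 : E) 1).Nonempty := NormedSpace.sphere_nonempty.2 zero_le_one
    have hcont : Continuous fun v : E => B v v := by fun_prop
    obtain ⟨v₀, hv₀, hmin⟩ := hcomp.exists_isMinOn hne hcont.continuousOn
    have hv₀' : ‖v₀‖ = 1 := by simpa using hv₀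
    have hc : 0 < B v₀ v₀ := hB v₀ (by rintro rfl; simp at hv₀')
    set c := B v₀ v₀ with hcdef
    refine ⟨Real.sqrt (1 / c), fun x hx => ?_⟩
    rcases eq_or_ne x 0 with rfl | hx0
    · rw [norm_zero]; exact Real.sqrt_nonneg _
    · have hxn : 0 < ‖x‖ := norm_pos_iff.2 hx0
      have h1 : c ≤ B (‖x‖⁻¹ • x) (‖x‖⁻¹ • x) := by
        apply hmin
        simp [norm_smul, hxn.ne']
      have h2 : B (‖x‖⁻¹ • x) (‖x‖⁻¹ • x) = ‖x‖⁻¹ * (‖x‖⁻¹ * B x x) := by
        simp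
      rw [h2] at h1
      have hx' : B x x < 1 := hx
      have h3 : c * ‖x‖ ^ 2 ≤ B x x := by
        have : ‖x‖⁻¹ * (‖x‖⁻¹ * B x x) * ‖x‖ ^ 2 = B x x := by
          field_simp
        nlinarith [mul_le_mul_of_nonneg_right h1 (sq_nonneg ‖x‖)]
      apply Real.le_sqrt_of_sq_le
      rw [le_div_iff₀ hc]
      nlinarith

/-- the coordinate change of the tangent bundle of `G.M` is the derivative of the transition. -/
theorem coordChange_eq (m₀ m : G.M) :
    (tangentBundleCore 𝓘(ℝ, EuclideanSpace ℝ (Fin n)) G.M).coordChange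
      (achart _ m₀) (achart _ m) m =
    fderiv ℝ (chartAt (EuclideanSpace ℝ (Fin n)) m ∘ G.F (G.idx m₀))
      (chartAt (EuclideanSpace ℝ (Fin n)) m₀ m) := by
  rw [tangentBundleCore_coordChange_achart]
  simp only [modelWithCornersSelf_coe, range_id, fderivWithin_univ]
  rfl

theorem trans_center (m₀ m : G.M)
    (hm : m ∈ (chartAt (EuclideanSpace ℝ (Fin n)) m₀).source) :
    G.Trans (G.idx m₀) (G.idx m) (chartAt (EuclideanSpace ℝ (Fin n)) m₀ m) (G.pt m)
      (chartAt (EuclideanSpace ℝ (Fin n)) m ∘ G.F (G.idx m₀)) := by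
  have h1 := G.F_chartAt hm
  have h2 := G.chartAt_mem_nb hm
  have := G.trans_chartAt_F (m := m) (G.nb_subset m₀ h2) (by rw [h1]; exact mem_chart_source _ m)
  rwa [h1, G.chartAt_self] at this

/-- the bilinear form at a point. -/
def MetricData.innerAt (D : G.MetricData) (m : G.M) :
    TangentSpace 𝓘(ℝ, EuclideanSpace ℝ (Fin n)) m →L[ℝ]
      TangentSpace 𝓘(ℝ, EuclideanSpace ℝ (Fin n)) m →L[ℝ] ℝ :=
  D.g (G.idx m) (G.pt m)

theorem MetricData.innerAt_inCoordinates (D : G.MetricData) (m₀ m : G.M)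
    (hm : m ∈ (chartAt (EuclideanSpace ℝ (Fin n)) m₀).source) :
    (trivializationAt (E →L[ℝ] E →L[ℝ] ℝ)
        (fun x : G.M => TangentSpace 𝓘(ℝ, E) x →L[ℝ] TangentSpace 𝓘(ℝ, E) x →L[ℝ] ℝ) m₀
          ⟨m, D.innerAt m⟩).2
        = D.g (G.idx m₀) (chartAt (EuclideanSpace ℝ (Fin n)) m₀ m) := by
  rw [hom_trivializationAt_apply]
  ext u v
  have hb : m ∈ (trivializationAt E (TangentSpace 𝓘(ℝ, E)) m₀).baseSet := hm
  rw [inCoordinates_apply_eq₂ hb hb (Set.mem_univ _)]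
  have h1 : ∀ w : E, (trivializationAt E (TangentSpace 𝓘(ℝ, E)) m₀).symm m w =
      fderiv ℝ (chartAt (EuclideanSpace ℝ (Fin n)) m ∘ G.F (G.idx m₀))
        (chartAt (EuclideanSpace ℝ (Fin n)) m₀ m) w := by
    intro w
    have h2 := TangentBundle.symmL_trivializationAt_eq_core (I := 𝓘(ℝ, E)) (b₀ := m₀) (b := m) hm
    rw [coordChange_eq] at h2
    rw [← h2]
    exact (Trivialization.symmL_apply _ hb w).symm
  rw [h1, h1]
  have h3 := D.inv' (trans_center m₀ m hm) u v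
  rw [h3]
  have h4 : ∀ y : ℝ, (Trivialization.linearMapAt ℝ (trivializationAt ℝ (fun _ : G.M => ℝ) m₀) m) y
      = y := by
    intro y
    rw [Trivialization.coe_linearMapAt_of_mem _ (mem_univ _)]
    rfl
  exact h4 _

/-- The Riemannian metric on `G.M` defined by invariant metric data. -/
def MetricData.toMetric (D : G.MetricData) :
    ContMDiffRiemannianMetric 𝓘(ℝ, EuclideanSpace ℝ (Fin n)) ∞ (EuclideanSpace ℝ (Fin n))
      (fun x : G.M => TangentSpace 𝓘(ℝ, EuclideanSpace ℝ (Fin n)) x) where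
  inner m := D.innerAt m
  symm m u v := D.symm _ _ (G.pt_mem m) u v
  pos m v hv := D.pos _ _ (G.pt_mem m) v hv
  isVonNBounded m := isVonNBounded_of_pos (D.pos _ _ (G.pt_mem m))
  contMDiff := by
    intro m₀
    rw [contMDiffAt_section]
    have hev : ∀ᶠ m in 𝓝 m₀, (trivializationAt (E →L[ℝ] E →L[ℝ] ℝ)
        (fun x : G.M => TangentSpace 𝓘(ℝ, E) x →L[ℝ] TangentSpace 𝓘(ℝ, E) x →L[ℝ] ℝ) m₀
          ⟨m, D.innerAt m⟩).2
        = D.g (G.idx m₀) (chartAt (EuclideanSpace ℝ (Fin n)) m₀ m) := by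
      filter_upwards [(chartAt (EuclideanSpace ℝ (Fin n)) m₀).open_source.mem_nhds
        (mem_chart_source _ m₀)] with m hm
      exact D.innerAt_inCoordinates m₀ m hm
    refine ContMDiffAt.congr_of_eventuallyEq ?_ hev
    have h1 : ContMDiffAt 𝓘(ℝ, E) 𝓘(ℝ, E →L[ℝ] E →L[ℝ] ℝ) ∞ (D.g (G.idx m₀))
        (chartAt (EuclideanSpace ℝ (Fin n)) m₀ m₀) := by
      rw [G.chartAt_self]
      exact ((D.contDiffOn _).contDiffAt ((G.isOpen_U _).mem_nhds (G.pt_mem m₀))).contMDiffAt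
    exact h1.comp m₀ ((contMDiffOn_chart (I := 𝓘(ℝ, E)) (x := m₀)).contMDiffAt
      ((chartAt (EuclideanSpace ℝ (Fin n)) m₀).open_source.mem_nhds (mem_chart_source _ m₀)))

end Glue

end Crest.Agent.R244.Man
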