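import Mathlib
import Crest.Prelude.Def_Geodesic
import Crest.Agent.R244.ManMetric

/-!
# R244 package MAN, part 4: the groupoid of local orientation preserving isometries

`Et U r g i j p q`: a germ of a smooth orientation preserving isometry from the piece `i` at `p`
to the piece `j` at `q`, compatible with the relation.  It is symmetric and transitive, hence it
is enough to check generators of the relation.
-/

set_option autoImplicit false
open Bundle Set Filter Topology Bornology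
open scoped ContDiff Manifold

noncomputable section

namespace Crest.Agent.R244.Man

variable {ι : Type} {n : ℕ}

local notation "E" => EuclideanSpace ℝ (Fin n)

/-- germ of a smooth orientation preserving isometry compatible with `r`. -/
def Et (U : ι → Set (EuclideanSpace ℝ (Fin n))) (r : Setoid (Σ i, U i))
    (g : ι → EuclideanSpace ℝ (Fin n) → EuclideanSpace ℝ (Fin n) →L[ℝ]
      EuclideanSpace ℝ (Fin n) →L[ℝ] ℝ)
    (i j : ι) (p q : EuclideanSpace ℝ (Fin n)) : Prop :=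
  ∃ τ : EuclideanSpace ℝ (Fin n) → EuclideanSpace ℝ (Fin n),
    ContDiffAt ℝ ∞ τ p ∧ τ p = q ∧ 0 < LinearMap.det (fderiv ℝ τ p : E →ₗ[ℝ] E) ∧
    (∀ᶠ z in 𝓝 p, ∃ (hz : z ∈ U i) (hτ : τ z ∈ U j), r ⟨i, z, hz⟩ ⟨j, τ z, hτ⟩) ∧
    (∀ u v, g i p u v = g j q (fderiv ℝ τ p u) (fderiv ℝ τ p v))

variable {U : ι → Set (EuclideanSpace ℝ (Fin n))} {r : Setoid (Σ i, U i)}
    {g : ι → EuclideanSpace ℝ (Fin n) → EuclideanSpace ℝ (Fin n) →L[ℝ]
      EuclideanSpace ℝ (Fin n) →L[ℝ] ℝ}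

theorem Et.trans {i j k : ι} {p q s : E} (h : Et U r g i j p q) (h' : Et U r g j k q s) :
    Et U r g i k p s := by
  obtain ⟨τ, h1, h2, h3, h4, h5⟩ := h
  obtain ⟨σ, h1', h2', h3', h4', h5'⟩ := h'
  subst h2
  have hd : DifferentiableAt ℝ τ p := h1.differentiableAt (by simp)
  have hd' : DifferentiableAt ℝ σ (τ p) := h1'.differentiableAt (by simp)
  have hf : fderiv ℝ (σ ∘ τ) p = (fderiv ℝ σ (τ p)).comp (fderiv ℝ τ p) := fderiv_comp p hd' hd
  refine ⟨σ ∘ τ, h1'.comp p h1, h2', ?_, ?_, ?_⟩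
  · rw [hf, ContinuousLinearMap.toLinearMap_comp, LinearMap.det_comp]
    exact mul_pos h3' h3
  · filter_upwards [h4, h1.continuousAt.eventually h4'] with z hz hz'
    obtain ⟨a, b, c⟩ := hz
    obtain ⟨a', b', c'⟩ := hz'
    exact ⟨a, b', r.trans c c'⟩
  · intro u v
    rw [hf, h5, h5']
    rfl

theorem Et.symm {i j : ι} {p q : E} (h : Et U r g i j p q) : Et U r g j i q p := by
  obtain ⟨τ, h1, h2, h3, h4, h5⟩ := h
  subst h2
  have hd : DifferentiableAt ℝ τ p := h1.differentiableAt (by simp)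
  have hne : (fderiv ℝ τ p).det ≠ 0 := by
    have : (fderiv ℝ τ p).det = LinearMap.det (fderiv ℝ τ p : E →ₗ[ℝ] E) := rfl
    rw [this]; exact h3.ne'
  set A := (fderiv ℝ τ p).toContinuousLinearEquivOfDetNeZero hne with hA
  have hA' : HasFDerivAt τ (A : E →L[ℝ] E) p := by
    have : (A : E →L[ℝ] E) = fderiv ℝ τ p := by
      ext v; simp [hA]
    rw [this]; exact hd.hasFDerivAt
  have hs : HasStrictFDerivAt τ (A : E →L[ℝ] E) p := h1.hasStrictFDerivAt' hA' (by simp)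
  set σ := hs.localInverse τ A p with hσ
  have hσ1 : ContDiffAt ℝ ∞ σ (τ p) := h1.to_localInverse hA' (by simp)
  have hσ2 : σ (τ p) = p := hs.localInverse_apply_image
  have hσ3 : ∀ᶠ w in 𝓝 (τ p), τ (σ w) = w := hs.eventually_right_inverse
  have hσ4 : fderiv ℝ σ (τ p) = (A.symm : E →L[ℝ] E) := hs.to_localInverse.hasFDerivAt.fderiv
  have hAA : (A : E →L[ℝ] E) = fderiv ℝ τ p := by
    ext v; simp [hA]
  have hcomp : (fderiv ℝ τ p).comp (A.symm : E →L[ℝ] E) = ContinuousLinearMap.id ℝ E := by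
    rw [← hAA]; ext v; simp
  refine ⟨σ, hσ1, hσ2, ?_, ?_, ?_⟩
  · rw [hσ4]
    have h6 : LinearMap.det (fderiv ℝ τ p : E →ₗ[ℝ] E) *
        LinearMap.det ((A.symm : E →L[ℝ] E) : E →ₗ[ℝ] E) = 1 := by
      rw [← LinearMap.det_comp, ← ContinuousLinearMap.toLinearMap_comp, hcomp]
      simp
    by_contra hcon
    push Not at hcon
    have := mul_nonpos_of_nonneg_of_nonpos h3.le hcon
    linarith
  · have h7 : ∀ᶠ w in 𝓝 (τ p), ∃ (hz : σ w ∈ U i) (hτ : τ (σ w) ∈ U j),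
        r ⟨i, σ w, hz⟩ ⟨j, τ (σ w), hτ⟩ := by
      have h9 : Tendsto σ (𝓝 (τ p)) (𝓝 p) := by
        have := hσ1.continuousAt
        rwa [ContinuousAt, hσ2] at this
      exact h9.eventually h4
    filter_upwards [hσ3, h7] with w hw hw'
    obtain ⟨a, b, c⟩ := hw'
    have hb : w ∈ U j := by rw [← hw]; exact b
    refine ⟨hb, a, ?_⟩
    have : (⟨j, τ (σ w), b⟩ : Σ i, U i) = ⟨j, w, hb⟩ := by
      congr 1
      exact Subtype.ext hw
    rw [this] at c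
    exact r.symm c
  · intro u v
    rw [hσ4, h5]
    have h8 : ∀ w, fderiv ℝ τ p ((A.symm : E →L[ℝ] E) w) = w := fun w =>
      congrArg (fun f : E →L[ℝ] E => f w) hcomp
    rw [h8, h8]

/-- gluing data from germs. -/
def Glue.ofEt (U : ι → Set (EuclideanSpace ℝ (Fin n))) (hU : ∀ i, IsOpen (U i))
    (r : Setoid (Σ i, U i))
    (g : ι → EuclideanSpace ℝ (Fin n) → EuclideanSpace ℝ (Fin n) →L[ℝ]
      EuclideanSpace ℝ (Fin n) →L[ℝ] ℝ)
    (h : ∀ (i j : ι) (p : U i) (q : U j), r ⟨i, p⟩ ⟨j, q⟩ → Et U r g i j p q)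
    (inj : ∀ (i : ι) (p : U i), ∃ V ∈ 𝓝 (p : EuclideanSpace ℝ (Fin n)),
      ∀ (z w : EuclideanSpace ℝ (Fin n)) (hz : z ∈ U i) (hw : w ∈ U i), z ∈ V → w ∈ V →
        r ⟨i, z, hz⟩ ⟨i, w, hw⟩ → z = w)
    (base : Σ i, U i) : Glue ι n where
  U := U
  isOpen_U := hU
  r := r
  etale i j p q hr := by
    obtain ⟨τ, h1, h2, -, h4, -⟩ := h i j p q hr
    exact ⟨τ, h1, h2, h4⟩
  inj := inj
  base := base

theorem Glue.ofEt_isOrientable (U : ι → Set (EuclideanSpace ℝ (Fin n))) (hU : ∀ i, IsOpen (U i))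
    (r : Setoid (Σ i, U i))
    (g : ι → EuclideanSpace ℝ (Fin n) → EuclideanSpace ℝ (Fin n) →L[ℝ]
      EuclideanSpace ℝ (Fin n) →L[ℝ] ℝ)
    (h : ∀ (i j : ι) (p : U i) (q : U j), r ⟨i, p⟩ ⟨j, q⟩ → Et U r g i j p q)
    (inj : ∀ (i : ι) (p : U i), ∃ V ∈ 𝓝 (p : EuclideanSpace ℝ (Fin n)),
      ∀ (z w : EuclideanSpace ℝ (Fin n)) (hz : z ∈ U i) (hw : w ∈ U i), z ∈ V → w ∈ V →
        r ⟨i, z, hz⟩ ⟨i, w, hw⟩ → z = w)
    (base : Σ i, U i) :
    Crest.GeometryTopology.Geodesic.IsOrientable n (Glue.ofEt U hU r g h inj base).M := by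
  apply Glue.isOrientable'
  intro i j p q hr
  obtain ⟨τ, h1, h2, h3, h4, -⟩ := h i j p q hr
  exact ⟨τ, ⟨h1, h2, h4⟩, h3⟩

/-- metric data from germs. -/
def Glue.ofEtMetric (U : ι → Set (EuclideanSpace ℝ (Fin n))) (hU : ∀ i, IsOpen (U i))
    (r : Setoid (Σ i, U i))
    (g : ι → EuclideanSpace ℝ (Fin n) → EuclideanSpace ℝ (Fin n) →L[ℝ]
      EuclideanSpace ℝ (Fin n) →L[ℝ] ℝ)
    (h : ∀ (i j : ι) (p : U i) (q : U j), r ⟨i, p⟩ ⟨j, q⟩ → Et U r g i j p q)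
    (inj : ∀ (i : ι) (p : U i), ∃ V ∈ 𝓝 (p : EuclideanSpace ℝ (Fin n)),
      ∀ (z w : EuclideanSpace ℝ (Fin n)) (hz : z ∈ U i) (hw : w ∈ U i), z ∈ V → w ∈ V →
        r ⟨i, z, hz⟩ ⟨i, w, hw⟩ → z = w)
    (base : Σ i, U i)
    (hg : ∀ i, ContDiffOn ℝ ∞ (g i) (U i))
    (hsymm : ∀ i, ∀ z ∈ U i, ∀ u v, g i z u v = g i z v u)
    (hpos : ∀ i, ∀ z ∈ U i, ∀ v, v ≠ 0 → 0 < g i z v v) :
    (Glue.ofEt U hU r g h inj base).MetricData where
  g := g
  contDiffOn := hg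
  symm := hsymm
  pos := hpos
  inv i j p q hr := by
    obtain ⟨τ, h1, h2, -, h4, h5⟩ := h i j p q hr
    exact ⟨τ, ⟨h1, h2, h4⟩, h5⟩

/-- Connectedness criterion. -/
theorem Glue.connectedSpace (G : Glue ι n) (A : Set G.M) (hA : IsPreconnected A)
    (hne : A.Nonempty)
    (h : ∀ i, ∀ z ∈ G.U i, ∃ C ⊆ G.U i, IsPreconnected C ∧ z ∈ C ∧ ∃ w ∈ C, G.F i w ∈ A) :
    ConnectedSpace G.M := by
  obtain ⟨a, ha⟩ := hne
  have : IsPreconnected (univ : Set G.M) := by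
    apply isPreconnected_of_forall a
    intro m _
    obtain ⟨i, z, hz, rfl⟩ := G.exists_F m
    obtain ⟨C, hCU, hC, hzC, w, hw, hwA⟩ := h i z hz
    refine ⟨A ∪ G.F i '' C, subset_univ _, Or.inl ha, Or.inr ⟨z, hzC, rfl⟩, ?_⟩
    exact IsPreconnected.union (G.F i w) hwA ⟨w, hw, rfl⟩ hA
      (hC.image _ ((G.continuousOn_F i).mono hCU))
  exact { isPreconnected_univ := this, toNonempty := ⟨a⟩ }

end Crest.Agent.R244.Man
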