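import Mathlib
import Crest.Agent.R244.MetricDefs

/-!
# R244 package ULSC : compact manifolds are uniformly locally simply connected
-/

set_option autoImplicit false

open Set Filter Topology unitInterval

namespace Crest.Agent.R244

section

variable (E : Type*) [NormedAddCommGroup E] [NormedSpace ℝ E]
  {M : Type*} [TopologicalSpace M] [ChartedSpace E M]

include E in
/-- Every point has arbitrarily small open neighbourhoods which are path connected and in which
paths with the same end points are homotopic. -/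
theorem exists_good_nhd (x : M) {V : Set M} (hV : IsOpen V) (hx : x ∈ V) :
    ∃ U : Set M, IsOpen U ∧ x ∈ U ∧ U ⊆ V ∧
      (∀ a ∈ U, ∀ b ∈ U, ∃ γ : Path a b, ∀ t, γ t ∈ U) ∧
      (∀ (a b : M) (γ γ' : Path a b), (∀ t, γ t ∈ U) → (∀ t, γ' t ∈ U) → γ.Homotopic γ') := by
  set e := chartAt E x with he
  have hxs : x ∈ e.source := mem_chart_source E x
  -- open set in the model
  have hW : IsOpen (e.target ∩ e.symm ⁻¹' V) := e.isOpen_inter_preimage_symm hV
  have hxW : e x ∈ e.target ∩ e.symm ⁻¹' V :=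
    ⟨e.map_source hxs, by simp only [mem_preimage, e.left_inv hxs]; exact hx⟩
  obtain ⟨R, hR, hball⟩ := Metric.isOpen_iff.1 hW (e x) hxW
  set B := Metric.ball (e x) R with hB
  have hBconv : Convex ℝ B := convex_ball _ _
  have hBt : B ⊆ e.target := fun z hz => (hball hz).1
  have hcs : ContinuousOn e.symm B := e.continuousOn_symm.mono hBt
  refine ⟨e.source ∩ e ⁻¹' B, e.isOpen_inter_preimage Metric.isOpen_ball,
    ⟨hxs, Metric.mem_ball_self hR⟩, ?_, ?_, ?_⟩
  · rintro y ⟨hy1, hy2⟩
    have := (hball hy2).2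
    simpa only [mem_preimage, e.left_inv hy1] using this
  · rintro a ⟨ha1, ha2⟩ b ⟨hb1, hb2⟩
    have hmem : ∀ t : I, AffineMap.lineMap (k := ℝ) (e a) (e b) (t : ℝ) ∈ B := fun t =>
      hBconv.lineMap_mem ha2 hb2 t.2
    refine ⟨⟨⟨fun t : I => e.symm (AffineMap.lineMap (k := ℝ) (e a) (e b) (t : ℝ)), ?_⟩, ?_, ?_⟩, ?_⟩
    · exact hcs.comp_continuous (by fun_prop) hmem
    · simp [e.left_inv ha1]
    · simp [e.left_inv hb1]
    · intro t
      refine ⟨e.map_target (hBt (hmem t)), ?_⟩
      change e (e.symm _) ∈ B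
      rw [e.right_inv (hBt (hmem t))]
      exact hmem t
  · intro a b γ γ' hγ hγ'
    have hc : Continuous fun t : I => e (γ t) :=
      e.continuousOn.comp_continuous γ.continuous fun t => (hγ t).1
    have hc' : Continuous fun t : I => e (γ' t) :=
      e.continuousOn.comp_continuous γ'.continuous fun t => (hγ' t).1
    have hmem : ∀ p : I × I, AffineMap.lineMap (k := ℝ) (e (γ p.2)) (e (γ' p.2)) (p.1 : ℝ) ∈ B :=
      fun p => hBconv.lineMap_mem (hγ p.2).2 (hγ' p.2).2 p.1.2
    have hcont : Continuous fun p : I × I =>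
        AffineMap.lineMap (k := ℝ) (e (γ p.2)) (e (γ' p.2)) (p.1 : ℝ) := by
      simp only [AffineMap.lineMap_apply_module']
      have h1 := hc.comp (continuous_snd (X := I) (Y := I))
      have h2 := hc'.comp (continuous_snd (X := I) (Y := I))
      have h3 : Continuous fun p : I × I => (p.1 : ℝ) := by fun_prop
      exact (h3.smul (h2.sub h1)).add h1
    refine ⟨⟨⟨⟨fun p : I × I => e.symm (AffineMap.lineMap (k := ℝ) (e (γ p.2)) (e (γ' p.2))
      (p.1 : ℝ)), hcs.comp_continuous hcont hmem⟩, ?_, ?_⟩, ?_⟩⟩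
    · intro t
      simp [e.left_inv (hγ t).1]
    · intro t
      simp [e.left_inv (hγ' t).1]
    · intro s t ht
      rcases ht with rfl | ht
      · have h0 := hγ 0
        rw [γ.source] at h0
        simp [e.left_inv h0.1]
      · rw [mem_singleton_iff] at ht
        subst ht
        have h1 := hγ 1
        rw [γ.target] at h1
        simp [e.left_inv h1.1]

end

theorem unifLSC_aux (E : Type*) [NormedAddCommGroup E] [NormedSpace ℝ E]
    {M : Type*} [MetricSpace M] [ChartedSpace E M] [CompactSpace M] : UnifLSC M := by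
  constructor
  · intro ε hε
    choose U hUo hxU hUV hU1 hU2 using fun x : M =>
      exists_good_nhd E x (Metric.isOpen_ball (x := x) (ε := ε / 2))
        (Metric.mem_ball_self (by positivity))
    obtain ⟨δ, hδ, h⟩ := lebesgue_number_lemma_of_metric (isCompact_univ (X := M)) hUo
      (fun x _ => mem_iUnion.2 ⟨x, hxU x⟩)
    refine ⟨δ, hδ, ?_⟩
    intro a b hab
    obtain ⟨x, hx⟩ := h a (mem_univ a)
    have ha : a ∈ U x := hx (Metric.mem_ball_self hδ)
    have hb : b ∈ U x := hx (by rwa [Metric.mem_ball, dist_comm])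
    obtain ⟨γ, hγ⟩ := hU1 x a ha b hb
    refine ⟨γ, fun t => ?_⟩
    have h1 := hUV x (hγ t)
    have h2 := hUV x ha
    rw [Metric.mem_ball] at h1 h2
    calc dist (γ t) a ≤ dist (γ t) x + dist a x := dist_triangle_right _ _ _
      _ < ε := by linarith
  · choose U hUo hxU hUV hU1 hU2 using fun x : M =>
      exists_good_nhd E x isOpen_univ (mem_univ x)
    obtain ⟨δ, hδ, h⟩ := lebesgue_number_lemma_of_metric (isCompact_univ (X := M)) hUo
      (fun x _ => mem_iUnion.2 ⟨x, hxU x⟩)
    refine ⟨δ, hδ, ?_⟩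
    intro x a b γ γ' hγ hγ'
    obtain ⟨y, hy⟩ := h x (mem_univ x)
    exact hU2 y a b γ γ' (fun t => hy (hγ t)) (fun t => hy (hγ' t))

/-- **Package ULSC, final statement**. -/
theorem unifLSC {n : ℕ} {M : Type} [t : TopologicalSpace M]
    [ChartedSpace (EuclideanSpace ℝ (Fin n)) M] [CompactSpace M]
    (m : MetricSpace M) (hm : m.toPseudoMetricSpace.toUniformSpace.toTopologicalSpace = t) :
    @UnifLSC M m := by
  subst hm
  exact unifLSC_aux (EuclideanSpace ℝ (Fin n))

end Crest.Agent.R244
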