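import Mathlib
import Crest.Agent.R244.MetricDefs
import Crest.Agent.R244.Alg
import Crest.Agent.R244.Bridge
import Crest.Agent.R244.B2Final
import Crest.Agent.R244.B1Final
import Crest.Agent.R244.ULSC

/-!
# R244 : the graph manifold group relations exclude nonpositive curvature
-/

set_option autoImplicit false

open Bundle Crest.GeometryTopology.Geodesic Filter Topology
open scoped ContDiff Manifold

namespace Crest.Agent.R244

/-- B2 + B3 : in a compact locally CAT(0) space the relations force `f₂ = 1`. -/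
theorem f₂_eq_one {M : Type*} [MetricSpace M] [CompactSpace M] {r : ℝ} (h : LocalCN M r)
    (hU : UnifLSC M) {x : M} (f₁ f₂ a₁ c₁ a₂ c₂ : FundamentalGroup M x)
    (h1a : Commute f₁ a₁) (h1c : Commute f₁ c₁) (hrel1 : f₂ = a₁ * c₁ * a₁⁻¹ * c₁⁻¹)
    (h2a : Commute f₂ a₂) (h2c : Commute f₂ c₂) (hrel2 : f₁ * f₂⁻¹ = a₂ * c₂ * a₂⁻¹ * c₂⁻¹) :
    f₂ = 1 := by
  obtain ⟨D, hD, r₀, hr₀, hsys⟩ := exists_pathLength₂ h hU
  have hlim := stableLength_eq_zero₂ (hD.quadLength x) f₁ f₂ a₁ c₁ a₂ c₂ h1a h1c hrel1 h2a h2c hrel2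
  have h1 : Tendsto (fun k : ℕ => hD.len x (f₂ ^ (2 ^ k)) / ((2 ^ k : ℕ) : ℝ)) atTop (𝓝 0) :=
    hlim.comp (tendsto_pow_atTop_atTop_of_one_lt (by norm_num : 1 < 2))
  obtain ⟨k, hk⟩ := (h1.eventually (gt_mem_nhds hr₀)).exists
  obtain ⟨m, τ, hτ⟩ := hD.exists_conj_le f₂ k
  push_cast at hk
  have hlt : hD.DQ (τ.symm.trans ((FundamentalGroup.toPath f₂).trans τ)) < r₀ :=
    lt_of_le_of_lt hτ hk
  have hrefl : τ.symm.trans ((FundamentalGroup.toPath f₂).trans τ) =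
      Path.Homotopic.Quotient.refl m := by
    generalize τ.symm.trans ((FundamentalGroup.toPath f₂).trans τ) = q at hlt
    induction q using Path.Homotopic.Quotient.ind with | mk γ =>
    exact Path.Homotopic.Quotient.eq.2 (hsys m γ hlt)
  have h2 : FundamentalGroup.toPath f₂ = Path.Homotopic.Quotient.refl x := by
    have e : FundamentalGroup.toPath f₂ =
        (τ.trans (τ.symm.trans ((FundamentalGroup.toPath f₂).trans τ))).trans τ.symm := by
      simp [Path.Homotopic.Quotient.trans_assoc, trans_symm_cancel]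
    rw [e, hrefl]; simp
  exact h2

/-- Version with a metric compatible with a given topology. -/
theorem f₂_eq_one' {M : Type*} [t : TopologicalSpace M] [CompactSpace M] (m : MetricSpace M)
    (hm : m.toPseudoMetricSpace.toUniformSpace.toTopologicalSpace = t) {r : ℝ}
    (h : @LocalCN M m r)
    (hU : @UnifLSC M m) {x : M} (f₁ f₂ a₁ c₁ a₂ c₂ : FundamentalGroup M x)
    (h1a : Commute f₁ a₁) (h1c : Commute f₁ c₁) (hrel1 : f₂ = a₁ * c₁ * a₁⁻¹ * c₁⁻¹)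
    (h2a : Commute f₂ a₂) (h2c : Commute f₂ c₂) (hrel2 : f₁ * f₂⁻¹ = a₂ * c₂ * a₂⁻¹ * c₂⁻¹) :
    f₂ = 1 := by
  subst hm
  exact f₂_eq_one h hU f₁ f₂ a₁ c₁ a₂ c₂ h1a h1c hrel1 h2a h2c hrel2

/-- No metric of nonpositive sectional curvature. -/
theorem not_hasNonposSectionalCurvature {n : ℕ} {M : Type} [t : TopologicalSpace M]
    [ChartedSpace (EuclideanSpace ℝ (Fin n)) M]
    [IsManifold 𝓘(ℝ, EuclideanSpace ℝ (Fin n)) ∞ M]
    [T2Space M] [SecondCountableTopology M] [CompactSpace M] [ConnectedSpace M]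
    {x : M} (f₁ f₂ a₁ c₁ a₂ c₂ : FundamentalGroup M x)
    (h1a : Commute f₁ a₁) (h1c : Commute f₁ c₁) (hrel1 : f₂ = a₁ * c₁ * a₁⁻¹ * c₁⁻¹)
    (h2a : Commute f₂ a₂) (h2c : Commute f₂ c₂) (hrel2 : f₁ * f₂⁻¹ = a₂ * c₂ * a₂⁻¹ * c₂⁻¹)
    (hne : f₂ ≠ 1)
    (g : ContMDiffRiemannianMetric 𝓘(ℝ, EuclideanSpace ℝ (Fin n)) ∞ (EuclideanSpace ℝ (Fin n))
          (fun x : M => TangentSpace 𝓘(ℝ, EuclideanSpace ℝ (Fin n)) x)) :
    ¬ HasNonposSectionalCurvature g := by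
  intro hg
  obtain ⟨m, hm, r, hr⟩ := exists_localCN g hg
  exact hne (f₂_eq_one' m hm hr (unifLSC (n := n) m hm) f₁ f₂ a₁ c₁ a₂ c₂ h1a h1c hrel1 h2a h2c
    hrel2)

end Crest.Agent.R244
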