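import Mathlib
import Crest.Agent.R244.ManC2
import Crest.Agent.R244.LoopsFinal
import Crest.Agent.R244.B4Ne
import Crest.Agent.R244.B4Det
import Crest.Agent.R244.NoNPC

/-!
# R244 MAN-C : loops in a 3-patch space, and the absence of nonpositively curved metrics
-/

set_option autoImplicit false

open Set Filter Topology Bundle
open scoped Real ContDiff Manifold
open Crest.GeometryTopology.Geodesic

noncomputable section

namespace Crest.Agent.R244.ManC2

local notation "E3" => EuclideanSpace ℝ (Fin 3)

/-- the outer block structure from a lattice periodic map on the complement of small discs -/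
theorem outer_of_periodic {X : Type*} [TopologicalSpace X] {S h r r' : ℝ} {f : E3 → X}
    (hr : 0 ≤ r) (hr' : r < r') (hS : r' < S / 2)
    (hf : ContinuousOn f {p | r ^ 2 < nn S h (p 0) (p 1)})
    (per : ∀ (u v x : ℝ) (k l n : ℤ), r ^ 2 < nn S h u v →
      f !₂[u + S * k, v + S * l, x + 2 * π * n] = f !₂[u, v, x]) :
    Loops.Outer (fun q : ℝ × ℝ × ℝ => f !₂[q.1, q.2.1, q.2.2]) h h r' (S / 2) (2 * π) := by
  have hS0 : 0 < S := by linarith
  have hsub : ∀ q : ℝ × ℝ × ℝ, q ∈ Loops.Ann h h r' (S / 2) → r ^ 2 < nn S h q.1 q.2.1 := by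
    rintro q ⟨h1, h2, h3⟩
    have e : nn S h q.1 q.2.1 = (q.1 - h) ^ 2 + (q.2.1 - h) ^ 2 := by
      have := nn_of_small (h := h) hS0 h1 h2
      simpa using this
    rw [e]
    exact lt_of_lt_of_le (pow_lt_pow_left₀ hr' hr two_ne_zero) h3
  have hS2 : |(-(S / 2) : ℝ)| ≤ S / 2 := by
    rw [abs_neg, abs_of_pos (by linarith : 0 < S / 2)]
  refine ⟨by linarith, by linarith, ?_, ?_, ?_, ?_⟩
  · apply hf.comp (by fun_prop)
    intro q hq
    exact hsub q hq
  · intro z th hz
    have e : nn S h (h - S / 2) z = (S / 2) ^ 2 + (z - h) ^ 2 := by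
      have := nn_of_small (h := h) (a := -(S / 2)) (b := z - h) hS0 hS2 hz
      rw [show h + -(S / 2) = h - S / 2 by ring, show h + (z - h) = z by ring] at this
      rw [this]; ring
    have := per (h - S / 2) z th 1 0 0 (by
      rw [e]
      have := pow_lt_pow_left₀ (by linarith : r < S / 2) hr two_ne_zero
      nlinarith [sq_nonneg (z - h)])
    simp only [Int.cast_one, Int.cast_zero, mul_one, mul_zero, add_zero] at this
    rw [show h - S / 2 + S = h + S / 2 by ring] at this
    exact this
  · intro z th hz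
    have e : nn S h z (h - S / 2) = (z - h) ^ 2 + (S / 2) ^ 2 := by
      have := nn_of_small (h := h) (a := z - h) (b := -(S / 2)) hS0 hz hS2
      rw [show h + -(S / 2) = h - S / 2 by ring, show h + (z - h) = z by ring] at this
      rw [this]; ring
    have := per z (h - S / 2) th 0 1 0 (by
      rw [e]
      have := pow_lt_pow_left₀ (by linarith : r < S / 2) hr two_ne_zero
      nlinarith [sq_nonneg (z - h)])
    simp only [Int.cast_one, Int.cast_zero, mul_one, mul_zero, add_zero] at this
    rw [show h - S / 2 + S = h + S / 2 by ring] at this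
    exact this
  · rintro ⟨a, b, c⟩ hq
    have := per a b c 0 0 1 (hsub (a, b, c) hq)
    simp only [Int.cast_one, Int.cast_zero, mul_one, mul_zero, add_zero] at this
    simp only [Prod.mk_add_mk, add_zero]
    exact this

namespace Pres

variable {X : Type*} [TopologicalSpace X] (D : Pres X)

/-- the block structure of helper138's loop computation -/
def blocks : Loops.Blocks X where
  F₁ := fun q => D.f1 !₂[q.1, q.2.1, q.2.2]
  p1 := D.h
  p2 := D.h
  r := D.c1 - (D.tm + D.tl) / 2
  L := D.S / 2
  hO₁ := outer_of_periodic D.h1.le (by have := D.hml; linarith)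
    (by have := D.hml; have := D.hS1; linarith) D.cont1 D.per1
  F₂ := fun q => D.f2 !₂[q.1, q.2.1, q.2.2]
  o1 := D.h
  o2 := D.h
  ro := D.c2 + (D.tr + D.tp) / 2
  Lo := D.S / 2
  hO₂ := outer_of_periodic D.h2.le (by have := D.hrp; linarith)
    (by have := D.hrp; have := D.hS2; linarith) D.cont2 D.per2
  K := fun q => D.fc !₂[q.1, q.2.1, q.2.2]
  t₀ := (D.tm + D.tl) / 2
  t₁ := (D.tr + D.tp) / 2
  hK := by
    have hml := D.hml
    have hlr := D.hlr
    have hrp := D.hrp
    refine ⟨by linarith, ?_, ?_, ?_, ?_, ?_⟩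
    · apply D.contc.comp (by fun_prop)
      rintro q ⟨h1, h2⟩
      exact ⟨by show D.tm < q.1; linarith, by show q.1 < D.tp; linarith⟩
    · rintro ⟨a, b, c⟩ ⟨h1, h2⟩
      simp only at h1 h2
      have := D.perc a b c 1 0 (by linarith) (by linarith)
      simp only [Int.cast_one, Int.cast_zero, mul_one, mul_zero, add_zero] at this
      simp only [Prod.mk_add_mk, add_zero]
      exact this
    · rintro ⟨a, b, c⟩ ⟨h1, h2⟩
      simp only at h1 h2
      have := D.perc a b c 0 1 (by linarith) (by linarith)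
      simp only [Int.cast_one, Int.cast_zero, mul_one, mul_zero, add_zero] at this
      simp only [Prod.mk_add_mk, add_zero]
      exact this
    · intro x y
      exact (D.glue1 _ x y (by linarith) (by linarith)).symm
    · intro x y
      exact (D.glue2 _ x y (by linarith) (by linarith)).symm

end Pres

/-- **No nonpositively curved metric** on a 3-patch 3-manifold with a map to `Nil`. -/
theorem Pres.not_hasNonposSectionalCurvature {M : Type} [TopologicalSpace M]
    [ChartedSpace (EuclideanSpace ℝ (Fin 3)) M]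
    [IsManifold 𝓘(ℝ, EuclideanSpace ℝ (Fin 3)) ∞ M]
    [T2Space M] [SecondCountableTopology M] (D : Pres M)
    (F : C(M, B4.Nil)) (hF : ∀ y : ℝ, F (D.fc !₂[(D.tr + D.tp) / 2, 0, y]) = B4.nil2 y)
    (g : ContMDiffRiemannianMetric 𝓘(ℝ, EuclideanSpace ℝ (Fin 3)) ∞ (EuclideanSpace ℝ (Fin 3))
          (fun x : M => TangentSpace 𝓘(ℝ, EuclideanSpace ℝ (Fin 3)) x)) :
    ¬ HasNonposSectionalCurvature g := by
  have := D.compactSpace
  have := D.connectedSpace
  have : LocallyPathConnectedSpace M :=
    ChartedSpace.locallyPathConnectedSpace (EuclideanSpace ℝ (Fin 3)) M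
  have : PathConnectedSpace M := pathConnectedSpace_iff_connectedSpace.mpr inferInstance
  have hml := D.hml
  have hlr := D.hlr
  have hrp := D.hrp
  obtain ⟨x₀⟩ : Nonempty M := inferInstance
  obtain ⟨f₁, f₂, a₁, c₁, a₂, c₂, h1, h2, h3, h4, h5, h6, h7⟩ :=
    D.blocks.exists_relations x₀ (fun γ hγ =>
      B4.not_homotopic_refl_of_nil D.blocks.K D.blocks.t₀ D.blocks.t₁ D.blocks.hK.hT
        D.blocks.hK.hK (fun t y ht1 ht2 => by
          have := D.blocks.hK.pery (t, 0, y) ⟨ht1, ht2⟩
          simpa using this) F hF γ hγ)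
  exact Crest.Agent.R244.not_hasNonposSectionalCurvature f₁ f₂ a₁ c₁ a₂ c₂ h1 h2 h3 h4 h5 h6 h7 g

end Crest.Agent.R244.ManC2
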