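import Mathlib
import Crest.Agent.R244.ManC
import Crest.Agent.R244.ManC2

/-!
# R244 MAN-C : the concrete manifold is compact and connected
-/

set_option autoImplicit false

open Set Filter Topology Bundle
open scoped Real ContDiff Manifold

noncomputable section

namespace Crest.Agent.R244.ManC

open Crest.Agent.R244.ManC2 Par

lemma lt_rho_iff (D : Par) {a u v : ℝ} (ha : 0 ≤ a) :
    a < D.rho u v ↔ a ^ 2 < nn D.S (D.S / 2) u v := by
  unfold rho nn tc
  rw [Real.lt_sqrt ha]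

lemma cos_add_int' (x : ℝ) (n : ℤ) : Real.cos (x + 2 * π * n) = Real.cos x := by
  rw [show x + 2 * π * n = x + n * (2 * π) by ring, Real.cos_add_int_mul_two_pi]

lemma sin_add_int' (x : ℝ) (n : ℤ) : Real.sin (x + 2 * π * n) = Real.sin x := by
  rw [show x + 2 * π * n = x + n * (2 * π) by ring, Real.sin_add_int_mul_two_pi]

/-- the concrete manifold as a 3-patch space -/
def pres (C : CollarData) : Pres (theGlue C).M where
  S := C.par.S
  h := C.par.S / 2
  c1 := C.c1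
  c2 := C.c2
  tm := C.tL - 2
  tl := C.tL
  tr := C.tR
  tp := C.tR + 2
  hml := by linarith
  hlr := C.par.hLR
  hrp := by linarith
  h1 := C.c1_pos
  h2 := C.c2_pos
  hS1 := by have : 2 * (C.c1 - C.tL + 2) < C.par.S := C.par.hS1; linarith
  hS2 := by have : 2 * (C.c2 + C.tR + 2) < C.par.S := C.par.hS2; linarith
  f1 := (theGlue C).F 0
  fc := (theGlue C).F 1
  f2 := (theGlue C).F 2
  cont1 := by
    refine ((theGlue C).continuousOn_F 0).mono ?_
    intro p hp
    rw [theGlue_U, mem_P0]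
    exact (lt_rho_iff _ C.c1_pos.le).2 hp
  contc := by
    refine ((theGlue C).continuousOn_F 1).mono ?_
    intro p hp
    rw [theGlue_U, mem_P1]
    exact hp
  cont2 := by
    refine ((theGlue C).continuousOn_F 2).mono ?_
    intro p hp
    rw [theGlue_U, mem_P2]
    exact (lt_rho_iff _ C.c2_pos.le).2 hp
  surj := by
    intro x
    obtain ⟨i, z, hz, rfl⟩ := (theGlue C).exists_F x
    rw [theGlue_U] at hz
    fin_cases i
    · exact Or.inl ⟨z, (lt_rho_iff _ C.c1_pos.le).1 (C.par.mem_P0.1 hz), rfl⟩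
    · exact Or.inr (Or.inl ⟨z, C.par.mem_P1.1 hz, rfl⟩)
    · exact Or.inr (Or.inr ⟨z, (lt_rho_iff _ C.c2_pos.le).1 (C.par.mem_P2.1 hz), rfl⟩)
  per1 := by
    intro u v x k l n h
    have h0 : (!₂[u, v, x] : E3) ∈ C.par.P 0 := by
      rw [mem_P0]; exact (lt_rho_iff _ C.c1_pos.le).2 h
    have h1 : C.par.latB !₂[u, v, x] !₂[u + C.par.S * k, v + C.par.S * l, x + 2 * π * n] :=
      ⟨(C.par.tc_add_int u k).symm, (C.par.tc_add_int v l).symm, an_eq_iff.2 ⟨n, rfl⟩⟩
    rw [eq_comm, theGlue_F_eq C h0 (C.par.mem_of_latB0 h1 h0)]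
    exact C.par.rel_00.2 h1
  perc := by
    intro t x y m n h1 h2
    have h0 : (!₂[t, x, y] : E3) ∈ C.par.P 1 := by
      rw [mem_P1]; exact ⟨h1, h2⟩
    have h0' : (!₂[t, x + 2 * π * m, y + 2 * π * n] : E3) ∈ C.par.P 1 := by
      rw [mem_P1]; exact ⟨h1, h2⟩
    rw [eq_comm, theGlue_F_eq C h0 h0']
    exact (C.par.rel_11 h0 h0').2 ⟨rfl, an_eq_iff.2 ⟨m, rfl⟩, an_eq_iff.2 ⟨n, rfl⟩⟩
  per2 := by
    intro u v x k l n h
    have h0 : (!₂[u, v, x] : E3) ∈ C.par.P 2 := by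
      rw [mem_P2]; exact (lt_rho_iff _ C.c2_pos.le).2 h
    have h1 : C.par.latB !₂[u, v, x] !₂[u + C.par.S * k, v + C.par.S * l, x + 2 * π * n] :=
      ⟨(C.par.tc_add_int u k).symm, (C.par.tc_add_int v l).symm, an_eq_iff.2 ⟨n, rfl⟩⟩
    rw [eq_comm, theGlue_F_eq C h0 (C.par.mem_of_latB2 h1 h0)]
    exact C.par.rel_22.2 h1
  glue1 := by
    intro t x y h1 h2
    have h0 : (!₂[t, x, y] : E3) ∈ C.par.P 1 := by
      rw [mem_P1]
      have : C.tL < C.tR := C.par.hLR
      refine ⟨h1, ?_⟩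
      show t < C.tR + 2
      linarith
    have e : (!₂[C.par.S / 2 + (C.c1 - t) * Real.cos y, C.par.S / 2 + (C.c1 - t) * Real.sin y, x] : E3)
        = C.par.pol1 !₂[t, x, y] := rfl
    rw [e, theGlue_F_eq C (C.par.pol1_mem h0 h2) h0, rel_01]
    exact ⟨h2, rfl, rfl, rfl⟩
  glue2 := by
    intro t x y h1 h2
    have h0 : (!₂[t, x, y] : E3) ∈ C.par.P 1 := by
      rw [mem_P1]
      have : C.tL < C.tR := C.par.hLR
      refine ⟨?_, h2⟩
      show C.tL - 2 < t
      linarith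
    have e : (!₂[C.par.S / 2 + (C.c2 + t) * Real.cos x, C.par.S / 2 + (C.c2 + t) * Real.sin x,
        x + y] : E3) = C.par.pol2 !₂[t, x, y] := by
      rw [add_comm C.c2 t]; rfl
    rw [e, theGlue_F_eq C (C.par.pol2_mem h0 h1) h0, rel_21]
    exact ⟨h1, rfl, rfl, rfl⟩

theorem theGlue_compact (C : CollarData) : CompactSpace (theGlue C).M := (pres C).compactSpace

theorem theGlue_connected (C : CollarData) : ConnectedSpace (theGlue C).M :=
  (pres C).connectedSpace

end Crest.Agent.R244.ManC
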