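import Crest.Agent.R244.NCPInst
import Crest.Agent.R244.CFLift

/-!
R244 (S0377), package NCP, part 7: from the Prelude equations to `EqAt`.
-/

set_option autoImplicit false
set_option maxSynthPendingDepth 3

open Filter Topology Set
open scoped ContDiff

namespace Crest.Agent.R244.NCP

open Crest.GeometryTopology.CoordMetric Crest.GeometryTopology.ChartCurvature
  Crest.GeometryTopology.Geodesic Crest.Agent.R244.CF

variable {Qa Qb Qc A B C : ℝ → ℝ}

theorem contDiff_coord0 {f : ℝ → ℝ} (hf : ContDiff ℝ ∞ f) : ContDiff ℝ ∞ (fun y : E3 => f (y 0)) :=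
  hf.comp (EuclideanSpace.proj (0 : Fin 3) : E3 →L[ℝ] ℝ).contDiff

theorem QW.isRiemannianOn (H : QW Qa Qb Qc A B C) : IsRiemannianOn (gC Qa Qb Qc) univ where
  isOpen := isOpen_univ
  contDiffOn := by
    intro i j
    apply ContDiff.contDiffOn
    unfold gC
    fin_cases i <;> fin_cases j <;>
      simp [contDiff_const, contDiff_coord0 H.sa, contDiff_coord0 H.sb, contDiff_coord0 H.sc]
  posDef := by
    intro z _
    apply Matrix.PosDef.of_dotProduct_mulVec_pos
    · unfold gC
      ext i j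
      fin_cases i <;> fin_cases j <;> simp [Matrix.conjTranspose_apply]
    · intro x hx
      have hQa : 0 < Qa (z 0) := by
        have h1 := H.h11 (z 0)
        have h2 := H.h12 (z 0)
        have h3 := H.D_pos (z 0)
        have h4 := H.C_pos (z 0)
        have h5 : Qa (z 0) * (A (z 0) * C (z 0) - B (z 0) ^ 2) = C (z 0) := by
          linear_combination C (z 0) * h1 - B (z 0) * h2
        by_contra hc
        push Not at hc
        nlinarith
      have hdet : 0 < Qa (z 0) * Qc (z 0) - Qb (z 0) ^ 2 := by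
        have h1 := H.h11 (z 0)
        have h2 := H.h12 (z 0)
        have h3 := H.h21 (z 0)
        have h4 := H.h22 (z 0)
        have h5 := H.D_pos (z 0)
        have h6 : (Qa (z 0) * Qc (z 0) - Qb (z 0) ^ 2) * (A (z 0) * C (z 0) - B (z 0) ^ 2) = 1 := by
          linear_combination (Qb (z 0) * B (z 0) + Qc (z 0) * C (z 0)) * h1 -
            (Qb (z 0) * A (z 0) + Qc (z 0) * B (z 0)) * h2 + h4
        by_contra hc
        push Not at hc
        nlinarith
      have e : star x ⬝ᵥ (gC Qa Qb Qc z).mulVec x =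
          x 0 ^ 2 + qf (Qa (z 0)) (Qb (z 0)) (Qc (z 0)) (x 1) (x 2) := by
        unfold gC qf
        simp [Matrix.mulVec, dotProduct, Fin.sum_univ_three]
        ring
      rw [e]
      by_cases h0 : x 0 = 0
      · have h12 : x 1 ≠ 0 ∨ x 2 ≠ 0 := by
          by_contra hc
          push Not at hc
          apply hx
          funext i
          fin_cases i
          · exact h0
          · exact hc.1
          · exact hc.2
        have := qf_pos hQa hdet h12
        positivity
      · have := qf_nonneg hQa hdet (x 1) (x 2)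
        positivity

theorem QW.eqAt (H : QW Qa Qb Qc A B C) {c J : ℝ → E3} {s : ℝ}
    (hc : ContDiffAt ℝ 2 c s) (hJ : ContDiffAt ℝ 2 J s)
    (hg : GeodesicEqAt (gC Qa Qb Qc) c s) (hj : JacobiEqAt (gC Qa Qb Qc) c J s) :
    EqAt (gC Qa Qb Qc) c J s := by
  have hR := H.isRiemannianOn
  refine ⟨(hc.differentiableAt (by simp)).hasDerivAt, (differentiableAt_deriv hc).hasDerivAt,
    (hJ.differentiableAt (by simp)).hasDerivAt, (differentiableAt_deriv hJ).hasDerivAt, hg, ?_⟩
  have h := (jacobiEqAt_iff_linearized hR (mem_univ (c s)) (ev_differentiableAt hc)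
    (differentiableAt_deriv hc) hg (ev_differentiableAt hJ) (differentiableAt_deriv hJ)).1 hj
  intro k
  have hk := congrArg (fun v : E3 => v k) h
  simp only [PiLp.add_apply, PiLp.smul_apply, smul_eq_mul, PiLp.zero_apply] at hk
  rw [fderiv_Gam_apply hR (mem_univ _), Gam_apply] at hk
  rw [← hk]
  congr 1
  congr 1
  simp only [Fin.sum_univ_three]
  ring

section Congr

variable {n : ℕ} {g g' : MetricField n} {x : EuclideanSpace ℝ (Fin n)}

theorem pderiv_congr {f f' : EuclideanSpace ℝ (Fin n) → ℝ} (h : f =ᶠ[𝓝 x] f') (i : Fin n) :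
    pderiv i f x = pderiv i f' x := by
  unfold pderiv
  rw [h.fderiv_eq]

theorem christoffel_congr (h : g =ᶠ[𝓝 x] g') (k i j : Fin n) :
    christoffel g x k i j = christoffel g' x k i j := by
  have h1 : ∀ i j, (fun y => g y i j) =ᶠ[𝓝 x] (fun y => g' y i j) := by
    intro i j
    filter_upwards [h] with y hy
    rw [hy]
  unfold christoffel inverseField
  simp only [pderiv_congr (h1 _ _), h.self_of_nhds]

theorem christoffel_congr' (h : g =ᶠ[𝓝 x] g') (k i j : Fin n) :
    (fun y => christoffel g y k i j) =ᶠ[𝓝 x] (fun y => christoffel g' y k i j) := by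
  filter_upwards [h.eventuallyEq_nhds] with y hy
  exact christoffel_congr hy k i j

theorem riemann_congr (h : g =ᶠ[𝓝 x] g') (l k i j : Fin n) :
    riemann g x l k i j = riemann g' x l k i j := by
  unfold riemann
  simp only [pderiv_congr (christoffel_congr' h _ _ _), christoffel_congr h]

theorem geodesicEqAt_congr {c : ℝ → EuclideanSpace ℝ (Fin n)} {s : ℝ}
    (h : g =ᶠ[𝓝 (c s)] g') : GeodesicEqAt g c s ↔ GeodesicEqAt g' c s := by
  unfold GeodesicEqAt
  simp only [christoffel_congr h]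

theorem covDeriv_congr {c V V' : ℝ → EuclideanSpace ℝ (Fin n)} {s : ℝ} (hV : V =ᶠ[𝓝 s] V')
    (h : g =ᶠ[𝓝 (c s)] g') : covDeriv g c V s = covDeriv g' c V' s := by
  unfold covDeriv
  simp only [christoffel_congr h, hV.deriv_eq, hV.self_of_nhds]

theorem jacobiEqAt_congr {c J : ℝ → EuclideanSpace ℝ (Fin n)} {s : ℝ} (hc : ContinuousAt c s)
    (h : g =ᶠ[𝓝 (c s)] g') : JacobiEqAt g c J s ↔ JacobiEqAt g' c J s := by
  have h1 : covDeriv g c J =ᶠ[𝓝 s] covDeriv g' c J := by
    filter_upwards [hc.eventually h.eventuallyEq_nhds] with z hz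
    exact covDeriv_congr (Filter.EventuallyEq.refl _ _) hz
  unfold JacobiEqAt
  simp only [covDeriv_congr h1 h, riemann_congr h]

end Congr

/-- **The collar-local theorem** (final form of package NCP-A), for a metric field `g` which agrees
with the collar metric on an open set `U` containing the curve. -/
theorem collar_triple (K : CollarData) {g : MetricField 3} {U : Set E3} (hU : IsOpen U)
    (hgU : ∀ x ∈ U, g x = gC K.P K.B K.D x) {c J : ℝ → E3} {s₀ : ℝ} {E Hf : ℝ → ℝ}
    (hcU : c s₀ ∈ U)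
    (hc : ∀ᶠ s in 𝓝 s₀, ContDiffAt ℝ 2 c s) (hJ : ∀ᶠ s in 𝓝 s₀, ContDiffAt ℝ 2 J s)
    (hgeo : ∀ᶠ s in 𝓝 s₀, GeodesicEqAt g c s) (hjac : ∀ᶠ s in 𝓝 s₀, JacobiEqAt g c J s)
    (hE : ∀ᶠ s in 𝓝 s₀, E s = quadForm g (c s) (J s))
    (hH : ∀ᶠ s in 𝓝 s₀, Hf s = deriv E s / 2 +
      colK K.P K.B K.D K.tL K.tR (c s) (deriv c s) (J s)) :
    LocMono Hf s₀ ∧ (J s₀ = 0 ∧ deriv J s₀ ≠ 0 → ∀ᶠ z in 𝓝[>] s₀, Hf s₀ < Hf z) := by
  have hcU' : ∀ᶠ s in 𝓝 s₀, c s ∈ U :=
    (hc.self_of_nhds.continuousAt).eventually (hU.mem_nhds hcU)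
  refine collar_local (qw K) (colCond K) (c := c) (J := J) (E := E) ?_ ?_ hH
  · filter_upwards [hcU', hc, hJ, hgeo, hjac] with s h1 h2 h3 h4 h5
    have h6 : g =ᶠ[𝓝 (c s)] gC K.P K.B K.D := by
      filter_upwards [hU.mem_nhds h1] with y hy
      exact hgU y hy
    exact (qw K).eqAt h2 h3 ((geodesicEqAt_congr h6).1 h4)
      ((jacobiEqAt_congr h2.continuousAt h6).1 h5)
  · filter_upwards [hcU', hE] with s h1 h2
    rw [h2]
    unfold quadForm
    rw [hgU _ h1]
    unfold gC qf
    simp [Fin.sum_univ_three]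
    ring

end Crest.Agent.R244.NCP
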