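import Crest.Agent.R244.NCPGlue
import Crest.Agent.R244.NCPEq
import Crest.Agent.R244.ChartEq

/-!
# R244 (S0377), package NCP-C: assembly on the glued manifold
-/

set_option autoImplicit false
set_option maxSynthPendingDepth 3

open Filter Topology Set Bundle
open scoped ContDiff Manifold

noncomputable section

namespace Crest.Agent.R244.NCP

open Crest.GeometryTopology.CoordMetric Crest.GeometryTopology.ChartCurvature
  Crest.GeometryTopology.Geodesic Crest.Agent.R244.Man Crest.Agent.R244.Man.Glue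

/-! ### flat triple in the form of `collar_triple` -/

theorem isRiemannianOn_const {Q : Matrix (Fin 3) (Fin 3) ℝ} (hQ : Q.PosDef) :
    IsRiemannianOn (fun _ : E3 => Q) univ where
  isOpen := isOpen_univ
  contDiffOn _ _ := contDiffOn_const
  posDef _ _ := hQ

theorem eqAt_const {Q : Matrix (Fin 3) (Fin 3) ℝ} (hQ : Q.PosDef) {c J : ℝ → E3} {s : ℝ}
    (hc : ContDiffAt ℝ 2 c s) (hJ : ContDiffAt ℝ 2 J s)
    (hg : GeodesicEqAt (fun _ => Q) c s) (hj : JacobiEqAt (fun _ => Q) c J s) :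
    EqAt (fun _ => Q) c J s := by
  have hR := isRiemannianOn_const hQ
  refine ⟨(hc.differentiableAt (by simp)).hasDerivAt, (CF.differentiableAt_deriv hc).hasDerivAt,
    (hJ.differentiableAt (by simp)).hasDerivAt, (CF.differentiableAt_deriv hJ).hasDerivAt, hg, ?_⟩
  have h := (CF.jacobiEqAt_iff_linearized hR (mem_univ (c s)) (CF.ev_differentiableAt hc)
    (CF.differentiableAt_deriv hc) hg (CF.ev_differentiableAt hJ)
    (CF.differentiableAt_deriv hJ)).1 hj
  intro k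
  have hk := congrArg (fun v : E3 => v k) h
  simp only [PiLp.add_apply, PiLp.smul_apply, smul_eq_mul, PiLp.zero_apply] at hk
  rw [CF.fderiv_Gam_apply hR (mem_univ _), CF.Gam_apply] at hk
  rw [← hk]
  congr 1
  congr 1
  simp only [Fin.sum_univ_three]
  ring

theorem flat_triple {Q : Matrix (Fin 3) (Fin 3) ℝ} (hQ : Q.PosDef) {g : MetricField 3}
    {U : Set E3} (hU : IsOpen U) (hgU : ∀ x ∈ U, g x = Q) {c J : ℝ → E3} {s₀ : ℝ}
    {E Hf : ℝ → ℝ} (hcU : c s₀ ∈ U)
    (hc : ∀ᶠ s in 𝓝 s₀, ContDiffAt ℝ 2 c s) (hJ : ∀ᶠ s in 𝓝 s₀, ContDiffAt ℝ 2 J s)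
    (hgeo : ∀ᶠ s in 𝓝 s₀, GeodesicEqAt g c s) (hjac : ∀ᶠ s in 𝓝 s₀, JacobiEqAt g c J s)
    (hE : ∀ᶠ s in 𝓝 s₀, E s = quadForm g (c s) (J s))
    (hH : ∀ᶠ s in 𝓝 s₀, Hf s = deriv E s / 2) :
    LocMono Hf s₀ ∧ (J s₀ = 0 ∧ deriv J s₀ ≠ 0 → ∀ᶠ z in 𝓝[>] s₀, Hf s₀ < Hf z) := by
  have hcU' : ∀ᶠ s in 𝓝 s₀, c s ∈ U :=
    hc.self_of_nhds.continuousAt.eventually (hU.mem_nhds hcU)
  refine flat_local hQ (c := c) (E := E) ?_ ?_ hH
  · filter_upwards [hcU', hc, hJ, hgeo, hjac] with s h1 h2 h3 h4 h5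
    have hev : g =ᶠ[𝓝 (c s)] fun _ => Q := by
      filter_upwards [hU.mem_nhds h1] with x hx using hgU x hx
    exact eqAt_const hQ h2 h3 ((geodesicEqAt_congr hev).1 h4)
      ((jacobiEqAt_congr h2.continuousAt hev).1 h5)
  · filter_upwards [hcU', hE] with s h1 h2
    rw [h2, quadForm, hgU _ h1]

theorem colK_congr {Qa Qb Qc : ℝ → ℝ} {tL tR : ℝ} {x x' : E3} (h : x 0 = x' 0) (v j : E3) :
    colK Qa Qb Qc tL tR x v j = colK Qa Qb Qc tL tR x' v j := by
  unfold colK
  rw [h]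

theorem colK_eq_zero {Qa Qb Qc : ℝ → ℝ} {tL tR : ℝ} {x : E3} (h : ¬ (tL < x 0 ∧ x 0 < tR))
    (v j : E3) : colK Qa Qb Qc tL tR x v j = 0 := by
  unfold colK
  rw [if_neg h]

/-- What we use of the concrete glued manifold: the piece `col` carries the collar metric, the
other pieces are flat, the gluing of the collar piece with itself is by translations preserving the
`t`-coordinate and the open collar meets no other piece. -/
structure CollarGlue {ι : Type} (G : Glue ι 3) (D : G.MetricData) (K : CollarData) (col : ι) :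
    Prop where
  mat_col : ∀ z ∈ G.U col, D.mat col z = gC K.P K.B K.D z
  mat_flat : ∀ i, i ≠ col → ∃ Q : Matrix (Fin 3) (Fin 3) ℝ, Q.PosDef ∧ ∀ z ∈ G.U i, D.mat i z = Q
  rel_col : ∀ (p q : E3) (τ : E3 → E3), G.Trans col col p q τ →
    q 0 = p 0 ∧ fderiv ℝ τ p = ContinuousLinearMap.id ℝ E3
  rel_flat : ∀ i, i ≠ col → ∀ (p q : E3) (τ : E3 → E3), G.Trans i col p q τ →
    ¬ (K.tL < q 0 ∧ q 0 < K.tR)

section Main

variable {ι : Type} {G : Glue ι 3} {D : G.MetricData} {K : CollarData} {col : ι}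

theorem CollarGlue.rel_flat' (h : CollarGlue G D K col) {i : ι} (hi : i ≠ col) {p q : E3}
    {τ : E3 → E3} (hτ : G.Trans col i p q τ) : ¬ (K.tL < p 0 ∧ p 0 < K.tR) := by
  obtain ⟨hp, hq, hr⟩ := hτ.rel
  obtain ⟨σ, hσ⟩ := G.exists_trans (G.r.symm hr)
  exact h.rel_flat i hi _ _ _ hσ

open Classical in
/-- The monotone function. -/
def Hfun (D : G.MetricData) (K : CollarData) (col : ι) (γ : ℝ → G.M) (J : ℝ → E3) (s : ℝ) : ℝ :=
  deriv (Efun D γ J) s / 2 +
    if G.idx (γ s) = col then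
      colK K.P K.B K.D K.tL K.tR (G.pt (γ s)) (deriv (fun u => chartAt E3 (γ s) (γ u)) s) (J s)
    else 0

theorem Hfun_zero (γ : ℝ → G.M) (J : ℝ → E3) {s : ℝ} (h : J s = 0) : Hfun D K col γ J s = 0 := by
  unfold Hfun
  rw [deriv_Efun_eq_zero D γ J h, h]
  simp [colK_zero]

theorem CollarGlue.key (h : CollarGlue G D K col) {γ : ℝ → G.M} {J : ℝ → E3}
    (hγ : IsGeodesic D.toMetric γ) (hJ : IsJacobiField D.toMetric γ J) (s₀ : ℝ) :
    LocMono (Hfun D K col γ J) s₀ ∧ (J s₀ = 0 → deriv (chartField γ J s₀) s₀ ≠ 0 →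
      ∀ᶠ z in 𝓝[>] s₀, Hfun D K col γ J s₀ < Hfun D K col γ J z) := by
  classical
  set m₀ : G.M := γ s₀ with hm₀
  set c : ℝ → E3 := fun s => chartAt E3 m₀ (γ s) with hc
  set j : ℝ → E3 := chartField γ J s₀ with hj
  have hs₀ : γ s₀ ∈ (chartAt E3 m₀).source := mem_chart_source E3 m₀
  have hnear : ∀ᶠ s in 𝓝 s₀, γ s ∈ (chartAt E3 m₀).source :=
    hγ.1.continuous.continuousAt.eventually ((chartAt E3 m₀).open_source.mem_nhds hs₀)
  have hcd : ∀ᶠ s in 𝓝 s₀, ContDiffAt ℝ 2 c s := by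
    filter_upwards [hnear] with s hs
    exact (contDiffAt_chartCurve hγ.1 hs).of_le CF.two_le_infty
  have hjd : ∀ᶠ s in 𝓝 s₀, ContDiffAt ℝ 2 j s := by
    filter_upwards [hnear] with s hs
    exact (contDiffAt_mfderiv_chart hJ.1 hs).of_le CF.two_le_infty
  have hgeo : ∀ᶠ s in 𝓝 s₀, GeodesicEqAt (metricInChart D.toMetric m₀) c s := by
    filter_upwards [hnear] with s hs
    exact geodesicEqAt_chart D.toMetric hγ hs
  have hjac : ∀ᶠ s in 𝓝 s₀, JacobiEqAt (metricInChart D.toMetric m₀) c j s := by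
    filter_upwards [hnear] with s hs
    exact jacobiEqAt_chart D.toMetric hγ hJ hs
  have hU : IsOpen (G.nb m₀) := G.isOpen_nb m₀
  have hcU : c s₀ ∈ G.nb m₀ := G.chartAt_mem_nb hs₀
  have hE : ∀ᶠ s in 𝓝 s₀,
      Efun D γ J s = quadForm (metricInChart D.toMetric m₀) (c s) (j s) := by
    filter_upwards [hnear] with s hs
    rw [quadForm, D.metricInChart_eq m₀ (G.chartAt_mem_nb hs)]
    exact (Efun_eq D m₀ hs).trans (g_apply_eq_sum D _ _ _ _)
  have hj0 : J s₀ = 0 → j s₀ = 0 := by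
    intro h0
    have : j s₀ = ((mfderiv 𝓘(ℝ, EuclideanSpace ℝ (Fin 3)) 𝓘(ℝ, EuclideanSpace ℝ (Fin 3))
        (chartAt (EuclideanSpace ℝ (Fin 3)) m₀) (γ s₀) : E3 → E3) (J s₀)) := rfl
    rw [this, h0]
    exact map_zero _
  -- own chart data versus chart at `m₀`
  have hv : ∀ s, γ s ∈ (chartAt E3 m₀).source →
      deriv (fun u => chartAt E3 (γ s) (γ u)) s =
        fderiv ℝ (chartAt E3 (γ s) ∘ G.F (G.idx m₀)) (c s) (deriv c s) := fun s hs =>
    deriv_own_chart m₀ hγ.1.continuous.continuousAt hs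
      ((contDiffAt_chartCurve hγ.1 hs).differentiableAt (by simp))
  have hw : ∀ s, γ s ∈ (chartAt E3 m₀).source →
      fderiv ℝ (chartAt E3 (γ s) ∘ G.F (G.idx m₀)) (c s) (j s) = J s := fun s hs =>
    fderiv_trans_mfderiv m₀ hs (J s)
  by_cases hi : G.idx m₀ = col
  · -- the collar chart
    have hH : ∀ᶠ s in 𝓝 s₀, Hfun D K col γ J s = deriv (Efun D γ J) s / 2 +
        colK K.P K.B K.D K.tL K.tR (c s) (deriv c s) (j s) := by
      filter_upwards [hnear] with s hs
      have hτ := trans_center m₀ (γ s) hs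
      unfold Hfun
      congr 1
      by_cases hi' : G.idx (γ s) = col
      · rw [if_pos hi']
        have hτ' : G.Trans col col (c s) (G.pt (γ s)) (chartAt E3 (γ s) ∘ G.F (G.idx m₀)) := by
          rw [hi, hi'] at hτ
          rw [hi]
          exact hτ
        obtain ⟨h1, h2⟩ := h.rel_col _ _ _ hτ'
        have h3 := hv s hs
        have h4 := hw s hs
        rw [h2] at h3 h4
        rw [h3, ← h4]
        exact colK_congr h1 _ _
      · rw [if_neg hi']
        rw [hi] at hτ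
        exact (colK_eq_zero (h.rel_flat' hi' hτ) _ _).symm
    have := collar_triple K hU (g := metricInChart D.toMetric m₀) (fun x hx => by
      rw [D.metricInChart_eq m₀ hx, hi]
      exact h.mat_col x (by rw [← hi]; exact G.nb_subset m₀ hx)) hcU hcd hjd hgeo hjac hE hH
    exact ⟨this.1, fun h0 h1 => this.2 ⟨hj0 h0, h1⟩⟩
  · -- a flat chart
    obtain ⟨Q, hQ, hQU⟩ := h.mat_flat _ hi
    have hH : ∀ᶠ s in 𝓝 s₀, Hfun D K col γ J s = deriv (Efun D γ J) s / 2 := by
      filter_upwards [hnear] with s hs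
      have hτ := trans_center m₀ (γ s) hs
      unfold Hfun
      by_cases hi' : G.idx (γ s) = col
      · rw [if_pos hi']
        rw [hi'] at hτ
        rw [colK_eq_zero (h.rel_flat _ hi _ _ _ hτ), add_zero]
      · rw [if_neg hi', add_zero]
    have := flat_triple hQ hU (g := metricInChart D.toMetric m₀) (fun x hx => by
      rw [D.metricInChart_eq m₀ hx]
      exact hQU x (G.nb_subset m₀ hx)) hcU hcd hjd hgeo hjac hE hH
    exact ⟨this.1, fun h0 h1 => this.2 ⟨hj0 h0, h1⟩⟩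

/-- **Package NCP, final form** (modulo the uniqueness statement for Jacobi fields). -/
theorem CollarGlue.noConjugatePoints (h : CollarGlue G D K col)
    (huniq : ∀ (γ : ℝ → G.M) (J : ℝ → E3), IsGeodesic D.toMetric γ →
      IsJacobiField D.toMetric γ J → ∀ a, J a = 0 → deriv (chartField γ J a) a = 0 →
        ∀ t, J t = 0) :
    NoConjugatePoints D.toMetric :=
  noConjugatePoints_of D.toMetric (fun γ J hγ hJ => ⟨Hfun D K col γ J,
    fun s => (h.key hγ hJ s).1, fun _ hs => Hfun_zero γ J hs,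
    fun s hs hd => (h.key hγ hJ s).2 hs hd⟩) huniq

end Main

end Crest.Agent.R244.NCP
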