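import Crest.Agent.R244.NCPChr

/-!
R244 (S0377), package NCP, part 3: from the geodesic equation and the linearised geodesic equation
of the collar metric to the momentum form `VarAt`.
-/

set_option autoImplicit false

open Filter Topology Set
open scoped ContDiff

namespace Crest.Agent.R244.NCP

open Crest.GeometryTopology.CoordMetric Crest.GeometryTopology.ChartCurvature
  Crest.GeometryTopology.Geodesic

/-- The linearised geodesic equation in coordinates. -/
def LinAt (g : MetricField 3) (c J : ℝ → E3) (s : ℝ) : Prop :=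
  ∀ k : Fin 3, deriv (deriv J) s k +
    ∑ i, ∑ j, (∑ l, pderiv l (fun y => christoffel g y k i j) (c s) * J s l) *
      deriv c s i * deriv c s j +
    2 * ∑ i, ∑ j, christoffel g (c s) k i j * deriv c s i * deriv J s j = 0

/-- Metric coefficients of the collar together with the inverse matrix. -/
structure QW (Qa Qb Qc A B C : ℝ → ℝ) : Prop where
  sa : ContDiff ℝ ∞ Qa
  sb : ContDiff ℝ ∞ Qb
  sc : ContDiff ℝ ∞ Qc
  sA : ContDiff ℝ ∞ A
  sB : ContDiff ℝ ∞ B
  sC : ContDiff ℝ ∞ C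
  h11 : ∀ r, Qa r * A r + Qb r * B r = 1
  h12 : ∀ r, Qa r * B r + Qb r * C r = 0
  h21 : ∀ r, Qb r * A r + Qc r * B r = 0
  h22 : ∀ r, Qb r * B r + Qc r * C r = 1
  A_pos : ∀ r, 0 < A r
  D_pos : ∀ r, 0 < A r * C r - B r ^ 2

theorem cd_diff {f : ℝ → ℝ} (h : ContDiff ℝ ∞ f) (r : ℝ) : DifferentiableAt ℝ f r :=
  (h.differentiable (by simp)).differentiableAt

theorem cd_deriv {f : ℝ → ℝ} (h : ContDiff ℝ ∞ f) : ContDiff ℝ ∞ (deriv f) :=
  ((contDiff_infty_iff_deriv).1 h).2

variable {Qa Qb Qc A B C : ℝ → ℝ}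

namespace QW

variable (H : QW Qa Qb Qc A B C)
include H

theorem r11 (r : ℝ) : deriv Qa r * A r + Qa r * deriv A r +
    (deriv Qb r * B r + Qb r * deriv B r) = 0 := by
  have h1 := ((cd_diff H.sa r).hasDerivAt.mul (cd_diff H.sA r).hasDerivAt).add
    ((cd_diff H.sb r).hasDerivAt.mul (cd_diff H.sB r).hasDerivAt)
  have h2 : (Qa * A + Qb * B) = fun _ => (1:ℝ) := by funext r; exact H.h11 r
  rw [h2] at h1
  exact h1.unique (hasDerivAt_const _ _)

theorem r12 (r : ℝ) : deriv Qa r * B r + Qa r * deriv B r +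
    (deriv Qb r * C r + Qb r * deriv C r) = 0 := by
  have h1 := ((cd_diff H.sa r).hasDerivAt.mul (cd_diff H.sB r).hasDerivAt).add
    ((cd_diff H.sb r).hasDerivAt.mul (cd_diff H.sC r).hasDerivAt)
  have h2 : (Qa * B + Qb * C) = fun _ => (0:ℝ) := by funext r; exact H.h12 r
  rw [h2] at h1
  exact h1.unique (hasDerivAt_const _ _)

theorem r21 (r : ℝ) : deriv Qb r * A r + Qb r * deriv A r +
    (deriv Qc r * B r + Qc r * deriv B r) = 0 := by
  have h1 := ((cd_diff H.sb r).hasDerivAt.mul (cd_diff H.sA r).hasDerivAt).add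
    ((cd_diff H.sc r).hasDerivAt.mul (cd_diff H.sB r).hasDerivAt)
  have h2 : (Qb * A + Qc * B) = fun _ => (0:ℝ) := by funext r; exact H.h21 r
  rw [h2] at h1
  exact h1.unique (hasDerivAt_const _ _)

theorem r22 (r : ℝ) : deriv Qb r * B r + Qb r * deriv B r +
    (deriv Qc r * C r + Qc r * deriv C r) = 0 := by
  have h1 := ((cd_diff H.sb r).hasDerivAt.mul (cd_diff H.sB r).hasDerivAt).add
    ((cd_diff H.sc r).hasDerivAt.mul (cd_diff H.sC r).hasDerivAt)
  have h2 : (Qb * B + Qc * C) = fun _ => (1:ℝ) := by funext r; exact H.h22 r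
  rw [h2] at h1
  exact h1.unique (hasDerivAt_const _ _)

/-- The Christoffel symbols of the collar as functions of `t`. -/
theorem christoffel_eq (z : E3) (k i j : Fin 3) :
    christoffel (gC Qa Qb Qc) z k i j =
      chr (deriv Qa (z 0)) (deriv Qb (z 0)) (deriv Qc (z 0)) (A (z 0)) (B (z 0)) (C (z 0))
        k i j :=
  christoffel_gC H.h11 H.h12 H.h21 H.h22 (cd_diff H.sa _) (cd_diff H.sb _) (cd_diff H.sc _) k i j

end QW

/-- The derivative in `t` of the Christoffel symbols of the collar. -/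
noncomputable def dchr (Qa' Qb' Qc' Qa'' Qb'' Qc'' A B C A' B' C' : ℝ) (k : Fin 3) :
    Matrix (Fin 3) (Fin 3) ℝ :=
  if k = 0 then !![0, 0, 0; 0, -Qa'' / 2, -Qb'' / 2; 0, -Qb'' / 2, -Qc'' / 2]
  else if k = 1 then
    !![0, (A' * Qa' + A * Qa'' + (B' * Qb' + B * Qb'')) / 2,
          (A' * Qb' + A * Qb'' + (B' * Qc' + B * Qc'')) / 2;
       (A' * Qa' + A * Qa'' + (B' * Qb' + B * Qb'')) / 2, 0, 0;
       (A' * Qb' + A * Qb'' + (B' * Qc' + B * Qc'')) / 2, 0, 0]
  else
    !![0, (B' * Qa' + B * Qa'' + (C' * Qb' + C * Qb'')) / 2,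
          (B' * Qb' + B * Qb'' + (C' * Qc' + C * Qc'')) / 2;
       (B' * Qa' + B * Qa'' + (C' * Qb' + C * Qb'')) / 2, 0, 0;
       (B' * Qb' + B * Qb'' + (C' * Qc' + C * Qc'')) / 2, 0, 0]

theorem QW.pderiv_christoffel (H : QW Qa Qb Qc A B C) (z : E3) (l k i j : Fin 3) :
    pderiv l (fun y => christoffel (gC Qa Qb Qc) y k i j) z =
      if l = 0 then dchr (deriv Qa (z 0)) (deriv Qb (z 0)) (deriv Qc (z 0))
        (deriv (deriv Qa) (z 0)) (deriv (deriv Qb) (z 0)) (deriv (deriv Qc) (z 0))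
        (A (z 0)) (B (z 0)) (C (z 0)) (deriv A (z 0)) (deriv B (z 0)) (deriv C (z 0)) k i j
      else 0 := by
  have e1 : (fun y : E3 => christoffel (gC Qa Qb Qc) y k i j) = fun y : E3 =>
      (fun r => chr (deriv Qa r) (deriv Qb r) (deriv Qc r) (A r) (B r) (C r) k i j) (y 0) := by
    funext y
    exact H.christoffel_eq y k i j
  rw [e1]
  have ha := (cd_diff (cd_deriv H.sa) (z 0)).hasDerivAt
  have hb := (cd_diff (cd_deriv H.sb) (z 0)).hasDerivAt
  have hc := (cd_diff (cd_deriv H.sc) (z 0)).hasDerivAt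
  have hA := (cd_diff H.sA (z 0)).hasDerivAt
  have hB := (cd_diff H.sB (z 0)).hasDerivAt
  have hC := (cd_diff H.sC (z 0)).hasDerivAt
  have key : HasDerivAt
      (fun r => chr (deriv Qa r) (deriv Qb r) (deriv Qc r) (A r) (B r) (C r) k i j)
      (dchr (deriv Qa (z 0)) (deriv Qb (z 0)) (deriv Qc (z 0))
        (deriv (deriv Qa) (z 0)) (deriv (deriv Qb) (z 0)) (deriv (deriv Qc) (z 0))
        (A (z 0)) (B (z 0)) (C (z 0)) (deriv A (z 0)) (deriv B (z 0)) (deriv C (z 0)) k i j)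
      (z 0) := by
    have h0 := hasDerivAt_const (z 0) (0 : ℝ)
    have k1 := (ha.neg.div_const 2)
    have k2 := (hb.neg.div_const 2)
    have k3 := (hc.neg.div_const 2)
    have m1 := ((hA.mul ha).add (hB.mul hb)).div_const 2
    have m2 := ((hA.mul hb).add (hB.mul hc)).div_const 2
    have m3 := ((hB.mul ha).add (hC.mul hb)).div_const 2
    have m4 := ((hB.mul hb).add (hC.mul hc)).div_const 2
    fin_cases k <;> fin_cases i <;> fin_cases j <;>
      first
        | exact h0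
        | exact k1
        | exact k2
        | exact k3
        | exact m1
        | exact m2
        | exact m3
        | exact m4
  rw [pderiv_comp_zero key.differentiableAt, key.deriv]

/-- Explicit form of the geodesic equation of the collar. -/
theorem QW.geodesic_explicit (H : QW Qa Qb Qc A B C) {c : ℝ → E3} {s : ℝ}
    (hg : GeodesicEqAt (gC Qa Qb Qc) c s) :
    deriv (deriv c) s 0 = qf (deriv Qa (c s 0)) (deriv Qb (c s 0)) (deriv Qc (c s 0))
      (deriv c s 1) (deriv c s 2) / 2 ∧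
    deriv (deriv c) s 1 = -(deriv c s 0 *
      ((A (c s 0) * deriv Qa (c s 0) + B (c s 0) * deriv Qb (c s 0)) * deriv c s 1 +
       (A (c s 0) * deriv Qb (c s 0) + B (c s 0) * deriv Qc (c s 0)) * deriv c s 2)) ∧
    deriv (deriv c) s 2 = -(deriv c s 0 *
      ((B (c s 0) * deriv Qa (c s 0) + C (c s 0) * deriv Qb (c s 0)) * deriv c s 1 +
       (B (c s 0) * deriv Qb (c s 0) + C (c s 0) * deriv Qc (c s 0)) * deriv c s 2)) := by
  have h0 := hg 0
  have h1 := hg 1
  have h2 := hg 2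
  simp only [H.christoffel_eq, chr, Fin.sum_univ_three] at h0 h1 h2
  simp at h0 h1 h2
  unfold qf
  refine ⟨?_, ?_, ?_⟩
  · linear_combination h0
  · linear_combination h1
  · linear_combination h2

/-- Explicit form of the linearised geodesic equation of the collar. -/
theorem QW.lin_explicit (H : QW Qa Qb Qc A B C) {c J : ℝ → E3} {s : ℝ}
    (hg : LinAt (gC Qa Qb Qc) c J s) :
    deriv (deriv J) s 0 = J s 0 * qf (deriv (deriv Qa) (c s 0)) (deriv (deriv Qb) (c s 0))
        (deriv (deriv Qc) (c s 0)) (deriv c s 1) (deriv c s 2) / 2 +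
      bf (deriv Qa (c s 0)) (deriv Qb (c s 0)) (deriv Qc (c s 0)) (deriv c s 1) (deriv c s 2)
        (deriv J s 1) (deriv J s 2) ∧
    deriv (deriv J) s 1 = -(deriv J s 0 *
      ((A (c s 0) * deriv Qa (c s 0) + B (c s 0) * deriv Qb (c s 0)) * deriv c s 1 +
       (A (c s 0) * deriv Qb (c s 0) + B (c s 0) * deriv Qc (c s 0)) * deriv c s 2) +
      deriv c s 0 *
      ((A (c s 0) * deriv Qa (c s 0) + B (c s 0) * deriv Qb (c s 0)) * deriv J s 1 +
       (A (c s 0) * deriv Qb (c s 0) + B (c s 0) * deriv Qc (c s 0)) * deriv J s 2) +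
      J s 0 * deriv c s 0 *
      ((deriv A (c s 0) * deriv Qa (c s 0) + A (c s 0) * deriv (deriv Qa) (c s 0) +
        (deriv B (c s 0) * deriv Qb (c s 0) + B (c s 0) * deriv (deriv Qb) (c s 0))) *
          deriv c s 1 +
       (deriv A (c s 0) * deriv Qb (c s 0) + A (c s 0) * deriv (deriv Qb) (c s 0) +
        (deriv B (c s 0) * deriv Qc (c s 0) + B (c s 0) * deriv (deriv Qc) (c s 0))) *
          deriv c s 2)) ∧
    deriv (deriv J) s 2 = -(deriv J s 0 *
      ((B (c s 0) * deriv Qa (c s 0) + C (c s 0) * deriv Qb (c s 0)) * deriv c s 1 +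
       (B (c s 0) * deriv Qb (c s 0) + C (c s 0) * deriv Qc (c s 0)) * deriv c s 2) +
      deriv c s 0 *
      ((B (c s 0) * deriv Qa (c s 0) + C (c s 0) * deriv Qb (c s 0)) * deriv J s 1 +
       (B (c s 0) * deriv Qb (c s 0) + C (c s 0) * deriv Qc (c s 0)) * deriv J s 2) +
      J s 0 * deriv c s 0 *
      ((deriv B (c s 0) * deriv Qa (c s 0) + B (c s 0) * deriv (deriv Qa) (c s 0) +
        (deriv C (c s 0) * deriv Qb (c s 0) + C (c s 0) * deriv (deriv Qb) (c s 0))) *
          deriv c s 1 +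
       (deriv B (c s 0) * deriv Qb (c s 0) + B (c s 0) * deriv (deriv Qb) (c s 0) +
        (deriv C (c s 0) * deriv Qc (c s 0) + C (c s 0) * deriv (deriv Qc) (c s 0))) *
          deriv c s 2)) := by
  have h0 := hg 0
  have h1 := hg 1
  have h2 := hg 2
  simp only [H.pderiv_christoffel] at h0 h1 h2
  simp only [H.christoffel_eq, chr, dchr, Fin.sum_univ_three] at h0 h1 h2
  simp at h0 h1 h2
  unfold qf bf
  refine ⟨?_, ?_, ?_⟩
  · linear_combination h0
  · linear_combination h1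
  · linear_combination h2

theorem hasDerivAt_coord {f : ℝ → E3} {f' : E3} {s : ℝ} (h : HasDerivAt f f' s) (k : Fin 3) :
    HasDerivAt (fun s => f s k) (f' k) s :=
  (EuclideanSpace.proj k : E3 →L[ℝ] ℝ).hasFDerivAt.comp_hasDerivAt s h

/-- Momenta and their variations. -/
noncomputable def P1 (Qa Qb : ℝ → ℝ) (c : ℝ → E3) (s : ℝ) : ℝ :=
  Qa (c s 0) * deriv c s 1 + Qb (c s 0) * deriv c s 2

noncomputable def dP1 (Qa Qb : ℝ → ℝ) (c J : ℝ → E3) (s : ℝ) : ℝ :=
  Qa (c s 0) * deriv J s 1 + Qb (c s 0) * deriv J s 2 +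
    J s 0 * (deriv Qa (c s 0) * deriv c s 1 + deriv Qb (c s 0) * deriv c s 2)

/-- Regularity of the data at `s` and the two equations at `s`. -/
structure EqAt (g : MetricField 3) (c J : ℝ → E3) (s : ℝ) : Prop where
  c1 : HasDerivAt c (deriv c s) s
  c2 : HasDerivAt (deriv c) (deriv (deriv c) s) s
  J1 : HasDerivAt J (deriv J s) s
  J2 : HasDerivAt (deriv J) (deriv (deriv J) s) s
  geo : GeodesicEqAt g c s
  lin : LinAt g c J s

theorem QW.P_const (H : QW Qa Qb Qc A B C) {c J : ℝ → E3} {s : ℝ}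
    (h : EqAt (gC Qa Qb Qc) c J s) :
    HasDerivAt (P1 Qa Qb c) 0 s ∧ HasDerivAt (P1 Qb Qc c) 0 s ∧
    HasDerivAt (dP1 Qa Qb c J) 0 s ∧ HasDerivAt (dP1 Qb Qc c J) 0 s := by
  obtain ⟨g0, g1, g2⟩ := H.geodesic_explicit h.geo
  obtain ⟨l0, l1, l2⟩ := H.lin_explicit h.lin
  have ht := hasDerivAt_coord h.c1 0
  have hx' := hasDerivAt_coord h.c2 1
  have hy' := hasDerivAt_coord h.c2 2
  have ha := hasDerivAt_coord h.J1 0
  have hX' := hasDerivAt_coord h.J2 1
  have hY' := hasDerivAt_coord h.J2 2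
  have qa : HasDerivAt (fun s => Qa (c s 0)) (deriv Qa (c s 0) * deriv c s 0) s :=
    HasDerivAt.comp (h₂ := Qa) s (cd_diff H.sa _).hasDerivAt ht
  have qb : HasDerivAt (fun s => Qb (c s 0)) (deriv Qb (c s 0) * deriv c s 0) s :=
    HasDerivAt.comp (h₂ := Qb) s (cd_diff H.sb _).hasDerivAt ht
  have qc : HasDerivAt (fun s => Qc (c s 0)) (deriv Qc (c s 0) * deriv c s 0) s :=
    HasDerivAt.comp (h₂ := Qc) s (cd_diff H.sc _).hasDerivAt ht
  have qa' : HasDerivAt (fun s => deriv Qa (c s 0)) (deriv (deriv Qa) (c s 0) * deriv c s 0) s :=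
    HasDerivAt.comp (h₂ := deriv Qa) s (cd_diff (cd_deriv H.sa) _).hasDerivAt ht
  have qb' : HasDerivAt (fun s => deriv Qb (c s 0)) (deriv (deriv Qb) (c s 0) * deriv c s 0) s :=
    HasDerivAt.comp (h₂ := deriv Qb) s (cd_diff (cd_deriv H.sb) _).hasDerivAt ht
  have qc' : HasDerivAt (fun s => deriv Qc (c s 0)) (deriv (deriv Qc) (c s 0) * deriv c s 0) s :=
    HasDerivAt.comp (h₂ := deriv Qc) s (cd_diff (cd_deriv H.sc) _).hasDerivAt ht
  have r11 := H.r11 (c s 0)
  have r12 := H.r12 (c s 0)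
  have r21 := H.r21 (c s 0)
  have r22 := H.r22 (c s 0)
  have h11 := H.h11 (c s 0)
  have h12 := H.h12 (c s 0)
  have h21 := H.h21 (c s 0)
  have h22 := H.h22 (c s 0)
  refine ⟨?_, ?_, ?_, ?_⟩
  · have := (qa.mul hx').add (qb.mul hy')
    refine HasDerivAt.congr_deriv this ?_
    rw [g1, g2]
    generalize deriv Qa (c s 0) = Qa' at *
    generalize deriv Qb (c s 0) = Qb' at *
    generalize deriv Qc (c s 0) = Qc' at *
    linear_combination (-(deriv c s 0) * (Qa' * deriv c s 1 + Qb' * deriv c s 2)) * h11 -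
      (deriv c s 0) * (Qb' * deriv c s 1 + Qc' * deriv c s 2) * h12
  · have := (qb.mul hx').add (qc.mul hy')
    refine HasDerivAt.congr_deriv this ?_
    rw [g1, g2]
    generalize deriv Qa (c s 0) = Qa' at *
    generalize deriv Qb (c s 0) = Qb' at *
    generalize deriv Qc (c s 0) = Qc' at *
    linear_combination (-(deriv c s 0) * (Qa' * deriv c s 1 + Qb' * deriv c s 2)) * h21 -
      (deriv c s 0) * (Qb' * deriv c s 1 + Qc' * deriv c s 2) * h22
  · have := (((qa.mul hX').add (qb.mul hY'))).add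
      (ha.mul ((qa'.mul hx').add (qb'.mul hy')))
    refine HasDerivAt.congr_deriv this ?_
    simp only [Pi.mul_apply, Pi.add_apply]
    rw [l1, l2, g1, g2]
    linear_combination
      (-(deriv c s 0) * (deriv Qa (c s 0) * deriv J s 1 + deriv Qb (c s 0) * deriv J s 2)
       - deriv J s 0 * (deriv Qa (c s 0) * deriv c s 1 + deriv Qb (c s 0) * deriv c s 2)
       - J s 0 * deriv c s 0 * (deriv (deriv Qa) (c s 0) * deriv c s 1 +
          deriv (deriv Qb) (c s 0) * deriv c s 2)) * h11 +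
      (-(deriv c s 0) * (deriv Qb (c s 0) * deriv J s 1 + deriv Qc (c s 0) * deriv J s 2)
       - deriv J s 0 * (deriv Qb (c s 0) * deriv c s 1 + deriv Qc (c s 0) * deriv c s 2)
       - J s 0 * deriv c s 0 * (deriv (deriv Qb) (c s 0) * deriv c s 1 +
          deriv (deriv Qc) (c s 0) * deriv c s 2)) * h12 -
      J s 0 * deriv c s 0 * (deriv Qa (c s 0) * deriv c s 1 + deriv Qb (c s 0) * deriv c s 2) * r11 -
      J s 0 * deriv c s 0 * (deriv Qb (c s 0) * deriv c s 1 + deriv Qc (c s 0) * deriv c s 2) * r12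
  · have := (((qb.mul hX').add (qc.mul hY'))).add
      (ha.mul ((qb'.mul hx').add (qc'.mul hy')))
    refine HasDerivAt.congr_deriv this ?_
    simp only [Pi.mul_apply, Pi.add_apply]
    rw [l1, l2, g1, g2]
    linear_combination
      (-(deriv c s 0) * (deriv Qa (c s 0) * deriv J s 1 + deriv Qb (c s 0) * deriv J s 2)
       - deriv J s 0 * (deriv Qa (c s 0) * deriv c s 1 + deriv Qb (c s 0) * deriv c s 2)
       - J s 0 * deriv c s 0 * (deriv (deriv Qa) (c s 0) * deriv c s 1 +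
          deriv (deriv Qb) (c s 0) * deriv c s 2)) * h21 +
      (-(deriv c s 0) * (deriv Qb (c s 0) * deriv J s 1 + deriv Qc (c s 0) * deriv J s 2)
       - deriv J s 0 * (deriv Qb (c s 0) * deriv c s 1 + deriv Qc (c s 0) * deriv c s 2)
       - J s 0 * deriv c s 0 * (deriv (deriv Qb) (c s 0) * deriv c s 1 +
          deriv (deriv Qc) (c s 0) * deriv c s 2)) * h22 -
      J s 0 * deriv c s 0 * (deriv Qa (c s 0) * deriv c s 1 + deriv Qb (c s 0) * deriv c s 2) * r21 -
      J s 0 * deriv c s 0 * (deriv Qb (c s 0) * deriv c s 1 + deriv Qc (c s 0) * deriv c s 2) * r22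

namespace QW

variable (H : QW Qa Qb Qc A B C)
include H

theorem dA (r : ℝ) : deriv A r = -(A r ^ 2 * deriv Qa r + 2 * (A r * B r) * deriv Qb r +
    B r ^ 2 * deriv Qc r) := by
  linear_combination A r * H.r11 r + B r * H.r21 r - deriv A r * H.h11 r - deriv B r * H.h21 r

theorem dB (r : ℝ) : deriv B r = -(A r * B r * deriv Qa r + (A r * C r + B r ^ 2) * deriv Qb r +
    B r * C r * deriv Qc r) := by
  linear_combination A r * H.r12 r + B r * H.r22 r - deriv B r * H.h11 r - deriv C r * H.h21 r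

theorem dC (r : ℝ) : deriv C r = -(B r ^ 2 * deriv Qa r + 2 * (B r * C r) * deriv Qb r +
    C r ^ 2 * deriv Qc r) := by
  linear_combination B r * H.r12 r + C r * H.r22 r - deriv B r * H.h12 r - deriv C r * H.h22 r

theorem ddA (r : ℝ) : deriv (deriv A) r = -(2 * A r * deriv A r * deriv Qa r +
    A r ^ 2 * deriv (deriv Qa) r + 2 * (deriv A r * B r + A r * deriv B r) * deriv Qb r +
    2 * (A r * B r) * deriv (deriv Qb) r + 2 * B r * deriv B r * deriv Qc r +
    B r ^ 2 * deriv (deriv Qc) r) := by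
  have h1 : deriv A = fun r => -(A r ^ 2 * deriv Qa r + 2 * (A r * B r) * deriv Qb r +
    B r ^ 2 * deriv Qc r) := by funext r; exact H.dA r
  have a := (cd_diff H.sA r).hasDerivAt
  have b := (cd_diff H.sB r).hasDerivAt
  have qa := (cd_diff (cd_deriv H.sa) r).hasDerivAt
  have qb := (cd_diff (cd_deriv H.sb) r).hasDerivAt
  have qc := (cd_diff (cd_deriv H.sc) r).hasDerivAt
  have h2 := ((((a.pow 2).mul qa).add ((((a.mul b).const_mul 2)).mul qb)).add ((b.pow 2).mul qc)).neg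
  have h3 := HasDerivAt.congr_of_eventuallyEq (f₁ := deriv A) h2 (Filter.EventuallyEq.of_eq h1)
  rw [h3.deriv]
  simp only [Pi.mul_apply, Pi.pow_apply, Nat.cast_ofNat, Nat.add_one_sub_one, pow_one]
  ring

theorem ddB (r : ℝ) : deriv (deriv B) r = -((deriv A r * B r + A r * deriv B r) * deriv Qa r +
    A r * B r * deriv (deriv Qa) r +
    (deriv A r * C r + A r * deriv C r + 2 * B r * deriv B r) * deriv Qb r +
    (A r * C r + B r ^ 2) * deriv (deriv Qb) r + (deriv B r * C r + B r * deriv C r) * deriv Qc r +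
    B r * C r * deriv (deriv Qc) r) := by
  have h1 : deriv B = fun r => -(A r * B r * deriv Qa r + (A r * C r + B r ^ 2) * deriv Qb r +
    B r * C r * deriv Qc r) := by funext r; exact H.dB r
  have a := (cd_diff H.sA r).hasDerivAt
  have b := (cd_diff H.sB r).hasDerivAt
  have c := (cd_diff H.sC r).hasDerivAt
  have qa := (cd_diff (cd_deriv H.sa) r).hasDerivAt
  have qb := (cd_diff (cd_deriv H.sb) r).hasDerivAt
  have qc := (cd_diff (cd_deriv H.sc) r).hasDerivAt
  have h2 := ((((a.mul b).mul qa).add (((a.mul c).add (b.pow 2)).mul qb)).add ((b.mul c).mul qc)).neg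
  have h3 := HasDerivAt.congr_of_eventuallyEq (f₁ := deriv B) h2 (Filter.EventuallyEq.of_eq h1)
  rw [h3.deriv]
  simp only [Pi.mul_apply, Pi.add_apply, Pi.pow_apply, Nat.cast_ofNat, Nat.add_one_sub_one, pow_one]
  ring

theorem ddC (r : ℝ) : deriv (deriv C) r = -(2 * B r * deriv B r * deriv Qa r +
    B r ^ 2 * deriv (deriv Qa) r + 2 * (deriv B r * C r + B r * deriv C r) * deriv Qb r +
    2 * (B r * C r) * deriv (deriv Qb) r + 2 * C r * deriv C r * deriv Qc r +
    C r ^ 2 * deriv (deriv Qc) r) := by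
  have h1 : deriv C = fun r => -(B r ^ 2 * deriv Qa r + 2 * (B r * C r) * deriv Qb r +
    C r ^ 2 * deriv Qc r) := by funext r; exact H.dC r
  have b := (cd_diff H.sB r).hasDerivAt
  have c := (cd_diff H.sC r).hasDerivAt
  have qa := (cd_diff (cd_deriv H.sa) r).hasDerivAt
  have qb := (cd_diff (cd_deriv H.sb) r).hasDerivAt
  have qc := (cd_diff (cd_deriv H.sc) r).hasDerivAt
  have h2 := ((((b.pow 2).mul qa).add ((((b.mul c).const_mul 2)).mul qb)).add ((c.pow 2).mul qc)).neg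
  have h3 := HasDerivAt.congr_of_eventuallyEq (f₁ := deriv C) h2 (Filter.EventuallyEq.of_eq h1)
  rw [h3.deriv]
  simp only [Pi.mul_apply, Pi.pow_apply, Nat.cast_ofNat, Nat.add_one_sub_one, pow_one]
  ring

/-- Velocities in terms of momenta. -/
theorem vel {c : ℝ → E3} {s : ℝ} :
    deriv c s 1 = A (c s 0) * P1 Qa Qb c s + B (c s 0) * P1 Qb Qc c s ∧
    deriv c s 2 = B (c s 0) * P1 Qa Qb c s + C (c s 0) * P1 Qb Qc c s := by
  have h11 := H.h11 (c s 0)
  have h12 := H.h12 (c s 0)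
  have h21 := H.h21 (c s 0)
  have h22 := H.h22 (c s 0)
  unfold P1
  constructor
  · linear_combination (-(deriv c s 1)) * h11 - (deriv c s 2) * h21
  · linear_combination (-(deriv c s 1)) * h12 - (deriv c s 2) * h22

/-- Variation of the velocities in terms of momenta. -/
theorem dvel {c J : ℝ → E3} {s : ℝ} :
    deriv J s 1 = A (c s 0) * dP1 Qa Qb c J s + B (c s 0) * dP1 Qb Qc c J s +
      J s 0 * (deriv A (c s 0) * P1 Qa Qb c s + deriv B (c s 0) * P1 Qb Qc c s) ∧
    deriv J s 2 = B (c s 0) * dP1 Qa Qb c J s + C (c s 0) * dP1 Qb Qc c J s +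
      J s 0 * (deriv B (c s 0) * P1 Qa Qb c s + deriv C (c s 0) * P1 Qb Qc c s) := by
  have h11 := H.h11 (c s 0)
  have h12 := H.h12 (c s 0)
  have h21 := H.h21 (c s 0)
  have h22 := H.h22 (c s 0)
  have r11 := H.r11 (c s 0)
  have r12 := H.r12 (c s 0)
  have r21 := H.r21 (c s 0)
  have r22 := H.r22 (c s 0)
  unfold P1 dP1
  constructor
  · linear_combination (-(deriv J s 1)) * h11 - (deriv J s 2) * h21 -
      J s 0 * deriv c s 1 * r11 - J s 0 * deriv c s 2 * r21
  · linear_combination (-(deriv J s 1)) * h12 - (deriv J s 2) * h22 -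
      J s 0 * deriv c s 1 * r12 - J s 0 * deriv c s 2 * r22

theorem varAt {c J : ℝ → E3} {s p q dp dq : ℝ} (h : EqAt (gC Qa Qb Qc) c J s)
    (hp : P1 Qa Qb c s = p) (hq : P1 Qb Qc c s = q)
    (hdp : dP1 Qa Qb c J s = dp) (hdq : dP1 Qb Qc c J s = dq) :
    VarAt A B C p q dp dq (fun s => c s 0) (fun s => deriv c s 0) (fun s => J s 0)
      (fun s => deriv J s 0) (fun s => J s 1) (fun s => J s 2) s := by
  obtain ⟨g0, -, -⟩ := H.geodesic_explicit h.geo
  obtain ⟨l0, -, -⟩ := H.lin_explicit h.lin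
  obtain ⟨v1, v2⟩ := H.vel (c := c) (s := s)
  obtain ⟨w1, w2⟩ := H.dvel (c := c) (J := J) (s := s)
  rw [hp, hq] at v1 v2
  rw [hdp, hdq, hp, hq] at w1 w2
  refine ⟨hasDerivAt_coord h.c1 0, ?_, hasDerivAt_coord h.J1 0, ?_, ?_, ?_⟩
  · refine (hasDerivAt_coord h.c2 0).congr_deriv ?_
    rw [g0, v1, v2, H.dA, H.dB, H.dC]
    unfold qf
    ring
  · refine (hasDerivAt_coord h.J2 0).congr_deriv ?_
    rw [l0, v1, v2, w1, w2, H.ddA, H.ddB, H.ddC, H.dA, H.dB, H.dC]
    unfold qf bf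
    ring
  · refine (hasDerivAt_coord h.J1 1).congr_deriv ?_
    rw [w1]
  · refine (hasDerivAt_coord h.J1 2).congr_deriv ?_
    rw [w2]

end QW

end Crest.Agent.R244.NCP
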