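import Crest.Agent.R244.NCPLoc
import Crest.Agent.R244.NCPLin

/-!
# R244 (S0377), package NCP-B: locally monotone functions are monotone; the flat charts; endgame
-/

set_option autoImplicit false
set_option maxSynthPendingDepth 3

open Filter Topology Set Bundle
open scoped ContDiff Manifold

namespace Crest.Agent.R244.NCP

open Crest.GeometryTopology.CoordMetric Crest.GeometryTopology.ChartCurvature
  Crest.GeometryTopology.Geodesic

theorem LocMono.congr {H K : ℝ → ℝ} {s0 : ℝ} (h : LocMono H s0) (he : H =ᶠ[𝓝 s0] K) :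
    LocMono K s0 := by
  intro ε hε
  obtain ⟨h1, h2⟩ := h ε hε
  have h0 : H s0 = K s0 := he.self_of_nhds
  constructor
  · filter_upwards [h1, he.filter_mono nhdsWithin_le_nhds] with z hz hz'
    rw [← h0, ← hz']; exact hz
  · filter_upwards [h2, he.filter_mono nhdsWithin_le_nhds] with z hz hz'
    rw [← h0, ← hz']; exact hz

/-- A function with nonnegative derivative at `s0` is locally monotone at `s0`. -/
theorem LocMono.of_hasDerivAt {H : ℝ → ℝ} {H' s0 : ℝ} (h : HasDerivAt H H' s0) (h' : 0 ≤ H') :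
    LocMono H s0 := by
  have hg : Good False s0 H := ⟨H', h', h, fun h => h.elim⟩
  exact fun ε hε => ⟨hg.right hε, hg.left hε⟩

/-- A function which is locally monotone at every point is monotone. -/
theorem monotone_of_locMono {H : ℝ → ℝ} (h : ∀ s, LocMono H s) : Monotone H := by
  intro a b hab
  rcases hab.eq_or_lt with rfl | hab
  · exact le_rfl
  -- it suffices to prove `H a - ε (b - a) ≤ H b` for all `ε > 0`
  suffices hs : ∀ ε > 0, H a - ε * (b - a) ≤ H b by
    have hlim : Tendsto (fun ε : ℝ => H a - ε * (b - a)) (𝓝[>] 0) (𝓝 (H a - 0 * (b - a))) := by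
      apply Tendsto.mono_left _ nhdsWithin_le_nhds
      exact Continuous.tendsto (by fun_prop) 0
    have := le_of_tendsto hlim (by filter_upwards [self_mem_nhdsWithin] with ε hε using hs ε hε)
    simpa using this
  intro ε hε
  set S : Set ℝ := {t | t ∈ Icc a b ∧ H a - ε * (t - a) ≤ H t} with hS
  have haS : a ∈ S := ⟨left_mem_Icc.2 hab.le, by simp⟩
  have hSb : BddAbove S := ⟨b, fun t ht => ht.1.2⟩
  set c : ℝ := sSup S with hc
  have hac : a ≤ c := le_csSup hSb haS
  have hcb : c ≤ b := csSup_le ⟨a, haS⟩ fun t ht => ht.1.2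
  have hcS : c ∈ S := by
    refine ⟨⟨hac, hcb⟩, ?_⟩
    by_contra hcon
    have hcnot : c ∉ S := fun h => hcon h.2
    obtain ⟨-, h2⟩ := h c ε hε
    rw [eventually_nhdsWithin_iff, Metric.eventually_nhds_iff] at h2
    obtain ⟨δ, hδ, h3⟩ := h2
    obtain ⟨z, hzS, hz⟩ := exists_lt_of_lt_csSup ⟨a, haS⟩ (show c - δ < sSup S by linarith)
    have hzc : z ≤ c := le_csSup hSb hzS
    have hzc' : z < c := lt_of_le_of_ne hzc fun h => hcnot (h ▸ hzS)
    have h4 := h3 (y := z) (by rw [Real.dist_eq, abs_lt]; constructor <;> linarith) hzc'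
    have h5 := hzS.2
    apply hcon
    nlinarith
  rcases hcb.eq_or_lt with hcb | hcb
  · rw [← hcb]; exact hcS.2
  · exfalso
    obtain ⟨h1, -⟩ := h c ε hε
    have h2 : ∀ᶠ z in 𝓝[>] c, z < b := by
      filter_upwards [Ioo_mem_nhdsGT hcb] with z hz using hz.2
    obtain ⟨z, ⟨hz1, hz2⟩, hz3⟩ := ((h1.and h2).and self_mem_nhdsWithin).exists
    have hz3' : c < z := hz3
    have : z ∈ S := by
      refine ⟨⟨by linarith, hz2.le⟩, ?_⟩
      have := hcS.2
      nlinarith
    exact absurd (le_csSup hSb this) (not_le.2 hz3')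

/-- The endgame: `H` locally monotone, zero at `b`, positive right after `a < b`: impossible. -/
theorem endgame {H : ℝ → ℝ} (hmono : ∀ s, LocMono H s) {a b : ℝ} (hab : a < b)
    (hb : H b = 0) (hpos : ∀ᶠ z in 𝓝[>] a, 0 < H z) : False := by
  have hM := monotone_of_locMono hmono
  have h2 : ∀ᶠ z in 𝓝[>] a, z < b := by
    filter_upwards [Ioo_mem_nhdsGT hab] with z hz using hz.2
  obtain ⟨z, hz1, hz2⟩ := (hpos.and h2).exists
  have := hM hz2.le
  linarith

/-! ### flat charts -/

section Flat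

variable {n : ℕ}

theorem pderiv_const_field (r : ℝ) (z : EuclideanSpace ℝ (Fin n)) (i : Fin n) :
    pderiv i (fun _ : EuclideanSpace ℝ (Fin n) => r) z = 0 := by
  unfold pderiv
  simp

theorem christoffel_const (Q : Matrix (Fin n) (Fin n) ℝ) (z : EuclideanSpace ℝ (Fin n))
    (k i j : Fin n) : christoffel (fun _ => Q) z k i j = 0 := by
  unfold christoffel
  simp [pderiv_const_field]

end Flat

/-- The bilinear form of a matrix. -/
noncomputable def matB (Q : Matrix (Fin 3) (Fin 3) ℝ) : E3 →L[ℝ] E3 →L[ℝ] ℝ :=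
  ∑ i, ∑ j, Q i j • (EuclideanSpace.proj i : E3 →L[ℝ] ℝ).smulRight
    (EuclideanSpace.proj j : E3 →L[ℝ] ℝ)

theorem matB_apply (Q : Matrix (Fin 3) (Fin 3) ℝ) (u v : E3) :
    matB Q u v = ∑ i, ∑ j, Q i j * u i * v j := by
  simp [matB, mul_assoc]

theorem flat_local {Q : Matrix (Fin 3) (Fin 3) ℝ} (hQ : Q.PosDef) {c J : ℝ → E3} {E Hf : ℝ → ℝ}
    {s₀ : ℝ} (h : ∀ᶠ s in 𝓝 s₀, EqAt (fun _ => Q) c J s)
    (hE : ∀ᶠ s in 𝓝 s₀, E s = ∑ i, ∑ j, Q i j * J s i * J s j)
    (hH : ∀ᶠ s in 𝓝 s₀, Hf s = deriv E s / 2) :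
    LocMono Hf s₀ ∧ (J s₀ = 0 ∧ deriv J s₀ ≠ 0 → ∀ᶠ z in 𝓝[>] s₀, Hf s₀ < Hf z) := by
  have hsymm : ∀ u v : E3, matB Q u v = matB Q v u := by
    intro u v
    rw [matB_apply, matB_apply, Finset.sum_comm]
    refine Finset.sum_congr rfl fun i _ => Finset.sum_congr rfl fun j _ => ?_
    have : Q j i = Q i j := by
      have := hQ.isHermitian.apply i j
      simpa using this
    rw [this]; ring
  have hpos : ∀ v : E3, v ≠ 0 → 0 < matB Q v v := by
    intro v hv
    have hv' : (v : Fin 3 → ℝ) ≠ 0 := by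
      intro h0
      apply hv
      ext i
      exact congrFun h0 i
    have h1 := hQ.dotProduct_mulVec_pos hv'
    rw [matB_apply]
    have h2 : star (v : Fin 3 → ℝ) ⬝ᵥ Q.mulVec v = ∑ i, ∑ j, Q i j * v i * v j := by
      simp only [dotProduct, Matrix.mulVec, Finset.mul_sum]
      refine Finset.sum_congr rfl fun i _ => Finset.sum_congr rfl fun j _ => ?_
      simp
      ring
    rw [h2] at h1
    exact h1
  have hJ'' : ∀ᶠ s in 𝓝 s₀, deriv (deriv J) s = 0 := by
    filter_upwards [h] with s hs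
    have := hs.lin
    ext k
    have h1 := this k
    simpa [christoffel_const, pderiv_const_field] using h1
  have hE' : ∀ᶠ s in 𝓝 s₀, HasDerivAt E (2 * matB Q (J s) (deriv J s)) s := by
    filter_upwards [h, hE.eventually_nhds] with s hs hEs
    have h1 : HasDerivAt (fun s => matB Q (J s) (J s))
        (matB Q (deriv J s) (J s) + matB Q (J s) (deriv J s)) s := by
      have := ((matB Q).hasFDerivAt.comp_hasDerivAt s hs.J1).clm_apply hs.J1
      simpa using this
    have h2 : E =ᶠ[𝓝 s] fun s => matB Q (J s) (J s) := by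
      filter_upwards [hEs] with z hz
      rw [hz, matB_apply]
    rw [hsymm (deriv J s) (J s), ← two_mul] at h1
    exact h1.congr_of_eventuallyEq h2
  have hH' : Hf =ᶠ[𝓝 s₀] fun s => matB Q (J s) (deriv J s) := by
    filter_upwards [hH, hE'] with s hs hs'
    rw [hs, hs'.deriv]
    ring
  have hs0 := h.self_of_nhds
  have hd : HasDerivAt Hf (matB Q (deriv J s₀) (deriv J s₀)) s₀ := by
    have h1 : HasDerivAt (fun s => matB Q (J s) (deriv J s))
        (matB Q (deriv J s₀) (deriv J s₀) + matB Q (J s₀) (deriv (deriv J) s₀)) s₀ := by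
      have := ((matB Q).hasFDerivAt.comp_hasDerivAt s₀ hs0.J1).clm_apply hs0.J2
      simpa using this
    rw [hJ''.self_of_nhds, map_zero, add_zero] at h1
    exact h1.congr_of_eventuallyEq hH'
  refine ⟨LocMono.of_hasDerivAt hd ?_, ?_⟩
  · rcases eq_or_ne (deriv J s₀) 0 with h0 | h0
    · rw [h0]; simp
    · exact (hpos _ h0).le
  · rintro ⟨-, h0⟩
    exact (eventually_of_deriv_pos hd (hpos _ h0)).1

/-! ### the endgame on a manifold -/

section Manifold

variable {n : ℕ} {M : Type*} [TopologicalSpace M] [ChartedSpace (EuclideanSpace ℝ (Fin n)) M]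
  [IsManifold 𝓘(ℝ, EuclideanSpace ℝ (Fin n)) ∞ M]

/-- Coordinate expression of the field `J` along `γ` in the preferred chart at `γ t₀`. -/
noncomputable def chartField (γ : ℝ → M) (J : ℝ → EuclideanSpace ℝ (Fin n)) (t₀ : ℝ) :
    ℝ → EuclideanSpace ℝ (Fin n) :=
  fun s => mfderiv 𝓘(ℝ, EuclideanSpace ℝ (Fin n)) 𝓘(ℝ, EuclideanSpace ℝ (Fin n))
    (chartAt (EuclideanSpace ℝ (Fin n)) (γ t₀)) (γ s) (J s)

/-- If along every geodesic every Jacobi field has a locally monotone function `H` vanishing at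
the zeros of `J` and increasing right after the nondegenerate zeros, and degenerate zeros force
`J = 0`, then there are no conjugate points. -/
theorem noConjugatePoints_of
    (g : ContMDiffRiemannianMetric 𝓘(ℝ, EuclideanSpace ℝ (Fin n)) ∞ (EuclideanSpace ℝ (Fin n))
      (fun x : M => TangentSpace 𝓘(ℝ, EuclideanSpace ℝ (Fin n)) x))
    (key : ∀ (γ : ℝ → M) (J : ℝ → EuclideanSpace ℝ (Fin n)), IsGeodesic g γ →
      IsJacobiField g γ J → ∃ H : ℝ → ℝ, (∀ s, LocMono H s) ∧ (∀ s, J s = 0 → H s = 0) ∧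
        ∀ s, J s = 0 → deriv (chartField γ J s) s ≠ 0 → ∀ᶠ z in 𝓝[>] s, H s < H z)
    (huniq : ∀ (γ : ℝ → M) (J : ℝ → EuclideanSpace ℝ (Fin n)), IsGeodesic g γ →
      IsJacobiField g γ J → ∀ a, J a = 0 → deriv (chartField γ J a) a = 0 → ∀ t, J t = 0) :
    NoConjugatePoints g := by
  have main : ∀ (γ : ℝ → M) (J : ℝ → EuclideanSpace ℝ (Fin n)), IsGeodesic g γ →
      IsJacobiField g γ J → ∀ a b : ℝ, a < b → J a = 0 → J b = 0 → ∀ t, J t = 0 := by
    intro γ J hγ hJ a b hab ha hb
    by_cases hd : deriv (chartField γ J a) a = 0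
    · exact huniq γ J hγ hJ a ha hd
    · exfalso
      obtain ⟨H, hH, hH0, hH1⟩ := key γ J hγ hJ
      refine endgame hH hab (hH0 b hb) ?_
      filter_upwards [hH1 a ha hd] with z hz
      rwa [hH0 a ha] at hz
  intro γ J hγ hJ a b hab ha hb
  rcases lt_or_gt_of_ne hab with h | h
  · exact main γ J hγ hJ a b h ha hb
  · exact main γ J hγ hJ b a h hb ha

end Manifold

end Crest.Agent.R244.NCP
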