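import Mathlib
import Crest.Agent.R244.CFLift
import Crest.Agent.R244.NCPEnd
import Crest.Agent.R244.ChartEq

/-!
# R244, NCP-B (3): a Jacobi field with a degenerate zero vanishes identically
-/

set_option autoImplicit false
set_option maxSynthPendingDepth 3

open Filter Topology Set Bundle
open scoped ContDiff Manifold

namespace Crest.Agent.R244.NCP

open Crest.GeometryTopology.CoordMetric Crest.GeometryTopology.ChartCurvature
  Crest.GeometryTopology.Geodesic

section Local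

variable {E : Type*} [NormedAddCommGroup E] [NormedSpace ℝ E]

/-- local uniqueness for the linearized geodesic equation -/
theorem zero_near_of_linearized {U : Set E} {g : E → E →L[ℝ] E →L[ℝ] ℝ}
    {Γ : E → E →L[ℝ] E →L[ℝ] E} (h : CF.IsLC U g Γ) {c j : ℝ → E} {t₀ : ℝ} (hx : c t₀ ∈ U)
    (hc : ∀ᶠ s in 𝓝 t₀, ContDiffAt ℝ 2 c s) (hj : ∀ᶠ s in 𝓝 t₀, ContDiffAt ℝ 2 j s)
    (hgeo : ∀ᶠ s in 𝓝 t₀, CF.cov Γ c (deriv c) s = 0)
    (hjac : ∀ᶠ s in 𝓝 t₀, CF.cov Γ c (CF.cov Γ c j) s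
      + CF.curv Γ (c s) (j s) (deriv c s) (deriv c s) = 0)
    (h0 : j t₀ = 0) (h1 : deriv j t₀ = 0) : ∀ᶠ s in 𝓝 t₀, j s = 0 := by
  classical
  set F : E × E × E × E → E × E × E × E := fun p =>
    (p.2.1, -(Γ p.1 p.2.1 p.2.1), p.2.2.2,
      -(fderiv ℝ Γ p.1 p.2.2.1 p.2.1 p.2.1) - (2 : ℝ) • Γ p.1 p.2.1 p.2.2.2) with hF
  have hΓ : ContDiffAt ℝ 1 Γ (c t₀) := (h.Γ_contDiffAt hx).of_le (by simp)
  have hdΓ : ContDiffAt ℝ 1 (fderiv ℝ Γ) (c t₀) :=
    ((h.Γ_contDiffAt hx).fderiv_right (m := ∞) (by simp)).of_le (by simp)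
  have hFc : ContDiffAt ℝ 1 F (c t₀, deriv c t₀, 0, 0) := by
    have q1 : ContDiffAt ℝ 1 (fun p : E × E × E × E => p.1) (c t₀, deriv c t₀, 0, 0) :=
      contDiffAt_fst
    have q2 : ContDiffAt ℝ 1 (fun p : E × E × E × E => p.2.1) (c t₀, deriv c t₀, 0, 0) :=
      contDiffAt_fst.comp _ contDiffAt_snd
    have q3 : ContDiffAt ℝ 1 (fun p : E × E × E × E => p.2.2.1) (c t₀, deriv c t₀, 0, 0) :=
      contDiffAt_fst.comp _ (contDiffAt_snd.comp _ contDiffAt_snd)
    have q4 : ContDiffAt ℝ 1 (fun p : E × E × E × E => p.2.2.2) (c t₀, deriv c t₀, 0, 0) :=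
      contDiffAt_snd.comp _ (contDiffAt_snd.comp _ contDiffAt_snd)
    have g1 : ContDiffAt ℝ 1 (fun p : E × E × E × E => Γ p.1) (c t₀, deriv c t₀, 0, 0) :=
      ContDiffAt.comp (g := Γ) (f := fun p : E × E × E × E => p.1) _ hΓ q1
    have g2 : ContDiffAt ℝ 1 (fun p : E × E × E × E => fderiv ℝ Γ p.1)
        (c t₀, deriv c t₀, 0, 0) :=
      ContDiffAt.comp (g := fderiv ℝ Γ) (f := fun p : E × E × E × E => p.1) _ hdΓ q1
    refine q2.prodMk (ContDiffAt.prodMk ?_ (q4.prodMk ?_))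
    · exact ((g1.clm_apply q2).clm_apply q2).neg
    · exact ((((g2.clm_apply q3).clm_apply q2).clm_apply q2).neg).sub
        (contDiffAt_const.smul ((g1.clm_apply q2).clm_apply q4))
  obtain ⟨K, S, hS, hLip⟩ := hFc.exists_lipschitzOnWith
  have hc0 := hc.self_of_nhds
  have hj0 := hj.self_of_nhds
  have hcc : ContinuousAt c t₀ := hc0.continuousAt
  have hcd : ContinuousAt (deriv c) t₀ := (CF.differentiableAt_deriv hc0).continuousAt
  have hjc : ContinuousAt j t₀ := hj0.continuousAt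
  have hjd : ContinuousAt (deriv j) t₀ := (CF.differentiableAt_deriv hj0).continuousAt
  have hU : ∀ᶠ s in 𝓝 t₀, c s ∈ U := hcc.eventually (h.isOpen.mem_nhds hx)
  -- the second order equation
  have hODE : ∀ᶠ s in 𝓝 t₀, deriv (deriv c) s = -(Γ (c s) (deriv c s) (deriv c s)) ∧
      deriv (deriv j) s = -(fderiv ℝ Γ (c s) (j s) (deriv c s) (deriv c s))
        - (2 : ℝ) • Γ (c s) (deriv c s) (deriv j s) := by
    filter_upwards [hc, hj, hgeo, hjac, hU] with s hs1 hs2 hs3 hs4 hs5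
    have e := h.jacobi_eq hs5 (CF.ev_differentiableAt hs1) (CF.differentiableAt_deriv hs1) hs3
      (CF.ev_differentiableAt hs2) (CF.differentiableAt_deriv hs2)
    rw [hs4] at e
    refine ⟨eq_neg_of_add_eq_zero_left hs3, ?_⟩
    have e' : deriv (deriv j) s = -(fderiv ℝ Γ (c s) (j s) (deriv c s) (deriv c s)
        + (2 : ℝ) • Γ (c s) (deriv c s) (deriv j s)) := by
      rw [add_assoc] at e
      exact eq_neg_of_add_eq_zero_left e.symm
    rw [e']
    abel
  set f : ℝ → E × E × E × E := fun s => (c s, deriv c s, j s, deriv j s) with hf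
  set k : ℝ → E × E × E × E := fun s => (c s, deriv c s, 0, 0) with hk
  have hfc : ContinuousAt f t₀ := hcc.prodMk (hcd.prodMk (hjc.prodMk hjd))
  have hkc : ContinuousAt k t₀ :=
    hcc.prodMk (hcd.prodMk (continuousAt_const.prodMk continuousAt_const))
  have hfS : ∀ᶠ s in 𝓝 t₀, f s ∈ S := hfc.eventually (by
    have : f t₀ = (c t₀, deriv c t₀, 0, 0) := by simp [hf, h0, h1]
    rw [this]; exact hS)
  have hkS : ∀ᶠ s in 𝓝 t₀, k s ∈ S := hkc.eventually hS
  have hfd : ∀ᶠ s in 𝓝 t₀, HasDerivAt f (F (f s)) s ∧ f s ∈ S := by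
    filter_upwards [hfS, hODE, hc, hj] with s hs hs' hs1 hs2
    refine ⟨?_, hs⟩
    have a1 := (CF.ev_differentiableAt hs1).self_of_nhds.hasDerivAt
    have a2 := (CF.differentiableAt_deriv hs1).hasDerivAt
    have a3 := (CF.ev_differentiableAt hs2).self_of_nhds.hasDerivAt
    have a4 := (CF.differentiableAt_deriv hs2).hasDerivAt
    rw [hs'.1] at a2
    rw [hs'.2] at a4
    exact a1.prodMk (a2.prodMk (a3.prodMk a4))
  have hkd : ∀ᶠ s in 𝓝 t₀, HasDerivAt k (F (k s)) s ∧ k s ∈ S := by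
    filter_upwards [hkS, hODE, hc] with s hs hs' hs1
    refine ⟨?_, hs⟩
    have a1 := (CF.ev_differentiableAt hs1).self_of_nhds.hasDerivAt
    have a2 := (CF.differentiableAt_deriv hs1).hasDerivAt
    rw [hs'.1] at a2
    have := a1.prodMk (a2.prodMk ((hasDerivAt_const s (0 : E)).prodMk
      (hasDerivAt_const s (0 : E))))
    convert this using 1
    simp [hF, hk]
  have huniq := ODE_solution_unique_of_eventually (v := fun _ => F) (s := fun _ => S) (K := K)
    (Eventually.of_forall fun _ => hLip) hfd hkd (by simp [hf, hk, h0, h1])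
  filter_upwards [huniq] with s hs
  have := congrArg (fun p : E × E × E × E => p.2.2.1) hs
  simpa [hf, hk] using this

end Local

section Prelude

variable {n : ℕ} {g : MetricField n} {U : Set (EuclideanSpace ℝ (Fin n))}

/-- local uniqueness, Prelude form -/
theorem zero_near (h : IsRiemannianOn g U) {c j : ℝ → EuclideanSpace ℝ (Fin n)} {t₀ : ℝ}
    (hx : c t₀ ∈ U) (hc : ∀ᶠ s in 𝓝 t₀, ContDiffAt ℝ 2 c s)
    (hj : ∀ᶠ s in 𝓝 t₀, ContDiffAt ℝ 2 j s)
    (hgeo : ∀ᶠ s in 𝓝 t₀, GeodesicEqAt g c s) (hjac : ∀ᶠ s in 𝓝 t₀, JacobiEqAt g c j s)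
    (h0 : j t₀ = 0) (h1 : deriv j t₀ = 0) : ∀ᶠ s in 𝓝 t₀, j s = 0 := by
  have hU : ∀ᶠ s in 𝓝 t₀, c s ∈ U :=
    hc.self_of_nhds.continuousAt.eventually (h.isOpen.mem_nhds hx)
  refine zero_near_of_linearized (CF.isLC_of_isRiemannianOn h) hx hc hj ?_ ?_ h0 h1
  · filter_upwards [hgeo] with s hs using (CF.geodesicEqAt_iff g c s).1 hs
  · filter_upwards [hjac, hU] with s hs hs' using (CF.jacobiEqAt_iff h hs').1 hs

end Prelude

section Manifold

variable {n : ℕ} {M : Type*} [TopologicalSpace M] [ChartedSpace (EuclideanSpace ℝ (Fin n)) M]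
  [IsManifold 𝓘(ℝ, EuclideanSpace ℝ (Fin n)) ∞ M]
  (g : ContMDiffRiemannianMetric 𝓘(ℝ, EuclideanSpace ℝ (Fin n)) ∞ (EuclideanSpace ℝ (Fin n))
      (fun x : M => TangentSpace 𝓘(ℝ, EuclideanSpace ℝ (Fin n)) x))

omit [IsManifold 𝓘(ℝ, EuclideanSpace ℝ (Fin n)) ∞ M] in
theorem chartField_zero (γ : ℝ → M) {J : ℝ → EuclideanSpace ℝ (Fin n)} {t₀ s : ℝ}
    (h : J s = 0) : chartField γ J t₀ s = 0 := by
  unfold chartField
  rw [h]
  exact map_zero _

theorem eq_zero_of_chartField {γ : ℝ → M} {J : ℝ → EuclideanSpace ℝ (Fin n)} {t₀ s : ℝ}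
    (hs : γ s ∈ (chartAt (EuclideanSpace ℝ (Fin n)) (γ t₀)).source)
    (h : chartField γ J t₀ s = 0) : J s = 0 := by
  have hinj := (mdifferentiable_chart (I := 𝓘(ℝ, EuclideanSpace ℝ (Fin n)))
    (γ t₀)).mfderiv_injective hs
  apply hinj
  have h0 := map_zero (mfderiv 𝓘(ℝ, EuclideanSpace ℝ (Fin n)) 𝓘(ℝ, EuclideanSpace ℝ (Fin n))
    (chartAt (EuclideanSpace ℝ (Fin n)) (γ t₀)) (γ s))
  exact h.trans h0.symm

/-- a Jacobi field with a degenerate zero vanishes near it (in any chart around the point) -/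
theorem eventually_zero {γ : ℝ → M} {J : ℝ → EuclideanSpace ℝ (Fin n)} (hγ : IsGeodesic g γ)
    (hJ : IsJacobiField g γ J) {t₀ a : ℝ}
    (ha : γ a ∈ (chartAt (EuclideanSpace ℝ (Fin n)) (γ t₀)).source)
    (h0 : chartField γ J t₀ a = 0) (h1 : deriv (chartField γ J t₀) a = 0) :
    ∀ᶠ s in 𝓝 a, J s = 0 := by
  have hs : ∀ᶠ s in 𝓝 a, γ s ∈ (chartAt (EuclideanSpace ℝ (Fin n)) (γ t₀)).source :=
    hγ.1.continuous.continuousAt.eventually
      ((chartAt (EuclideanSpace ℝ (Fin n)) (γ t₀)).open_source.mem_nhds ha)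
  have key := zero_near (isRiemannianOn_metricInChart g (γ t₀))
    (c := fun s => chartAt (EuclideanSpace ℝ (Fin n)) (γ t₀) (γ s)) (j := chartField γ J t₀)
    (t₀ := a) ((chartAt (EuclideanSpace ℝ (Fin n)) (γ t₀)).map_source ha)
    (by filter_upwards [hs] with s hs using
      (contDiffAt_chartCurve hγ.1 hs).of_le CF.two_le_infty)
    (by filter_upwards [hs] with s hs using
      (contDiffAt_mfderiv_chart hJ.1 hs).of_le CF.two_le_infty)
    (by filter_upwards [hs] with s hs using geodesicEqAt_chart g hγ hs)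
    (by filter_upwards [hs] with s hs using jacobiEqAt_chart g hγ hJ hs) h0 h1
  filter_upwards [key, hs] with s h2 h3 using eq_zero_of_chartField h3 h2

/-- **NCP-B (3)**: a Jacobi field with a degenerate zero vanishes identically. -/
theorem jacobi_unique {γ : ℝ → M} {J : ℝ → EuclideanSpace ℝ (Fin n)} (hγ : IsGeodesic g γ)
    (hJ : IsJacobiField g γ J) (a : ℝ) (h0 : J a = 0) (h1 : deriv (chartField γ J a) a = 0) :
    ∀ t, J t = 0 := by
  set W : Set ℝ := {t | ∀ᶠ s in 𝓝 t, J s = 0} with hW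
  have hopen : IsOpen W := isOpen_iff_mem_nhds.2 fun t ht => ht.eventually_nhds
  have haW : a ∈ W := eventually_zero g hγ hJ (mem_chart_source _ _) (chartField_zero γ h0) h1
  have hclosed : IsClosed W := by
    rw [← closure_subset_iff_isClosed]
    intro t₀ ht₀
    have hs : ∀ᶠ s in 𝓝 t₀, γ s ∈ (chartAt (EuclideanSpace ℝ (Fin n)) (γ t₀)).source :=
      hγ.1.continuous.continuousAt.eventually
        ((chartAt (EuclideanSpace ℝ (Fin n)) (γ t₀)).open_source.mem_nhds (mem_chart_source _ _))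
    have hsm : ContDiffAt ℝ 2 (chartField γ J t₀) t₀ :=
      (contDiffAt_mfderiv_chart hJ.1 (mem_chart_source _ _)).of_le CF.two_le_infty
    have hfreq : ∃ᶠ s in 𝓝 t₀, s ∈ W := mem_closure_iff_frequently.1 ht₀
    have hfreq' : ∃ᶠ s in 𝓝 t₀, chartField γ J t₀ s = 0 ∧ deriv (chartField γ J t₀) s = 0 := by
      refine hfreq.mono fun s hsW => ?_
      have hsW' : ∀ᶠ r in 𝓝 s, J r = 0 := hsW
      have h2 : chartField γ J t₀ =ᶠ[𝓝 s] fun _ => 0 := by
        filter_upwards [hsW'] with r hr using chartField_zero γ hr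
      exact ⟨h2.self_of_nhds, by rw [h2.deriv_eq]; simp⟩
    have e0 : chartField γ J t₀ t₀ = 0 := by
      by_contra hne
      have := hsm.continuousAt.eventually_ne hne
      obtain ⟨s, hs1, hs2⟩ := (hfreq'.and_eventually this).exists
      exact hs2 hs1.1
    have e1 : deriv (chartField γ J t₀) t₀ = 0 := by
      by_contra hne
      have := (CF.differentiableAt_deriv hsm).continuousAt.eventually_ne hne
      obtain ⟨s, hs1, hs2⟩ := (hfreq'.and_eventually this).exists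
      exact hs2 hs1.2
    exact eventually_zero g hγ hJ (mem_chart_source _ _) e0 e1
  have huniv : W = univ := IsClopen.eq_univ ⟨hclosed, hopen⟩ ⟨a, haW⟩
  intro t
  have : t ∈ W := huniv ▸ mem_univ t
  exact this.self_of_nhds

end Manifold

end Crest.Agent.R244.NCP
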