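import Crest.Agent.R244.ManC
import Crest.Agent.R244.NCPFinal
import Crest.Agent.R244.NCPUnique

/-!
# R244: the `CollarGlue` instance for the concrete manifold
-/

set_option autoImplicit false
set_option maxSynthPendingDepth 3

open Filter Topology Set Bundle
open scoped ContDiff Manifold

noncomputable section

namespace Crest.Agent.R244.ManC

open Crest.GeometryTopology.CoordMetric Crest.GeometryTopology.ChartCurvature
  Crest.GeometryTopology.Geodesic Crest.Agent.R244.Man Crest.Agent.R244.Man.Glue
open Crest.Agent.R244.NCP (CollarGlue gC)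
open Par

lemma posDef_diag {r : ℝ} (hr : 0 < r) :
    (Matrix.diagonal ![1, 1, r ^ 2] : Matrix (Fin 3) (Fin 3) ℝ).PosDef := by
  rw [Matrix.posDef_diagonal_iff]
  intro i
  fin_cases i
  · simp
  · simp
  · simp; positivity

lemma mat_flat_aux (C : CollarData) (i : Fin 3) (r : ℝ) (z : E3)
    (h : met C i z = bil 1 1 0 (r ^ 2)) :
    (theMetricData C).mat i z = Matrix.diagonal ![1, 1, r ^ 2] := by
  ext a b
  have : (theMetricData C).mat i z a b =
      met C i z (EuclideanSpace.single a 1) (EuclideanSpace.single b 1) := rfl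
  rw [this, h, bil_apply]
  fin_cases a <;> fin_cases b <;> simp

/-- the translation germ -/
lemma trans_add (C : CollarData) {i : Fin 3} {p q : E3} (hp : p ∈ C.par.P i)
    (h : C.par.lat i p q) : (theGlue C).Trans i i p q (fun z => z + (q - p)) := by
  refine ⟨by fun_prop, by simp, ?_⟩
  filter_upwards [(C.par.isOpen_P i).mem_nhds hp] with z hz
  have h1 := C.par.lat_add h z
  exact ⟨hz, C.par.mem_of_lat h1 hz, C.par.rel_of_lat h1 hz⟩

theorem collarGlue (C : CollarData) : CollarGlue (theGlue C) (theMetricData C) C 1 where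
  mat_col z _ := by
    ext a b
    have : (theMetricData C).mat 1 z a b =
        met C 1 z (EuclideanSpace.single a 1) (EuclideanSpace.single b 1) := rfl
    rw [this, met_1, bil_apply]
    fin_cases a <;> fin_cases b <;> (simp; rfl)
  mat_flat i hi := by
    fin_cases i
    · exact ⟨_, posDef_diag C.Φ0_pos, fun z _ => mat_flat_aux C 0 _ z (met_0 C z)⟩
    · exact absurd rfl hi
    · exact ⟨_, posDef_diag C.R0_pos, fun z _ => mat_flat_aux C 2 _ z (met_2 C z)⟩
  rel_col p q τ h := by
    obtain ⟨hp, hq, hr⟩ := h.rel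
    have h1 : latC p q := (C.par.rel_11 hp hq).1 hr
    have h2 : C.par.lat 1 p q := by simpa [lat] using h1
    refine ⟨h1.1.symm, ?_⟩
    rw [(h.eventuallyEq _ (trans_add C hp h2)).fderiv_eq]
    have hτ : HasFDerivAt (fun z : E3 => z + (q - p)) (ContinuousLinearMap.id ℝ E3) p :=
      (hasFDerivAt_id p).add_const _
    exact hτ.fderiv
  rel_flat i hi p q τ h := by
    obtain ⟨hp, hq, hr⟩ := h.rel
    have hr' : C.par.rel i p 1 q := hr
    fin_cases i
    · have h1 : q 0 < C.tL := (C.par.rel_01.1 hr').1
      rintro ⟨h2, -⟩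
      linarith
    · exact absurd rfl hi
    · have h1 : C.tR < q 0 := (C.par.rel_21.1 hr').1
      rintro ⟨-, h2⟩
      linarith

/-- **No conjugate points** for the concrete metric. -/
theorem theMetric_noConjugatePoints (C : CollarData) : NoConjugatePoints (theMetric C) := by
  haveI : T2Space (theGlue C).M := theGlue_t2 C
  exact (collarGlue C).noConjugatePoints
    (fun γ J hγ hJ a h0 h1 t => NCP.jacobi_unique (theMetricData C).toMetric hγ hJ a h0 h1 t)

end Crest.Agent.R244.ManC
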