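import Mathlib
import Crest.Agent.R244.ManC
import Crest.Agent.R244.B4Ne

/-!
# R244 : the map `M → Nil` on the concrete glued manifold
-/

set_option autoImplicit false
set_option maxSynthPendingDepth 3

open Bundle Set Filter Topology
open scoped ContDiff Manifold Real

noncomputable section

namespace Crest.Agent.R244.ManC

open Crest.Agent.R244.Man Crest.Agent.R244.B4

namespace Par

variable (D : Par)

/-- the map to `Nil` on the patches -/
def nilPatch : Fin 3 → E3 → Nil :=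
  ![fun z => nil1 D.S (z 0) (z 1) (z 2), fun z => nilC D.S D.c1 D.tL D.tR (z 0) (z 1) (z 2),
    fun z => nil2 (z 2)]

lemma nilPatch_0 (z : E3) : D.nilPatch 0 z = nil1 D.S (z 0) (z 1) (z 2) := rfl
lemma nilPatch_1 (z : E3) :
    D.nilPatch 1 z = nilC D.S D.c1 D.tL D.tR (z 0) (z 1) (z 2) := rfl
lemma nilPatch_2 (z : E3) : D.nilPatch 2 z = nil2 (z 2) := rfl

lemma not_centre {u v : ℝ} (h : 0 < D.rho u v) (m n : ℤ) :
    ¬ (u = D.S / 2 + D.S * m ∧ v = D.S / 2 + D.S * n) := by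
  rintro ⟨rfl, rfl⟩
  rw [D.rho_add_int] at h
  have h0 : |(0 : ℝ)| ≤ D.S / 2 := by rw [abs_zero]; linarith [D.S_pos]
  have h1 := D.rho_of_small h0 h0
  simp only [add_zero] at h1
  rw [h1] at h
  simp at h

lemma not_centre_of_mem {z : E3} (hz : z ∈ D.P 0) (m n : ℤ) :
    ¬ (z 0 = D.S / 2 + D.S * m ∧ z 1 = D.S / 2 + D.S * n) :=
  D.not_centre (lt_trans D.h1 (D.mem_P0.1 hz)) m n

lemma nilPatch_latB0 {p q : E3} (hp : p ∈ D.P 0) (h : D.latB p q) :
    D.nilPatch 0 p = D.nilPatch 0 q := by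
  obtain ⟨h1, h2, h3⟩ := h
  obtain ⟨k, hk⟩ := D.tc_eq_iff.1 h1
  obtain ⟨l, hl⟩ := D.tc_eq_iff.1 h2
  obtain ⟨n, hn⟩ := an_eq_iff.1 h3
  rw [nilPatch_0, nilPatch_0, hk, hl, hn]
  exact (nil1_period D.S_pos (D.not_centre_of_mem hp) (p 2) k l n).symm

lemma nilPatch_latB2 {p q : E3} (h : D.latB p q) :
    D.nilPatch 2 p = D.nilPatch 2 q := by
  obtain ⟨h1, h2, h3⟩ := h
  obtain ⟨n, hn⟩ := an_eq_iff.1 h3
  rw [nilPatch_2, nilPatch_2, hn]
  exact (nil2_period (p 2) n).symm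

lemma nilPatch_latC {p q : E3} (h : latC p q) :
    D.nilPatch 1 p = D.nilPatch 1 q := by
  obtain ⟨h1, h2, h3⟩ := h
  obtain ⟨m, hm⟩ := an_eq_iff.1 h2
  obtain ⟨n, hn⟩ := an_eq_iff.1 h3
  rw [nilPatch_1, nilPatch_1, ← h1, hm, hn]
  exact (nilC_period _ _ _ _ _ _ _ m n).symm

lemma nilPatch_pol1 {q : E3} (h : q 0 < D.tL) : D.nilPatch 0 (D.pol1 q) = D.nilPatch 1 q := by
  rw [nilPatch_0, nilPatch_1, nilC_left D.S_pos D.hLR h.le, pol1_0, pol1_1, pol1_2]

lemma nilPatch_pol2 {q : E3} (h : D.tR < q 0) : D.nilPatch 2 (D.pol2 q) = D.nilPatch 1 q := by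
  rw [nilPatch_2, nilPatch_1, nilC_right D.hLR h.le, pol2_2]

theorem nilPatch_rel {i j : Fin 3} {p q : E3} (hp : p ∈ D.P i) (hq : q ∈ D.P j)
    (h : D.rel i p j q) : D.nilPatch i p = D.nilPatch j q := by
  have h01 : ∀ p q : E3, p ∈ D.P 0 → q ∈ D.P 1 → D.rel 0 p 1 q →
      D.nilPatch 0 p = D.nilPatch 1 q := by
    intro p q hp hq h
    obtain ⟨h1, h2⟩ := D.rel_01.1 h
    rw [D.nilPatch_latB0 hp h2, D.nilPatch_pol1 h1]
  have h21 : ∀ p q : E3, D.rel 2 p 1 q → D.nilPatch 2 p = D.nilPatch 1 q := by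
    intro p q h
    obtain ⟨h1, h2⟩ := D.rel_21.1 h
    rw [D.nilPatch_latB2 h2, D.nilPatch_pol2 h1]
  fin_cases i <;> fin_cases j
  · exact D.nilPatch_latB0 hp (D.rel_00.1 h)
  · exact h01 p q hp hq h
  · exact absurd h D.rel_02
  · exact (h01 q p hq hp (D.rel_symm h)).symm
  · exact D.nilPatch_latC ((D.rel_11 hp hq).1 h)
  · exact (h21 q p (D.rel_symm h)).symm
  · exact absurd h D.rel_20
  · exact h21 p q h
  · exact D.nilPatch_latB2 (D.rel_22.1 h)

theorem continuousOn_nilPatch (i : Fin 3) : ContinuousOn (D.nilPatch i) (D.P i) := by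
  fin_cases i
  · exact continuousOn_nil1 D.S_pos (by fun_prop) (by fun_prop) (by fun_prop)
      (fun p hp => D.not_centre_of_mem hp)
  · refine continuousOn_nilC D.S_pos (by linarith [D.h1]) (by linarith [D.hS1]) (by fun_prop)
      (by fun_prop) (by fun_prop) (fun p hp => ?_)
    have := (D.mem_P1.1 hp).1
    have := D.hS1
    linarith
  · exact (continuous_nil2.comp (by fun_prop : Continuous fun z : E3 => z 2)).continuousOn

end Par

/-- **The map `M → Nil`.** -/
def nilMap (C : CollarData) : C((theGlue C).M, Nil) where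
  toFun := Quotient.lift (s := (theGlue C).r) (fun x => C.par.nilPatch x.1 x.2)
    (fun x y h => C.par.nilPatch_rel x.2.2 y.2.2 h)
  continuous_toFun := by
    refine Continuous.quotient_lift ?_ _
    rw [continuous_sigma_iff]
    intro i
    have h := C.par.continuousOn_nilPatch i
    rw [continuousOn_iff_continuous_domRestrict] at h
    exact h

theorem nilMap_F (C : CollarData) (i : Fin 3) (z : E3) (hz : z ∈ C.par.P i) :
    nilMap C ((theGlue C).F i z) = C.par.nilPatch i z := by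
  rw [(theGlue C).F_of_mem (i := i) (z := z) hz]
  rfl

/-- values of `nilMap` on the collar at and after `tR` -/
theorem nilMap_collar (C : CollarData) {t : ℝ} (ht : C.tR ≤ t) (ht' : t < C.tR + 2) (x y : ℝ) :
    nilMap C ((theGlue C).F 1 !₂[t, x, y]) = nil2 (x + y) := by
  have hmem : (!₂[t, x, y] : E3) ∈ C.par.P 1 := by
    rw [Par.mem_P1]
    have h1 : C.tL < C.tR := C.par.hLR
    constructor
    · show C.tL - 2 < t
      linarith
    · show t < C.tR + 2
      exact ht'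
  rw [nilMap_F C 1 _ hmem, Par.nilPatch_1]
  exact nilC_right C.par.hLR ht x y

/-- **Detection on the concrete manifold**: the `y`-loop of the collar at `tL` is not
null-homotopic (`K (t, x, y) = F 1 !₂[t, x, y]`). -/
theorem not_homotopic_refl (C : CollarData) [PathConnectedSpace (theGlue C).M]
    {t0 t1 : ℝ} (h0 : C.tL - 2 < t0) (h01 : t0 ≤ t1) (h1 : C.tR ≤ t1) (h1' : t1 < C.tR + 2)
    (γ : Path ((theGlue C).F 1 !₂[t0, 0, 0]) ((theGlue C).F 1 !₂[t0, 0, 0]))
    (hγ : ∀ s : unitInterval, γ s = (theGlue C).F 1 !₂[t0, 0, 2 * Real.pi * s]) :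
    ¬ γ.Homotopic (Path.refl _) := by
  refine not_homotopic_refl_of_nil (fun p : ℝ × ℝ × ℝ => (theGlue C).F 1 !₂[p.1, p.2.1, p.2.2])
    t0 t1 h01 ?_ ?_ (nilMap C) ?_ γ hγ
  · refine ((theGlue C).continuousOn_F 1).comp (f := fun p : ℝ × ℝ × ℝ => (!₂[p.1, p.2.1, p.2.2] : E3))
      (by fun_prop) ?_
    intro p hp
    show (!₂[p.1, p.2.1, p.2.2] : E3) ∈ C.par.P 1
    rw [Par.mem_P1]
    constructor
    · show C.tL - 2 < p.1
      linarith [hp.1]
    · show p.1 < C.tR + 2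
      linarith [hp.2]
  · intro t y ht ht'
    have hmem : ∀ x y : ℝ, (!₂[t, x, y] : E3) ∈ C.par.P 1 := by
      intro x y
      rw [Par.mem_P1]
      constructor
      · show C.tL - 2 < t
        linarith
      · show t < C.tR + 2
        linarith
    refine (theGlue_F_eq C (hmem _ _) (hmem _ _)).2 ?_
    refine (C.par.rel_11 (hmem _ _) (hmem _ _)).2 ⟨rfl, rfl, ?_⟩
    show an (y + 2 * Real.pi) = an y
    rw [an_eq_iff]
    exact ⟨-1, by push_cast; ring⟩
  · intro y
    have := nilMap_collar C h1 h1' 0 y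
    rw [zero_add] at this
    exact this

end Crest.Agent.R244.ManC
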