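import Mathlib
import Crest.Agent.R244.NilMap

/-!
# R244 : existence of the map `M → Nil` in the form used by ManC3
-/

set_option autoImplicit false
set_option maxSynthPendingDepth 3

namespace Crest.Agent.R244.ManC

open Crest.Agent.R244.Man Crest.Agent.R244.B4

theorem exists_nilMap (C : CollarData) : ∃ F : C((theGlue C).M, Nil), ∀ y : ℝ,
    F ((theGlue C).F 1 !₂[((C.tR) + (C.tR + 2)) / 2, 0, y]) = nil2 y := by
  refine ⟨nilMap C, fun y => ?_⟩
  have h := nilMap_collar C (t := ((C.tR) + (C.tR + 2)) / 2) (by linarith) (by linarith) 0 y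
  rw [zero_add] at h
  exact h

end Crest.Agent.R244.ManC
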