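import Crest.Prelude.Def_Geodesic
import Crest.Agent.R244.NCPForm

/-!
R244 (S0377), package NCP, part 2: Christoffel symbols of the collar metric `dt² + Q_t(dx,dy)`.
-/

set_option autoImplicit false

open Filter Topology
open scoped ContDiff

namespace Crest.Agent.R244.NCP

open Crest.GeometryTopology.CoordMetric Crest.GeometryTopology.ChartCurvature
  Crest.GeometryTopology.Geodesic

/-- `ℝ³` -/
abbrev E3 := EuclideanSpace ℝ (Fin 3)

/-- The collar metric `dt² + Qa dx² + 2 Qb dx dy + Qc dy²`. -/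
def gC (Qa Qb Qc : ℝ → ℝ) : MetricField 3 := fun z =>
  !![1, 0, 0; 0, Qa (z 0), Qb (z 0); 0, Qb (z 0), Qc (z 0)]

theorem inverseField_gC {Qa Qb Qc A B C : ℝ → ℝ}
    (h11 : ∀ r, Qa r * A r + Qb r * B r = 1) (h12 : ∀ r, Qa r * B r + Qb r * C r = 0)
    (h21 : ∀ r, Qb r * A r + Qc r * B r = 0) (h22 : ∀ r, Qb r * B r + Qc r * C r = 1) (z : E3) :
    inverseField (gC Qa Qb Qc) z =
      !![1, 0, 0; 0, A (z 0), B (z 0); 0, B (z 0), C (z 0)] := by
  unfold inverseField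
  apply Matrix.inv_eq_right_inv
  unfold gC
  ext i j
  fin_cases i <;> fin_cases j <;>
    simp [Matrix.mul_apply, Fin.sum_univ_three, h11, h12, h21, h22]

theorem pderiv_comp_zero {f : ℝ → ℝ} {z : E3} (hf : DifferentiableAt ℝ f (z 0)) (i : Fin 3) :
    pderiv i (fun y : E3 => f (y 0)) z = if i = 0 then deriv f (z 0) else 0 := by
  unfold pderiv
  have h1 : HasFDerivAt (fun y : E3 => y 0) (EuclideanSpace.proj (0 : Fin 3) : E3 →L[ℝ] ℝ) z :=
    (EuclideanSpace.proj (0 : Fin 3) : E3 →L[ℝ] ℝ).hasFDerivAt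
  have h2 := hf.hasDerivAt.comp_hasFDerivAt z h1
  have h3 : fderiv ℝ (fun y : E3 => f (y 0)) z = _ := h2.fderiv
  rw [h3]
  fin_cases i <;> simp

theorem pderiv_const' (r : ℝ) (z : E3) (i : Fin 3) : pderiv i (fun _ : E3 => r) z = 0 := by
  unfold pderiv
  simp

/-- The Christoffel symbols of the collar: matrix `Γ k i j`, `k = 0`. -/
noncomputable def chr (Qa' Qb' Qc' A B C : ℝ) (k : Fin 3) : Matrix (Fin 3) (Fin 3) ℝ :=
  if k = 0 then !![0, 0, 0; 0, -Qa' / 2, -Qb' / 2; 0, -Qb' / 2, -Qc' / 2]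
  else if k = 1 then
    !![0, (A * Qa' + B * Qb') / 2, (A * Qb' + B * Qc') / 2;
       (A * Qa' + B * Qb') / 2, 0, 0;
       (A * Qb' + B * Qc') / 2, 0, 0]
  else
    !![0, (B * Qa' + C * Qb') / 2, (B * Qb' + C * Qc') / 2;
       (B * Qa' + C * Qb') / 2, 0, 0;
       (B * Qb' + C * Qc') / 2, 0, 0]

theorem pderiv_gC {Qa Qb Qc : ℝ → ℝ} {z : E3} (ha : DifferentiableAt ℝ Qa (z 0))
    (hb : DifferentiableAt ℝ Qb (z 0)) (hc : DifferentiableAt ℝ Qc (z 0)) (l i j : Fin 3) :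
    pderiv l (fun y => gC Qa Qb Qc y i j) z =
      if l = 0 then !![0, 0, 0; 0, deriv Qa (z 0), deriv Qb (z 0); 0, deriv Qb (z 0),
        deriv Qc (z 0)] i j else 0 := by
  unfold gC
  fin_cases i <;> fin_cases j <;>
    simp [pderiv_comp_zero ha, pderiv_comp_zero hb, pderiv_comp_zero hc, pderiv_const']

theorem christoffel_gC {Qa Qb Qc A B C : ℝ → ℝ} {z : E3}
    (h11 : ∀ r, Qa r * A r + Qb r * B r = 1) (h12 : ∀ r, Qa r * B r + Qb r * C r = 0)
    (h21 : ∀ r, Qb r * A r + Qc r * B r = 0) (h22 : ∀ r, Qb r * B r + Qc r * C r = 1)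
    (ha : DifferentiableAt ℝ Qa (z 0))
    (hb : DifferentiableAt ℝ Qb (z 0)) (hc : DifferentiableAt ℝ Qc (z 0)) (k i j : Fin 3) :
    christoffel (gC Qa Qb Qc) z k i j =
      chr (deriv Qa (z 0)) (deriv Qb (z 0)) (deriv Qc (z 0)) (A (z 0)) (B (z 0)) (C (z 0))
        k i j := by
  unfold christoffel
  simp only [inverseField_gC h11 h12 h21 h22, pderiv_gC ha hb hc]
  fin_cases k <;> fin_cases i <;> fin_cases j <;>
    simp [chr, Fin.sum_univ_three] <;> ring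

end Crest.Agent.R244.NCP
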