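import Mathlib

/-!
R244 (S0377), package NCP, part 4: local monotonicity of piecewise defined functions.
-/

set_option autoImplicit false

open Filter Topology Set

namespace Crest.Agent.R244.NCP

/-- Local monotonicity up to linear errors. -/
def LocMono (H : ℝ → ℝ) (s₀ : ℝ) : Prop :=
  ∀ ε > 0, (∀ᶠ z in 𝓝[>] s₀, H s₀ - ε * (z - s₀) ≤ H z) ∧
    (∀ᶠ z in 𝓝[<] s₀, H z ≤ H s₀ + ε * (s₀ - z))

/-- `f` has nonnegative derivative at `s₀`, and positive derivative if `P` holds. -/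
def Good (P : Prop) (s₀ : ℝ) (f : ℝ → ℝ) : Prop :=
  ∃ d, 0 ≤ d ∧ HasDerivAt f d s₀ ∧ (P → 0 < d)

theorem eventually_of_deriv_pos {f : ℝ → ℝ} {d s₀ : ℝ} (h : HasDerivAt f d s₀) (hd : 0 < d) :
    (∀ᶠ z in 𝓝[>] s₀, f s₀ < f z) ∧ (∀ᶠ z in 𝓝[<] s₀, f z < f s₀) := by
  have h1 := hasDerivAt_iff_tendsto_slope.1 h
  have h2 : ∀ᶠ z in 𝓝[≠] s₀, 0 < slope f s₀ z := h1.eventually (lt_mem_nhds hd)
  constructor
  · have h3 : ∀ᶠ z in 𝓝[>] s₀, 0 < slope f s₀ z :=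
      h2.filter_mono (nhdsWithin_mono _ (fun z hz => ne_of_gt hz))
    filter_upwards [h3, self_mem_nhdsWithin] with z hz hz'
    have hz'' : 0 < z - s₀ := sub_pos.2 hz'
    rw [slope_def_field] at hz
    have := (div_pos_iff_of_pos_right hz'').1 hz
    linarith
  · have h3 : ∀ᶠ z in 𝓝[<] s₀, 0 < slope f s₀ z :=
      h2.filter_mono (nhdsWithin_mono _ (fun z hz => ne_of_lt hz))
    filter_upwards [h3, self_mem_nhdsWithin] with z hz hz'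
    have hz'' : z - s₀ < 0 := sub_neg.2 hz'
    rw [slope_def_field] at hz
    have := (div_pos_iff.1 hz)
    rcases this with ⟨_, h⟩ | ⟨h, _⟩
    · linarith
    · linarith

theorem Good.right {P : Prop} {f : ℝ → ℝ} {s₀ : ℝ} (h : Good P s₀ f) {ε : ℝ} (hε : 0 < ε) :
    ∀ᶠ z in 𝓝[>] s₀, f s₀ - ε * (z - s₀) ≤ f z := by
  obtain ⟨d, hd, hf, -⟩ := h
  have h1 : HasDerivAt (fun z => f z + ε * z) (d + ε * 1) s₀ :=
    hf.add ((hasDerivAt_id s₀).const_mul ε)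
  have h2 := (eventually_of_deriv_pos h1 (by linarith)).1
  filter_upwards [h2] with z hz
  linarith

theorem Good.left {P : Prop} {f : ℝ → ℝ} {s₀ : ℝ} (h : Good P s₀ f) {ε : ℝ} (hε : 0 < ε) :
    ∀ᶠ z in 𝓝[<] s₀, f z ≤ f s₀ + ε * (s₀ - z) := by
  obtain ⟨d, hd, hf, -⟩ := h
  have h1 : HasDerivAt (fun z => f z + ε * z) (d + ε * 1) s₀ :=
    hf.add ((hasDerivAt_id s₀).const_mul ε)
  have h2 := (eventually_of_deriv_pos h1 (by linarith)).2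
  filter_upwards [h2] with z hz
  linarith

theorem Good.pos {P : Prop} {f : ℝ → ℝ} {s₀ : ℝ} (h : Good P s₀ f) (hP : P) :
    ∀ᶠ z in 𝓝[>] s₀, f s₀ < f z := by
  obtain ⟨d, hd, hf, hpos⟩ := h
  exact (eventually_of_deriv_pos hf (hpos hP)).1

/-- Candidate lemma. -/
theorem locMono_of_candidates {P : Prop} {H : ℝ → ℝ} {s₀ : ℝ} {F G : Set (ℝ → ℝ)}
    (hF : F.Finite) (hG : G.Finite)
    (hFgood : ∀ f ∈ F, Good P s₀ f ∧ H s₀ ≤ f s₀)
    (hGgood : ∀ f ∈ G, Good P s₀ f ∧ f s₀ ≤ H s₀)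
    (hr : ∀ᶠ z in 𝓝[>] s₀, ∃ f ∈ F, H z = f z)
    (hl : ∀ᶠ z in 𝓝[<] s₀, ∃ f ∈ G, H z = f z) :
    LocMono H s₀ ∧ (P → ∀ᶠ z in 𝓝[>] s₀, H s₀ < H z) := by
  refine ⟨fun ε hε => ⟨?_, ?_⟩, fun hP => ?_⟩
  · have h1 : ∀ᶠ z in 𝓝[>] s₀, ∀ f ∈ F, f s₀ - ε * (z - s₀) ≤ f z :=
      (eventually_all_finite hF).2 (fun f hf => (hFgood f hf).1.right hε)
    filter_upwards [h1, hr] with z hz hz'
    obtain ⟨f, hf, e⟩ := hz'
    have h2 := hz f hf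
    have h3 := (hFgood f hf).2
    rw [e]; linarith
  · have h1 : ∀ᶠ z in 𝓝[<] s₀, ∀ f ∈ G, f z ≤ f s₀ + ε * (s₀ - z) :=
      (eventually_all_finite hG).2 (fun f hf => (hGgood f hf).1.left hε)
    filter_upwards [h1, hl] with z hz hz'
    obtain ⟨f, hf, e⟩ := hz'
    have h2 := hz f hf
    have h3 := (hGgood f hf).2
    rw [e]; linarith
  · have h1 : ∀ᶠ z in 𝓝[>] s₀, ∀ f ∈ F, f s₀ < f z :=
      (eventually_all_finite hF).2 (fun f hf => (hFgood f hf).1.pos hP)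
    filter_upwards [h1, hr] with z hz hz'
    obtain ⟨f, hf, e⟩ := hz'
    have h2 := hz f hf
    have h3 := (hFgood f hf).2
    rw [e]; linarith

/-- Interior points: all candidates take the value `H s₀` at `s₀`. -/
theorem locMono_of_eventually {P : Prop} {H : ℝ → ℝ} {s₀ : ℝ} {F : Set (ℝ → ℝ)}
    (hF : F.Finite) (hgood : ∀ f ∈ F, Good P s₀ f ∧ f s₀ = H s₀)
    (h : ∀ᶠ z in 𝓝 s₀, ∃ f ∈ F, H z = f z) :
    LocMono H s₀ ∧ (P → ∀ᶠ z in 𝓝[>] s₀, H s₀ < H z) :=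
  locMono_of_candidates hF hF (fun f hf => ⟨(hgood f hf).1, (hgood f hf).2.ge⟩)
    (fun f hf => ⟨(hgood f hf).1, (hgood f hf).2.le⟩) (h.filter_mono nhdsWithin_le_nhds)
    (h.filter_mono nhdsWithin_le_nhds)

/-- Interface points. -/
theorem locMono_interface {P : Prop} {H : ℝ → ℝ} {s₀ v : ℝ} {F : Set (ℝ → ℝ)} {f₀ : ℝ → ℝ}
    {out : ℝ → Prop} (hF : F.Finite) (hgood : ∀ f ∈ F, Good P s₀ f ∧ f s₀ = v)
    (hgood₀ : Good P s₀ f₀) (hv₀ : H s₀ = f₀ s₀)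
    (hout : ∀ᶠ z in 𝓝 s₀, out z → H z = f₀ z)
    (hin : ∀ᶠ z in 𝓝 s₀, ¬ out z → ∃ f ∈ F, H z = f z)
    (hcase : v = f₀ s₀ ∨ (f₀ s₀ ≤ v ∧ ∀ᶠ z in 𝓝[<] s₀, out z) ∨
      (v ≤ f₀ s₀ ∧ ∀ᶠ z in 𝓝[>] s₀, out z)) :
    LocMono H s₀ ∧ (P → ∀ᶠ z in 𝓝[>] s₀, H s₀ < H z) := by
  have hall : ∀ᶠ z in 𝓝 s₀, ∃ f ∈ insert f₀ F, H z = f z := by
    filter_upwards [hout, hin] with z h1 h2
    by_cases h : out z
    · exact ⟨f₀, mem_insert _ _, h1 h⟩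
    · obtain ⟨f, hf, e⟩ := h2 h
      exact ⟨f, mem_insert_of_mem _ hf, e⟩
  rcases hcase with hc | ⟨hc, ho⟩ | ⟨hc, ho⟩
  · apply locMono_of_eventually (hF.insert f₀) _ hall
    intro f hf
    rcases hf with rfl | hf
    · exact ⟨hgood₀, hv₀.symm⟩
    · exact ⟨(hgood f hf).1, by rw [(hgood f hf).2, hc, hv₀]⟩
  · apply locMono_of_candidates (F := insert f₀ F) (G := {f₀}) (hF.insert f₀) (finite_singleton _)
    · intro f hf
      rcases hf with rfl | hf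
      · exact ⟨hgood₀, hv₀.le⟩
      · exact ⟨(hgood f hf).1, by rw [(hgood f hf).2, hv₀]; exact hc⟩
    · intro f hf
      rw [mem_singleton_iff] at hf
      subst hf
      exact ⟨hgood₀, hv₀.ge⟩
    · exact hall.filter_mono nhdsWithin_le_nhds
    · filter_upwards [ho, hout.filter_mono nhdsWithin_le_nhds] with z h1 h2
      exact ⟨f₀, rfl, h2 h1⟩
  · apply locMono_of_candidates (F := {f₀}) (G := insert f₀ F) (finite_singleton _) (hF.insert f₀)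
    · intro f hf
      rw [mem_singleton_iff] at hf
      subst hf
      exact ⟨hgood₀, hv₀.le⟩
    · intro f hf
      rcases hf with rfl | hf
      · exact ⟨hgood₀, hv₀.ge⟩
      · exact ⟨(hgood f hf).1, by rw [(hgood f hf).2, hv₀]; exact hc⟩
    · filter_upwards [ho, hout.filter_mono nhdsWithin_le_nhds] with z h1 h2
      exact ⟨f₀, rfl, h2 h1⟩
    · exact hall.filter_mono nhdsWithin_le_nhds

end Crest.Agent.R244.NCP
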