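import Crest.Agent.R244.NCPLin
import Crest.Agent.R244.NCPLoc

/-!
R244 (S0377), package NCP, part 5: local monotonicity of `H = E'/2 + K` in the collar.
-/

set_option autoImplicit false

open Filter Topology Set
open scoped ContDiff

namespace Crest.Agent.R244.NCP

open Crest.GeometryTopology.CoordMetric Crest.GeometryTopology.ChartCurvature
  Crest.GeometryTopology.Geodesic

/-- Conditions on the collar `tL < t < tR`, flat polar ends `t ≤ tL`, `tR ≤ t`. -/
structure ColCond (Qa Qb Qc A B C : ℝ → ℝ) (tL tR : ℝ) : Prop where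
  tL_lt : tL < tR
  flatL : ∀ t ≤ tL, ∃ κ > 0, FlatEnd A B C Qa Qb Qc κ t
  flatR : ∀ t, tR ≤ t → ∃ κ < 0, FlatEnd C B A Qc Qb Qa κ t
  condR : ∀ t, tL < t → t < tR → ∀ p q, qf (deriv A t) (deriv B t) (deriv C t) p q < 0 →
    A t * p + B t * q ≠ 0 ∧ 0 ≤ cR (A t) (B t) (C t) (deriv A t) (deriv B t) (deriv C t)
      (deriv (deriv A) t) (deriv (deriv B) t) (deriv (deriv C) t) p q
  condL : ∀ t, tL < t → t < tR → ∀ p q, 0 < qf (deriv A t) (deriv B t) (deriv C t) p q →
    B t * p + C t * q ≠ 0 ∧ 0 ≤ cR (C t) (B t) (A t) (deriv C t) (deriv B t) (deriv A t)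
      (deriv (deriv C) t) (deriv (deriv B) t) (deriv (deriv A) t) q p
  condZ : ∀ t, tL < t → t < tR → ∀ p q, qf (deriv A t) (deriv B t) (deriv C t) p q = 0 →
    qf (deriv (deriv A) t) (deriv (deriv B) t) (deriv (deriv C) t) p q ≤ 0
  neX : ∀ t, tL < t → t < tR → ∀ p q, (p ≠ 0 ∨ q ≠ 0) →
    qf (deriv A t) (deriv B t) (deriv C t) p q ≤ 0 → A t * p + B t * q ≠ 0 ∨
      ∀ r, 0 ≤ qf (deriv A r) (deriv B r) (deriv C r) p q
  neY : ∀ t, tL < t → t < tR → ∀ p q, (p ≠ 0 ∨ q ≠ 0) →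
    0 ≤ qf (deriv A t) (deriv B t) (deriv C t) p q → B t * p + C t * q ≠ 0 ∨
      ∀ r, qf (deriv A r) (deriv B r) (deriv C r) p q ≤ 0
  endL : ∀ p q, B tL * p + C tL * q = 0 →
    ∀ᶠ t in 𝓝[>] tL, qf (deriv A t) (deriv B t) (deriv C t) p q ≤ 0
  endR : ∀ p q, A tR * p + B tR * q = 0 →
    ∀ᶠ t in 𝓝[<] tR, 0 ≤ qf (deriv A t) (deriv B t) (deriv C t) p q

/-- Correction term in the open collar, as a function of position, velocity and Jacobi field in
collar coordinates. -/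
noncomputable def colK (Qa Qb Qc : ℝ → ℝ) (tL tR : ℝ) (x v j : E3) : ℝ :=
  if tL < x 0 ∧ x 0 < tR then
    j 0 * bf (deriv Qa (x 0)) (deriv Qb (x 0)) (deriv Qc (x 0)) (v 1) (v 2) (j 1) (j 2) -
    v 0 / 2 * qf (deriv Qa (x 0)) (deriv Qb (x 0)) (deriv Qc (x 0)) (j 1) (j 2) +
    (if 0 < qf (deriv Qa (x 0)) (deriv Qb (x 0)) (deriv Qc (x 0)) (v 1) (v 2) then
      -qf (deriv Qa (x 0)) (deriv Qb (x 0)) (deriv Qc (x 0)) (v 1) (v 2) / v 1 * (j 1 * j 0) -
      -qf (deriv Qa (x 0)) (deriv Qb (x 0)) (deriv Qc (x 0)) (v 1) (v 2) * v 0 /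
        (2 * v 1 ^ 2) * j 1 ^ 2
    else if qf (deriv Qa (x 0)) (deriv Qb (x 0)) (deriv Qc (x 0)) (v 1) (v 2) < 0 then
      -qf (deriv Qa (x 0)) (deriv Qb (x 0)) (deriv Qc (x 0)) (v 1) (v 2) / v 2 * (j 2 * j 0) -
      -qf (deriv Qa (x 0)) (deriv Qb (x 0)) (deriv Qc (x 0)) (v 1) (v 2) * v 0 /
        (2 * v 2 ^ 2) * j 2 ^ 2
    else 0)
  else 0

variable {Qa Qb Qc A B C : ℝ → ℝ} {tL tR : ℝ}

/-- `Q'(v,v) = - W'(p,p)` for `v = W p`. -/
theorem QW.qf_vel (H : QW Qa Qb Qc A B C) (r p q : ℝ) :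
    qf (deriv Qa r) (deriv Qb r) (deriv Qc r) (A r * p + B r * q) (B r * p + C r * q) =
      -qf (deriv A r) (deriv B r) (deriv C r) p q := by
  rw [H.dA, H.dB, H.dC]
  unfold qf
  ring

/-- Momentum form at a point: everything that is needed about `(c, J)` near `s₀`. -/
structure MomAt (Qa Qb Qc A B C : ℝ → ℝ) (p q dp dq : ℝ) (c J : ℝ → E3) (s : ℝ) : Prop where
  var : VarAt A B C p q dp dq (fun s => c s 0) (fun s => deriv c s 0) (fun s => J s 0)
      (fun s => deriv J s 0) (fun s => J s 1) (fun s => J s 2) s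
  v1 : deriv c s 1 = A (c s 0) * p + B (c s 0) * q
  v2 : deriv c s 2 = B (c s 0) * p + C (c s 0) * q
  w1 : deriv J s 1 = A (c s 0) * dp + B (c s 0) * dq +
      J s 0 * (deriv A (c s 0) * p + deriv B (c s 0) * q)
  w2 : deriv J s 2 = B (c s 0) * dp + C (c s 0) * dq +
      J s 0 * (deriv B (c s 0) * p + deriv C (c s 0) * q)

theorem QW.exists_mom (H : QW Qa Qb Qc A B C) {c J : ℝ → E3} {s₀ : ℝ}
    (h : ∀ᶠ s in 𝓝 s₀, EqAt (gC Qa Qb Qc) c J s) :
    ∃ p q dp dq, ∀ᶠ s in 𝓝 s₀, MomAt Qa Qb Qc A B C p q dp dq c J s := by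
  obtain ⟨ε, hε, hI⟩ := Metric.eventually_nhds_iff_ball.1 h
  have hconst : ∀ f : ℝ → ℝ, (∀ s ∈ Metric.ball s₀ ε, HasDerivAt f 0 s) →
      ∀ s ∈ Metric.ball s₀ ε, f s = f s₀ := by
    intro f hf s hs
    exact Metric.isOpen_ball.is_const_of_deriv_eq_zero (convex_ball s₀ ε).isPreconnected
      (fun x hx => (hf x hx).differentiableAt.differentiableWithinAt)
      (fun x hx => (hf x hx).deriv) hs (Metric.mem_ball_self hε)
  refine ⟨P1 Qa Qb c s₀, P1 Qb Qc c s₀, dP1 Qa Qb c J s₀, dP1 Qb Qc c J s₀, ?_⟩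
  rw [Metric.eventually_nhds_iff_ball]
  refine ⟨ε, hε, fun s hs => ?_⟩
  have h1 := hconst _ (fun s hs => (H.P_const (hI s hs)).1) s hs
  have h2 := hconst _ (fun s hs => (H.P_const (hI s hs)).2.1) s hs
  have h3 := hconst _ (fun s hs => (H.P_const (hI s hs)).2.2.1) s hs
  have h4 := hconst _ (fun s hs => (H.P_const (hI s hs)).2.2.2) s hs
  refine ⟨H.varAt (hI s hs) h1 h2 h3 h4, ?_, ?_, ?_, ?_⟩
  · rw [← h1, ← h2]; exact H.vel.1
  · rw [← h1, ← h2]; exact H.vel.2
  · rw [← h1, ← h2, ← h3, ← h4]; exact H.dvel.1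
  · rw [← h1, ← h2, ← h3, ← h4]; exact H.dvel.2

section Local

variable {p q dp dq : ℝ} {c J : ℝ → E3} {s s₀ : ℝ} {E Hf : ℝ → ℝ}

/-- The four candidate functions. -/
noncomputable def fZ (dp dq : ℝ) (J : ℝ → E3) : ℝ → ℝ :=
  hZ dp dq (fun s => J s 0) (fun s => deriv J s 0) (fun s => J s 1) (fun s => J s 2)

noncomputable def fR (A B C : ℝ → ℝ) (p q dp dq : ℝ) (c J : ℝ → E3) : ℝ → ℝ :=
  hR A B C p q dp dq (fun s => c s 0) (fun s => deriv c s 0) (fun s => J s 0)
      (fun s => deriv J s 0) (fun s => J s 1) (fun s => J s 2)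

noncomputable def fL (A B C : ℝ → ℝ) (p q dp dq : ℝ) (c J : ℝ → E3) : ℝ → ℝ :=
  hR C B A q p dq dp (fun s => c s 0) (fun s => deriv c s 0) (fun s => J s 0)
      (fun s => deriv J s 0) (fun s => J s 2) (fun s => J s 1)

noncomputable def fF (A B C Qa Qb Qc : ℝ → ℝ) (p q dp dq : ℝ) (c J : ℝ → E3) : ℝ → ℝ :=
  hF A B C Qa Qb Qc p q dp dq (fun s => c s 0) (fun s => deriv c s 0) (fun s => J s 0)
      (fun s => deriv J s 0) (fun s => J s 1) (fun s => J s 2)

/-- The value of `V_t` at `s`. -/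
noncomputable def Vt (A B C : ℝ → ℝ) (p q : ℝ) (c : ℝ → E3) (s : ℝ) : ℝ :=
  qf (deriv A (c s 0)) (deriv B (c s 0)) (deriv C (c s 0)) p q

theorem fL_eq_swap (s : ℝ) : fL A B C p q dp dq c J s =
    fZ dp dq J s + Vt A B C p q c s / (B (c s 0) * p + C (c s 0) * q) * (J s 2 * J s 0) -
    Vt A B C p q c s * deriv c s 0 / (2 * (B (c s 0) * p + C (c s 0) * q) ^ 2) * J s 2 ^ 2 := by
  unfold fL hR fZ hZ Vt
  have e1 : qf (deriv C (c s 0)) (deriv B (c s 0)) (deriv A (c s 0)) q p =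
      qf (deriv A (c s 0)) (deriv B (c s 0)) (deriv C (c s 0)) p q := by unfold qf; ring
  have e2 : C (c s 0) * q + B (c s 0) * p = B (c s 0) * p + C (c s 0) * q := by ring
  rw [e1, e2]
  ring

theorem fR_eq (s : ℝ) : fR A B C p q dp dq c J s =
    fZ dp dq J s + Vt A B C p q c s / (A (c s 0) * p + B (c s 0) * q) * (J s 1 * J s 0) -
    Vt A B C p q c s * deriv c s 0 / (2 * (A (c s 0) * p + B (c s 0) * q) ^ 2) * J s 1 ^ 2 := rfl

theorem fF_eq_swap (s : ℝ) : hF C B A Qc Qb Qa q p dq dp (fun s => c s 0)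
    (fun s => deriv c s 0) (fun s => J s 0) (fun s => deriv J s 0) (fun s => J s 2)
    (fun s => J s 1) s = fF A B C Qa Qb Qc p q dp dq c J s := by
  unfold fF hF hZ bf qf
  ring

theorem colK_zero (x v : E3) : colK Qa Qb Qc tL tR x v 0 = 0 := by
  unfold colK bf qf
  simp

theorem colK_out (h : ¬ (tL < c s 0 ∧ c s 0 < tR)) :
    colK Qa Qb Qc tL tR (c s) (deriv c s) (J s) = 0 := by
  unfold colK
  rw [if_neg h]

theorem H_in (H : QW Qa Qb Qc A B C) (m : MomAt Qa Qb Qc A B C p q dp dq c J s)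
    (hE : deriv E s = 2 * fF A B C Qa Qb Qc p q dp dq c J s)
    (hH : Hf s = deriv E s / 2 + colK Qa Qb Qc tL tR (c s) (deriv c s) (J s))
    (h : tL < c s 0 ∧ c s 0 < tR) :
    (Vt A B C p q c s < 0 → Hf s = fR A B C p q dp dq c J s) ∧
    (0 < Vt A B C p q c s → Hf s = fL A B C p q dp dq c J s) ∧
    (Vt A B C p q c s = 0 → Hf s = fZ dp dq J s) := by
  have e : qf (deriv Qa (c s 0)) (deriv Qb (c s 0)) (deriv Qc (c s 0)) (deriv c s 1)
      (deriv c s 2) = -Vt A B C p q c s := by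
    rw [m.v1, m.v2]; exact H.qf_vel _ _ _
  have hF' : fF A B C Qa Qb Qc p q dp dq c J s = fZ dp dq J s -
      J s 0 * bf (deriv Qa (c s 0)) (deriv Qb (c s 0)) (deriv Qc (c s 0)) (deriv c s 1)
        (deriv c s 2) (J s 1) (J s 2) +
      deriv c s 0 / 2 * qf (deriv Qa (c s 0)) (deriv Qb (c s 0)) (deriv Qc (c s 0))
        (J s 1) (J s 2) := by
    rw [m.v1, m.v2]; rfl
  rw [hH, hE, hF']
  unfold colK
  rw [if_pos h, e, fR_eq, fL_eq_swap, ← m.v1, ← m.v2]
  refine ⟨fun hv => ?_, fun hv => ?_, fun hv => ?_⟩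
  · rw [if_pos (by linarith)]
    ring
  · rw [if_neg (by linarith), if_pos (by linarith)]
    ring
  · rw [if_neg (by linarith), if_neg (by linarith)]
    ring

theorem P_imp (m : MomAt Qa Qb Qc A B C p q dp dq c J s₀) (hP : J s₀ = 0 ∧ deriv J s₀ ≠ 0) :
    J s₀ 0 = 0 ∧ J s₀ 1 = 0 ∧ J s₀ 2 = 0 ∧ (deriv J s₀ 0 ≠ 0 ∨ dp ≠ 0 ∨ dq ≠ 0) := by
  obtain ⟨h0, h1⟩ := hP
  have z0 : J s₀ 0 = 0 := by rw [h0]; rfl
  refine ⟨z0, by rw [h0]; rfl, by rw [h0]; rfl, ?_⟩
  by_contra hc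
  push Not at hc
  obtain ⟨hb, hp, hq⟩ := hc
  apply h1
  ext i
  fin_cases i
  · exact hb
  · have := m.w1
    rw [z0, hp, hq] at this
    simpa using this
  · have := m.w2
    rw [z0, hp, hq] at this
    simpa using this

theorem good_fR (H : QW Qa Qb Qc A B C) (m : MomAt Qa Qb Qc A B C p q dp dq c J s₀)
    (hu : A (c s₀ 0) * p + B (c s₀ 0) * q ≠ 0)
    (hc : 0 ≤ cR (A (c s₀ 0)) (B (c s₀ 0)) (C (c s₀ 0)) (deriv A (c s₀ 0)) (deriv B (c s₀ 0))
      (deriv C (c s₀ 0)) (deriv (deriv A) (c s₀ 0)) (deriv (deriv B) (c s₀ 0))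
      (deriv (deriv C) (c s₀ 0)) p q) :
    Good (J s₀ = 0 ∧ deriv J s₀ ≠ 0) s₀ (fR A B C p q dp dq c J) := by
  obtain ⟨d, hd, h1, h2⟩ := hR_good m.var (cd_diff H.sA _) (cd_diff H.sB _)
    (cd_diff (cd_deriv H.sA) _) (cd_diff (cd_deriv H.sB) _) (cd_diff (cd_deriv H.sC) _)
    hu (H.A_pos _) (H.D_pos _) hc
  refine ⟨d, hd, h1, fun hP => ?_⟩
  obtain ⟨z0, z1, z2, hne⟩ := P_imp m hP
  exact h2 z0 z1 hne

theorem QW.C_pos (H : QW Qa Qb Qc A B C) (r : ℝ) : 0 < C r := by
  have h1 := H.A_pos r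
  have h2 := H.D_pos r
  have h3 : 0 < A r * C r := by nlinarith [sq_nonneg (B r)]
  exact (mul_pos_iff_of_pos_left h1).1 h3

theorem good_fL (H : QW Qa Qb Qc A B C) (m : MomAt Qa Qb Qc A B C p q dp dq c J s₀)
    (hu : B (c s₀ 0) * p + C (c s₀ 0) * q ≠ 0)
    (hc : 0 ≤ cR (C (c s₀ 0)) (B (c s₀ 0)) (A (c s₀ 0)) (deriv C (c s₀ 0)) (deriv B (c s₀ 0))
      (deriv A (c s₀ 0)) (deriv (deriv C) (c s₀ 0)) (deriv (deriv B) (c s₀ 0))
      (deriv (deriv A) (c s₀ 0)) q p) :
    Good (J s₀ = 0 ∧ deriv J s₀ ≠ 0) s₀ (fL A B C p q dp dq c J) := by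
  have hu' : C (c s₀ 0) * q + B (c s₀ 0) * p ≠ 0 := by rwa [add_comm]
  have hD : 0 < C (c s₀ 0) * A (c s₀ 0) - B (c s₀ 0) ^ 2 := by
    have := H.D_pos (c s₀ 0); linarith
  obtain ⟨d, hd, h1, h2⟩ := hR_good m.var.swap (cd_diff H.sC _) (cd_diff H.sB _)
    (cd_diff (cd_deriv H.sC) _) (cd_diff (cd_deriv H.sB) _) (cd_diff (cd_deriv H.sA) _)
    hu' (H.C_pos _) hD hc
  refine ⟨d, hd, h1, fun hP => ?_⟩
  obtain ⟨z0, z1, z2, hne⟩ := P_imp m hP
  refine h2 z0 z2 ?_
  rcases hne with h | h | h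
  · exact Or.inl h
  · exact Or.inr (Or.inr h)
  · exact Or.inr (Or.inl h)

theorem good_fZ (H : QW Qa Qb Qc A B C) (m : MomAt Qa Qb Qc A B C p q dp dq c J s₀)
    (hc : qf (deriv (deriv A) (c s₀ 0)) (deriv (deriv B) (c s₀ 0))
      (deriv (deriv C) (c s₀ 0)) p q ≤ 0) :
    Good (J s₀ = 0 ∧ deriv J s₀ ≠ 0) s₀ (fZ dp dq J) := by
  obtain ⟨d, hd, h1, h2⟩ := hZ_good m.var (H.A_pos _) (H.D_pos _) hc
  refine ⟨d, hd, h1, fun hP => ?_⟩
  obtain ⟨z0, z1, z2, hne⟩ := P_imp m hP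
  exact h2 z0 z1 hne

theorem good_fF_left (H : QW Qa Qb Qc A B C) (m : MomAt Qa Qb Qc A B C p q dp dq c J s₀) {κ : ℝ}
    (e : FlatEnd A B C Qa Qb Qc κ (c s₀ 0)) :
    Good (J s₀ = 0 ∧ deriv J s₀ ≠ 0) s₀ (fF A B C Qa Qb Qc p q dp dq c J) := by
  have h1 := hasDerivAt_hF m.var (cd_diff H.sA _) (cd_diff H.sB _) (cd_diff H.sC _)
    (cd_diff (cd_deriv H.sa) _) (cd_diff (cd_deriv H.sb) _) (cd_diff (cd_deriv H.sc) _) e
  refine ⟨_, ?_, h1, fun hP => ?_⟩
  · have := qf_nonneg (H.A_pos (c s₀ 0)) (H.D_pos (c s₀ 0)) dp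
      (dq - 1 / 2 * κ * (deriv c s₀ 0 * J s₀ 2 - J s₀ 0 *
        (B (c s₀ 0) * p + C (c s₀ 0) * q)))
    have h2 := sq_nonneg (deriv J s₀ 0 + 1 / 2 * κ * (B (c s₀ 0) * p + C (c s₀ 0) * q) * J s₀ 2)
    exact add_nonneg h2 this
  · obtain ⟨z0, z1, z2, hne⟩ := P_imp m hP
    simp only [z0, z2, mul_zero, zero_mul, sub_zero, add_zero]
    by_cases hb : deriv J s₀ 0 = 0
    · have hdp : dp ≠ 0 ∨ dq ≠ 0 := by
        rcases hne with h | h
        · exact absurd hb h
        · exact h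
      have := qf_pos (H.A_pos (c s₀ 0)) (H.D_pos (c s₀ 0)) hdp
      have h3 := sq_nonneg (deriv J s₀ 0)
      linarith
    · have := qf_nonneg (H.A_pos (c s₀ 0)) (H.D_pos (c s₀ 0)) dp dq
      have h3 : 0 < deriv J s₀ 0 ^ 2 := by positivity
      linarith

/-- Exchange of `x` and `y` in the matrix data. -/
theorem QW.swap (H : QW Qa Qb Qc A B C) : QW Qc Qb Qa C B A where
  sa := H.sc
  sb := H.sb
  sc := H.sa
  sA := H.sC
  sB := H.sB
  sC := H.sA
  h11 := fun r => by have := H.h22 r; linarith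
  h12 := fun r => by have := H.h21 r; linarith
  h21 := fun r => by have := H.h12 r; linarith
  h22 := fun r => by have := H.h11 r; linarith
  A_pos := H.C_pos
  D_pos := fun r => by have := H.D_pos r; linarith

theorem good_fF_right (H : QW Qa Qb Qc A B C) (m : MomAt Qa Qb Qc A B C p q dp dq c J s₀) {κ : ℝ}
    (e : FlatEnd C B A Qc Qb Qa κ (c s₀ 0)) :
    Good (J s₀ = 0 ∧ deriv J s₀ ≠ 0) s₀ (fF A B C Qa Qb Qc p q dp dq c J) := by
  have h1 := hasDerivAt_hF m.var.swap (cd_diff H.sC _) (cd_diff H.sB _) (cd_diff H.sA _)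
    (cd_diff (cd_deriv H.sc) _) (cd_diff (cd_deriv H.sb) _) (cd_diff (cd_deriv H.sa) _) e
  have hfun : hF C B A Qc Qb Qa q p dq dp (fun s => c s 0)
    (fun s => deriv c s 0) (fun s => J s 0) (fun s => deriv J s 0) (fun s => J s 2)
    (fun s => J s 1) = fF A B C Qa Qb Qc p q dp dq c J := by
    funext s; exact fF_eq_swap s
  rw [hfun] at h1
  refine ⟨_, ?_, h1, fun hP => ?_⟩
  · have := qf_nonneg (H.swap.A_pos (c s₀ 0)) (H.swap.D_pos (c s₀ 0)) dq
      (dp - 1 / 2 * κ * (deriv c s₀ 0 * J s₀ 1 - J s₀ 0 *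
        (B (c s₀ 0) * q + A (c s₀ 0) * p)))
    have h2 := sq_nonneg (deriv J s₀ 0 + 1 / 2 * κ * (B (c s₀ 0) * q + A (c s₀ 0) * p) * J s₀ 1)
    exact add_nonneg h2 this
  · obtain ⟨z0, z1, z2, hne⟩ := P_imp m hP
    simp only [z0, z1, mul_zero, zero_mul, sub_zero, add_zero]
    by_cases hb : deriv J s₀ 0 = 0
    · have hdp : dq ≠ 0 ∨ dp ≠ 0 := by
        rcases hne with h | h | h
        · exact absurd hb h
        · exact Or.inr h
        · exact Or.inl h
      have := qf_pos (H.swap.A_pos (c s₀ 0)) (H.swap.D_pos (c s₀ 0)) hdp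
      have h3 := sq_nonneg (deriv J s₀ 0)
      linarith
    · have := qf_nonneg (H.swap.A_pos (c s₀ 0)) (H.swap.D_pos (c s₀ 0)) dq dp
      have h3 : 0 < deriv J s₀ 0 ^ 2 := by positivity
      linarith

/-- `fF` at a flat left end. -/
theorem fF_left {κ : ℝ} (e : FlatEnd A B C Qa Qb Qc κ (c s 0)) :
    fF A B C Qa Qb Qc p q dp dq c J s = fZ dp dq J s +
      κ * (B (c s 0) * p + C (c s 0) * q) * (J s 2 * J s 0) - κ * deriv c s 0 / 2 * J s 2 ^ 2 := by
  unfold fF hF fZ bf qf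
  rw [e.Qa1, e.Qb1, e.Qc1]
  ring

theorem fF_right {κ : ℝ} (e : FlatEnd C B A Qc Qb Qa κ (c s 0)) :
    fF A B C Qa Qb Qc p q dp dq c J s = fZ dp dq J s +
      κ * (A (c s 0) * p + B (c s 0) * q) * (J s 1 * J s 0) - κ * deriv c s 0 / 2 * J s 1 ^ 2 := by
  unfold fF hF fZ bf qf
  rw [e.Qa1, e.Qb1, e.Qc1]
  ring

theorem Vt_left {κ : ℝ} (e : FlatEnd A B C Qa Qb Qc κ (c s 0)) :
    Vt A B C p q c s = κ * (B (c s 0) * p + C (c s 0) * q) ^ 2 := by
  unfold Vt qf
  rw [e.A1, e.B1, e.C1]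
  ring

theorem Vt_right {κ : ℝ} (e : FlatEnd C B A Qc Qb Qa κ (c s 0)) :
    Vt A B C p q c s = κ * (A (c s 0) * p + B (c s 0) * q) ^ 2 := by
  unfold Vt qf
  rw [e.A1, e.B1, e.C1]
  ring

theorem eventually_of_deriv_neg {f : ℝ → ℝ} {d s₀ : ℝ} (h : HasDerivAt f d s₀) (hd : d < 0) :
    (∀ᶠ z in 𝓝[>] s₀, f z < f s₀) ∧ (∀ᶠ z in 𝓝[<] s₀, f s₀ < f z) := by
  have := eventually_of_deriv_pos h.neg (neg_pos.2 hd)
  constructor
  · filter_upwards [this.1] with z hz
    simp only [Pi.neg_apply] at hz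
    linarith
  · filter_upwards [this.2] with z hz
    simp only [Pi.neg_apply] at hz
    linarith

theorem cR_of_zero {A B C A' B' C' A'' B'' C'' p q : ℝ} (h : qf A' B' C' p q = 0)
    (h2 : qf A'' B'' C'' p q ≤ 0) : 0 ≤ cR A B C A' B' C' A'' B'' C'' p q := by
  unfold cR
  rw [h]
  simp
  linarith

theorem cR_flat {κ : ℝ} {r : ℝ} (e : FlatEnd A B C Qa Qb Qc κ r) (hv : B r * p + C r * q ≠ 0) :
    0 ≤ cR (C r) (B r) (A r) (deriv C r) (deriv B r)
      (deriv A r) (deriv (deriv C) r) (deriv (deriv B) r)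
      (deriv (deriv A) r) q p := by
  have : cR (C r) (B r) (A r) (deriv C r) (deriv B r)
      (deriv A r) (deriv (deriv C) r) (deriv (deriv B) r)
      (deriv (deriv A) r) q p = 0 := by
    have hv' : C r * q + B r * p ≠ 0 := by rwa [add_comm]
    unfold cR qf
    rw [e.A1, e.B1, e.C1, e.A2, e.B2, e.C2]
    field_simp
    ring
  rw [this]

theorem collar_local (H : QW Qa Qb Qc A B C) (D : ColCond Qa Qb Qc A B C tL tR)
    (h : ∀ᶠ s in 𝓝 s₀, EqAt (gC Qa Qb Qc) c J s)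
    (hE : ∀ᶠ s in 𝓝 s₀, E s = J s 0 ^ 2 +
      qf (Qa (c s 0)) (Qb (c s 0)) (Qc (c s 0)) (J s 1) (J s 2))
    (hH : ∀ᶠ s in 𝓝 s₀, Hf s = deriv E s / 2 +
      colK Qa Qb Qc tL tR (c s) (deriv c s) (J s)) :
    LocMono Hf s₀ ∧ (J s₀ = 0 ∧ deriv J s₀ ≠ 0 → ∀ᶠ z in 𝓝[>] s₀, Hf s₀ < Hf z) := by
  obtain ⟨p, q, dp, dq, hm⟩ := H.exists_mom h
  have m0 := hm.self_of_nhds
  have ht0 : ContinuousAt (fun s => c s 0) s₀ := m0.var.ht.continuousAt
  have hVt : ContinuousAt (Vt A B C p q c) s₀ := by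
    have hA := (cd_deriv H.sA).continuous.continuousAt (x := c s₀ 0)
    have hB := (cd_deriv H.sB).continuous.continuousAt (x := c s₀ 0)
    have hC := (cd_deriv H.sC).continuous.continuousAt (x := c s₀ 0)
    have hA' := ContinuousAt.comp (f := fun s => c s 0) hA ht0
    have hB' := ContinuousAt.comp (f := fun s => c s 0) hB ht0
    have hC' := ContinuousAt.comp (f := fun s => c s 0) hC ht0
    exact ((hA'.mul continuousAt_const).add ((((continuousAt_const.mul hB').mul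
      continuousAt_const).mul continuousAt_const))).add (hC'.mul continuousAt_const)
  have hdE : ∀ᶠ s in 𝓝 s₀, deriv E s = 2 * fF A B C Qa Qb Qc p q dp dq c J s := by
    filter_upwards [hE.eventually_nhds, hm] with s hs ms
    have h1 := hasDerivAt_eJ ms.var (cd_diff H.sA _) (cd_diff H.sB _) (cd_diff H.sC _)
      (cd_diff H.sa _) (cd_diff H.sb _) (cd_diff H.sc _) H.h11 H.h12 H.h21 H.h22
    have h2 : E =ᶠ[𝓝 s] eJ Qa Qb Qc (fun s => c s 0) (fun s => J s 0) (fun s => J s 1)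
      (fun s => J s 2) := hs
    rw [h2.deriv_eq]
    exact h1.deriv
  have hout : ∀ᶠ s in 𝓝 s₀, ¬ (tL < c s 0 ∧ c s 0 < tR) →
      Hf s = fF A B C Qa Qb Qc p q dp dq c J s := by
    filter_upwards [hdE, hH] with s h1 h2 h3
    rw [h2, h1, colK_out h3]
    ring
  have hin : ∀ᶠ s in 𝓝 s₀, (tL < c s 0 ∧ c s 0 < tR) →
      (Vt A B C p q c s < 0 → Hf s = fR A B C p q dp dq c J s) ∧
      (0 < Vt A B C p q c s → Hf s = fL A B C p q dp dq c J s) ∧
      (Vt A B C p q c s = 0 → Hf s = fZ dp dq J s) := by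
    filter_upwards [hdE, hH, hm] with s h1 h2 ms h3
    exact H_in H ms h1 h2 h3
  have hpq0 : p = 0 → q = 0 → ∀ s, Vt A B C p q c s = 0 := by
    intro hp hq s
    unfold Vt qf
    rw [hp, hq]; ring
  rcases lt_trichotomy (c s₀ 0) tL with hlt | heq | hgt
  · -- flat left
    obtain ⟨κ, hκ, e⟩ := D.flatL _ hlt.le
    apply locMono_of_eventually (F := {fF A B C Qa Qb Qc p q dp dq c J}) (finite_singleton _)
    · intro f hf
      rw [mem_singleton_iff] at hf
      subst hf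
      exact ⟨good_fF_left H m0 e, (hout.self_of_nhds (fun hh => absurd hh.1 (not_lt.2 hlt.le))).symm⟩
    · filter_upwards [hout, ht0.eventually (gt_mem_nhds hlt)] with s h1 h2
      exact ⟨_, rfl, h1 (fun hh => absurd hh.1 (not_lt.2 h2.le))⟩
  · -- left interface
    obtain ⟨κ, hκ, e⟩ := D.flatL _ heq.le
    have hnear : ∀ᶠ s in 𝓝 s₀, c s 0 < tR :=
      ht0.eventually (gt_mem_nhds (by show c s₀ 0 < tR; rw [heq]; exact D.tL_lt))
    have hv₀ : Hf s₀ = fF A B C Qa Qb Qc p q dp dq c J s₀ :=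
      hout.self_of_nhds (fun hh => absurd hh.1 (by rw [heq]; exact lt_irrefl _))
    have hVs := Vt_left (p := p) (q := q) e
    have hFs := fF_left (p := p) (q := q) (dp := dp) (dq := dq) (J := J) e
    have hout' : ∀ᶠ z in 𝓝 s₀, ¬ tL < c z 0 → Hf z = fF A B C Qa Qb Qc p q dp dq c J z := by
      filter_upwards [hout] with z h1 h2
      exact h1 (fun hh => h2 hh.1)
    by_cases hvy : B (c s₀ 0) * p + C (c s₀ 0) * q = 0
    · -- `y' = 0`
      rw [hvy] at hVs hFs
      have hVle : ∀ᶠ z in 𝓝 s₀, tL < c z 0 → Vt A B C p q c z ≤ 0 := by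
        have h1 := D.endL p q (by rw [← heq]; exact hvy)
        rw [eventually_nhdsWithin_iff, ← heq] at h1
        have h2 := ht0.eventually h1
        filter_upwards [h2] with z hz hz'
        exact hz (by rw [heq]; exact hz')
      have hV2 : qf (deriv (deriv A) (c s₀ 0)) (deriv (deriv B) (c s₀ 0))
          (deriv (deriv C) (c s₀ 0)) p q = 0 := by
        have : qf (deriv (deriv A) (c s₀ 0)) (deriv (deriv B) (c s₀ 0))
          (deriv (deriv C) (c s₀ 0)) p q = 3 / 2 * κ ^ 2 * C (c s₀ 0) *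
            (B (c s₀ 0) * p + C (c s₀ 0) * q) ^ 2 := by
          unfold qf; rw [e.A2, e.B2, e.C2]; ring
        rw [this, hvy]; ring
      have hcase : ∀ v : ℝ, v = fZ dp dq J s₀ →
          v = fF A B C Qa Qb Qc p q dp dq c J s₀ ∨
          (fF A B C Qa Qb Qc p q dp dq c J s₀ ≤ v ∧ ∀ᶠ z in 𝓝[<] s₀, ¬ tL < c z 0) ∨
          (v ≤ fF A B C Qa Qb Qc p q dp dq c J s₀ ∧ ∀ᶠ z in 𝓝[>] s₀, ¬ tL < c z 0) := by
        intro v hv
        rw [hv, hFs]
        have h5 : 0 ≤ κ * J s₀ 2 ^ 2 := by positivity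
        rcases lt_trichotomy (deriv c s₀ 0) 0 with hw | hw | hw
        · right; right
          refine ⟨by nlinarith, ?_⟩
          filter_upwards [(eventually_of_deriv_neg m0.var.ht hw).1] with z hz
          rw [heq] at hz
          exact not_lt.2 hz.le
        · left; rw [hw]; ring
        · right; left
          refine ⟨by nlinarith, ?_⟩
          filter_upwards [(eventually_of_deriv_pos m0.var.ht hw).2] with z hz
          rw [heq] at hz
          exact not_lt.2 hz.le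
      by_cases hpq : p = 0 ∧ q = 0
      · apply locMono_interface (F := {fZ dp dq J}) (v := fZ dp dq J s₀)
          (out := fun z => ¬ tL < c z 0) (finite_singleton _) _ (good_fF_left H m0 e) hv₀ hout' _
          (hcase _ rfl)
        · intro f hf
          rw [mem_singleton_iff] at hf
          subst hf
          exact ⟨good_fZ H m0 hV2.le, rfl⟩
        · filter_upwards [hin, hnear] with z h1 h2 h3
          exact ⟨_, rfl, (h1 ⟨not_not.1 h3, h2⟩).2.2 (hpq0 hpq.1 hpq.2 z)⟩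
      · have hu : A (c s₀ 0) * p + B (c s₀ 0) * q ≠ 0 := by
          intro hu
          apply hpq
          have hD := H.D_pos (c s₀ 0)
          have e1 : (A (c s₀ 0) * C (c s₀ 0) - B (c s₀ 0) ^ 2) * p = 0 := by
            linear_combination C (c s₀ 0) * hu - B (c s₀ 0) * hvy
          have e2 : (A (c s₀ 0) * C (c s₀ 0) - B (c s₀ 0) ^ 2) * q = 0 := by
            linear_combination A (c s₀ 0) * hvy - B (c s₀ 0) * hu
          exact ⟨(mul_eq_zero.1 e1).resolve_left hD.ne', (mul_eq_zero.1 e2).resolve_left hD.ne'⟩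
        have hV0 : Vt A B C p q c s₀ = 0 := by rw [hVs]; ring
        have hR0 : fR A B C p q dp dq c J s₀ = fZ dp dq J s₀ := by
          rw [fR_eq, hV0]; ring
        apply locMono_interface (F := {fR A B C p q dp dq c J, fZ dp dq J}) (v := fZ dp dq J s₀)
          (out := fun z => ¬ tL < c z 0) (toFinite _) _ (good_fF_left H m0 e) hv₀ hout' _
          (hcase _ rfl)
        · intro f hf
          rcases hf with hf | hf
          · subst hf
            exact ⟨good_fR H m0 hu (cR_of_zero hV0 hV2.le), hR0⟩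
          · rw [mem_singleton_iff] at hf
            subst hf
            exact ⟨good_fZ H m0 hV2.le, rfl⟩
        · filter_upwards [hin, hnear, hVle] with z h1 h2 h4 h3
          have h5 := h4 (not_not.1 h3)
          rcases h5.lt_or_eq with h6 | h6
          · exact ⟨_, Or.inl rfl, (h1 ⟨not_not.1 h3, h2⟩).1 h6⟩
          · exact ⟨_, Or.inr rfl, (h1 ⟨not_not.1 h3, h2⟩).2.2 h6⟩
    · -- `y' ≠ 0`
      have hVpos : 0 < Vt A B C p q c s₀ := by rw [hVs]; positivity
      have hVev : ∀ᶠ z in 𝓝 s₀, 0 < Vt A B C p q c z := hVt.eventually (lt_mem_nhds hVpos)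
      apply locMono_interface (F := {fL A B C p q dp dq c J}) (v := fL A B C p q dp dq c J s₀)
          (out := fun z => ¬ tL < c z 0) (finite_singleton _) _ (good_fF_left H m0 e) hv₀ hout'
      · filter_upwards [hin, hnear, hVev] with z h1 h2 h4 h3
        exact ⟨_, rfl, (h1 ⟨not_not.1 h3, h2⟩).2.1 h4⟩
      · left
        rw [fL_eq_swap, hFs, hVs]
        field_simp
      · intro f hf
        rw [mem_singleton_iff] at hf
        subst hf
        exact ⟨good_fL H m0 hvy (cR_flat e hvy), rfl⟩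
  rcases lt_trichotomy (c s₀ 0) tR with hlt | heq | hgt'
  · -- interior
    have hnear : ∀ᶠ s in 𝓝 s₀, tL < c s 0 ∧ c s 0 < tR :=
      (ht0.eventually (lt_mem_nhds hgt)).and (ht0.eventually (gt_mem_nhds hlt))
    have hin' : ∀ᶠ s in 𝓝 s₀,
        (Vt A B C p q c s < 0 → Hf s = fR A B C p q dp dq c J s) ∧
        (0 < Vt A B C p q c s → Hf s = fL A B C p q dp dq c J s) ∧
        (Vt A B C p q c s = 0 → Hf s = fZ dp dq J s) := by
      filter_upwards [hin, hnear] with s h1 h2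
      exact h1 h2
    have hin0 := hin'.self_of_nhds
    rcases lt_trichotomy (Vt A B C p q c s₀) 0 with hV | hV | hV
    · apply locMono_of_eventually (F := {fR A B C p q dp dq c J}) (finite_singleton _)
      · intro f hf
        rw [mem_singleton_iff] at hf
        subst hf
        exact ⟨good_fR H m0 (D.condR _ hgt hlt p q hV).1
          (D.condR _ hgt hlt p q hV).2, (hin0.1 hV).symm⟩
      · filter_upwards [hin', hVt.eventually (gt_mem_nhds hV)] with s h1 h2
        exact ⟨_, rfl, h1.1 h2⟩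
    · have hV2 := D.condZ _ hgt hlt p q hV
      by_cases hpq : p = 0 ∧ q = 0
      · apply locMono_of_eventually (F := {fZ dp dq J}) (finite_singleton _)
        · intro f hf
          rw [mem_singleton_iff] at hf
          subst hf
          exact ⟨good_fZ H m0 hV2, (hin0.2.2 hV).symm⟩
        · filter_upwards [hin'] with s h1
          exact ⟨_, rfl, h1.2.2 (hpq0 hpq.1 hpq.2 s)⟩
      · have hpq' : p ≠ 0 ∨ q ≠ 0 := by
          by_contra hc
          push Not at hc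
          exact hpq hc
        have hR0 : fR A B C p q dp dq c J s₀ = fZ dp dq J s₀ := by
          rw [fR_eq, hV]; ring
        have hL0 : fL A B C p q dp dq c J s₀ = fZ dp dq J s₀ := by
          rw [fL_eq_swap, hV]; ring
        have hZ0 := hin0.2.2 hV
        have hVs : qf (deriv C (c s₀ 0)) (deriv B (c s₀ 0)) (deriv A (c s₀ 0)) q p = 0 := by
          have : qf (deriv C (c s₀ 0)) (deriv B (c s₀ 0)) (deriv A (c s₀ 0)) q p =
            qf (deriv A (c s₀ 0)) (deriv B (c s₀ 0)) (deriv C (c s₀ 0)) p q := by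
            unfold qf; ring
          rw [this]; exact hV
        have hVs2 : qf (deriv (deriv C) (c s₀ 0)) (deriv (deriv B) (c s₀ 0))
            (deriv (deriv A) (c s₀ 0)) q p ≤ 0 := by
          have : qf (deriv (deriv C) (c s₀ 0)) (deriv (deriv B) (c s₀ 0))
            (deriv (deriv A) (c s₀ 0)) q p =
            qf (deriv (deriv A) (c s₀ 0)) (deriv (deriv B) (c s₀ 0))
              (deriv (deriv C) (c s₀ 0)) p q := by
            unfold qf; ring
          rw [this]; exact hV2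
        have hnX := D.neX _ hgt hlt p q hpq' hV.le
        have hnY := D.neY _ hgt hlt p q hpq' hV.ge
        have hfin : {f : ℝ → ℝ | (f = fR A B C p q dp dq c J ∧
            A (c s₀ 0) * p + B (c s₀ 0) * q ≠ 0) ∨ (f = fL A B C p q dp dq c J ∧
            B (c s₀ 0) * p + C (c s₀ 0) * q ≠ 0) ∨ f = fZ dp dq J}.Finite := by
          apply Set.Finite.subset (toFinite ({fR A B C p q dp dq c J, fL A B C p q dp dq c J,
            fZ dp dq J} : Set (ℝ → ℝ)))
          intro f hf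
          rcases hf with hf | hf | hf
          · exact Or.inl hf.1
          · exact Or.inr (Or.inl hf.1)
          · exact Or.inr (Or.inr hf)
        apply locMono_of_eventually hfin
        · intro f hf
          rcases hf with ⟨hf, hu⟩ | ⟨hf, hu⟩ | hf
          · subst hf
            exact ⟨good_fR H m0 hu (cR_of_zero hV hV2), by rw [hR0, hZ0]⟩
          · subst hf
            exact ⟨good_fL H m0 hu (cR_of_zero hVs hVs2), by rw [hL0, hZ0]⟩
          · subst hf
            exact ⟨good_fZ H m0 hV2, hZ0.symm⟩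
        · filter_upwards [hin'] with s h1
          rcases lt_trichotomy (Vt A B C p q c s) 0 with h2 | h2 | h2
          · refine ⟨_, Or.inl ⟨rfl, ?_⟩, h1.1 h2⟩
            rcases hnX with h3 | h3
            · exact h3
            · exact absurd (h3 (c s 0)) (not_le.2 h2)
          · exact ⟨_, Or.inr (Or.inr rfl), h1.2.2 h2⟩
          · refine ⟨_, Or.inr (Or.inl ⟨rfl, ?_⟩), h1.2.1 h2⟩
            rcases hnY with h3 | h3
            · exact h3
            · exact absurd (h3 (c s 0)) (not_le.2 h2)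
    · apply locMono_of_eventually (F := {fL A B C p q dp dq c J}) (finite_singleton _)
      · intro f hf
        rw [mem_singleton_iff] at hf
        subst hf
        exact ⟨good_fL H m0 (D.condL _ hgt hlt p q hV).1
          (D.condL _ hgt hlt p q hV).2, (hin0.2.1 hV).symm⟩
      · filter_upwards [hin', hVt.eventually (lt_mem_nhds hV)] with s h1 h2
        exact ⟨_, rfl, h1.2.1 h2⟩
  · -- right interface
    obtain ⟨κ, hκ, e⟩ := D.flatR _ heq.ge
    have hnear : ∀ᶠ s in 𝓝 s₀, tL < c s 0 := ht0.eventually (lt_mem_nhds hgt)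
    have hv₀ : Hf s₀ = fF A B C Qa Qb Qc p q dp dq c J s₀ :=
      hout.self_of_nhds (fun hh => absurd hh.2 (by rw [heq]; exact lt_irrefl _))
    have hVs := Vt_right (p := p) (q := q) e
    have hFs := fF_right (p := p) (q := q) (dp := dp) (dq := dq) (J := J) e
    have hout' : ∀ᶠ z in 𝓝 s₀, ¬ c z 0 < tR → Hf z = fF A B C Qa Qb Qc p q dp dq c J z := by
      filter_upwards [hout] with z h1 h2
      exact h1 (fun hh => h2 hh.2)
    by_cases hvx : A (c s₀ 0) * p + B (c s₀ 0) * q = 0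
    · -- `x' = 0`
      rw [hvx] at hVs hFs
      have hVge : ∀ᶠ z in 𝓝 s₀, c z 0 < tR → 0 ≤ Vt A B C p q c z := by
        have h1 := D.endR p q (by rw [← heq]; exact hvx)
        rw [eventually_nhdsWithin_iff, ← heq] at h1
        have h2 := ht0.eventually h1
        filter_upwards [h2] with z hz hz'
        exact hz (by rw [heq]; exact hz')
      have hV2 : qf (deriv (deriv A) (c s₀ 0)) (deriv (deriv B) (c s₀ 0))
          (deriv (deriv C) (c s₀ 0)) p q = 0 := by
        have : qf (deriv (deriv A) (c s₀ 0)) (deriv (deriv B) (c s₀ 0))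
          (deriv (deriv C) (c s₀ 0)) p q = 3 / 2 * κ ^ 2 * A (c s₀ 0) *
            (A (c s₀ 0) * p + B (c s₀ 0) * q) ^ 2 := by
          unfold qf; rw [e.A2, e.B2, e.C2]; ring
        rw [this, hvx]; ring
      have hcase : ∀ v : ℝ, v = fZ dp dq J s₀ →
          v = fF A B C Qa Qb Qc p q dp dq c J s₀ ∨
          (fF A B C Qa Qb Qc p q dp dq c J s₀ ≤ v ∧ ∀ᶠ z in 𝓝[<] s₀, ¬ c z 0 < tR) ∨
          (v ≤ fF A B C Qa Qb Qc p q dp dq c J s₀ ∧ ∀ᶠ z in 𝓝[>] s₀, ¬ c z 0 < tR) := by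
        intro v hv
        rw [hv, hFs]
        have h5 : 0 ≤ -κ * J s₀ 1 ^ 2 := mul_nonneg (by linarith) (sq_nonneg _)
        rcases lt_trichotomy (deriv c s₀ 0) 0 with hw | hw | hw
        · right; left
          refine ⟨by nlinarith, ?_⟩
          filter_upwards [(eventually_of_deriv_neg m0.var.ht hw).2] with z hz
          rw [heq] at hz
          exact not_lt.2 hz.le
        · left; rw [hw]; ring
        · right; right
          refine ⟨by nlinarith, ?_⟩
          filter_upwards [(eventually_of_deriv_pos m0.var.ht hw).1] with z hz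
          rw [heq] at hz
          exact not_lt.2 hz.le
      by_cases hpq : p = 0 ∧ q = 0
      · apply locMono_interface (F := {fZ dp dq J}) (v := fZ dp dq J s₀)
          (out := fun z => ¬ c z 0 < tR) (finite_singleton _) _ (good_fF_right H m0 e) hv₀ hout' _
          (hcase _ rfl)
        · intro f hf
          rw [mem_singleton_iff] at hf
          subst hf
          exact ⟨good_fZ H m0 hV2.le, rfl⟩
        · filter_upwards [hin, hnear] with z h1 h2 h3
          exact ⟨_, rfl, (h1 ⟨h2, not_not.1 h3⟩).2.2 (hpq0 hpq.1 hpq.2 z)⟩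
      · have hu : B (c s₀ 0) * p + C (c s₀ 0) * q ≠ 0 := by
          intro hu
          apply hpq
          have hD := H.D_pos (c s₀ 0)
          have e1 : (A (c s₀ 0) * C (c s₀ 0) - B (c s₀ 0) ^ 2) * p = 0 := by
            linear_combination C (c s₀ 0) * hvx - B (c s₀ 0) * hu
          have e2 : (A (c s₀ 0) * C (c s₀ 0) - B (c s₀ 0) ^ 2) * q = 0 := by
            linear_combination A (c s₀ 0) * hu - B (c s₀ 0) * hvx
          exact ⟨(mul_eq_zero.1 e1).resolve_left hD.ne', (mul_eq_zero.1 e2).resolve_left hD.ne'⟩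
        have hV0 : Vt A B C p q c s₀ = 0 := by rw [hVs]; ring
        have hL0 : fL A B C p q dp dq c J s₀ = fZ dp dq J s₀ := by
          rw [fL_eq_swap, hV0]; ring
        have hVsw : qf (deriv C (c s₀ 0)) (deriv B (c s₀ 0)) (deriv A (c s₀ 0)) q p = 0 := by
          have : qf (deriv C (c s₀ 0)) (deriv B (c s₀ 0)) (deriv A (c s₀ 0)) q p =
            qf (deriv A (c s₀ 0)) (deriv B (c s₀ 0)) (deriv C (c s₀ 0)) p q := by
            unfold qf; ring
          rw [this]; exact hV0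
        have hVs2 : qf (deriv (deriv C) (c s₀ 0)) (deriv (deriv B) (c s₀ 0))
            (deriv (deriv A) (c s₀ 0)) q p ≤ 0 := by
          have : qf (deriv (deriv C) (c s₀ 0)) (deriv (deriv B) (c s₀ 0))
            (deriv (deriv A) (c s₀ 0)) q p =
            qf (deriv (deriv A) (c s₀ 0)) (deriv (deriv B) (c s₀ 0))
              (deriv (deriv C) (c s₀ 0)) p q := by
            unfold qf; ring
          rw [this]; exact hV2.le
        apply locMono_interface (F := {fL A B C p q dp dq c J, fZ dp dq J}) (v := fZ dp dq J s₀)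
          (out := fun z => ¬ c z 0 < tR) (toFinite _) _ (good_fF_right H m0 e) hv₀ hout' _
          (hcase _ rfl)
        · intro f hf
          rcases hf with hf | hf
          · subst hf
            exact ⟨good_fL H m0 hu (cR_of_zero hVsw hVs2), hL0⟩
          · rw [mem_singleton_iff] at hf
            subst hf
            exact ⟨good_fZ H m0 hV2.le, rfl⟩
        · filter_upwards [hin, hnear, hVge] with z h1 h2 h4 h3
          have h5 := h4 (not_not.1 h3)
          rcases h5.lt_or_eq with h6 | h6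
          · exact ⟨_, Or.inl rfl, (h1 ⟨h2, not_not.1 h3⟩).2.1 h6⟩
          · exact ⟨_, Or.inr rfl, (h1 ⟨h2, not_not.1 h3⟩).2.2 h6.symm⟩
    · -- `x' ≠ 0`
      have hVneg : Vt A B C p q c s₀ < 0 := by
        rw [hVs]
        have : 0 < (A (c s₀ 0) * p + B (c s₀ 0) * q) ^ 2 := by positivity
        nlinarith
      have hVev : ∀ᶠ z in 𝓝 s₀, Vt A B C p q c z < 0 := hVt.eventually (gt_mem_nhds hVneg)
      apply locMono_interface (F := {fR A B C p q dp dq c J}) (v := fR A B C p q dp dq c J s₀)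
          (out := fun z => ¬ c z 0 < tR) (finite_singleton _) _ (good_fF_right H m0 e) hv₀ hout'
      · filter_upwards [hin, hnear, hVev] with z h1 h2 h4 h3
        exact ⟨_, rfl, (h1 ⟨h2, not_not.1 h3⟩).1 h4⟩
      · left
        rw [fR_eq, hFs, hVs]
        field_simp
      · intro f hf
        rw [mem_singleton_iff] at hf
        subst hf
        exact ⟨good_fR H m0 hvx (cR_flat (p := q) (q := p) e (by rwa [add_comm])), rfl⟩
  · -- flat right
    obtain ⟨κ, hκ, e⟩ := D.flatR _ hgt'.le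
    apply locMono_of_eventually (F := {fF A B C Qa Qb Qc p q dp dq c J}) (finite_singleton _)
    · intro f hf
      rw [mem_singleton_iff] at hf
      subst hf
      exact ⟨good_fF_right H m0 e,
        (hout.self_of_nhds (fun hh => absurd hh.2 (not_lt.2 hgt'.le))).symm⟩
    · filter_upwards [hout, ht0.eventually (lt_mem_nhds hgt')] with s h1 h2
      exact ⟨_, rfl, h1 (fun hh => absurd hh.2 (not_lt.2 h2.le))⟩

end Local

end Crest.Agent.R244.NCP
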