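import Crest.Agent.R244.NCPEnd
import Crest.Agent.R244.NCPCol
import Crest.Agent.R244.ManChart

/-!
# R244 (S0377), package NCP-C, part 1: own-chart data versus the chart at `γ s₀` on a glued manifold
-/

set_option autoImplicit false
set_option maxSynthPendingDepth 3

open Filter Topology Set Bundle
open scoped ContDiff Manifold

noncomputable section

namespace Crest.Agent.R244.NCP

open Crest.GeometryTopology.CoordMetric Crest.GeometryTopology.ChartCurvature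
  Crest.GeometryTopology.Geodesic Crest.Agent.R244.Man Crest.Agent.R244.Man.Glue

section General

variable {ι : Type} {n : ℕ} {G : Glue ι n}

local notation "𝔼" => EuclideanSpace ℝ (Fin n)

/-- The derivative of the transition to the own chart inverts the derivative of the chart. -/
theorem fderiv_trans_mfderiv (m₀ : G.M) {x : G.M} (hx : x ∈ (chartAt 𝔼 m₀).source) (v : 𝔼) :
    fderiv ℝ (chartAt 𝔼 x ∘ G.F (G.idx m₀)) (chartAt 𝔼 m₀ x)
      ((mfderiv 𝓘(ℝ, EuclideanSpace ℝ (Fin n)) 𝓘(ℝ, EuclideanSpace ℝ (Fin n))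
        (chartAt (EuclideanSpace ℝ (Fin n)) m₀) x : 𝔼 → 𝔼) v) = v := by
  rw [mfderiv_chartAt m₀ x hx v]
  set σ : 𝔼 → 𝔼 := chartAt 𝔼 m₀ ∘ G.F (G.idx x) with hσ
  set τ : 𝔼 → 𝔼 := chartAt 𝔼 x ∘ G.F (G.idx m₀) with hτ
  have hxs : G.F (G.idx x) (G.pt x) ∈ (chartAt 𝔼 m₀).source := by rw [G.F_pt]; exact hx
  have h1 : G.Trans (G.idx x) (G.idx m₀) (G.pt x) (chartAt 𝔼 m₀ x) σ := by
    have := G.trans_chartAt_F (m := m₀) (G.pt_mem x) hxs
    rwa [G.F_pt] at this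
  have h2 : G.Trans (G.idx m₀) (G.idx x) (chartAt 𝔼 m₀ x) (G.pt x) τ := trans_center m₀ x hx
  have h3 : (τ ∘ σ) =ᶠ[𝓝 (G.pt x)] id :=
    Trans.eventuallyEq G (Trans.comp G h1 h2) (G.trans_id (G.pt_mem x))
  have h4 : HasFDerivAt σ (fderiv ℝ σ (G.pt x)) (G.pt x) :=
    (h1.1.differentiableAt (by simp)).hasFDerivAt
  have h5 : HasFDerivAt τ (fderiv ℝ τ (chartAt 𝔼 m₀ x)) (σ (G.pt x)) := by
    rw [h1.2.1]
    exact (h2.1.differentiableAt (by simp)).hasFDerivAt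
  have h6 := (h5.comp (G.pt x) h4).fderiv
  rw [h3.fderiv_eq, fderiv_id] at h6
  have h7 := congrArg (fun L : 𝔼 →L[ℝ] 𝔼 => L v) h6
  simpa using h7.symm

/-- Velocity in the own chart versus velocity in the chart at `m₀`. -/
theorem deriv_own_chart (m₀ : G.M) {γ : ℝ → G.M} {s : ℝ} (hγ : ContinuousAt γ s)
    (hx : γ s ∈ (chartAt 𝔼 m₀).source) (hd : DifferentiableAt ℝ (fun u => chartAt 𝔼 m₀ (γ u)) s) :
    deriv (fun u => chartAt 𝔼 (γ s) (γ u)) s =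
      fderiv ℝ (chartAt 𝔼 (γ s) ∘ G.F (G.idx m₀)) (chartAt 𝔼 m₀ (γ s))
        (deriv (fun u => chartAt 𝔼 m₀ (γ u)) s) := by
  have h2 := trans_center m₀ (γ s) hx
  have h3 : (fun u => chartAt 𝔼 (γ s) (γ u)) =ᶠ[𝓝 s]
      (chartAt 𝔼 (γ s) ∘ G.F (G.idx m₀)) ∘ (fun u => chartAt 𝔼 m₀ (γ u)) := by
    filter_upwards [hγ.eventually ((chartAt 𝔼 m₀).open_source.mem_nhds hx)] with u hu
    simp only [Function.comp_apply]
    rw [G.F_chartAt hu]
  rw [h3.deriv_eq]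
  have h4 : HasFDerivAt (chartAt 𝔼 (γ s) ∘ G.F (G.idx m₀))
      (fderiv ℝ (chartAt 𝔼 (γ s) ∘ G.F (G.idx m₀)) (chartAt 𝔼 m₀ (γ s)))
      (chartAt 𝔼 m₀ (γ s)) := (h2.1.differentiableAt (by simp)).hasFDerivAt
  exact (h4.comp_hasDerivAt s hd.hasDerivAt).deriv

/-- Squared norm of the field, read in the own charts. -/
def Efun (D : G.MetricData) (γ : ℝ → G.M) (J : ℝ → 𝔼) (s : ℝ) : ℝ :=
  D.g (G.idx (γ s)) (G.pt (γ s)) (J s) (J s)

theorem Efun_eq (D : G.MetricData) (m₀ : G.M) {γ : ℝ → G.M} {J : ℝ → 𝔼} {s : ℝ}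
    (hx : γ s ∈ (chartAt 𝔼 m₀).source) :
    Efun D γ J s = D.g (G.idx m₀) (chartAt 𝔼 m₀ (γ s))
      ((mfderiv 𝓘(ℝ, EuclideanSpace ℝ (Fin n)) 𝓘(ℝ, EuclideanSpace ℝ (Fin n))
        (chartAt (EuclideanSpace ℝ (Fin n)) m₀) (γ s) : 𝔼 → 𝔼) (J s))
      ((mfderiv 𝓘(ℝ, EuclideanSpace ℝ (Fin n)) 𝓘(ℝ, EuclideanSpace ℝ (Fin n))
        (chartAt (EuclideanSpace ℝ (Fin n)) m₀) (γ s) : 𝔼 → 𝔼) (J s)) := by
  have h2 := fderiv_trans_mfderiv m₀ hx (J s)
  generalize ((mfderiv 𝓘(ℝ, EuclideanSpace ℝ (Fin n)) 𝓘(ℝ, EuclideanSpace ℝ (Fin n))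
        (chartAt (EuclideanSpace ℝ (Fin n)) m₀) (γ s) : 𝔼 → 𝔼) (J s)) = w at h2 ⊢
  have h1 := D.inv' (trans_center m₀ (γ s) hx) w w
  rw [h2] at h1
  exact h1.symm

theorem Efun_nonneg (D : G.MetricData) (γ : ℝ → G.M) (J : ℝ → 𝔼) (s : ℝ) : 0 ≤ Efun D γ J s := by
  rcases eq_or_ne (J s) 0 with h | h
  · simp [Efun, h]
  · exact (D.pos _ _ (G.pt_mem _) _ h).le

theorem deriv_Efun_eq_zero (D : G.MetricData) (γ : ℝ → G.M) (J : ℝ → 𝔼) {s : ℝ} (h : J s = 0) :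
    deriv (Efun D γ J) s = 0 := by
  have h0 : Efun D γ J s = 0 := by simp [Efun, h]
  have hmin : IsLocalMin (Efun D γ J) s := by
    filter_upwards with u
    rw [h0]
    exact Efun_nonneg D γ J u
  exact hmin.deriv_eq_zero

theorem g_apply_eq_sum (D : G.MetricData) (i : ι) (z u v : 𝔼) :
    D.g i z u v = ∑ a, ∑ b, D.mat i z a b * u a * v b := by
  have hsum : ∀ u : 𝔼, u = ∑ i, u i • EuclideanSpace.single i (1 : ℝ) := by
    intro u
    ext k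
    simp [Finset.sum_apply, Pi.single_apply]
  conv_lhs => rw [hsum u, hsum v]
  simp only [map_sum, map_smul, sum_apply, smul_apply, smul_eq_mul, MetricData.mat,
    Matrix.of_apply, Finset.mul_sum]
  rw [Finset.sum_comm]
  refine Finset.sum_congr rfl fun i _ => Finset.sum_congr rfl fun j _ => ?_
  ring

end General

end Crest.Agent.R244.NCP
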