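import Crest.Agent.R244.NCPCol
import Crest.Agent.R244.ColDefs

/-!
R244 (S0377), package NCP, part 6: the collar data of package COL satisfy the hypotheses of
`collar_local`.
-/

set_option autoImplicit false

open Filter Topology Set
open scoped ContDiff

namespace Crest.Agent.R244.NCP

theorem deriv_eq_Iic {f g : ℝ → ℝ} {a : ℝ} (hf : ∀ t ≤ a, DifferentiableAt ℝ f t)
    (hg : ∀ t ≤ a, DifferentiableAt ℝ g t) (h : ∀ t ≤ a, f t = g t) :
    ∀ t ≤ a, deriv f t = deriv g t := by
  intro t ht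
  have h1 : HasDerivWithinAt f (deriv f t) (Iic a) t := (hf t ht).hasDerivAt.hasDerivWithinAt
  have h2 : HasDerivWithinAt f (deriv g t) (Iic a) t :=
    (hg t ht).hasDerivAt.hasDerivWithinAt.congr (fun x hx => h x hx) (h t ht)
  exact UniqueDiffWithinAt.eq_deriv _ ((uniqueDiffOn_Iic a) t ht) h1 h2

theorem deriv_eq_Ici {f g : ℝ → ℝ} {a : ℝ} (hf : ∀ t, a ≤ t → DifferentiableAt ℝ f t)
    (hg : ∀ t, a ≤ t → DifferentiableAt ℝ g t) (h : ∀ t, a ≤ t → f t = g t) :
    ∀ t, a ≤ t → deriv f t = deriv g t := by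
  intro t ht
  have h1 : HasDerivWithinAt f (deriv f t) (Ici a) t := (hf t ht).hasDerivAt.hasDerivWithinAt
  have h2 : HasDerivWithinAt f (deriv g t) (Ici a) t :=
    (hg t ht).hasDerivAt.hasDerivWithinAt.congr (fun x hx => h x hx) (h t ht)
  exact UniqueDiffWithinAt.eq_deriv _ ((uniqueDiffOn_Ici a) t ht) h1 h2

theorem QW.flatEnd {Qa Qb Qc A B C : ℝ → ℝ} (H : QW Qa Qb Qc A B C) {κ r : ℝ}
    (a1 : deriv Qa r = 0) (b1 : deriv Qb r = 0) (c1 : deriv Qc r = -κ)
    (a2 : deriv (deriv Qa) r = 0) (b2 : deriv (deriv Qb) r = 0)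
    (c2 : deriv (deriv Qc) r = 1 / 2 * κ ^ 2 * C r) : FlatEnd A B C Qa Qb Qc κ r := by
  have A1 : deriv A r = κ * B r ^ 2 := by rw [H.dA, a1, b1, c1]; ring
  have B1 : deriv B r = κ * B r * C r := by rw [H.dB, a1, b1, c1]; ring
  have C1 : deriv C r = κ * C r ^ 2 := by rw [H.dC, a1, b1, c1]; ring
  refine ⟨A1, B1, C1, ?_, ?_, ?_, a1, b1, c1, a2, b2, c2⟩
  · rw [H.ddA, a1, b1, c1, a2, b2, c2, A1, B1]; ring
  · rw [H.ddB, a1, b1, c1, a2, b2, c2, A1, B1, C1]; ring
  · rw [H.ddC, a1, b1, c1, a2, b2, c2, B1, C1]; ring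

variable (K : CollarData)

theorem qw : QW K.P K.B K.D (colA K.P K.B K.D) (colB K.P K.B K.D) (colC K.P K.B K.D) where
  sa := K.smooth_P
  sb := K.smooth_B
  sc := K.smooth_D
  sA := K.smooth_D.div ((K.smooth_P.mul K.smooth_D).sub (K.smooth_B.pow 2))
    (fun t => (K.det_pos t).ne')
  sB := K.smooth_B.neg.div ((K.smooth_P.mul K.smooth_D).sub (K.smooth_B.pow 2))
    (fun t => (K.det_pos t).ne')
  sC := K.smooth_P.div ((K.smooth_P.mul K.smooth_D).sub (K.smooth_B.pow 2))
    (fun t => (K.det_pos t).ne')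
  h11 := fun r => by
    have := (K.det_pos r).ne'
    unfold colA colB; field_simp; ring
  h12 := fun r => by
    have := (K.det_pos r).ne'
    unfold colB colC; field_simp; ring
  h21 := fun r => by
    have := (K.det_pos r).ne'
    unfold colA colB; field_simp; ring
  h22 := fun r => by
    have := (K.det_pos r).ne'
    unfold colB colC; field_simp; ring
  A_pos := fun r => div_pos (K.D_pos r) (K.det_pos r)
  D_pos := fun r => by
    have := K.det_pos r
    have h2 : colA K.P K.B K.D r * colC K.P K.B K.D r - colB K.P K.B K.D r ^ 2 =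
        1 / (K.P r * K.D r - K.B r ^ 2) := by
      unfold colA colB colC
      field_simp
    rw [h2]
    positivity

theorem deriv2_eq_Iic {f g : ℝ → ℝ} {a : ℝ} (hf : ContDiff ℝ ∞ f) (hg : ContDiff ℝ ∞ g)
    (h : ∀ t ≤ a, f t = g t) :
    ∀ t ≤ a, deriv f t = deriv g t ∧ deriv (deriv f) t = deriv (deriv g) t := by
  have h1 := deriv_eq_Iic (fun t _ => cd_diff hf t) (fun t _ => cd_diff hg t) h
  have h2 := deriv_eq_Iic (fun t _ => cd_diff (cd_deriv hf) t)
    (fun t _ => cd_diff (cd_deriv hg) t) h1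
  exact fun t ht => ⟨h1 t ht, h2 t ht⟩

theorem deriv2_eq_Ici {f g : ℝ → ℝ} {a : ℝ} (hf : ContDiff ℝ ∞ f) (hg : ContDiff ℝ ∞ g)
    (h : ∀ t, a ≤ t → f t = g t) :
    ∀ t, a ≤ t → deriv f t = deriv g t ∧ deriv (deriv f) t = deriv (deriv g) t := by
  have h1 := deriv_eq_Ici (fun t _ => cd_diff hf t) (fun t _ => cd_diff hg t) h
  have h2 := deriv_eq_Ici (fun t _ => cd_diff (cd_deriv hf) t)
    (fun t _ => cd_diff (cd_deriv hg) t) h1
  exact fun t ht => ⟨h1 t ht, h2 t ht⟩

theorem deriv_sq1 (c : ℝ) : deriv (fun t : ℝ => (c - t) ^ 2) = fun t => -2 * (c - t) := by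
  funext t
  have := ((hasDerivAt_id t).const_sub c).pow 2
  have h2 : HasDerivAt (fun t : ℝ => (c - t) ^ 2) (-2 * (c - t)) t := by
    refine this.congr_deriv ?_
    simp
  exact h2.deriv

theorem deriv_sq2 (c r : ℝ) : deriv (fun t : ℝ => (t + c) ^ 2 + r) = fun t => 2 * (t + c) := by
  funext t
  have := (((hasDerivAt_id t).add_const c).pow 2).add_const r
  have h2 : HasDerivAt (fun t : ℝ => (t + c) ^ 2 + r) (2 * (t + c)) t := by
    refine this.congr_deriv ?_
    simp
  exact h2.deriv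

theorem deriv_sq1' (c t : ℝ) : deriv (fun t : ℝ => -2 * (c - t)) t = 2 := by
  have := ((hasDerivAt_id t).const_sub c).const_mul (-2)
  have h2 : HasDerivAt (fun t : ℝ => -2 * (c - t)) 2 t := by
    refine this.congr_deriv ?_
    norm_num
  exact h2.deriv

theorem deriv_sq2' (c t : ℝ) : deriv (fun t : ℝ => 2 * (t + c)) t = 2 := by
  have := ((hasDerivAt_id t).add_const c).const_mul 2
  have h2 : HasDerivAt (fun t : ℝ => 2 * (t + c)) 2 t := by
    refine this.congr_deriv ?_
    norm_num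
  exact h2.deriv

theorem colCond : ColCond K.P K.B K.D (colA K.P K.B K.D) (colB K.P K.B K.D) (colC K.P K.B K.D)
    K.tL K.tR where
  tL_lt := K.tL_lt_t0.trans (K.t0_lt_t1.trans K.t1_lt_tR)
  flatL := by
    intro t ht
    have ht0 : t ≤ K.t0 := ht.trans K.tL_lt_t0.le
    have hP := deriv2_eq_Iic K.smooth_P contDiff_const K.left_P t ht0
    have hB := deriv2_eq_Iic K.smooth_B contDiff_const K.left_B t ht0
    have hD := deriv2_eq_Iic K.smooth_D (g := fun t => (K.c1 - t) ^ 2)
      ((contDiff_const.sub contDiff_id).pow 2) K.left_D t ht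
    rw [deriv_sq1, deriv_sq1'] at hD
    simp only [deriv_const', deriv_const] at hP hB
    have hc : 0 < K.c1 - t := by have := K.c1_pos; linarith
    refine ⟨2 * (K.c1 - t), by positivity, (qw K).flatEnd hP.1 hB.1 ?_ hP.2 hB.2 ?_⟩
    · rw [hD.1]; ring
    · rw [hD.2]
      unfold colC
      rw [K.left_P t ht0, K.left_B t ht0, K.left_D t ht]
      have := K.Φ0_pos
      field_simp
      ring
  flatR := by
    intro t ht
    have ht1 : K.t1 ≤ t := K.t1_lt_tR.le.trans ht
    have hD := deriv2_eq_Ici K.smooth_D contDiff_const K.right_D t ht1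
    have hB := deriv2_eq_Ici K.smooth_B contDiff_const K.right_B t ht1
    have hP := deriv2_eq_Ici K.smooth_P (g := fun t => (t + K.c2) ^ 2 + K.R0 ^ 2)
      (((contDiff_id.add contDiff_const).pow 2).add contDiff_const) K.right_P t ht
    rw [deriv_sq2, deriv_sq2'] at hP
    simp only [deriv_const', deriv_const] at hD hB
    have hc : 0 < t + K.c2 := by have := K.c2_pos; linarith
    refine ⟨-(2 * (t + K.c2)), by linarith, (qw K).swap.flatEnd hD.1 hB.1 ?_ hD.2 hB.2 ?_⟩
    · rw [hP.1]; ring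
    · rw [hP.2]
      unfold colA
      rw [K.right_P t ht, K.right_B t ht1, K.right_D t ht1]
      have := K.R0_pos
      have h3 : ((t + K.c2) ^ 2 + K.R0 ^ 2) * K.R0 ^ 2 - (K.R0 ^ 2) ^ 2 =
        (t + K.c2) ^ 2 * K.R0 ^ 2 := by ring
      rw [h3]
      field_simp
  condR := fun t _ _ p q h => K.condR t p q h
  condL := fun t _ _ p q h => K.condL t p q h
  condZ := fun t _ _ p q h => K.condZ t p q h
  neX := by
    intro t _ _ p q hpq h
    rcases K.neX t p q hpq h with h1 | h1
    · exact Or.inl h1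
    · right
      intro r
      have h2 := K.monoY r
      have h3 : qf (deriv (colA K.P K.B K.D) r) (deriv (colB K.P K.B K.D) r)
          (deriv (colC K.P K.B K.D) r) p q = q ^ 2 * colV1 K.P K.B K.D r 1 1 := by
        rw [h1.1]; unfold colV1 qf; ring
      rw [h3]; positivity
  neY := by
    intro t _ _ p q hpq h
    rcases K.neY t p q hpq h with h1 | h1
    · exact Or.inl h1
    · right
      intro r
      have h2 := K.monoX r
      have h3 : qf (deriv (colA K.P K.B K.D) r) (deriv (colB K.P K.B K.D) r)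
          (deriv (colC K.P K.B K.D) r) p q = p ^ 2 * deriv (colA K.P K.B K.D) r := by
        rw [h1.1]; unfold qf; ring
      rw [h3]
      exact mul_nonpos_of_nonneg_of_nonpos (sq_nonneg _) h2
  endL := by
    intro p q h
    have h0 : K.tL ≤ K.t0 := K.tL_lt_t0.le
    have hB : colB K.P K.B K.D K.tL = 0 := by
      unfold colB; rw [K.left_B _ h0]; simp
    rw [hB, zero_mul, zero_add] at h
    have hq : q = 0 := (mul_eq_zero.1 h).resolve_left ((qw K).C_pos _).ne'
    refine Eventually.of_forall (fun r => ?_)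
    have h2 := K.monoX r
    have h3 : qf (deriv (colA K.P K.B K.D) r) (deriv (colB K.P K.B K.D) r)
        (deriv (colC K.P K.B K.D) r) p q = p ^ 2 * deriv (colA K.P K.B K.D) r := by
      rw [hq]; unfold qf; ring
    rw [h3]
    exact mul_nonpos_of_nonneg_of_nonpos (sq_nonneg _) h2
  endR := by
    intro p q h
    have h1 : K.t1 ≤ K.tR := K.t1_lt_tR.le
    have hD := K.det_pos K.tR
    have hpq : p = q := by
      unfold colA colB at h
      rw [K.right_B _ h1, K.right_D _ h1] at h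
      rw [K.right_B _ h1, K.right_D _ h1] at hD
      have hR := K.R0_pos
      have e : K.R0 ^ 2 / (K.P K.tR * K.R0 ^ 2 - (K.R0 ^ 2) ^ 2) * p +
          -K.R0 ^ 2 / (K.P K.tR * K.R0 ^ 2 - (K.R0 ^ 2) ^ 2) * q =
          K.R0 ^ 2 * (p - q) / (K.P K.tR * K.R0 ^ 2 - (K.R0 ^ 2) ^ 2) := by ring
      rw [e] at h
      have h2 := (div_eq_zero_iff.1 h).resolve_right hD.ne'
      have h3 := (mul_eq_zero.1 h2).resolve_left (by positivity)
      linarith
    refine Eventually.of_forall (fun r => ?_)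
    have h2 := K.monoY r
    have h3 : qf (deriv (colA K.P K.B K.D) r) (deriv (colB K.P K.B K.D) r)
        (deriv (colC K.P K.B K.D) r) p q = q ^ 2 * colV1 K.P K.B K.D r 1 1 := by
      rw [hpq]; unfold colV1 qf; ring
    rw [h3]; positivity

end Crest.Agent.R244.NCP
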