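import Mathlib

/-!
# Smooth dependence of flows on initial data

* `contDiff_post` : for `f : E → F` of class `C^n` and `K` compact, `γ ↦ f ∘ γ` is `C^n` on `C(K, E)`.
* `exists_flow` : a globally Lipschitz `C^n` vector field (`1 ≤ n ≤ ∞`) has a global flow which is
  jointly `C^n` in time and initial condition.
-/

set_option autoImplicit false
set_option linter.unusedSectionVars false

open Set Filter Topology
open scoped NNReal ContDiff Manifold

namespace Crest.Agent.R244.ODE

section Existence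

universe u

variable {E : Type u} [NormedAddCommGroup E] [NormedSpace ℝ E] [CompleteSpace E]

lemma exists_local {f : E → E} {K : ℝ≥0} (hK : LipschitzWith K f) (x : E) :
    ∃ γ : ℝ → E, γ 0 = x ∧
      ∀ t ∈ Ioo (-(1 / (1 + K : ℝ))) (1 / (1 + K : ℝ)), HasDerivAt γ (f (γ t)) t := by
  set T : ℝ := 1 / (1 + K : ℝ) with hT
  have hT0 : 0 < T := by positivity
  have h0 : (0 : ℝ) ∈ Icc (-T) T := ⟨by linarith, hT0.le⟩
  set a : ℝ≥0 := ‖f x‖₊ + 1 with ha
  have hPL : IsPicardLindelof (fun _ => f) (⟨0, h0⟩ : Icc (-T) T) x a 0 (‖f x‖₊ + K * a) K := by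
    refine ⟨fun t _ => hK.lipschitzOnWith, fun y _ => continuousOn_const, fun t _ y hy => ?_, ?_⟩
    · have h1 : ‖f y - f x‖ ≤ K * ‖y - x‖ := hK.norm_sub_le _ _
      have h2 : ‖y - x‖ ≤ a := by rwa [mem_closedBall_iff_norm] at hy
      calc ‖f y‖ = ‖f x + (f y - f x)‖ := by rw [add_sub_cancel]
        _ ≤ ‖f x‖ + ‖f y - f x‖ := norm_add_le _ _
        _ ≤ ‖f x‖ + K * a := by
            gcongr
            exact h1.trans (by gcongr)
        _ = _ := by push_cast; rfl
    · simp only [sub_zero, zero_sub, neg_neg, max_self, NNReal.coe_zero]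
      rw [hT, mul_one_div, div_le_iff₀ (by positivity)]
      push_cast
      rw [ha]
      push_cast
      nlinarith [norm_nonneg (f x), K.coe_nonneg]
  obtain ⟨γ, hγ0, hγ⟩ := hPL.exists_eq_forall_mem_Icc_hasDerivWithinAt₀
  exact ⟨γ, hγ0, fun t ht => (hγ t ⟨ht.1.le, ht.2.le⟩).hasDerivAt (Icc_mem_nhds ht.1 ht.2)⟩

lemma exists_global {f : E → E} {K : ℝ≥0} (hf : ContDiff ℝ 1 f) (hK : LipschitzWith K f) (x : E) :
    ∃ γ : ℝ → E, γ 0 = x ∧ ∀ t, HasDerivAt γ (f (γ t)) t := by
  have hloc : ∀ x : E, ∃ γ : ℝ → E, γ 0 = x ∧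
      IsMIntegralCurveOn (I := 𝓘(ℝ, E)) γ f (Ioo (-(1 / (1 + K : ℝ))) (1 / (1 + K : ℝ))) := by
    intro x
    obtain ⟨γ, h0, h1⟩ := exists_local hK x
    refine ⟨γ, h0, fun t ht => ?_⟩
    exact ((h1 t ht).hasFDerivAt.hasMFDerivAt).hasMFDerivWithinAt
  have hv := contMDiff_vectorSpace_iff_contDiff.2 hf
  obtain ⟨γ, h0, h1⟩ := exists_isMIntegralCurve_of_isMIntegralCurveOn (I := 𝓘(ℝ, E)) (M := E)
    (v := f) hv (ε := 1 / (1 + K : ℝ)) (by positivity) hloc x
  refine ⟨γ, h0, fun t => ?_⟩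
  have h2 : HasFDerivAt γ ((1 : ℝ →L[ℝ] ℝ).smulRight (f (γ t))) t := (h1 t).hasFDerivAt
  have h3 := h2.hasDerivAt
  simpa using h3

end Existence

open unitInterval

section Comp

universe u

variable {K : Type*} [TopologicalSpace K] [CompactSpace K]
variable {E : Type u} [NormedAddCommGroup E] [NormedSpace ℝ E]
variable {F : Type u} [NormedAddCommGroup F] [NormedSpace ℝ F]

/-- Post-composition with a continuous map. -/
noncomputable def post (f : E → F) (hf : Continuous f) (γ : C(K, E)) : C(K, F) :=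
  ContinuousMap.comp ⟨f, hf⟩ γ

@[simp] lemma post_apply (f : E → F) (hf : Continuous f) (γ : C(K, E)) (t : K) :
    post f hf γ t = f (γ t) := rfl

lemma continuous_post (f : E → F) (hf : Continuous f) :
    Continuous (post f hf : C(K, E) → C(K, F)) :=
  ContinuousMap.continuous_postcomp _

/-- Pointwise application `A, η ↦ (t ↦ A t (η t))`. -/
noncomputable def pointwiseApply : C(K, E →L[ℝ] F) →L[ℝ] C(K, E) →L[ℝ] C(K, F) :=
  LinearMap.mkContinuous₂
    (LinearMap.mk₂ ℝ (fun (A : C(K, E →L[ℝ] F)) (η : C(K, E)) =>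
        (⟨fun t => A t (η t), A.continuous.clm_apply η.continuous⟩ : C(K, F)))
      (fun A B η => by ext t; simp) (fun c A η => by ext t; simp)
      (fun A η ξ => by ext t; simp) (fun c A η => by ext t; simp)) 1
    (fun A η => by
      rw [one_mul]
      refine (ContinuousMap.norm_le _ (by positivity)).2 fun t => ?_
      exact (A t).le_of_opNorm_le_of_le (A.norm_coe_le_norm t) (η.norm_coe_le_norm t))

@[simp] lemma pointwiseApply_apply (A : C(K, E →L[ℝ] F)) (η : C(K, E)) (t : K) :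
    pointwiseApply A η t = A t (η t) := rfl

lemma norm_pointwiseApply_le (A : C(K, E →L[ℝ] F)) : ‖pointwiseApply A‖ ≤ ‖A‖ := by
  refine ContinuousLinearMap.opNorm_le_bound _ (norm_nonneg A) fun η => ?_
  refine (ContinuousMap.norm_le _ (by positivity)).2 fun t => ?_
  exact (A t).le_of_opNorm_le_of_le (A.norm_coe_le_norm t) (η.norm_coe_le_norm t)

lemma hasFDerivAt_post (f : E → F) (hf : ContDiff ℝ 1 f) (γ : C(K, E)) :
    HasFDerivAt (post f hf.continuous : C(K, E) → C(K, F))
      (pointwiseApply (post (fderiv ℝ f) (hf.continuous_fderiv (by simp)) γ)) γ := by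
  set Ω : C(K, E) → C(K, E →L[ℝ] F) := post (fderiv ℝ f) (hf.continuous_fderiv (by simp)) with hΩ
  have hΩc : Continuous Ω := continuous_post _ _
  rw [hasFDerivAt_iff_isLittleO_nhds_zero, Asymptotics.isLittleO_iff]
  intro c hc
  have h1 : ∀ᶠ γ' in 𝓝 γ, ‖Ω γ' - Ω γ‖ < c := by
    filter_upwards [(Metric.tendsto_nhds (α := C(K, E →L[ℝ] F))).1 (hΩc.tendsto γ) c hc] with γ' hγ'
    exact (dist_eq_norm (Ω γ') (Ω γ)).symm.trans_lt hγ'
  obtain ⟨δ, hδ, h2⟩ := Metric.eventually_nhds_iff.1 h1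
  rw [Metric.eventually_nhds_iff]
  refine ⟨δ, hδ, fun η hη => ?_⟩
  rw [dist_zero_right] at hη
  refine (ContinuousMap.norm_le _ (by positivity)).2 fun t => ?_
  have hseg : ∀ z ∈ segment ℝ (γ t) (γ t + η t), ‖fderiv ℝ f z - fderiv ℝ f (γ t)‖ ≤ c := by
    intro z hz
    rw [segment_eq_image'] at hz
    obtain ⟨s, hs, rfl⟩ := hz
    have h3 : ‖Ω (γ + s • η) - Ω γ‖ < c := by
      apply h2
      rw [dist_eq_norm, add_sub_cancel_left, norm_smul]
      calc ‖s‖ * ‖η‖ ≤ 1 * ‖η‖ := by
            gcongr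
            rw [Real.norm_eq_abs, abs_of_nonneg hs.1]
            exact hs.2
        _ < δ := by rwa [one_mul]
    have h4 := (ContinuousMap.norm_coe_le_norm (Ω (γ + s • η) - Ω γ) t).trans h3.le
    simpa [hΩ] using h4
  have h5 := (convex_segment (𝕜 := ℝ) (γ t) (γ t + η t)).norm_image_sub_le_of_norm_fderiv_le'
    (f := f) (φ := fderiv ℝ f (γ t)) (C := c)
    (fun z _ => (hf.differentiable (by simp)) z) hseg (left_mem_segment _ _ _)
    (right_mem_segment _ _ _)
  have h6 : ‖η t‖ ≤ ‖η‖ := η.norm_coe_le_norm t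
  calc ‖(post f hf.continuous (γ + η) - post f hf.continuous γ - pointwiseApply (Ω γ) η) t‖
      = ‖f (γ t + η t) - f (γ t) - fderiv ℝ f (γ t) (γ t + η t - γ t)‖ := by
        simp [hΩ]
    _ ≤ c * ‖γ t + η t - γ t‖ := h5
    _ ≤ c * ‖η‖ := by
        rw [add_sub_cancel_left]
        gcongr

lemma contDiff_post_nat (n : ℕ) : ∀ {F : Type u} [NormedAddCommGroup F] [NormedSpace ℝ F]
    (f : E → F) (hf : ContDiff ℝ n f),
    ContDiff ℝ n (post f hf.continuous : C(K, E) → C(K, F)) := by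
  induction n with
  | zero =>
    intro F _ _ f hf
    exact contDiff_zero.2 (continuous_post f _)
  | succ n ih =>
    intro F _ _ f hf
    have h1 : ContDiff ℝ 1 f := hf.of_le (by simp)
    refine contDiff_succ_iff_hasFDerivAt.2 ⟨_, ?_, fun γ => hasFDerivAt_post f h1 γ⟩
    exact pointwiseApply.contDiff.comp (ih (fderiv ℝ f) (hf.fderiv_right le_rfl))

/-- Post-composition with a `C^n` map is `C^n` on the Banach space of continuous maps on a compact
space. -/
theorem contDiff_post {n : ℕ∞} (f : E → F) (hf : ContDiff ℝ n f) :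
    ContDiff ℝ n (post f hf.continuous : C(K, E) → C(K, F)) := by
  rw [contDiff_iff_forall_nat_le]
  intro m hm
  exact contDiff_post_nat m f (hf.of_le (by exact_mod_cast hm))

end Comp

section Flow

universe u

variable {E : Type u} [NormedAddCommGroup E] [NormedSpace ℝ E]

/-- Constant maps. -/
noncomputable def constL : E →L[ℝ] C(I, E) :=
  LinearMap.mkContinuous
    { toFun := fun x => ContinuousMap.const I x
      map_add' := fun x y => by ext t; simp
      map_smul' := fun c x => by ext t; simp } 1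
    (fun x => by
      rw [one_mul]
      exact (ContinuousMap.norm_le _ (by positivity)).2 fun t => le_rfl)

@[simp] lemma constL_apply (x : E) (t : I) : constL x t = x := rfl

lemma continuous_extend (γ : C(I, E)) :
    Continuous (IccExtend (zero_le_one (α := ℝ)) γ) := γ.continuous.Icc_extend'

lemma norm_extend_le (γ : C(I, E)) (s : ℝ) :
    ‖IccExtend (zero_le_one (α := ℝ)) γ s‖ ≤ ‖γ‖ := γ.norm_coe_le_norm _

/-- Integration `γ ↦ (t ↦ ∫ s in 0..t, γ s)`. -/
noncomputable def integ : C(I, E) →L[ℝ] C(I, E) :=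
  LinearMap.mkContinuous
    { toFun := fun γ => ⟨fun t : I => ∫ s in (0 : ℝ)..t, IccExtend (zero_le_one (α := ℝ)) γ s,
        (intervalIntegral.continuous_primitive
          (fun a b => (continuous_extend γ).intervalIntegrable a b) 0).comp continuous_subtype_val⟩
      map_add' := fun γ η => by
        ext t
        simp only [ContinuousMap.coe_mk, ContinuousMap.add_apply]
        rw [← intervalIntegral.integral_add ((continuous_extend γ).intervalIntegrable _ _)
          ((continuous_extend η).intervalIntegrable _ _)]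
        rfl
      map_smul' := fun c γ => by
        ext t
        simp only [ContinuousMap.coe_mk, ContinuousMap.smul_apply, RingHom.id_apply]
        rw [← intervalIntegral.integral_smul]
        rfl } 1
    (fun γ => by
      rw [one_mul]
      refine (ContinuousMap.norm_le _ (by positivity)).2 fun t => ?_
      refine (intervalIntegral.norm_integral_le_of_norm_le_const
        (C := ‖γ‖) (fun s _ => norm_extend_le γ s)).trans ?_
      rw [sub_zero, abs_of_nonneg t.2.1]
      exact mul_le_of_le_one_right (norm_nonneg γ) t.2.2)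

lemma integ_apply (γ : C(I, E)) (t : I) :
    integ γ t = ∫ s in (0 : ℝ)..t, IccExtend (zero_le_one (α := ℝ)) γ s := rfl

lemma norm_integ_apply_le (γ : C(I, E)) : ‖integ γ‖ ≤ ‖γ‖ := by
  have := (integ (E := E)).le_of_opNorm_le (LinearMap.mkContinuous_norm_le _ zero_le_one _) γ
  rwa [one_mul] at this

/-- The integral equation, `p.1.1` is the time, `p.1.2` the initial point. -/
noncomputable def G (f : E → E) (hf : Continuous f) (p : (ℝ × E) × C(I, E)) : C(I, E) :=
  p.2 - constL p.1.2 - p.1.1 • integ (post f hf p.2)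

lemma contDiff_G {n : ℕ∞} (f : E → E) (hf : ContDiff ℝ n f) :
    ContDiff ℝ n (G f hf.continuous) := by
  unfold G
  have h1 : ContDiff ℝ n (fun p : (ℝ × E) × C(I, E) => constL p.1.2) :=
    (constL (E := E)).contDiff.comp (contDiff_snd.comp contDiff_fst)
  have h2 : ContDiff ℝ n (fun p : (ℝ × E) × C(I, E) => integ (post f hf.continuous p.2)) :=
    (integ (E := E)).contDiff.comp ((contDiff_post f hf).comp contDiff_snd)
  exact (contDiff_snd.sub h1).sub ((contDiff_fst.comp contDiff_fst).smul h2)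

lemma G_eq_zero_unique {f : E → E} {K : ℝ≥0} (hK : LipschitzWith K f) {p : ℝ × E}
    (hp : |p.1| * K < 1) {γ η : C(I, E)} (hγ : G f hK.continuous (p, γ) = 0)
    (hη : G f hK.continuous (p, η) = 0) : γ = η := by
  have h1 : γ - η = p.1 • integ (post f hK.continuous γ - post f hK.continuous η) := by
    rw [map_sub, smul_sub]
    have e1 : γ = constL p.2 + p.1 • integ (post f hK.continuous γ) := by
      have := hγ
      unfold G at this
      rw [sub_sub, sub_eq_zero] at this
      exact this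
    have e2 : η = constL p.2 + p.1 • integ (post f hK.continuous η) := by
      have := hη
      unfold G at this
      rw [sub_sub, sub_eq_zero] at this
      exact this
    conv_lhs => rw [e1, e2]
    abel
  have h2 : ‖post f hK.continuous γ - post f hK.continuous η‖ ≤ K * ‖γ - η‖ := by
    refine (ContinuousMap.norm_le _ (by positivity)).2 fun t => ?_
    have h3 : ‖f (γ t) - f (η t)‖ ≤ K * ‖γ t - η t‖ := hK.norm_sub_le _ _
    refine h3.trans ?_
    gcongr
    exact (γ - η).norm_coe_le_norm t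
  have h4 : ‖γ - η‖ ≤ (|p.1| * K) * ‖γ - η‖ := by
    calc ‖γ - η‖ = |p.1| * ‖integ (post f hK.continuous γ - post f hK.continuous η)‖ := by
          conv_lhs => rw [h1, norm_smul, Real.norm_eq_abs]
      _ ≤ |p.1| * (K * ‖γ - η‖) := by
          gcongr
          exact (norm_integ_apply_le _).trans h2
      _ = _ := by ring
  have h5 : ‖γ - η‖ = 0 := by
    by_contra hne
    have h6 : 0 < ‖γ - η‖ := lt_of_le_of_ne (norm_nonneg _) (Ne.symm hne)
    nlinarith
  exact sub_eq_zero.1 (norm_eq_zero.1 h5)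

variable [CompleteSpace E]

/-- If a family of solutions of the integral equation exists, it is `C^n` in the parameters. -/
lemma contDiffAt_solution {n : ℕ∞} (hn : n ≠ 0) {f : E → E} (hf : ContDiff ℝ n f) {K : ℝ≥0}
    (hK : LipschitzWith K f) (sol : ℝ × E → C(I, E))
    (hsol : ∀ p, G f hf.continuous (p, sol p) = 0) {p : ℝ × E} (hp : |p.1| * K < 1) :
    ContDiffAt ℝ n sol p := by
  have hn' : (n : ℕ∞ω) ≠ 0 := by exact_mod_cast hn
  have hn1 : (1 : ℕ∞ω) ≤ n := ENat.one_le_iff_ne_zero_withTop.mpr hn'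
  have hf1 : ContDiff ℝ 1 f := hf.of_le hn1
  set u : (ℝ × E) × C(I, E) := (p, sol p) with hu
  have cdf : ContDiffAt ℝ n (G f hf.continuous) u := (contDiff_G f hf).contDiffAt
  set A : C(I, E) →L[ℝ] C(I, E) :=
    pointwiseApply (post (fderiv ℝ f) (hf1.continuous_fderiv (by simp)) (sol p)) with hA
  have h1 : HasFDerivAt (fun γ : C(I, E) => G f hf.continuous (p, γ))
      (ContinuousLinearMap.id ℝ C(I, E) - p.1 • (integ ∘L A)) (sol p) := by
    unfold G
    refine ((hasFDerivAt_id (sol p)).sub_const (constL p.2)).sub ?_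
    exact ((integ.hasFDerivAt).comp (sol p) (hasFDerivAt_post f hf1 (sol p))).const_smul p.1
  have h2 : HasFDerivAt (fun γ : C(I, E) => G f hf.continuous (p, γ))
      (fderiv ℝ (G f hf.continuous) u ∘L .inr ℝ (ℝ × E) C(I, E)) (sol p) := by
    have h3 : HasFDerivAt (G f hf.continuous) (fderiv ℝ (G f hf.continuous) u) (p, sol p) :=
      (cdf.differentiableAt hn').hasFDerivAt
    exact h3.comp (sol p) (hasFDerivAt_prodMk_right p (sol p))
  have h4 := h2.unique h1
  have hnorm : ‖p.1 • (integ ∘L A)‖ < 1 := by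
    refine lt_of_le_of_lt ?_ hp
    refine ContinuousLinearMap.opNorm_le_bound _ (by positivity) fun η => ?_
    have h5 : ‖A η‖ ≤ K * ‖η‖ := by
      refine (A.le_opNorm η).trans ?_
      gcongr
      refine (norm_pointwiseApply_le _).trans ?_
      refine (ContinuousMap.norm_le _ (by positivity)).2 fun t => ?_
      exact norm_fderiv_le_of_lipschitz ℝ hK
    calc ‖(p.1 • (integ ∘L A)) η‖ = |p.1| * ‖integ (A η)‖ := by
          rw [smul_apply, norm_smul, Real.norm_eq_abs]
          rfl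
      _ ≤ |p.1| * (K * ‖η‖) := by
          gcongr
          exact (norm_integ_apply_le _).trans h5
      _ = _ := by ring
  have hinv : (fderiv ℝ (G f hf.continuous) u ∘L .inr ℝ (ℝ × E) C(I, E)).IsInvertible := by
    rw [h4]
    obtain ⟨v, hv⟩ := isUnit_one_sub_of_norm_lt_one (R := C(I, E) →L[ℝ] C(I, E)) hnorm
    exact ⟨ContinuousLinearEquiv.ofUnit v,
      ContinuousLinearMap.ext fun η => congrArg (fun L : C(I, E) →L[ℝ] C(I, E) => L η) hv⟩
  have h6 := cdf.contDiffAt_implicitFunction hn' hinv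
  refine h6.congr_of_eventuallyEq ?_
  have h7 := cdf.eventually_apply_implicitFunction hn' hinv
  have h8 : ∀ᶠ q : ℝ × E in 𝓝 p, |q.1| * K < 1 := by
    have : ContinuousAt (fun q : ℝ × E => |q.1| * (K : ℝ)) p := by fun_prop
    exact this.eventually (gt_mem_nhds hp)
  filter_upwards [h7, h8] with q hq hq'
  refine G_eq_zero_unique hK hq' (hsol q) ?_
  rw [hq]
  exact hsol p

end Flow

section Final

universe u

variable {E : Type u} [NormedAddCommGroup E] [NormedSpace ℝ E]

/-- Two global solutions of a Lipschitz ODE which agree at one time agree. -/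
lemma solution_unique {f : E → E} {K : ℝ≥0} (hK : LipschitzWith K f) {γ η : ℝ → E} (t₀ : ℝ)
    (hγ : ∀ t, HasDerivAt γ (f (γ t)) t) (hη : ∀ t, HasDerivAt η (f (η t)) t)
    (h : γ t₀ = η t₀) : γ = η :=
  ODE_solution_unique_univ (v := fun _ => f) (s := fun _ => univ) (K := K) (t₀ := t₀)
    (fun _ => hK.lipschitzOnWith) (fun t => ⟨hγ t, trivial⟩) (fun t => ⟨hη t, trivial⟩) h

/-- `Φ` is the global flow of the vector field `f`. -/
structure IsFlow (f : E → E) (Φ : ℝ → E → E) : Prop where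
  zero : ∀ x, Φ 0 x = x
  hasDerivAt : ∀ x t, HasDerivAt (fun s => Φ s x) (f (Φ t x)) t

namespace IsFlow

variable {f : E → E} {Φ : ℝ → E → E} {K : ℝ≥0}

lemma continuous_time (h : IsFlow f Φ) (x : E) : Continuous (fun s => Φ s x) :=
  continuous_iff_continuousAt.2 fun t => (h.hasDerivAt x t).continuousAt

lemma eq_of_solution (h : IsFlow f Φ) (hK : LipschitzWith K f) {γ : ℝ → E}
    (hγ : ∀ t, HasDerivAt γ (f (γ t)) t) (t : ℝ) : γ t = Φ t (γ 0) :=
  congrFun (solution_unique hK 0 hγ (h.hasDerivAt (γ 0)) (h.zero _).symm) t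

lemma add (h : IsFlow f Φ) (hK : LipschitzWith K f) (s t : ℝ) (x : E) :
    Φ (s + t) x = Φ s (Φ t x) := by
  have := h.eq_of_solution hK (γ := fun s => Φ (s + t) x)
    (fun s => (h.hasDerivAt x (s + t)).comp_add_const s t) s
  simpa using this

lemma neg_apply (h : IsFlow f Φ) (hK : LipschitzWith K f) (t : ℝ) (x : E) :
    Φ (-t) (Φ t x) = x := by
  rw [← h.add hK, neg_add_cancel, h.zero]

/-- The flow curve `s ↦ Φ (τ s) x` on `[0, 1]`. -/
noncomputable def curve (h : IsFlow f Φ) (p : ℝ × E) : C(I, E) :=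
  ⟨fun s => Φ (p.1 * s) p.2, (h.continuous_time p.2).comp (by fun_prop)⟩

variable [CompleteSpace E]

lemma G_curve (h : IsFlow f Φ) (hf : Continuous f) (p : ℝ × E) : G f hf (p, h.curve p) = 0 := by
  ext t
  have h1 : ∀ s : ℝ, HasDerivAt (fun s => Φ (p.1 * s) p.2) (p.1 • f (Φ (p.1 * s) p.2)) s := by
    intro s
    have h2 : HasDerivAt (fun s : ℝ => p.1 * s) p.1 s := by
      simpa using (hasDerivAt_id s).const_mul p.1
    exact (h.hasDerivAt p.2 (p.1 * s)).scomp s h2
  have h3 : Continuous (fun s : ℝ => p.1 • f (Φ (p.1 * s) p.2)) :=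
    (hf.comp ((h.continuous_time p.2).comp (by fun_prop))).const_smul p.1
  have h4 := intervalIntegral.integral_eq_sub_of_hasDerivAt (a := 0) (b := (t : ℝ))
    (fun s _ => h1 s) (h3.intervalIntegrable _ _)
  have h5 : integ (post f hf (h.curve p)) t = ∫ s in (0 : ℝ)..t, f (Φ (p.1 * s) p.2) := by
    rw [integ_apply]
    refine intervalIntegral.integral_congr fun s hs => ?_
    rw [uIcc_of_le t.2.1] at hs
    have hs' : s ∈ Icc (0 : ℝ) 1 := ⟨hs.1, hs.2.trans t.2.2⟩
    rw [IccExtend_of_mem _ _ hs']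
    rfl
  have h6 : (G f hf (p, h.curve p)) t
      = Φ (p.1 * t) p.2 - p.2 - p.1 • integ (post f hf (h.curve p)) t := rfl
  rw [h6, h5, ← intervalIntegral.integral_smul, h4]
  simp [h.zero]

lemma contDiffAt_of_small (h : IsFlow f Φ) {n : ℕ∞} (hn : n ≠ 0) (hf : ContDiff ℝ n f)
    (hK : LipschitzWith K f) {p : ℝ × E} (hp : |p.1| * K < 1) :
    ContDiffAt ℝ n (fun q : ℝ × E => Φ q.1 q.2) p := by
  have h1 := contDiffAt_solution hn hf hK h.curve (h.G_curve hf.continuous) hp
  set ev : C(I, E) →L[ℝ] E := ContinuousMap.evalCLM ℝ (1 : I) with hev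
  have h2 : (fun q : ℝ × E => Φ q.1 q.2) = fun q => ev (h.curve q) := by
    funext q
    simp [curve, hev]
  rw [h2]
  have h3 : ContDiff ℝ n (fun γ : C(I, E) => ev γ) := ev.contDiff
  exact ContDiffAt.comp p h3.contDiffAt h1

/-- The global flow of a Lipschitz `C^n` vector field is jointly `C^n`. -/
theorem contDiff (h : IsFlow f Φ) {n : ℕ∞} (hn : n ≠ 0) (hf : ContDiff ℝ n f)
    (hK : LipschitzWith K f) : ContDiff ℝ n (fun q : ℝ × E => Φ q.1 q.2) := by
  rw [contDiff_iff_contDiffAt]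
  intro p
  obtain ⟨N, hN⟩ := exists_nat_gt (|p.1| * K)
  have hN0 : (0 : ℝ) < N := lt_of_le_of_lt (by positivity) hN
  have hsmall : |p.1 / N| * K < 1 := by
    rw [abs_div, abs_of_pos hN0, div_mul_eq_mul_div, div_lt_one hN0]
    exact hN
  have key : ∀ k : ℕ, ContDiffAt ℝ n (fun q : ℝ × E => Φ (k * (q.1 / N)) q.2) p := by
    intro k
    induction k with
    | zero =>
      simp only [Nat.cast_zero, zero_mul, h.zero]
      exact contDiffAt_snd
    | succ k ih =>
      have e : (fun q : ℝ × E => Φ ((k + 1 : ℕ) * (q.1 / N)) q.2) =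
          fun q => (fun r : ℝ × E => Φ r.1 r.2) (q.1 / N, Φ (k * (q.1 / N)) q.2) := by
        funext q
        simp only
        rw [← h.add hK]
        congr 1
        push_cast
        ring
      rw [e]
      have hfst : ContDiffAt ℝ n (fun q : ℝ × E => q.1 / (N : ℝ)) p :=
        contDiffAt_fst.div_const _
      have hcd : ContDiffAt ℝ n (fun r : ℝ × E => Φ r.1 r.2) (p.1 / (N : ℝ), Φ (k * (p.1 / N)) p.2) :=
        h.contDiffAt_of_small hn hf hK hsmall
      have hpr : ContDiffAt ℝ n (fun q : ℝ × E => (q.1 / (N : ℝ), Φ (k * (q.1 / N)) q.2)) p :=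
        hfst.prodMk ih
      exact ContDiffAt.comp p hcd hpr
  have := key N
  convert this using 3 with q
  field_simp

end IsFlow

variable [CompleteSpace E]

/-- A globally Lipschitz `C^n` vector field on a Banach space has a global flow, which is jointly
`C^n`. -/
theorem exists_flow {n : ℕ∞} (hn : n ≠ 0) {f : E → E} (hf : ContDiff ℝ n f) {K : ℝ≥0}
    (hK : LipschitzWith K f) :
    ∃ Φ : ℝ → E → E, IsFlow f Φ ∧ ContDiff ℝ n (fun q : ℝ × E => Φ q.1 q.2) ∧
      (∀ s t x, Φ (s + t) x = Φ s (Φ t x)) ∧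
      ∀ γ : ℝ → E, (∀ t, HasDerivAt γ (f (γ t)) t) → ∀ t, γ t = Φ t (γ 0) := by
  have hn1 : (1 : ℕ∞ω) ≤ n := ENat.one_le_iff_ne_zero_withTop.mpr (by exact_mod_cast hn)
  choose Φ h0 h1 using fun x => exists_global (hf.of_le hn1) hK x
  have h : IsFlow f (fun t x => Φ x t) := ⟨h0, h1⟩
  exact ⟨fun t x => Φ x t, h, h.contDiff hn hf hK, h.add hK, fun γ hγ t => h.eq_of_solution hK hγ t⟩

end Final

section Cutoff

variable {E F : Type*} [NormedAddCommGroup E] [NormedSpace ℝ E] [FiniteDimensional ℝ E]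
  [NormedAddCommGroup F] [NormedSpace ℝ F]

/-- Cutoff: a map which is `C^n` on an open set containing a compact set `k` coincides near `k` with
a globally defined, compactly supported (hence Lipschitz) `C^n` map. -/
theorem exists_lipschitz_extension {n : ℕ∞} (hn : n ≠ 0) {U k : Set E} (hU : IsOpen U)
    (hk : IsCompact k) (hkU : k ⊆ U) {f : E → F} (hf : ContDiffOn ℝ n f U) :
    ∃ g : E → F, ContDiff ℝ n g ∧ HasCompactSupport g ∧ (∃ C : ℝ≥0, LipschitzWith C g) ∧
      ∀ᶠ x in 𝓝ˢ k, g x = f x := by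
  obtain ⟨k', hk', hkk', hk'U⟩ := exists_compact_between hk hU hkU
  obtain ⟨ρ, hρ1, hρ0, -⟩ := exists_contMDiffMap_one_nhds_of_subset_interior
    (n := n) 𝓘(ℝ, E) hk.isClosed hkk'
  have hρ : ContDiff ℝ n (fun x => ρ x) := ρ.contMDiff.contDiff
  have hg : ContDiff ℝ n (fun x => ρ x • f x) := by
    rw [contDiff_iff_contDiffAt]
    intro x
    by_cases hx : x ∈ U
    · exact hρ.contDiffAt.smul (hf.contDiffAt (hU.mem_nhds hx))
    · have hx' : x ∉ k' := fun h => hx (hk'U h)
      have h0 : (fun x => ρ x • f x) =ᶠ[𝓝 x] fun _ => 0 := by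
        filter_upwards [hk'.isClosed.isOpen_compl.mem_nhds hx'] with y hy
        rw [hρ0 y hy, zero_smul]
      exact contDiffAt_const.congr_of_eventuallyEq h0
  have hsupp : HasCompactSupport (fun x => ρ x • f x) :=
    HasCompactSupport.intro hk' fun x hx => by rw [hρ0 x hx, zero_smul]
  refine ⟨fun x => ρ x • f x, hg, hsupp,
    hg.lipschitzWith_of_hasCompactSupport hsupp (by exact_mod_cast hn), ?_⟩
  filter_upwards [hρ1] with x hx
  rw [hx, one_smul]

/-- Local flow near a zero `z₀` of a vector field: for every `T` and every neighbourhood `V` of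
`z₀` there are a globally defined, jointly `C^n` map `Φ` and a neighbourhood `W` of `z₀` such that
for `x ∈ W`, `t ↦ Φ t x` is an integral curve of `f` in `V` for `|t| ≤ T`. -/
theorem exists_local_flow_of_eq_zero {n : ℕ∞} (hn : n ≠ 0) {U : Set E} (hU : IsOpen U)
    {f : E → E} (hf : ContDiffOn ℝ n f U) {z₀ : E} (hz : z₀ ∈ U) (h0 : f z₀ = 0)
    {V : Set E} (hV : V ∈ 𝓝 z₀) (T : ℝ) :
    ∃ Φ : ℝ → E → E, ContDiff ℝ n (fun q : ℝ × E => Φ q.1 q.2) ∧ (∀ x, Φ 0 x = x) ∧
      (∀ t, Φ t z₀ = z₀) ∧ (∀ s t x, Φ (s + t) x = Φ s (Φ t x)) ∧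
      ∃ W ∈ 𝓝 z₀, ∀ x ∈ W, ∀ t ∈ Icc (-T) T,
        Φ t x ∈ V ∧ HasDerivAt (fun s => Φ s x) (f (Φ t x)) t := by
  have : CompleteSpace E := FiniteDimensional.complete ℝ E
  obtain ⟨g, hg, -, ⟨C, hC⟩, hgf⟩ := exists_lipschitz_extension hn hU (isCompact_singleton (x := z₀))
    (by simpa using hz) hf
  rw [nhdsSet_singleton] at hgf
  obtain ⟨Φ, hΦ, hΦc, hadd, huniq⟩ := exists_flow hn hg hC
  have hfix : ∀ t, Φ t z₀ = z₀ := by
    intro t
    have hg0 : g z₀ = 0 := hgf.self_of_nhds.trans h0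
    have := huniq (fun _ => z₀) (fun t => by rw [hg0]; exact hasDerivAt_const t z₀) t
    exact this.symm
  refine ⟨Φ, hΦc, hΦ.zero, hfix, hadd, ?_⟩
  obtain ⟨O, hO1, hO2, hO3⟩ := mem_nhds_iff.1 (inter_mem hV hgf)
  have hopen : IsOpen ((fun q : ℝ × E => Φ q.1 q.2) ⁻¹' O) := hO2.preimage hΦc.continuous
  have hsub : (Icc (-T) T) ×ˢ {z₀} ⊆ (fun q : ℝ × E => Φ q.1 q.2) ⁻¹' O := by
    rintro ⟨t, x⟩ ⟨-, hx⟩
    rw [mem_singleton_iff] at hx
    simp only [mem_preimage]
    simp only at hx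
    rw [hx, hfix]
    exact hO3
  obtain ⟨u, v, hu, hv, hTu, hzv, huv⟩ :=
    generalized_tube_lemma isCompact_Icc isCompact_singleton hopen hsub
  refine ⟨v, hv.mem_nhds (hzv rfl), fun x hx t ht => ?_⟩
  have h1 : Φ t x ∈ O := huv (Set.mk_mem_prod (hTu ht) hx)
  refine ⟨(hO1 h1).1, ?_⟩
  have h2 : g (Φ t x) = f (Φ t x) := (hO1 h1).2
  rw [← h2]
  exact hΦ.hasDerivAt x t

end Cutoff

end Crest.Agent.R244.ODE
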